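import Mathlib

set_option linter.all false

section

/-!
Trace inequalities for exponentials of Hermitian matrices.
-/

namespace Vale.Agent.P361

open Matrix Finset
open scoped ComplexOrder

variable {ι : Type*} [Fintype ι] [DecidableEq ι]

theorem exp_eq_conj {X : Matrix ι ι ℂ} (hX : X.IsHermitian) :
    NormedSpace.exp X = (hX.eigenvectorUnitary : Matrix ι ι ℂ) *
      diagonal (fun i => ((Real.exp (hX.eigenvalues i) : ℝ) : ℂ)) *
      star (hX.eigenvectorUnitary : Matrix ι ι ℂ) := by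
  have hU : star (hX.eigenvectorUnitary : Matrix ι ι ℂ) =
      (hX.eigenvectorUnitary : Matrix ι ι ℂ)⁻¹ := by
    symm
    apply Matrix.inv_eq_left_inv
    exact Unitary.coe_star_mul_self _
  have hunit : IsUnit (hX.eigenvectorUnitary : Matrix ι ι ℂ) := by
    refine ⟨Unitary.toUnits hX.eigenvectorUnitary, rfl⟩
  have h1 := hX.spectral_theorem
  rw [Unitary.conjStarAlgAut_apply] at h1
  conv_lhs => rw [h1, hU]
  rw [Matrix.exp_conj _ _ hunit, Matrix.exp_diagonal, ← hU]
  congr 3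
  ext i
  rw [Pi.exp_def]
  simp [Complex.exp_eq_exp_ℂ]

/-- Expansion of `tr (e^X B)` in the eigenbasis of `X`. -/
theorem trace_exp_mul {X : Matrix ι ι ℂ} (hX : X.IsHermitian) (B : Matrix ι ι ℂ) :
    trace (NormedSpace.exp X * B) = ∑ i, ((Real.exp (hX.eigenvalues i) : ℝ) : ℂ) *
      (star (hX.eigenvectorUnitary : Matrix ι ι ℂ) * B *
        (hX.eigenvectorUnitary : Matrix ι ι ℂ)) i i := by
  rw [exp_eq_conj hX, Matrix.mul_assoc, Matrix.mul_assoc, Matrix.trace_mul_comm, Matrix.mul_assoc]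
  simp only [Matrix.trace, Matrix.diag_apply, Matrix.diagonal_mul, Matrix.mul_assoc]

theorem trace_exp {X : Matrix ι ι ℂ} (hX : X.IsHermitian) :
    trace (NormedSpace.exp X) = ((∑ i, Real.exp (hX.eigenvalues i) : ℝ) : ℂ) := by
  have := trace_exp_mul hX 1
  rw [Matrix.mul_one, Matrix.mul_one] at this
  rw [this]
  push_cast
  refine Finset.sum_congr rfl fun i _ => ?_
  rw [Unitary.coe_star_mul_self]
  simp

theorem trace_exp_re {X : Matrix ι ι ℂ} (hX : X.IsHermitian) :
    (trace (NormedSpace.exp X)).re = ∑ i, Real.exp (hX.eigenvalues i) := by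
  rw [trace_exp hX, Complex.ofReal_re]

theorem trace_exp_pos [Nonempty ι] {X : Matrix ι ι ℂ} (hX : X.IsHermitian) :
    0 < (trace (NormedSpace.exp X)).re := by
  rw [trace_exp_re hX]
  exact Finset.sum_pos (fun i _ => Real.exp_pos _) Finset.univ_nonempty

/-- Diagonal entries of `V* W V` in terms of eigenvalues of `W`. -/
theorem conj_diag_eq {W : Matrix ι ι ℂ} (hW : W.IsHermitian) (V : Matrix ι ι ℂ) (i : ι) :
    ((star V * W * V) i i).re = ∑ j, ‖(star V * (hW.eigenvectorUnitary : Matrix ι ι ℂ)) i j‖ ^ 2 *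
      hW.eigenvalues j := by
  set U := (hW.eigenvectorUnitary : Matrix ι ι ℂ) with hU
  have h1 : W = U * diagonal (RCLike.ofReal ∘ hW.eigenvalues) * star U := by
    have := hW.spectral_theorem
    rwa [Unitary.conjStarAlgAut_apply] at this
  have h2 : star V * W * V = (star V * U) * diagonal (RCLike.ofReal ∘ hW.eigenvalues) *
      star (star V * U) := by
    conv_lhs => rw [h1]
    simp only [star_mul, star_star, Matrix.mul_assoc]
  rw [h2, Matrix.mul_apply, Complex.re_sum]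
  refine Finset.sum_congr rfl fun j _ => ?_
  rw [Matrix.mul_diagonal, Matrix.star_apply]
  have : (star V * U) i j * (RCLike.ofReal ∘ hW.eigenvalues) j * star ((star V * U) i j) =
     (((‖(star V * U) i j‖ ^ 2 * hW.eigenvalues j : ℝ)) : ℂ) := by
    have h3 : (star V * U) i j * star ((star V * U) i j) = ((‖(star V * U) i j‖ ^ 2 : ℝ) : ℂ) := by
      rw [Complex.star_def, Complex.mul_conj, Complex.normSq_eq_norm_sq]
    calc _ = ((star V * U) i j * star ((star V * U) i j)) * (hW.eigenvalues j : ℂ) := by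
          simp only [Function.comp]; ring_nf; simp; ring
      _ = _ := by rw [h3]; push_cast; ring
  rw [this, Complex.ofReal_re]

theorem row_sum_one {V : Matrix ι ι ℂ} (hV : V * star V = 1) (i : ι) :
    ∑ j, ‖V i j‖ ^ 2 = 1 := by
  have h := congrFun (congrFun hV i) i
  rw [Matrix.mul_apply, Matrix.one_apply_eq] at h
  have h2 : ((∑ j, ‖V i j‖ ^ 2 : ℝ) : ℂ) = 1 := by
    rw [← h]
    push_cast
    refine Finset.sum_congr rfl fun j _ => ?_
    rw [Matrix.star_apply, Complex.star_def, Complex.mul_conj, Complex.normSq_eq_norm_sq]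
    push_cast; rfl
  exact_mod_cast h2

/-- Peierls' inequality. -/
theorem peierls {W : Matrix ι ι ℂ} (hW : W.IsHermitian) {V : Matrix ι ι ℂ} (hV : star V * V = 1) :
    ∑ i, Real.exp (((star V * W * V) i i).re) ≤ (trace (NormedSpace.exp W)).re := by
  have hV' : V * star V = 1 := mul_eq_one_comm.mp hV
  set U := (hW.eigenvectorUnitary : Matrix ι ι ℂ) with hU
  have hUU : U * star U = 1 := Unitary.coe_mul_star_self _
  have hUU' : star U * U = 1 := Unitary.coe_star_mul_self _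
  set Q := star V * U with hQ
  have hQ1 : Q * star Q = 1 := by
    rw [hQ, star_mul, star_star, Matrix.mul_assoc, ← Matrix.mul_assoc U, hUU, Matrix.one_mul, hV]
  have hQ2 : star Q * Q = 1 := mul_eq_one_comm.mp hQ1
  have hcol : ∀ j, ∑ i, ‖Q i j‖ ^ 2 = 1 := by
    intro j
    have := row_sum_one (V := star Q) (by rw [star_star]; exact hQ2) j
    simpa [Matrix.star_apply] using this
  rw [trace_exp_re hW]
  calc ∑ i, Real.exp (((star V * W * V) i i).re)
      = ∑ i, Real.exp (∑ j, ‖Q i j‖ ^ 2 * hW.eigenvalues j) := by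
        refine Finset.sum_congr rfl fun i _ => ?_
        rw [conj_diag_eq hW V i]
    _ ≤ ∑ i, ∑ j, ‖Q i j‖ ^ 2 * Real.exp (hW.eigenvalues j) := by
        refine Finset.sum_le_sum fun i _ => ?_
        have := convexOn_exp.map_sum_le (t := Finset.univ) (w := fun j => ‖Q i j‖ ^ 2)
          (p := fun j => hW.eigenvalues j) (fun j _ => by positivity)
          (row_sum_one hQ1 i) (fun j _ => Set.mem_univ _)
        simpa [smul_eq_mul] using this
    _ = ∑ j, Real.exp (hW.eigenvalues j) := by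
        rw [Finset.sum_comm]
        refine Finset.sum_congr rfl fun j _ => ?_
        rw [← Finset.sum_mul, hcol j, one_mul]

/-- Peierls–Bogoliubov inequality (multiplicative form). -/
theorem peierls_bogoliubov_mul [Nonempty ι] {X Y : Matrix ι ι ℂ} (hX : X.IsHermitian)
    (hY : Y.IsHermitian) :
    (trace (NormedSpace.exp X)).re *
      Real.exp ((trace (NormedSpace.exp X * Y)).re / (trace (NormedSpace.exp X)).re) ≤
      (trace (NormedSpace.exp (X + Y))).re := by
  set U := (hX.eigenvectorUnitary : Matrix ι ι ℂ) with hU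
  have hUU : U * star U = 1 := Unitary.coe_mul_star_self _
  have hUU' : star U * U = 1 := Unitary.coe_star_mul_self _
  have hZ := trace_exp_pos hX
  have hP := peierls (hX.add hY) hUU'
  refine le_trans ?_ hP
  have hx : ∀ i, ((star U * X * U) i i).re = hX.eigenvalues i := by
    intro i
    have h1 : X = U * diagonal (RCLike.ofReal ∘ hX.eigenvalues) * star U := by
      have := hX.spectral_theorem
      rwa [Unitary.conjStarAlgAut_apply] at this
    have h2 : star U * X * U = diagonal (RCLike.ofReal ∘ hX.eigenvalues) := by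
      calc star U * X * U = star U * (U * diagonal (RCLike.ofReal ∘ hX.eigenvalues) * star U) * U := by
            rw [← h1]
        _ = (star U * U) * diagonal (RCLike.ofReal ∘ hX.eigenvalues) * (star U * U) := by
            simp only [Matrix.mul_assoc]
        _ = _ := by rw [hUU', Matrix.one_mul, Matrix.mul_one]
    rw [h2, Matrix.diagonal_apply_eq]
    simp
  have hsum : ∀ i, ((star U * (X + Y) * U) i i).re =
      hX.eigenvalues i + ((star U * Y * U) i i).re := by
    intro i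
    rw [Matrix.mul_add, Matrix.add_mul, Matrix.add_apply, Complex.add_re, hx i]
  simp_rw [hsum, Real.exp_add]
  rw [trace_exp_mul hX Y, trace_exp_re hX]
  rw [trace_exp_re hX] at hZ
  set Z := ∑ i, Real.exp (hX.eigenvalues i) with hZdef
  have hJ := convexOn_exp.map_sum_le (t := Finset.univ)
    (w := fun i => Real.exp (hX.eigenvalues i) / Z)
    (p := fun i => ((star U * Y * U) i i).re) (fun j _ => by positivity)
    (by rw [← Finset.sum_div]; exact div_self hZ.ne') (fun j _ => Set.mem_univ _)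
  simp only [smul_eq_mul] at hJ
  have h3 : (∑ i, ((Real.exp (hX.eigenvalues i) : ℝ) : ℂ) * (star U * Y * U) i i).re / Z =
      ∑ i, Real.exp (hX.eigenvalues i) / Z * ((star U * Y * U) i i).re := by
    rw [Complex.re_sum, Finset.sum_div]
    refine Finset.sum_congr rfl fun i _ => ?_
    rw [Complex.re_ofReal_mul]
    ring
  rw [h3]
  calc Z * Real.exp (∑ i, Real.exp (hX.eigenvalues i) / Z * ((star U * Y * U) i i).re)
      ≤ Z * ∑ i, Real.exp (hX.eigenvalues i) / Z * Real.exp ((star U * Y * U) i i).re := by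
        exact mul_le_mul_of_nonneg_left hJ hZ.le
    _ = _ := by
        rw [Finset.mul_sum]
        refine Finset.sum_congr rfl fun i _ => ?_
        field_simp

/-- Peierls–Bogoliubov inequality (logarithmic form). -/
theorem peierls_bogoliubov [Nonempty ι] {X Y : Matrix ι ι ℂ} (hX : X.IsHermitian)
    (hY : Y.IsHermitian) :
    Real.log (trace (NormedSpace.exp X)).re +
      (trace (NormedSpace.exp X * Y)).re / (trace (NormedSpace.exp X)).re ≤
      Real.log (trace (NormedSpace.exp (X + Y))).re := by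
  have h := peierls_bogoliubov_mul hX hY
  have hZ := trace_exp_pos hX
  have := Real.log_le_log (by positivity) h
  rwa [Real.log_mul hZ.ne' (Real.exp_pos _).ne', Real.log_exp] at this

/-- `tr (e^X Y) ≥ 0` when `Y` is positive semidefinite. -/
theorem trace_exp_mul_nonneg {X Y : Matrix ι ι ℂ} (hX : X.IsHermitian) (hY : Y.PosSemidef) :
    0 ≤ (trace (NormedSpace.exp X * Y)).re := by
  rw [trace_exp_mul hX Y, Complex.re_sum]
  refine Finset.sum_nonneg fun i _ => ?_
  rw [Complex.re_ofReal_mul]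
  refine mul_nonneg (Real.exp_pos _).le ?_
  have : (star (hX.eigenvectorUnitary : Matrix ι ι ℂ) * Y *
        (hX.eigenvectorUnitary : Matrix ι ι ℂ)).PosSemidef := by
    have := hY.conjTranspose_mul_mul_same (hX.eigenvectorUnitary : Matrix ι ι ℂ)
    simpa [Matrix.star_eq_conjTranspose] using this
  have h2 := this.diag_nonneg (i := i)
  exact (Complex.le_def.mp h2).1

/-- Monotonicity of `X ↦ tr e^X`. -/
theorem trace_exp_mono [Nonempty ι] {X Y : Matrix ι ι ℂ} (hX : X.IsHermitian)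
    (hY : Y.IsHermitian) (hXY : (Y - X).PosSemidef) :
    (trace (NormedSpace.exp X)).re ≤ (trace (NormedSpace.exp Y)).re := by
  have h := peierls_bogoliubov_mul hX (hY.sub hX)
  rw [add_sub_cancel] at h
  refine le_trans ?_ h
  have h0 := trace_exp_mul_nonneg hX hXY
  have hZ := trace_exp_pos hX
  have : 1 ≤ Real.exp ((trace (NormedSpace.exp X * (Y - X))).re / (trace (NormedSpace.exp X)).re) := by
    rw [Real.one_le_exp_iff]
    positivity
  nlinarith

end Vale.Agent.P361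
end

section

/-!
Quantum Heisenberg ferromagnet of spin `S = n / 2` on finite subsets of `ℤ³`.
-/

namespace Vale.Agent.P361

open Matrix Filter Topology

noncomputable section

/-- Local spin-`n/2` matrices. Basis vector `j : Fin (n+1)` has `S³ = n/2 - j`. -/
def spinZ (n : ℕ) : Matrix (Fin (n + 1)) (Fin (n + 1)) ℂ :=
  Matrix.diagonal fun j => (n : ℂ) / 2 - ((j : ℕ) : ℂ)

/-- The lowering matrix `S⁻ |j⟩ = √((j+1)(n-j)) |j+1⟩`. -/
def spinLower (n : ℕ) : Matrix (Fin (n + 1)) (Fin (n + 1)) ℂ :=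
  Matrix.of fun i j =>
    if (i : ℕ) = (j : ℕ) + 1 then ((Real.sqrt (((i : ℕ) : ℝ) * ((n : ℝ) + 1 - (i : ℕ))) : ℝ) : ℂ)
    else 0

/-- The spin matrices `S¹, S², S³` (indices `0, 1, 2`):
`S¹ = (S⁺ + S⁻)/2`, `S² = (S⁺ - S⁻)/(2i)`, with `S⁺ = (S⁻)ᴴ`. -/
def spin (n : ℕ) : Fin 3 → Matrix (Fin (n + 1)) (Fin (n + 1)) ℂ :=
  ![(1 / 2 : ℂ) • ((spinLower n)ᴴ + spinLower n),
    (1 / (2 * Complex.I) : ℂ) • ((spinLower n)ᴴ - spinLower n),
    spinZ n]

/-- Lattice sites. -/
abbrev Site : Type := Fin 3 → ℤ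

/-- The operator `A` acting at site `x` of the finite set `Λ`, identity elsewhere:
the matrix of `A_x ⊗ (⊗_{y ≠ x} 1)` in the product basis. -/
def siteOp {n : ℕ} {Λ : Finset Site} (x : Λ) (A : Matrix (Fin (n + 1)) (Fin (n + 1)) ℂ) :
    Matrix (Λ → Fin (n + 1)) (Λ → Fin (n + 1)) ℂ :=
  Matrix.of fun σ τ =>
    ∏ y : Λ, (if y = x then A else (1 : Matrix (Fin (n + 1)) (Fin (n + 1)) ℂ)) (σ y) (τ y)

/-- Nearest neighbours: `|x - y|₁ = 1`. -/
def IsNN (x y : Site) : Prop := ∑ i, |x i - y i| = 1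

instance (x y : Site) : Decidable (IsNN x y) := by unfold IsNN; infer_instance

/-- `H_Λ = - ∑_{edges {x,y}} S_x · S_y` (free boundary conditions; the sum over ordered pairs
counts each edge twice, hence the factor `1/2`). -/
def hamiltonian (n : ℕ) (Λ : Finset Site) : Matrix (Λ → Fin (n + 1)) (Λ → Fin (n + 1)) ℂ :=
  -((1 / 2 : ℂ) • ∑ x : Λ, ∑ y : Λ,
      if IsNN x.1 y.1 then ∑ a : Fin 3, siteOp x (spin n a) * siteOp y (spin n a) else 0)

/-- `M_Λ = ∑_x S³_x`. -/
def magnetization (n : ℕ) (Λ : Finset Site) : Matrix (Λ → Fin (n + 1)) (Λ → Fin (n + 1)) ℂ :=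
  ∑ x : Λ, siteOp x (spin n 2)

/-- Finite-volume pressure `(β |Λ|)⁻¹ log Tr exp(-β (H_Λ - h M_Λ))`. -/
def finPressure (n : ℕ) (Λ : Finset Site) (β h : ℝ) : ℝ :=
  (β * Λ.card)⁻¹ * Real.log
    (Matrix.trace (NormedSpace.exp
      (-(β : ℂ) • (hamiltonian n Λ - (h : ℂ) • magnetization n Λ)))).re

/-- `Λ_N = {-N, …, N}³`. -/
def box (N : ℕ) : Finset Site := Finset.Icc (fun _ => -(N : ℤ)) (fun _ => (N : ℤ))

/-- Infinite-volume pressure `p_β(h)`. -/
def pressure (n : ℕ) (β h : ℝ) : ℝ := limUnder atTop fun N : ℕ => finPressure n (box N) β h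

/-- Spontaneous magnetization `m_S(β)`, the right derivative of `p_β` at `0`. -/
def spontMag (n : ℕ) (β : ℝ) : ℝ := derivWithin (pressure n β) (Set.Ioi 0) 0

end

end Vale.Agent.P361
end

section

/-!
Algebra of one-site operators in a finite tensor product.
-/

namespace Vale.Agent.P361

open Matrix Finset

set_option linter.unusedSectionVars false
open scoped ComplexOrder Kronecker

open scoped MatrixOrder in
theorem exists_factor {m : Type*} [Fintype m] [DecidableEq m] {A : Matrix m m ℂ}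
    (hA : A.PosSemidef) : ∃ B : Matrix m m ℂ, A = Bᴴ * B := by
  obtain ⟨b, hb⟩ := CStarAlgebra.nonneg_iff_eq_star_mul_self.mp hA.nonneg
  exact ⟨b, hb⟩

section General

variable {d : Type*} [Fintype d] [DecidableEq d] {V : Type*} [Fintype V] [DecidableEq V]

/-- Product operator. -/
def prodOp (B : V → Matrix d d ℂ) : Matrix (V → d) (V → d) ℂ :=
  Matrix.of fun σ τ => ∏ y, B y (σ y) (τ y)

theorem prodOp_mul (B C : V → Matrix d d ℂ) :
    prodOp B * prodOp C = prodOp (fun y => B y * C y) := by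
  ext σ τ
  simp only [prodOp, Matrix.mul_apply, Matrix.of_apply]
  rw [Finset.prod_univ_sum, Fintype.piFinset_univ]
  refine Finset.sum_congr rfl fun ρ _ => ?_
  rw [← Finset.prod_mul_distrib]

theorem prodOp_one : prodOp (fun _ : V => (1 : Matrix d d ℂ)) = 1 := by
  ext σ τ
  simp only [prodOp, Matrix.of_apply, Matrix.one_apply]
  by_cases h : σ = τ
  · subst h; simp
  · rw [if_neg h]
    obtain ⟨y, hy⟩ := Function.ne_iff.mp h
    exact Finset.prod_eq_zero (Finset.mem_univ y) (by simp [hy])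

theorem prodOp_conjTranspose (B : V → Matrix d d ℂ) :
    (prodOp B)ᴴ = prodOp (fun y => (B y)ᴴ) := by
  ext σ τ
  simp [prodOp, Matrix.conjTranspose_apply]

/-- One-site operator on a general finite set of sites. -/
def siteOpV (x : V) (A : Matrix d d ℂ) : Matrix (V → d) (V → d) ℂ :=
  prodOp fun y => if y = x then A else 1

theorem siteOpV_apply (x : V) (A : Matrix d d ℂ) (σ τ : V → d) :
    siteOpV x A σ τ = A (σ x) (τ x) * ∏ y ∈ Finset.univ.erase x, (1 : Matrix d d ℂ) (σ y) (τ y) := by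
  simp only [siteOpV, prodOp, Matrix.of_apply]
  rw [← Finset.mul_prod_erase _ _ (Finset.mem_univ x)]
  congr 1
  · simp
  · refine Finset.prod_congr rfl fun y hy => ?_
    rw [if_neg (Finset.ne_of_mem_erase hy)]

theorem siteOpV_mul (x : V) (A B : Matrix d d ℂ) :
    siteOpV x A * siteOpV x B = siteOpV x (A * B) := by
  simp only [siteOpV, prodOp_mul]
  congr 1
  ext1 y
  split_ifs <;> simp

theorem siteOpV_one (x : V) : siteOpV x (1 : Matrix d d ℂ) = 1 := by
  simp only [siteOpV, ite_self]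
  exact prodOp_one

theorem siteOpV_add (x : V) (A B : Matrix d d ℂ) :
    siteOpV x (A + B) = siteOpV x A + siteOpV x B := by
  ext σ τ
  simp only [siteOpV_apply, Matrix.add_apply]
  ring

theorem siteOpV_smul (x : V) (c : ℂ) (A : Matrix d d ℂ) :
    siteOpV x (c • A) = c • siteOpV x A := by
  ext σ τ
  simp only [siteOpV_apply, Matrix.smul_apply, smul_eq_mul]
  ring

theorem siteOpV_zero (x : V) : siteOpV x (0 : Matrix d d ℂ) = 0 := by
  ext σ τ
  simp [siteOpV_apply]

theorem siteOpV_neg (x : V) (A : Matrix d d ℂ) : siteOpV x (-A) = -siteOpV x A := by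
  ext σ τ
  simp [siteOpV_apply]

theorem siteOpV_sub (x : V) (A B : Matrix d d ℂ) :
    siteOpV x (A - B) = siteOpV x A - siteOpV x B := by
  rw [sub_eq_add_neg, siteOpV_add, siteOpV_neg, sub_eq_add_neg]

theorem siteOpV_sum (x : V) {κ : Type*} (s : Finset κ) (A : κ → Matrix d d ℂ) :
    siteOpV x (∑ k ∈ s, A k) = ∑ k ∈ s, siteOpV x (A k) := by
  classical
  induction s using Finset.induction_on with
  | empty => simp [siteOpV_zero]
  | insert a s ha ih => rw [Finset.sum_insert ha, Finset.sum_insert ha, siteOpV_add, ih]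

theorem siteOpV_conjTranspose (x : V) (A : Matrix d d ℂ) :
    (siteOpV x A)ᴴ = siteOpV x Aᴴ := by
  simp only [siteOpV, prodOp_conjTranspose]
  congr 1
  ext1 y
  split_ifs <;> simp

theorem siteOpV_commute {x y : V} (hxy : x ≠ y) (A B : Matrix d d ℂ) :
    siteOpV x A * siteOpV y B = siteOpV y B * siteOpV x A := by
  simp only [siteOpV, prodOp_mul]
  congr 1
  ext1 z
  by_cases h1 : z = x
  · subst h1; simp [hxy]
  · simp [h1]

theorem siteOpV_isHermitian (x : V) {A : Matrix d d ℂ} (hA : A.IsHermitian) :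
    (siteOpV x A).IsHermitian := by
  rw [Matrix.IsHermitian, siteOpV_conjTranspose, hA]

theorem siteOpV_posSemidef (x : V) {A : Matrix d d ℂ} (hA : A.PosSemidef) :
    (siteOpV x A).PosSemidef := by
  obtain ⟨B, rfl⟩ := exists_factor hA
  rw [← siteOpV_mul, ← siteOpV_conjTranspose]
  exact Matrix.posSemidef_conjTranspose_mul_self _

end General

section Concrete

variable {n : ℕ} {Λ : Finset Site}

theorem siteOp_eq_siteOpV (x : Λ) (A : Matrix (Fin (n + 1)) (Fin (n + 1)) ℂ) :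
    siteOp x A = siteOpV x A := rfl

theorem siteOp_mul (x : Λ) (A B : Matrix (Fin (n + 1)) (Fin (n + 1)) ℂ) :
    siteOp x A * siteOp x B = siteOp x (A * B) := siteOpV_mul x A B

theorem siteOp_one (x : Λ) : siteOp x (1 : Matrix (Fin (n + 1)) (Fin (n + 1)) ℂ) = 1 :=
  siteOpV_one x

theorem siteOp_add (x : Λ) (A B : Matrix (Fin (n + 1)) (Fin (n + 1)) ℂ) :
    siteOp x (A + B) = siteOp x A + siteOp x B := siteOpV_add x A B

theorem siteOp_sub (x : Λ) (A B : Matrix (Fin (n + 1)) (Fin (n + 1)) ℂ) :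
    siteOp x (A - B) = siteOp x A - siteOp x B := siteOpV_sub x A B

theorem siteOp_neg (x : Λ) (A : Matrix (Fin (n + 1)) (Fin (n + 1)) ℂ) :
    siteOp x (-A) = -siteOp x A := siteOpV_neg x A

theorem siteOp_zero (x : Λ) : siteOp x (0 : Matrix (Fin (n + 1)) (Fin (n + 1)) ℂ) = 0 :=
  siteOpV_zero x

theorem siteOp_smul (x : Λ) (c : ℂ) (A : Matrix (Fin (n + 1)) (Fin (n + 1)) ℂ) :
    siteOp x (c • A) = c • siteOp x A := siteOpV_smul x c A

theorem siteOp_conjTranspose (x : Λ) (A : Matrix (Fin (n + 1)) (Fin (n + 1)) ℂ) :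
    (siteOp x A)ᴴ = siteOp x Aᴴ := siteOpV_conjTranspose x A

theorem siteOp_commute {x y : Λ} (hxy : x ≠ y) (A B : Matrix (Fin (n + 1)) (Fin (n + 1)) ℂ) :
    siteOp x A * siteOp y B = siteOp y B * siteOp x A := siteOpV_commute hxy A B

theorem siteOp_isHermitian (x : Λ) {A : Matrix (Fin (n + 1)) (Fin (n + 1)) ℂ}
    (hA : A.IsHermitian) : (siteOp x A).IsHermitian := siteOpV_isHermitian x hA

theorem siteOp_posSemidef (x : Λ) {A : Matrix (Fin (n + 1)) (Fin (n + 1)) ℂ}
    (hA : A.PosSemidef) : (siteOp x A).PosSemidef := siteOpV_posSemidef x hA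

end Concrete

end Vale.Agent.P361
end

section

/-!
Trace-exponential comparison for tensor products and relabelled indices.
-/

namespace Vale.Agent.P361

open Matrix Finset

set_option linter.unusedSectionVars false

open scoped ComplexOrder Kronecker

variable {α β γ : Type*} [Fintype α] [DecidableEq α] [Fintype β] [DecidableEq β]
  [Fintype γ] [DecidableEq γ]

theorem exp_submatrix_equiv (e : α ≃ β) (Y : Matrix β β ℂ) :
    NormedSpace.exp (Y.submatrix e e) = (NormedSpace.exp Y).submatrix e e := by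
  have h1 : ∀ k : ℕ, (Y.submatrix e e) ^ k = (Y ^ k).submatrix e e := by
    intro k
    induction k with
    | zero => simp
    | succ k ih => rw [pow_succ, pow_succ, ih, Matrix.submatrix_mul_equiv]
  have hcont : Continuous fun M : Matrix β β ℂ => M.submatrix e e :=
    Continuous.matrix_submatrix continuous_id e e
  have hs : HasSum (fun k : ℕ => ((k.factorial : ℚ)⁻¹) • Y ^ k) (NormedSpace.exp Y) := by
    open scoped Matrix.Norms.Operator in
    exact NormedSpace.exp_series_hasSum_exp' (𝕂 := ℚ) Y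
  have hs2 : HasSum (fun k : ℕ => ((k.factorial : ℚ)⁻¹) • (Y.submatrix e e) ^ k)
      (NormedSpace.exp (Y.submatrix e e)) := by
    open scoped Matrix.Norms.Operator in
    exact NormedSpace.exp_series_hasSum_exp' (𝕂 := ℚ) (Y.submatrix e e)
  have hs3 := hs.map (AddMonoidHom.mk' (fun M : Matrix β β ℂ => M.submatrix e e)
    (fun A B => by ext i j; rfl)) hcont
  refine hs2.unique ?_
  have h4 : ((AddMonoidHom.mk' (fun M : Matrix β β ℂ => M.submatrix e e)
      (fun A B => by ext i j; rfl)) ∘ fun k : ℕ => ((k.factorial : ℚ)⁻¹) • Y ^ k) =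
      fun k : ℕ => ((k.factorial : ℚ)⁻¹) • (Y.submatrix e e) ^ k := by
    ext1 k
    simp only [Function.comp, AddMonoidHom.mk'_apply, h1 k]
    rfl
  rw [h4] at hs3
  exact hs3

theorem diag_conj_eigen {X : Matrix α α ℂ} (hX : X.IsHermitian) :
    star (hX.eigenvectorUnitary : Matrix α α ℂ) * X * (hX.eigenvectorUnitary : Matrix α α ℂ) =
      diagonal (fun i => (hX.eigenvalues i : ℂ)) := by
  set U := (hX.eigenvectorUnitary : Matrix α α ℂ) with hU
  have hUU' : star U * U = 1 := Unitary.coe_star_mul_self _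
  have h1 : X = U * diagonal (RCLike.ofReal ∘ hX.eigenvalues) * star U := by
    have := hX.spectral_theorem
    rwa [Unitary.conjStarAlgAut_apply] at this
  calc star U * X * U = star U * (U * diagonal (RCLike.ofReal ∘ hX.eigenvalues) * star U) * U := by
        rw [← h1]
    _ = (star U * U) * diagonal (RCLike.ofReal ∘ hX.eigenvalues) * (star U * U) := by
        simp only [Matrix.mul_assoc]
    _ = _ := by rw [hUU', Matrix.one_mul, Matrix.mul_one]; rfl

/-- Superadditivity tool: if `Y ≥ X₁ ⊗ 1 + 1 ⊗ X₂` then `tr e^{X₁} tr e^{X₂} ≤ tr e^Y`. -/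
theorem trace_exp_prod_le (e : α × β ≃ γ) {X₁ : Matrix α α ℂ} {X₂ : Matrix β β ℂ}
    {Y : Matrix γ γ ℂ} (h₁ : X₁.IsHermitian) (h₂ : X₂.IsHermitian) (hY : Y.IsHermitian)
    (hP : (Y.submatrix e e - (X₁ ⊗ₖ (1 : Matrix β β ℂ) + (1 : Matrix α α ℂ) ⊗ₖ X₂)).PosSemidef) :
    (trace (NormedSpace.exp X₁)).re * (trace (NormedSpace.exp X₂)).re ≤
      (trace (NormedSpace.exp Y)).re := by
  set U₁ := (h₁.eigenvectorUnitary : Matrix α α ℂ) with hU₁
  set U₂ := (h₂.eigenvectorUnitary : Matrix β β ℂ) with hU₂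
  have hUU₁ : star U₁ * U₁ = 1 := Unitary.coe_star_mul_self _
  have hUU₂ : star U₂ * U₂ = 1 := Unitary.coe_star_mul_self _
  set W := U₁ ⊗ₖ U₂ with hW
  have hstarW : star W = star U₁ ⊗ₖ star U₂ := by
    rw [hW, Matrix.star_eq_conjTranspose, Matrix.conjTranspose_kronecker]; rfl
  have hWW : star W * W = 1 := by
    rw [hstarW, hW, ← Matrix.mul_kronecker_mul, hUU₁, hUU₂, Matrix.one_kronecker_one]
  set V := W.submatrix e.symm e.symm with hV
  have hVV : star V * V = 1 := by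
    rw [hV, Matrix.star_eq_conjTranspose, Matrix.conjTranspose_submatrix,
      Matrix.submatrix_mul_equiv, ← Matrix.star_eq_conjTranspose, hWW, Matrix.submatrix_one_equiv]
  have hp := peierls hY hVV
  refine le_trans ?_ hp
  rw [← Equiv.sum_comp e (fun g => Real.exp (((star V * Y * V) g g).re))]
  have key : ∀ p : α × β, h₁.eigenvalues p.1 + h₂.eigenvalues p.2 ≤
      ((star V * Y * V) (e p) (e p)).re := by
    intro p
    have e1 : (star V * Y * V) (e p) (e p) = (star W * Y.submatrix e e * W) p p := by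
      have : (star V * Y * V).submatrix e e = star W * Y.submatrix e e * W := by
        rw [← Matrix.submatrix_mul_equiv (star V * Y) V e e e,
          ← Matrix.submatrix_mul_equiv (star V) Y e e e]
        congr 2
        · ext i j; simp [hV]
        · ext i j; simp [hV]
      rw [← this]; rfl
    rw [e1]
    have e2 : star W * Y.submatrix e e * W =
        star W * (Y.submatrix e e - (X₁ ⊗ₖ (1 : Matrix β β ℂ) + (1 : Matrix α α ℂ) ⊗ₖ X₂)) * W +
          (diagonal (fun i => (h₁.eigenvalues i : ℂ)) ⊗ₖ (1 : Matrix β β ℂ) +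
            (1 : Matrix α α ℂ) ⊗ₖ diagonal (fun i => (h₂.eigenvalues i : ℂ))) := by
      have e3 : star W * (X₁ ⊗ₖ (1 : Matrix β β ℂ) + (1 : Matrix α α ℂ) ⊗ₖ X₂) * W =
          diagonal (fun i => (h₁.eigenvalues i : ℂ)) ⊗ₖ (1 : Matrix β β ℂ) +
            (1 : Matrix α α ℂ) ⊗ₖ diagonal (fun i => (h₂.eigenvalues i : ℂ)) := by
        rw [Matrix.mul_add, Matrix.add_mul, hstarW, hW, ← Matrix.mul_kronecker_mul,
          ← Matrix.mul_kronecker_mul, ← Matrix.mul_kronecker_mul, ← Matrix.mul_kronecker_mul,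
          Matrix.mul_one, Matrix.mul_one, hUU₁, hUU₂, diag_conj_eigen h₁, diag_conj_eigen h₂]
      rw [← e3, ← Matrix.add_mul, ← Matrix.mul_add, sub_add_cancel]
    rw [e2]
    have e4 : 0 ≤ ((star W * (Y.submatrix e e -
        (X₁ ⊗ₖ (1 : Matrix β β ℂ) + (1 : Matrix α α ℂ) ⊗ₖ X₂)) * W) p p).re := by
      have h5 := hP.conjTranspose_mul_mul_same W
      have h6 := h5.diag_nonneg (i := p)
      exact (Complex.le_def.mp h6).1
    rw [Matrix.add_apply, Complex.add_re]
    have e5 : (((diagonal (fun i => (h₁.eigenvalues i : ℂ)) ⊗ₖ (1 : Matrix β β ℂ) +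
            (1 : Matrix α α ℂ) ⊗ₖ diagonal (fun i => (h₂.eigenvalues i : ℂ)))) p p).re =
            h₁.eigenvalues p.1 + h₂.eigenvalues p.2 := by
      simp [Matrix.add_apply, Matrix.kroneckerMap_apply]
    rw [e5]
    linarith
  calc (trace (NormedSpace.exp X₁)).re * (trace (NormedSpace.exp X₂)).re
      = ∑ p : α × β, Real.exp (h₁.eigenvalues p.1 + h₂.eigenvalues p.2) := by
        rw [trace_exp_re h₁, trace_exp_re h₂, Finset.sum_mul_sum, Fintype.sum_prod_type]
        simp_rw [Real.exp_add]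
    _ ≤ _ := Finset.sum_le_sum fun p _ => Real.exp_le_exp.mpr (key p)

/-- Invariance of `tr e^X` under relabelling. -/
theorem trace_exp_submatrix (e : α ≃ β) (Y : Matrix β β ℂ) :
    trace (NormedSpace.exp (Y.submatrix e e)) = trace (NormedSpace.exp Y) := by
  rw [exp_submatrix_equiv]
  simp only [Matrix.trace, Matrix.diag_apply, Matrix.submatrix_apply]
  exact Equiv.sum_comp e (fun i => NormedSpace.exp Y i i)

/-- A Hermitian matrix is bounded above by a multiple of the identity. -/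
theorem exists_upper_bound {X : Matrix α α ℂ} (hX : X.IsHermitian) :
    ∃ c : ℝ, 0 ≤ c ∧ ((c : ℂ) • (1 : Matrix α α ℂ) - X).PosSemidef := by
  refine ⟨∑ i, |hX.eigenvalues i|, Finset.sum_nonneg fun i _ => abs_nonneg _, ?_⟩
  set c := ∑ i, |hX.eigenvalues i| with hc
  set U := (hX.eigenvectorUnitary : Matrix α α ℂ) with hU
  have hUU : U * star U = 1 := Unitary.coe_mul_star_self _
  have h1 : X = U * diagonal (RCLike.ofReal ∘ hX.eigenvalues) * star U := by
    have := hX.spectral_theorem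
    rwa [Unitary.conjStarAlgAut_apply] at this
  have h2 : (c : ℂ) • (1 : Matrix α α ℂ) - X =
      U * diagonal (fun i => ((c - hX.eigenvalues i : ℝ) : ℂ)) * Uᴴ := by
    have h3 : diagonal (fun i => ((c - hX.eigenvalues i : ℝ) : ℂ)) =
        (c : ℂ) • (1 : Matrix α α ℂ) - diagonal (RCLike.ofReal ∘ hX.eigenvalues) := by
      ext i j
      by_cases hij : i = j
      · subst hij; simp
      · simp [hij]
    rw [h3, Matrix.mul_sub, Matrix.sub_mul, ← Matrix.star_eq_conjTranspose, ← h1,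
      Matrix.mul_smul, Matrix.smul_mul, Matrix.mul_one, hUU]
  rw [h2]
  refine Matrix.PosSemidef.mul_mul_conjTranspose_same ?_ U
  refine Matrix.PosSemidef.diagonal ?_
  intro i
  simp only [Pi.zero_apply]
  rw [Complex.zero_le_real]
  have : |hX.eigenvalues i| ≤ c := Finset.single_le_sum (f := fun i => |hX.eigenvalues i|)
    (fun i _ => abs_nonneg _) (Finset.mem_univ i)
  linarith [le_abs_self (hX.eigenvalues i)]

end Vale.Agent.P361
end

section

/-!
Superadditivity of the logarithm of the (shifted) partition function.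
-/

namespace Vale.Agent.P361

open Matrix Finset

set_option linter.unusedSectionVars false

open scoped ComplexOrder Kronecker

section

variable {d κ : Type*} [Fintype d] [DecidableEq d] [Fintype κ]
  {V : Type*} [Fintype V] [DecidableEq V]
  {V₁ : Type*} [Fintype V₁] [DecidableEq V₁] {V₂ : Type*} [Fintype V₂] [DecidableEq V₂]

/-- Shifted pair interaction `c + ∑ S^a_x S^a_y`. -/
def pairOp (c : ℝ) (S : κ → Matrix d d ℂ) (x y : V) : Matrix (V → d) (V → d) ℂ :=
  (c : ℂ) • (1 : Matrix (V → d) (V → d) ℂ) + ∑ a, siteOpV x (S a) * siteOpV y (S a)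

theorem pairOp_posSemidef {c : ℝ} {S : κ → Matrix d d ℂ} (hS : ∀ a, (S a).IsHermitian)
    (hc : ((c : ℂ) • (1 : Matrix d d ℂ) - ∑ a, S a * S a).PosSemidef) {x y : V} (hxy : x ≠ y) :
    (pairOp c S x y).PosSemidef := by
  have h1 : pairOp c S x y = (1 / 2 : ℂ) • (∑ a, (siteOpV x (S a) + siteOpV y (S a))ᴴ *
      (siteOpV x (S a) + siteOpV y (S a)) +
      (siteOpV x ((c : ℂ) • (1 : Matrix d d ℂ) - ∑ a, S a * S a) +
       siteOpV y ((c : ℂ) • (1 : Matrix d d ℂ) - ∑ a, S a * S a))) := by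
    have h2 : ∀ a, (siteOpV x (S a) + siteOpV y (S a))ᴴ *
        (siteOpV x (S a) + siteOpV y (S a)) =
        siteOpV x (S a * S a) + siteOpV y (S a * S a) +
          (2 : ℂ) • (siteOpV x (S a) * siteOpV y (S a)) := by
      intro a
      rw [Matrix.conjTranspose_add, siteOpV_conjTranspose, siteOpV_conjTranspose, hS a,
        Matrix.add_mul, Matrix.mul_add, Matrix.mul_add, siteOpV_mul, siteOpV_mul,
        siteOpV_commute hxy.symm, two_smul]
      abel
    simp only [h2, Finset.sum_add_distrib, siteOpV_sub, siteOpV_smul, siteOpV_one, siteOpV_sum,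
      pairOp, ← Finset.smul_sum]
    module
  rw [h1]
  refine Matrix.PosSemidef.smul ?_ (by norm_num [Complex.le_def])
  refine Matrix.PosSemidef.add ?_ ((siteOpV_posSemidef x hc).add (siteOpV_posSemidef y hc))
  exact Matrix.posSemidef_sum _ fun a _ => Matrix.posSemidef_conjTranspose_mul_self _

/-- Total shifted exponent. -/
def totOp (b c : ℝ) (S : κ → Matrix d d ℂ) (F : Matrix d d ℂ) (adj : V → V → Prop)
    [DecidableRel adj] : Matrix (V → d) (V → d) ℂ :=
  (b : ℂ) • (∑ x, ∑ y, if adj x y then pairOp c S x y else 0) + ∑ x, siteOpV x F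

theorem totOp_posSemidef {b c : ℝ} (hb : 0 ≤ b) {S : κ → Matrix d d ℂ}
    (hS : ∀ a, (S a).IsHermitian)
    (hc : ((c : ℂ) • (1 : Matrix d d ℂ) - ∑ a, S a * S a).PosSemidef)
    {F : Matrix d d ℂ} (hF : F.PosSemidef) (adj : V → V → Prop) [DecidableRel adj]
    (hadj : ∀ x, ¬ adj x x) : (totOp b c S F adj).PosSemidef := by
  refine Matrix.PosSemidef.add ?_ (Matrix.posSemidef_sum _ fun x _ => siteOpV_posSemidef x hF)
  refine Matrix.PosSemidef.smul ?_ (by simpa using hb)
  refine Matrix.posSemidef_sum _ fun x _ => Matrix.posSemidef_sum _ fun y _ => ?_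
  split_ifs with h
  · refine pairOp_posSemidef hS hc ?_
    rintro rfl
    exact hadj _ h
  · exact Matrix.PosSemidef.zero

/-- Configuration equivalence for a disjoint decomposition of the sites. -/
def confEquiv (f : V₁ ⊕ V₂ ≃ V) : (V₁ → d) × (V₂ → d) ≃ (V → d) :=
  (Equiv.sumArrowEquivProdArrow V₁ V₂ d).symm.trans (Equiv.arrowCongr f (Equiv.refl d))

theorem confEquiv_apply (f : V₁ ⊕ V₂ ≃ V) (p : (V₁ → d) × (V₂ → d)) (w : V₁ ⊕ V₂) :
    confEquiv f p (f w) = Sum.elim p.1 p.2 w := by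
  simp [confEquiv, Equiv.arrowCongr, Equiv.sumArrowEquivProdArrow]

theorem siteOpV_inl (f : V₁ ⊕ V₂ ≃ V) (x : V₁) (A : Matrix d d ℂ) :
    (siteOpV (f (Sum.inl x)) A).submatrix (confEquiv f) (confEquiv f) =
      siteOpV x A ⊗ₖ (1 : Matrix (V₂ → d) (V₂ → d) ℂ) := by
  ext p q
  simp only [Matrix.submatrix_apply, siteOpV, prodOp, Matrix.of_apply, Matrix.kroneckerMap_apply]
  rw [← Equiv.prod_comp f, Fintype.prod_sum_type]
  simp only [confEquiv_apply, Sum.elim_inl, Sum.elim_inr]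
  congr 1
  · refine Finset.prod_congr rfl fun y _ => ?_
    by_cases h : y = x
    · subst h; simp
    · simp [h]
  · rw [← prodOp_one]
    simp [prodOp]

theorem siteOpV_inr (f : V₁ ⊕ V₂ ≃ V) (x : V₂) (A : Matrix d d ℂ) :
    (siteOpV (f (Sum.inr x)) A).submatrix (confEquiv f) (confEquiv f) =
      (1 : Matrix (V₁ → d) (V₁ → d) ℂ) ⊗ₖ siteOpV x A := by
  ext p q
  simp only [Matrix.submatrix_apply, siteOpV, prodOp, Matrix.of_apply, Matrix.kroneckerMap_apply]
  rw [← Equiv.prod_comp f, Fintype.prod_sum_type]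
  simp only [confEquiv_apply, Sum.elim_inl, Sum.elim_inr]
  congr 1
  · rw [← prodOp_one]
    simp [prodOp]
  · refine Finset.prod_congr rfl fun y _ => ?_
    by_cases h : y = x
    · subst h; simp
    · simp [h]

theorem submatrix_sum_eq {m l : Type*} {ω : Type*} (s : Finset ω) (M : ω → Matrix m m ℂ)
    (e : l → m) : (∑ k ∈ s, M k).submatrix e e = ∑ k ∈ s, (M k).submatrix e e := by
  ext i j
  simp [Matrix.sum_apply]

theorem sum_kron {m l : Type*} {ω : Type*} (s : Finset ω) (M : ω → Matrix m m ℂ)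
    (N : Matrix l l ℂ) : (∑ k ∈ s, M k) ⊗ₖ N = ∑ k ∈ s, (M k) ⊗ₖ N := by
  ext i j
  simp [Matrix.sum_apply, Finset.sum_mul]

theorem kron_sum {m l : Type*} {ω : Type*} (s : Finset ω) (M : ω → Matrix m m ℂ)
    (N : Matrix l l ℂ) : N ⊗ₖ (∑ k ∈ s, M k) = ∑ k ∈ s, N ⊗ₖ (M k) := by
  ext i j
  simp [Matrix.sum_apply, Finset.mul_sum]

theorem pairOp_inl (c : ℝ) (S : κ → Matrix d d ℂ) (f : V₁ ⊕ V₂ ≃ V) (x y : V₁) :
    (pairOp c S (f (Sum.inl x)) (f (Sum.inl y))).submatrix (confEquiv f) (confEquiv f) =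
      pairOp c S x y ⊗ₖ (1 : Matrix (V₂ → d) (V₂ → d) ℂ) := by
  simp only [pairOp, Matrix.submatrix_add, Pi.add_apply, Matrix.submatrix_smul, Pi.smul_apply,
    submatrix_sum_eq, Matrix.add_kronecker, Matrix.smul_kronecker, sum_kron,
    Matrix.submatrix_one_equiv, Matrix.one_kronecker_one]
  congr 1
  refine Finset.sum_congr rfl fun a _ => ?_
  rw [← Matrix.submatrix_mul_equiv _ _ _ (confEquiv f) _, siteOpV_inl, siteOpV_inl,
    ← Matrix.mul_kronecker_mul, Matrix.mul_one]

theorem pairOp_inr (c : ℝ) (S : κ → Matrix d d ℂ) (f : V₁ ⊕ V₂ ≃ V) (x y : V₂) :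
    (pairOp c S (f (Sum.inr x)) (f (Sum.inr y))).submatrix (confEquiv f) (confEquiv f) =
      (1 : Matrix (V₁ → d) (V₁ → d) ℂ) ⊗ₖ pairOp c S x y := by
  simp only [pairOp, Matrix.submatrix_add, Pi.add_apply, Matrix.submatrix_smul, Pi.smul_apply,
    submatrix_sum_eq, Matrix.kronecker_add, Matrix.kronecker_smul, kron_sum,
    Matrix.submatrix_one_equiv, Matrix.one_kronecker_one]
  congr 1
  refine Finset.sum_congr rfl fun a _ => ?_
  rw [← Matrix.submatrix_mul_equiv _ _ _ (confEquiv f) _, siteOpV_inr, siteOpV_inr,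
    ← Matrix.mul_kronecker_mul, Matrix.mul_one]

/-- Splitting of the total exponent. -/
theorem totOp_split {b c : ℝ} (hb : 0 ≤ b) {S : κ → Matrix d d ℂ}
    (hS : ∀ a, (S a).IsHermitian)
    (hc : ((c : ℂ) • (1 : Matrix d d ℂ) - ∑ a, S a * S a).PosSemidef)
    (F : Matrix d d ℂ) (adj : V → V → Prop) [DecidableRel adj] (f : V₁ ⊕ V₂ ≃ V) :
    ((totOp b c S F adj).submatrix (confEquiv f) (confEquiv f) -
      (totOp b c S F (fun x y : V₁ => adj (f (Sum.inl x)) (f (Sum.inl y))) ⊗ₖ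
          (1 : Matrix (V₂ → d) (V₂ → d) ℂ) +
        (1 : Matrix (V₁ → d) (V₁ → d) ℂ) ⊗ₖ
          totOp b c S F (fun x y : V₂ => adj (f (Sum.inr x)) (f (Sum.inr y))))).PosSemidef := by
  have h1 : (totOp b c S F adj).submatrix (confEquiv f) (confEquiv f) -
      (totOp b c S F (fun x y : V₁ => adj (f (Sum.inl x)) (f (Sum.inl y))) ⊗ₖ
          (1 : Matrix (V₂ → d) (V₂ → d) ℂ) +
        (1 : Matrix (V₁ → d) (V₁ → d) ℂ) ⊗ₖ
          totOp b c S F (fun x y : V₂ => adj (f (Sum.inr x)) (f (Sum.inr y)))) =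
      (b : ℂ) • ((∑ x : V₁, ∑ y : V₂, if adj (f (Sum.inl x)) (f (Sum.inr y)) then
          (pairOp c S (f (Sum.inl x)) (f (Sum.inr y))).submatrix (confEquiv f) (confEquiv f)
          else 0) +
        (∑ x : V₂, ∑ y : V₁, if adj (f (Sum.inr x)) (f (Sum.inl y)) then
          (pairOp c S (f (Sum.inr x)) (f (Sum.inl y))).submatrix (confEquiv f) (confEquiv f)
          else 0)) := by
    have h2 : ∀ x y : V, (if adj x y then pairOp c S x y else 0).submatrix
        (confEquiv f) (confEquiv f) = if adj x y then (pairOp c S x y).submatrix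
        (confEquiv f) (confEquiv f) else 0 := by
      intro x y
      split_ifs
      · rfl
      · ext i j; rfl
    have h3 : ∀ x y : V₁, (if adj (f (Sum.inl x)) (f (Sum.inl y)) then pairOp c S x y
        else 0) ⊗ₖ (1 : Matrix (V₂ → d) (V₂ → d) ℂ) =
        if adj (f (Sum.inl x)) (f (Sum.inl y)) then
          pairOp c S x y ⊗ₖ (1 : Matrix (V₂ → d) (V₂ → d) ℂ) else 0 := by
      intro x y
      split_ifs
      · rfl
      · exact Matrix.zero_kronecker _
    have h4 : ∀ x y : V₂, (1 : Matrix (V₁ → d) (V₁ → d) ℂ) ⊗ₖ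
        (if adj (f (Sum.inr x)) (f (Sum.inr y)) then pairOp c S x y else 0) =
        if adj (f (Sum.inr x)) (f (Sum.inr y)) then
          (1 : Matrix (V₁ → d) (V₁ → d) ℂ) ⊗ₖ pairOp c S x y else 0 := by
      intro x y
      split_ifs
      · rfl
      · exact Matrix.kronecker_zero _
    simp only [totOp, Matrix.submatrix_add, Pi.add_apply, Matrix.submatrix_smul, Pi.smul_apply,
      submatrix_sum_eq, h2, Matrix.add_kronecker, Matrix.smul_kronecker, sum_kron,
      Matrix.kronecker_add, Matrix.kronecker_smul, kron_sum, h3, h4]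
    simp only [← Equiv.sum_comp f, Fintype.sum_sum_type, pairOp_inl, pairOp_inr, siteOpV_inl,
      siteOpV_inr, Finset.sum_add_distrib, smul_add]
    abel
  rw [h1]
  refine Matrix.PosSemidef.smul ?_ (by simpa using hb)
  refine Matrix.PosSemidef.add ?_ ?_
  · refine Matrix.posSemidef_sum _ fun x _ => Matrix.posSemidef_sum _ fun y _ => ?_
    split_ifs
    · refine Matrix.PosSemidef.submatrix (pairOp_posSemidef hS hc ?_) _
      intro h
      simpa using f.injective h
    · exact Matrix.PosSemidef.zero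
  · refine Matrix.posSemidef_sum _ fun x _ => Matrix.posSemidef_sum _ fun y _ => ?_
    split_ifs
    · refine Matrix.PosSemidef.submatrix (pairOp_posSemidef hS hc ?_) _
      intro h
      simpa using f.injective h
    · exact Matrix.PosSemidef.zero

/-- Logarithm of the shifted partition function. -/
noncomputable def logZ (b c : ℝ) (S : κ → Matrix d d ℂ) (F : Matrix d d ℂ) (adj : V → V → Prop)
    [DecidableRel adj] : ℝ :=
  Real.log (trace (NormedSpace.exp (totOp b c S F adj))).re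

theorem totOp_isHermitian (b c : ℝ) {S : κ → Matrix d d ℂ} (hS : ∀ a, (S a).IsHermitian)
    {F : Matrix d d ℂ} (hF : F.IsHermitian) (adj : V → V → Prop) [DecidableRel adj]
    (hadj : ∀ x, ¬ adj x x) : (totOp b c S F adj).IsHermitian := by
  have h1 : ∀ x y : V, x ≠ y → (pairOp c S x y).IsHermitian := by
    intro x y hxy
    rw [Matrix.IsHermitian, pairOp, Matrix.conjTranspose_add, Matrix.conjTranspose_smul,
      Matrix.conjTranspose_one, Matrix.conjTranspose_sum]
    congr 1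
    · simp
    · refine Finset.sum_congr rfl fun a _ => ?_
      rw [Matrix.conjTranspose_mul, siteOpV_conjTranspose, siteOpV_conjTranspose, hS a,
        siteOpV_commute hxy.symm]
  rw [Matrix.IsHermitian, totOp, Matrix.conjTranspose_add, Matrix.conjTranspose_smul,
    Matrix.conjTranspose_sum, Matrix.conjTranspose_sum]
  congr 1
  · congr 1
    · simp
    · refine Finset.sum_congr rfl fun x _ => ?_
      rw [Matrix.conjTranspose_sum]
      refine Finset.sum_congr rfl fun y _ => ?_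
      split_ifs with h
      · exact h1 x y (by rintro rfl; exact hadj _ h)
      · simp
  · refine Finset.sum_congr rfl fun x _ => ?_
    exact siteOpV_isHermitian x hF

section props

variable {b c : ℝ} (hb : 0 ≤ b) {S : κ → Matrix d d ℂ} (hS : ∀ a, (S a).IsHermitian)
  (hc : ((c : ℂ) • (1 : Matrix d d ℂ) - ∑ a, S a * S a).PosSemidef)
  {F : Matrix d d ℂ} (hF : F.PosSemidef)

include hb hS hc hF

theorem logZ_superadd [Nonempty d] (adj : V → V → Prop) [DecidableRel adj]
    (hadj : ∀ x, ¬ adj x x) (f : V₁ ⊕ V₂ ≃ V) :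
    logZ b c S F (fun x y : V₁ => adj (f (Sum.inl x)) (f (Sum.inl y))) +
      logZ b c S F (fun x y : V₂ => adj (f (Sum.inr x)) (f (Sum.inr y))) ≤
      logZ b c S F adj := by
  have h1 := totOp_isHermitian b c hS hF.1 (fun x y : V₁ => adj (f (Sum.inl x)) (f (Sum.inl y)))
    (fun x => hadj _)
  have h2 := totOp_isHermitian b c hS hF.1 (fun x y : V₂ => adj (f (Sum.inr x)) (f (Sum.inr y)))
    (fun x => hadj _)
  have h3 := totOp_isHermitian b c hS hF.1 adj hadj
  have h := trace_exp_prod_le (confEquiv f) h1 h2 h3 (totOp_split hb hS hc F adj f)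
  have p1 := trace_exp_pos h1
  have p2 := trace_exp_pos h2
  unfold logZ
  rw [← Real.log_mul p1.ne' p2.ne']
  exact Real.log_le_log (mul_pos p1 p2) h

theorem logZ_nonneg [Nonempty d] (adj : V → V → Prop) [DecidableRel adj]
    (hadj : ∀ x, ¬ adj x x) : 0 ≤ logZ b c S F adj := by
  have h1 := totOp_isHermitian b c hS hF.1 adj hadj
  have h2 := totOp_posSemidef hb hS hc hF adj hadj
  have h3 := trace_exp_mono (X := (0 : Matrix (V → d) (V → d) ℂ)) Matrix.isHermitian_zero h1
    (by simpa using h2)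
  unfold logZ
  refine Real.log_nonneg (le_trans ?_ h3)
  rw [NormedSpace.exp_zero, Matrix.trace_one, Complex.natCast_re]
  exact_mod_cast Fintype.card_pos

end props

theorem siteOpV_relabel {W : Type*} [Fintype W] [DecidableEq W] (g : V ≃ W) (x : V)
    (A : Matrix d d ℂ) :
    (siteOpV (g x) A).submatrix (Equiv.arrowCongr g (Equiv.refl d))
      (Equiv.arrowCongr g (Equiv.refl d)) = siteOpV x A := by
  ext p q
  simp only [Matrix.submatrix_apply, siteOpV, prodOp, Matrix.of_apply]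
  rw [← Equiv.prod_comp g]
  refine Finset.prod_congr rfl fun y _ => ?_
  have hp : ∀ r : V → d, (g.arrowCongr (Equiv.refl d)) r (g y) = r y := by
    intro r; simp [Equiv.arrowCongr]
  rw [hp, hp]
  by_cases h : y = x
  · subst h; simp
  · simp [h]

theorem logZ_relabel {W : Type*} [Fintype W] [DecidableEq W] (g : V ≃ W) (b c : ℝ)
    (S : κ → Matrix d d ℂ) (F : Matrix d d ℂ) (adj : W → W → Prop) [DecidableRel adj] :
    logZ b c S F (fun x y : V => adj (g x) (g y)) = logZ b c S F adj := by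
  have h : (totOp b c S F adj).submatrix (Equiv.arrowCongr g (Equiv.refl d))
      (Equiv.arrowCongr g (Equiv.refl d)) = totOp b c S F (fun x y : V => adj (g x) (g y)) := by
    have h2 : ∀ x y : W, (if adj x y then pairOp c S x y else 0).submatrix
        (Equiv.arrowCongr g (Equiv.refl d)) (Equiv.arrowCongr g (Equiv.refl d)) =
        if adj x y then (pairOp c S x y).submatrix
        (Equiv.arrowCongr g (Equiv.refl d)) (Equiv.arrowCongr g (Equiv.refl d)) else 0 := by
      intro x y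
      split_ifs
      · rfl
      · ext i j; rfl
    have h5 : ∀ x y : V, (pairOp c S (g x) (g y)).submatrix
        (Equiv.arrowCongr g (Equiv.refl d)) (Equiv.arrowCongr g (Equiv.refl d)) =
        pairOp c S x y := by
      intro x y
      simp only [pairOp, Matrix.submatrix_add, Pi.add_apply, Matrix.submatrix_smul, Pi.smul_apply,
        submatrix_sum_eq, Matrix.submatrix_one_equiv]
      congr 1
      refine Finset.sum_congr rfl fun a _ => ?_
      rw [← Matrix.submatrix_mul_equiv _ _ _ (Equiv.arrowCongr g (Equiv.refl d)) _,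
        siteOpV_relabel, siteOpV_relabel]
    simp only [totOp, Matrix.submatrix_add, Pi.add_apply, Matrix.submatrix_smul, Pi.smul_apply,
      submatrix_sum_eq, h2]
    simp only [← Equiv.sum_comp g, h5, siteOpV_relabel]
  unfold logZ
  rw [← h, trace_exp_submatrix]

theorem pairOp_upper {c : ℝ} {S : κ → Matrix d d ℂ} (hS : ∀ a, (S a).IsHermitian)
    (hc : ((c : ℂ) • (1 : Matrix d d ℂ) - ∑ a, S a * S a).PosSemidef) {x y : V} (hxy : x ≠ y) :
    (((2 * c : ℝ) : ℂ) • (1 : Matrix (V → d) (V → d) ℂ) - pairOp c S x y).PosSemidef := by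
  have h1 : ((2 * c : ℝ) : ℂ) • (1 : Matrix (V → d) (V → d) ℂ) - pairOp c S x y =
      (1 / 2 : ℂ) • (∑ a, (siteOpV x (S a) - siteOpV y (S a))ᴴ *
      (siteOpV x (S a) - siteOpV y (S a)) +
      (siteOpV x ((c : ℂ) • (1 : Matrix d d ℂ) - ∑ a, S a * S a) +
       siteOpV y ((c : ℂ) • (1 : Matrix d d ℂ) - ∑ a, S a * S a))) := by
    have h2 : ∀ a, (siteOpV x (S a) - siteOpV y (S a))ᴴ *
        (siteOpV x (S a) - siteOpV y (S a)) =
        siteOpV x (S a * S a) + siteOpV y (S a * S a) -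
          (2 : ℂ) • (siteOpV x (S a) * siteOpV y (S a)) := by
      intro a
      rw [Matrix.conjTranspose_sub, siteOpV_conjTranspose, siteOpV_conjTranspose, hS a,
        Matrix.sub_mul, Matrix.mul_sub, Matrix.mul_sub, siteOpV_mul, siteOpV_mul,
        siteOpV_commute hxy.symm, two_smul]
      abel
    simp only [h2, Finset.sum_add_distrib, Finset.sum_sub_distrib, siteOpV_sub, siteOpV_smul,
      siteOpV_one, siteOpV_sum, pairOp, ← Finset.smul_sum]
    push_cast
    module
  rw [h1]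
  refine Matrix.PosSemidef.smul ?_ (by norm_num [Complex.le_def])
  refine Matrix.PosSemidef.add ?_ ((siteOpV_posSemidef x hc).add (siteOpV_posSemidef y hc))
  exact Matrix.posSemidef_sum _ fun a _ => Matrix.posSemidef_conjTranspose_mul_self _

theorem trace_exp_real_smul_one (k : ℝ) :
    (trace (NormedSpace.exp ((k : ℂ) • (1 : Matrix V V ℂ)))).re = Fintype.card V * Real.exp k := by
  have h : (k : ℂ) • (1 : Matrix V V ℂ) = diagonal (fun _ => (k : ℂ)) := by
    ext i j
    by_cases hij : i = j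
    · subst hij; simp
    · simp [hij]
  rw [h, Matrix.exp_diagonal, Matrix.trace_diagonal]
  simp [← Complex.exp_eq_exp_ℂ, ← Complex.ofReal_exp]

/-- Adding a real multiple of the identity to the exponent. -/
theorem trace_exp_add_smul_one {X : Matrix V V ℂ} (k : ℝ) :
    (trace (NormedSpace.exp (X + (k : ℂ) • (1 : Matrix V V ℂ)))).re =
      Real.exp k * (trace (NormedSpace.exp X)).re := by
  have hcomm : Commute X ((k : ℂ) • (1 : Matrix V V ℂ)) :=
    (Commute.one_right X).smul_right (k : ℂ)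
  have h : (k : ℂ) • (1 : Matrix V V ℂ) = diagonal (fun _ => (k : ℂ)) := by
    ext i j
    by_cases hij : i = j
    · subst hij; simp
    · simp [hij]
  rw [Matrix.exp_add_of_commute _ _ hcomm, h, Matrix.exp_diagonal]
  have h2 : diagonal (NormedSpace.exp fun _ : V => (k : ℂ)) =
      ((Real.exp k : ℝ) : ℂ) • (1 : Matrix V V ℂ) := by
    ext i j
    by_cases hij : i = j
    · subst hij; simp [Pi.exp_def, ← Complex.exp_eq_exp_ℂ]
    · simp [hij]
  rw [h2, Matrix.mul_smul, Matrix.mul_one, Matrix.trace_smul, smul_eq_mul, Complex.re_ofReal_mul]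

theorem logZ_upper [Nonempty d] {b c φ : ℝ} (hb : 0 ≤ b) {S : κ → Matrix d d ℂ}
    (hS : ∀ a, (S a).IsHermitian)
    (hc : ((c : ℂ) • (1 : Matrix d d ℂ) - ∑ a, S a * S a).PosSemidef) (hc0 : 0 ≤ c)
    {F : Matrix d d ℂ} (hF : F.IsHermitian)
    (hφ : ((φ : ℂ) • (1 : Matrix d d ℂ) - F).PosSemidef)
    (adj : V → V → Prop) [DecidableRel adj] (hadj : ∀ x, ¬ adj x x) (K : ℝ)
    (hK : ∀ x, ((Finset.univ.filter fun y => adj x y).card : ℝ) ≤ K) :
    logZ b c S F adj ≤ (Real.log (Fintype.card d) + 2 * b * c * K + φ) * Fintype.card V := by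
  have hH := totOp_isHermitian b c hS hF adj hadj
  set T : ℝ := (2 * b * c * K + φ) * Fintype.card V with hT
  have key : ((T : ℂ) • (1 : Matrix (V → d) (V → d) ℂ) - totOp b c S F adj).PosSemidef := by
    have e1 : (T : ℂ) • (1 : Matrix (V → d) (V → d) ℂ) - totOp b c S F adj =
        (∑ x : V, siteOpV x ((φ : ℂ) • (1 : Matrix d d ℂ) - F)) +
        (b : ℂ) • ((∑ x : V, ∑ y : V, if adj x y then
          (((2 * c : ℝ) : ℂ) • (1 : Matrix (V → d) (V → d) ℂ) - pairOp c S x y) else 0) +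
        ∑ x : V, ((2 * c * (K - (Finset.univ.filter fun y => adj x y).card) : ℝ) : ℂ) •
          (1 : Matrix (V → d) (V → d) ℂ)) := by
      have e2 : ∀ x : V, (∑ y : V, if adj x y then
          (((2 * c : ℝ) : ℂ) • (1 : Matrix (V → d) (V → d) ℂ) - pairOp c S x y) else 0) =
          (((Finset.univ.filter fun y => adj x y).card : ℝ) : ℂ) • (((2 * c : ℝ) : ℂ) •
            (1 : Matrix (V → d) (V → d) ℂ)) - ∑ y : V, if adj x y then pairOp c S x y else 0 := by
        intro x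
        rw [← Finset.sum_filter, ← Finset.sum_filter, Finset.sum_sub_distrib, Finset.sum_const]
        congr 1
        ext i j
        simp
      simp only [e2, Finset.sum_sub_distrib, siteOpV_sub, siteOpV_smul, siteOpV_one, totOp, hT]
      ext i j
      simp only [Matrix.add_apply, Matrix.sub_apply, Matrix.smul_apply, smul_eq_mul,
        Matrix.sum_apply]
      push_cast
      simp only [mul_sub, Finset.sum_sub_distrib, Finset.sum_const, Finset.card_univ, nsmul_eq_mul,
        ← Finset.mul_sum, ← Finset.sum_mul]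
      ring
    rw [e1]
    refine (Matrix.posSemidef_sum _ fun x _ => siteOpV_posSemidef x hφ).add ?_
    refine Matrix.PosSemidef.smul ?_ (by simpa using hb)
    refine Matrix.PosSemidef.add ?_ ?_
    · refine Matrix.posSemidef_sum _ fun x _ => Matrix.posSemidef_sum _ fun y _ => ?_
      split_ifs with h
      · exact pairOp_upper hS hc (by rintro rfl; exact hadj _ h)
      · exact Matrix.PosSemidef.zero
    · refine Matrix.posSemidef_sum _ fun x _ => ?_
      refine Matrix.PosSemidef.one.smul ?_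
      rw [Complex.zero_le_real]
      have := hK x
      have : 0 ≤ K - ((Finset.univ.filter fun y => adj x y).card : ℝ) := by linarith
      positivity
  have h1 : ((T : ℂ) • (1 : Matrix (V → d) (V → d) ℂ)).IsHermitian := by
    rw [Matrix.IsHermitian, Matrix.conjTranspose_smul, Matrix.conjTranspose_one]
    simp
  have h2 := trace_exp_mono hH h1 key
  rw [trace_exp_real_smul_one] at h2
  have h3 := Real.log_le_log (trace_exp_pos hH) h2
  unfold logZ
  refine h3.trans ?_
  have hd : (0 : ℝ) < Fintype.card d := by exact_mod_cast Fintype.card_pos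
  rw [Fintype.card_fun, Nat.cast_pow, Real.log_mul (by positivity) (Real.exp_pos _).ne',
    Real.log_pow, Real.log_exp, hT]
  apply le_of_eq
  ring

end

end Vale.Agent.P361
end

section

/-!
Limit along cubes of a superadditive, translation invariant set function.
-/

namespace Vale.Agent.P361

open Filter Topology Finset

/-- The cube `{0, …, L-1}³`. -/
noncomputable def cube (L : ℕ) : Finset Site := Fintype.piFinset fun _ => Finset.Ico (0 : ℤ) (L : ℤ)

theorem mem_cube {L : ℕ} {x : Site} : x ∈ cube L ↔ ∀ i, 0 ≤ x i ∧ x i < L := by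
  simp [cube, Fintype.mem_piFinset]

theorem card_cube (L : ℕ) : (cube L).card = L ^ 3 := by
  simp [cube]

theorem box_eq_map (N : ℕ) :
    box N = (cube (2 * N + 1)).map (addRightEmbedding (fun _ => -(N : ℤ))) := by
  ext x
  simp only [box, Finset.mem_Icc, Finset.mem_map, addRightEmbedding_apply, mem_cube, Pi.le_def]
  constructor
  · rintro ⟨h1, h2⟩
    refine ⟨fun i => x i + N, fun i => ⟨by linarith [h1 i], ?_⟩, ?_⟩
    · push_cast
      linarith [h2 i]
    · ext i; simp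
  · rintro ⟨y, hy, rfl⟩
    refine ⟨fun i => ?_, fun i => ?_⟩
    · simp only [Pi.add_apply]
      linarith [(hy i).1]
    · simp only [Pi.add_apply]
      have := (hy i).2
      push_cast at this
      linarith

theorem card_box (N : ℕ) : (box N).card = (2 * N + 1) ^ 3 := by
  rw [box_eq_map, Finset.card_map, card_cube]

section

variable {G : Finset Site → ℝ}
  (hsup : ∀ Λ₁ Λ₂ : Finset Site, Disjoint Λ₁ Λ₂ → G Λ₁ + G Λ₂ ≤ G (Λ₁ ∪ Λ₂))
  (htr : ∀ (v : Site) (Λ : Finset Site), G (Λ.map (addRightEmbedding v)) = G Λ)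
  (h0 : ∀ Λ : Finset Site, 0 ≤ G Λ)

include hsup h0

theorem G_mono {Λ₁ Λ₂ : Finset Site} (h : Λ₁ ⊆ Λ₂) : G Λ₁ ≤ G Λ₂ := by
  have h1 := hsup Λ₁ (Λ₂ \ Λ₁) Finset.disjoint_sdiff
  rw [Finset.union_sdiff_of_subset h] at h1
  linarith [h0 (Λ₂ \ Λ₁)]

theorem G_biUnion {ω : Type*} [DecidableEq ω] (J : Finset ω) (Λ : ω → Finset Site)
    (hd : (J : Set ω).PairwiseDisjoint Λ) : ∑ j ∈ J, G (Λ j) ≤ G (J.biUnion Λ) := by
  induction J using Finset.induction_on with
  | empty => simpa using h0 ∅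
  | insert a J ha ih =>
    rw [Finset.sum_insert ha, Finset.biUnion_insert]
    have h1 : Disjoint (Λ a) (J.biUnion Λ) := by
      rw [Finset.disjoint_biUnion_right]
      intro j hj
      exact hd (by simp) (by simp [hj]) (by rintro rfl; exact ha hj)
    have h2 := ih (hd.subset (by simp))
    linarith [hsup _ _ h1]

include htr

theorem G_cube_mul (m q L : ℕ) (hm : 0 < m) (hL : q * m ≤ L) :
    (q : ℝ) ^ 3 * G (cube m) ≤ G (cube L) := by
  set Λ : Site → Finset Site := fun j => (cube m).map (addRightEmbedding ((m : ℤ) • j)) with hΛ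
  have hmem : ∀ j x : Site, x ∈ Λ j ↔ ∀ i, (m : ℤ) * j i ≤ x i ∧ x i < (m : ℤ) * j i + m := by
    intro j x
    simp only [hΛ, Finset.mem_map, addRightEmbedding_apply, mem_cube]
    constructor
    · rintro ⟨y, hy, rfl⟩ i
      have := hy i
      simp only [Pi.add_apply, Pi.smul_apply, smul_eq_mul]
      constructor <;> linarith
    · intro h
      refine ⟨x - (m : ℤ) • j, fun i => ?_, by simp⟩
      have := h i
      simp only [Pi.sub_apply, Pi.smul_apply, smul_eq_mul]
      constructor <;> linarith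
  have hdisj : ((cube q : Finset Site) : Set Site).PairwiseDisjoint Λ := by
    intro j _ k _ hjk
    rw [Function.onFun, Finset.disjoint_left]
    intro x hx hx'
    apply hjk
    ext i
    have h1 := (hmem j x).1 hx i
    have h2 := (hmem k x).1 hx' i
    have hm' : (0 : ℤ) < m := by exact_mod_cast hm
    have e1 : x i / m = j i := by
      rw [Int.ediv_eq_iff_of_pos hm']
      constructor <;> linarith
    have e2 : x i / m = k i := by
      rw [Int.ediv_eq_iff_of_pos hm']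
      constructor <;> linarith
    rw [← e1, e2]
  have hsub : (cube q).biUnion Λ ⊆ cube L := by
    intro x hx
    rw [Finset.mem_biUnion] at hx
    obtain ⟨j, hj, hx⟩ := hx
    rw [mem_cube] at hj ⊢
    intro i
    have h1 := (hmem j x).1 hx i
    have h2 := hj i
    have hm' : (0 : ℤ) < m := by exact_mod_cast hm
    have hL' : (q : ℤ) * m ≤ L := by exact_mod_cast hL
    constructor
    · nlinarith [mul_nonneg hm'.le h2.1]
    · have h3 : j i + 1 ≤ q := h2.2
      nlinarith [mul_le_mul_of_nonneg_left h3 hm'.le]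
  have h1 := G_biUnion hsup h0 (cube q) Λ hdisj
  have h2 := G_mono hsup h0 hsub
  have h3 : ∑ j ∈ cube q, G (Λ j) = (q : ℝ) ^ 3 * G (cube m) := by
    simp only [hΛ, htr, Finset.sum_const, card_cube, nsmul_eq_mul, Nat.cast_pow]
  linarith

theorem tendsto_cube {C : ℝ} (hC : ∀ Λ : Finset Site, G Λ ≤ C * Λ.card) :
    ∃ p : ℝ, Tendsto (fun L : ℕ => G (cube L) / (L : ℝ) ^ 3) atTop (𝓝 p) := by
  set a : ℕ → ℝ := fun L => G (cube L) / (L : ℝ) ^ 3 with ha
  have hub : ∀ L : ℕ, 0 < L → a L ≤ C := by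
    intro L hL
    have : (0 : ℝ) < L := by exact_mod_cast hL
    simp only [ha]
    rw [div_le_iff₀ (by positivity)]
    have := hC (cube L)
    rw [card_cube] at this
    exact_mod_cast this
  set s : ℝ := ⨆ m : ℕ, a (m + 1) with hs
  have hbdd : BddAbove (Set.range fun m : ℕ => a (m + 1)) := by
    refine ⟨C, ?_⟩
    rintro _ ⟨m, rfl⟩
    exact hub _ (Nat.succ_pos m)
  refine ⟨s, ?_⟩
  rw [tendsto_order]
  constructor
  · intro u hu
    obtain ⟨m', hm'⟩ := exists_lt_of_lt_ciSup hu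
    set m := m' + 1 with hmdef
    have hm : 0 < m := Nat.succ_pos _
    have hmR : (0 : ℝ) < m := by exact_mod_cast hm
    have hlow : ∀ L : ℕ, 0 < L → (((L / m : ℕ) : ℝ) / L) ^ 3 * G (cube m) ≤ a L := by
      intro L hL
      have hLR : (0 : ℝ) < L := by exact_mod_cast hL
      have h1 := G_cube_mul hsup htr h0 m (L / m) L hm (Nat.div_mul_le_self L m)
      simp only [ha]
      rw [le_div_iff₀ (by positivity), div_pow]
      have : ((L / m : ℕ) : ℝ) ^ 3 / (L : ℝ) ^ 3 * G (cube m) * (L : ℝ) ^ 3 =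
          ((L / m : ℕ) : ℝ) ^ 3 * G (cube m) := by
        field_simp
      rw [this]
      exact h1
    have hlim : Tendsto (fun L : ℕ => (((L / m : ℕ) : ℝ) / L) ^ 3 * G (cube m)) atTop
        (𝓝 ((1 / (m : ℝ)) ^ 3 * G (cube m))) := by
      refine Tendsto.mul_const _ (Tendsto.pow ?_ 3)
      have h2 := (tendsto_nat_floor_mul_div_atTop (R := ℝ) (a := 1 / (m : ℝ))
        (by positivity)).comp tendsto_natCast_atTop_atTop
      refine h2.congr' ?_
      filter_upwards with L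
      simp only [Function.comp]
      congr 2
      rw [one_div, inv_mul_eq_div, Nat.floor_div_eq_div]
    have hval : (1 / (m : ℝ)) ^ 3 * G (cube m) = a m := by
      simp only [ha]
      field_simp
    rw [hval] at hlim
    filter_upwards [(tendsto_order.1 hlim).1 u hm', eventually_gt_atTop 0] with L h1 h2
    exact lt_of_lt_of_le h1 (hlow L h2)
  · intro u hu
    filter_upwards [eventually_gt_atTop 0] with L hL
    obtain ⟨k, rfl⟩ : ∃ k, L = k + 1 := ⟨L - 1, by omega⟩
    exact lt_of_le_of_lt (le_ciSup hbdd k) hu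

theorem tendsto_box {C : ℝ} (hC : ∀ Λ : Finset Site, G Λ ≤ C * Λ.card) :
    ∃ p : ℝ, Tendsto (fun N : ℕ => G (box N) / ((box N).card : ℝ)) atTop (𝓝 p) := by
  obtain ⟨p, hp⟩ := tendsto_cube hsup htr h0 hC
  refine ⟨p, ?_⟩
  have h1 : Tendsto (fun N : ℕ => 2 * N + 1) atTop atTop := by
    refine tendsto_atTop_mono (fun n => ?_) tendsto_id
    simp only [id]; omega
  refine (hp.comp h1).congr fun N => ?_
  simp only [Function.comp]
  rw [box_eq_map, htr, Finset.card_map, card_cube]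
  push_cast
  rfl

end

end Vale.Agent.P361
end

section

/-!
Existence of the thermodynamic limit of the pressure.
-/

namespace Vale.Agent.P361

open Matrix Filter Topology Finset
open scoped ComplexOrder Kronecker

theorem spin_isHermitian (n : ℕ) (a : Fin 3) : (spin n a).IsHermitian := by
  fin_cases a
  · simp only [spin, Matrix.IsHermitian]
    simp [Matrix.conjTranspose_smul, Matrix.conjTranspose_add, add_comm]
  · simp only [spin, Matrix.IsHermitian]
    simp only [Fin.mk_one, Fin.isValue, Matrix.cons_val_one, Matrix.cons_val_zero]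
    rw [Matrix.conjTranspose_smul, Matrix.conjTranspose_sub, Matrix.conjTranspose_conjTranspose]
    have : star (1 / (2 * Complex.I) : ℂ) = -(1 / (2 * Complex.I)) := by
      simp
    rw [this, neg_smul, ← smul_neg, neg_sub]
  · simp only [spin, spinZ, Matrix.IsHermitian]
    simp only [Fin.reduceFinMk, Matrix.cons_val]
    rw [Matrix.diagonal_conjTranspose]
    congr 1
    ext1 j
    simp

theorem isNN_irrefl (x : Site) : ¬ IsNN x x := by
  simp [IsNN]

theorem isNN_mem_Icc {x y : Site} (h : IsNN x y) : y ∈ Finset.Icc (x - 1) (x + 1) := by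
  rw [Finset.mem_Icc, Pi.le_def, Pi.le_def]
  have key : ∀ i, |x i - y i| ≤ 1 := by
    intro i
    have h1 : |x i - y i| ≤ ∑ j, |x j - y j| :=
      Finset.single_le_sum (f := fun j => |x j - y j|) (fun _ _ => abs_nonneg _)
        (Finset.mem_univ i)
    exact h1.trans_eq h
  refine ⟨fun i => ?_, fun i => ?_⟩
  · have := abs_le.1 (key i)
    simp only [Pi.sub_apply, Pi.one_apply]
    linarith
  · have := abs_le.1 (key i)
    simp only [Pi.add_apply, Pi.one_apply]
    linarith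

theorem degree_bound (Λ : Finset Site) (x : Λ) :
    (Finset.univ.filter fun y : Λ => IsNN x.1 y.1).card ≤ 27 := by
  have h1 : (Finset.univ.filter fun y : Λ => IsNN x.1 y.1).card ≤
      (Finset.Icc (x.1 - 1) (x.1 + 1)).card := by
    refine Finset.card_le_card_of_injOn (fun y => y.1) ?_ (Subtype.val_injective.injOn)
    intro y hy
    simp only [Finset.coe_filter, Finset.mem_univ, true_and, Set.mem_ofPred_eq] at hy
    exact Finset.mem_coe.2 (isNN_mem_Icc hy)
  refine h1.trans ?_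
  rw [Pi.card_Icc]
  simp only [Int.card_Icc, Pi.add_apply, Pi.sub_apply, Pi.one_apply]
  have : ∀ i : Fin 3, (x.1 i + 1 + 1 - (x.1 i - 1)).toNat = 3 := by
    intro i
    have : x.1 i + 1 + 1 - (x.1 i - 1) = 3 := by ring
    rw [this]; rfl
  simp [this]

/-- Number of ordered nearest-neighbour pairs. -/
noncomputable def edgeCount (Λ : Finset Site) : ℝ :=
  ∑ x : Λ, ∑ y : Λ, if IsNN x.1 y.1 then (1 : ℝ) else 0

theorem edgeCount_eq (Λ : Finset Site) :
    edgeCount Λ = ∑ x ∈ Λ, ∑ y ∈ Λ, if IsNN x y then (1 : ℝ) else 0 := by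
  unfold edgeCount
  rw [Finset.sum_coe_sort Λ (fun x => ∑ y : Λ, if IsNN x y.1 then (1 : ℝ) else 0)]
  refine Finset.sum_congr rfl fun x _ => ?_
  rw [Finset.sum_coe_sort Λ (fun y => if IsNN x y then (1 : ℝ) else 0)]

theorem edgeCount_superadd (Λ₁ Λ₂ : Finset Site) (h : Disjoint Λ₁ Λ₂) :
    edgeCount Λ₁ + edgeCount Λ₂ ≤ edgeCount (Λ₁ ∪ Λ₂) := by
  simp only [edgeCount_eq]
  rw [Finset.sum_union h]
  refine add_le_add ?_ ?_
  · refine Finset.sum_le_sum fun x _ => ?_
    exact Finset.sum_le_sum_of_subset_of_nonneg Finset.subset_union_left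
      (fun _ _ _ => by split_ifs <;> norm_num)
  · refine Finset.sum_le_sum fun x _ => ?_
    exact Finset.sum_le_sum_of_subset_of_nonneg Finset.subset_union_right
      (fun _ _ _ => by split_ifs <;> norm_num)

theorem isNN_add (x y v : Site) : IsNN (x + v) (y + v) ↔ IsNN x y := by
  simp [IsNN]

theorem edgeCount_translate (v : Site) (Λ : Finset Site) :
    edgeCount (Λ.map (addRightEmbedding v)) = edgeCount Λ := by
  simp only [edgeCount_eq, Finset.sum_map, addRightEmbedding_apply, isNN_add]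

theorem edgeCount_nonneg (Λ : Finset Site) : 0 ≤ edgeCount Λ := by
  unfold edgeCount
  exact Finset.sum_nonneg fun _ _ => Finset.sum_nonneg fun _ _ => by split_ifs <;> norm_num

theorem edgeCount_le (Λ : Finset Site) : edgeCount Λ ≤ 27 * Λ.card := by
  unfold edgeCount
  calc ∑ x : Λ, ∑ y : Λ, (if IsNN x.1 y.1 then (1 : ℝ) else 0) ≤ ∑ _x : Λ, (27 : ℝ) := by
        refine Finset.sum_le_sum fun x _ => ?_
        rw [Finset.sum_ite, Finset.sum_const_zero, add_zero, Finset.sum_const, nsmul_eq_mul,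
          mul_one]
        exact_mod_cast degree_bound Λ x
    _ = 27 * Λ.card := by
        rw [Finset.sum_const, Finset.card_univ, Fintype.card_coe, nsmul_eq_mul]
        ring

section

variable {b c φ : ℝ} (hb : 0 ≤ b) {n : ℕ}
  (hc : ((c : ℂ) • (1 : Matrix (Fin (n + 1)) (Fin (n + 1)) ℂ) -
    ∑ a, spin n a * spin n a).PosSemidef) (hc0 : 0 ≤ c)
  {F : Matrix (Fin (n + 1)) (Fin (n + 1)) ℂ} (hF : F.PosSemidef)
  (hφ : ((φ : ℂ) • (1 : Matrix (Fin (n + 1)) (Fin (n + 1)) ℂ) - F).PosSemidef)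

/-- Log partition function of a finite subset of the lattice. -/
noncomputable def lz (b c : ℝ) (n : ℕ) (F : Matrix (Fin (n + 1)) (Fin (n + 1)) ℂ)
    (Λ : Finset Site) : ℝ :=
  logZ (V := Λ) b c (spin n) F (fun x y => IsNN x.1 y.1)

theorem lz_translate (v : Site) (Λ : Finset Site) :
    lz b c n F (Λ.map (addRightEmbedding v)) = lz b c n F Λ := by
  unfold lz
  let g : Λ ≃ (Λ.map (addRightEmbedding v) : Finset Site) :=
    Equiv.ofBijective (fun x => ⟨x.1 + v, Finset.mem_map.2 ⟨x.1, x.2, rfl⟩⟩)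
      ⟨fun x y h => by
        have := congrArg Subtype.val h
        exact Subtype.ext (add_right_cancel this), fun y => by
        obtain ⟨x, hx, hy⟩ := Finset.mem_map.1 y.2
        exact ⟨⟨x, hx⟩, Subtype.ext hy⟩⟩
  have h := logZ_relabel g b c (spin n) F
    (fun x y : (Λ.map (addRightEmbedding v) : Finset Site) => IsNN x.1 y.1)
  rw [← h]
  have h2 : ∀ x y : Λ, IsNN (g x).1 (g y).1 ↔ IsNN x.1 y.1 := fun x y => isNN_add _ _ _
  unfold logZ totOp
  simp only [h2]

include hb hc hF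

theorem lz_superadd (Λ₁ Λ₂ : Finset Site) (h : Disjoint Λ₁ Λ₂) :
    lz b c n F Λ₁ + lz b c n F Λ₂ ≤ lz b c n F (Λ₁ ∪ Λ₂) := by
  unfold lz
  have := logZ_superadd hb (spin_isHermitian n) hc hF
    (fun x y : (Λ₁ ∪ Λ₂ : Finset Site) => IsNN x.1 y.1) (fun x => isNN_irrefl x.1)
    (Equiv.Finset.union Λ₁ Λ₂ h)
  exact this

theorem lz_nonneg (Λ : Finset Site) : 0 ≤ lz b c n F Λ :=
  logZ_nonneg hb (spin_isHermitian n) hc hF _ (fun x => isNN_irrefl x.1)

include hc0 hφ in
theorem lz_le (Λ : Finset Site) :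
    lz b c n F Λ ≤ (Real.log (Fintype.card (Fin (n + 1))) + 2 * b * c * 27 + φ) * Λ.card := by
  have := logZ_upper (V := Λ) hb (spin_isHermitian n) hc hc0 hF.1 hφ
    (fun x y => IsNN x.1 y.1) (fun x => isNN_irrefl x.1) 27
    (fun x => by exact_mod_cast degree_bound Λ x)
  rwa [Fintype.card_coe] at this

end

/-- The exponent `-β (H - h M)`. -/
noncomputable def expo (n : ℕ) (Λ : Finset Site) (β h : ℝ) :
    Matrix (Λ → Fin (n + 1)) (Λ → Fin (n + 1)) ℂ :=
  -(β : ℂ) • (hamiltonian n Λ - (h : ℂ) • magnetization n Λ)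

theorem totOp_eq (n : ℕ) (Λ : Finset Site) (β h c φ₀ : ℝ) :
    totOp (V := Λ) (β / 2) c (spin n)
      ((φ₀ : ℂ) • (1 : Matrix (Fin (n + 1)) (Fin (n + 1)) ℂ) + ((β * h : ℝ) : ℂ) • spin n 2)
      (fun x y => IsNN x.1 y.1) =
      expo n Λ β h + (((β / 2) * c * edgeCount Λ + φ₀ * Λ.card : ℝ) : ℂ) •
        (1 : Matrix (Λ → Fin (n + 1)) (Λ → Fin (n + 1)) ℂ) := by
  unfold totOp expo hamiltonian magnetization edgeCount pairOp
  simp only [siteOp_eq_siteOpV, siteOpV_add, siteOpV_smul, siteOpV_one]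
  have e1 : (∑ x : Λ, ∑ y : Λ, if IsNN x.1 y.1 then
      ((c : ℂ) • (1 : Matrix (Λ → Fin (n + 1)) (Λ → Fin (n + 1)) ℂ) +
        ∑ a, siteOpV x (spin n a) * siteOpV y (spin n a)) else 0) =
      ((c * ∑ x : Λ, ∑ y : Λ, (if IsNN x.1 y.1 then (1 : ℝ) else 0) : ℝ) : ℂ) •
        (1 : Matrix (Λ → Fin (n + 1)) (Λ → Fin (n + 1)) ℂ) +
      ∑ x : Λ, ∑ y : Λ, if IsNN x.1 y.1 then
        ∑ a, siteOpV x (spin n a) * siteOpV y (spin n a) else 0 := by
    push_cast
    rw [Finset.mul_sum, Finset.sum_smul, ← Finset.sum_add_distrib]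
    refine Finset.sum_congr rfl fun x _ => ?_
    rw [Finset.mul_sum, Finset.sum_smul, ← Finset.sum_add_distrib]
    refine Finset.sum_congr rfl fun y _ => ?_
    split_ifs <;> simp
  rw [e1, Finset.sum_add_distrib, Finset.sum_const, Finset.card_univ, Fintype.card_coe,
    ← Finset.smul_sum]
  push_cast
  module

theorem expo_isHermitian (n : ℕ) (Λ : Finset Site) (β h : ℝ) : (expo n Λ β h).IsHermitian := by
  have h1 := totOp_eq n Λ β h 0 0
  have h2 := totOp_isHermitian (V := Λ) (β / 2) 0 (spin_isHermitian n)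
    (F := ((0 : ℝ) : ℂ) • (1 : Matrix (Fin (n + 1)) (Fin (n + 1)) ℂ) +
      ((β * h : ℝ) : ℂ) • spin n 2) ?_ (fun x y => IsNN x.1 y.1) (fun x => isNN_irrefl x.1)
  · rw [h1] at h2
    simpa using h2
  · have h3 := spin_isHermitian n 2
    rw [Matrix.IsHermitian, Matrix.conjTranspose_add, Matrix.conjTranspose_smul,
      Matrix.conjTranspose_smul, h3]
    simp

theorem finPressure_eq (n : ℕ) (Λ : Finset Site) (β h c φ₀ : ℝ) :
    finPressure n Λ β h = (β * Λ.card)⁻¹ * (lz (β / 2) c n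
      ((φ₀ : ℂ) • (1 : Matrix (Fin (n + 1)) (Fin (n + 1)) ℂ) + ((β * h : ℝ) : ℂ) • spin n 2) Λ -
        ((β / 2) * c * edgeCount Λ + φ₀ * Λ.card)) := by
  unfold finPressure lz logZ
  rw [totOp_eq, trace_exp_add_smul_one, Real.log_mul (Real.exp_pos _).ne'
    (trace_exp_pos (expo_isHermitian n Λ β h)).ne', Real.log_exp]
  congr 1
  unfold expo
  ring

/-- Existence of the thermodynamic limit of the pressure. -/
theorem finPressure_tendsto (n : ℕ) {β : ℝ} (hβ : 0 < β) (h : ℝ) :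
    ∃ p : ℝ, Tendsto (fun N => finPressure n (box N) β h) atTop (𝓝 p) := by
  -- constants
  obtain ⟨c, hc0, hc⟩ := exists_upper_bound (X := ∑ a, spin n a * spin n a) (by
    rw [Matrix.IsHermitian, Matrix.conjTranspose_sum]
    refine Finset.sum_congr rfl fun a _ => ?_
    rw [Matrix.conjTranspose_mul, spin_isHermitian n a])
  have hherm : ∀ r : ℝ, ((r : ℂ) • spin n 2).IsHermitian := by
    intro r
    rw [Matrix.IsHermitian, Matrix.conjTranspose_smul, spin_isHermitian n 2]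
    simp
  obtain ⟨φ₀, _, hφ₀⟩ := exists_upper_bound (hherm (-(β * h)))
  set F : Matrix (Fin (n + 1)) (Fin (n + 1)) ℂ :=
    (φ₀ : ℂ) • (1 : Matrix (Fin (n + 1)) (Fin (n + 1)) ℂ) + ((β * h : ℝ) : ℂ) • spin n 2 with hFdef
  have hF : F.PosSemidef := by
    have : F = (φ₀ : ℂ) • (1 : Matrix (Fin (n + 1)) (Fin (n + 1)) ℂ) -
        ((-(β * h) : ℝ) : ℂ) • spin n 2 := by
      rw [hFdef, Complex.ofReal_neg, neg_smul, sub_neg_eq_add]
    rw [this]
    exact hφ₀
  obtain ⟨φ, _, hφ⟩ := exists_upper_bound hF.1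
  have hb : 0 ≤ β / 2 := by positivity
  obtain ⟨p₁, hp₁⟩ := tendsto_box (G := lz (β / 2) c n F)
    (lz_superadd hb hc hF) lz_translate (lz_nonneg hb hc hF) (lz_le hb hc hc0 hF hφ)
  obtain ⟨p₂, hp₂⟩ := tendsto_box (G := edgeCount)
    edgeCount_superadd edgeCount_translate edgeCount_nonneg edgeCount_le
  refine ⟨β⁻¹ * (p₁ - (β / 2 * c * p₂ + φ₀)), ?_⟩
  have hlim := ((hp₁.sub ((hp₂.const_mul (β / 2 * c)).add_const φ₀)).const_mul β⁻¹)
  refine hlim.congr fun N => ?_
  rw [finPressure_eq n (box N) β h c φ₀, ← hFdef]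
  have hcard : ((box N).card : ℝ) ≠ 0 := by
    rw [card_box]; positivity
  field_simp

/-- The pressure is the limit of the finite-volume pressures. -/
theorem pressure_tendsto (n : ℕ) {β : ℝ} (hβ : 0 < β) (h : ℝ) :
    Tendsto (fun N => finPressure n (box N) β h) atTop (𝓝 (pressure n β h)) :=
  tendsto_nhds_limUnder (finPressure_tendsto n hβ h)

end Vale.Agent.P361
end

section

/-!
Finite-volume magnetization, convexity of the pressure, and the right derivative.
-/

namespace Vale.Agent.P361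

open Matrix Filter Topology Finset
open scoped ComplexOrder Kronecker

/-- Total finite-volume magnetization `⟨M⟩`. -/
noncomputable def gibbsMag (n : ℕ) (Λ : Finset Site) (β h : ℝ) : ℝ :=
  (trace (NormedSpace.exp (expo n Λ β h) * magnetization n Λ)).re /
    (trace (NormedSpace.exp (expo n Λ β h))).re

theorem magnetization_isHermitian (n : ℕ) (Λ : Finset Site) :
    (magnetization n Λ).IsHermitian := by
  rw [Matrix.IsHermitian, magnetization, Matrix.conjTranspose_sum]
  refine Finset.sum_congr rfl fun x _ => ?_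
  exact siteOp_isHermitian x (spin_isHermitian n 2)

theorem expo_shift (n : ℕ) (Λ : Finset Site) (β h h' : ℝ) :
    expo n Λ β h' = expo n Λ β h + ((β * (h' - h) : ℝ) : ℂ) • magnetization n Λ := by
  unfold expo
  push_cast
  module

/-- Supporting line inequality for the logarithm of the partition function. -/
theorem log_trace_support (n : ℕ) (Λ : Finset Site) (β h h' : ℝ) :
    Real.log (trace (NormedSpace.exp (expo n Λ β h))).re + β * (h' - h) * gibbsMag n Λ β h ≤
      Real.log (trace (NormedSpace.exp (expo n Λ β h'))).re := by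
  have hY : (((β * (h' - h) : ℝ) : ℂ) • magnetization n Λ).IsHermitian := by
    rw [Matrix.IsHermitian, Matrix.conjTranspose_smul, magnetization_isHermitian n Λ]
    simp
  have h1 := peierls_bogoliubov (expo_isHermitian n Λ β h) hY
  rw [← expo_shift] at h1
  refine le_trans (le_of_eq ?_) h1
  congr 1
  rw [Matrix.mul_smul, Matrix.trace_smul, smul_eq_mul, Complex.re_ofReal_mul]
  unfold gibbsMag
  ring

theorem finPressure_def (n : ℕ) (Λ : Finset Site) (β h : ℝ) :
    finPressure n Λ β h = (β * Λ.card)⁻¹ * Real.log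
      (trace (NormedSpace.exp (expo n Λ β h))).re := rfl

theorem finPressure_support (n : ℕ) {Λ : Finset Site} (hΛ : Λ.Nonempty) {β : ℝ} (hβ : 0 < β)
    (h h' : ℝ) :
    finPressure n Λ β h + (h' - h) * (gibbsMag n Λ β h / Λ.card) ≤ finPressure n Λ β h' := by
  have h1 := log_trace_support n Λ β h h'
  have hc : (0 : ℝ) < Λ.card := by exact_mod_cast hΛ.card_pos
  rw [finPressure_def, finPressure_def]
  have h2 := mul_le_mul_of_nonneg_left h1 (a := (β * Λ.card)⁻¹) (by positivity)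
  refine le_trans (le_of_eq ?_) h2
  field_simp

theorem convexOn_of_support {f g : ℝ → ℝ} (hfg : ∀ x y, f x + (y - x) * g x ≤ f y) :
    ConvexOn ℝ Set.univ f := by
  refine ⟨convex_univ, ?_⟩
  intro x _ y _ a b ha hb hab
  simp only [smul_eq_mul]
  set z := a * x + b * y with hz
  have h1 := hfg z x
  have h2 := hfg z y
  have h3 : a * (x - z) + b * (y - z) = 0 := by
    have : a * (x - z) + b * (y - z) = (a * x + b * y) - (a + b) * z := by ring
    rw [this, hab, hz]; ring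
  calc f z = a * (f z + (x - z) * g z) + b * (f z + (y - z) * g z) := by
        have : a * (f z + (x - z) * g z) + b * (f z + (y - z) * g z) =
          (a + b) * f z + (a * (x - z) + b * (y - z)) * g z := by ring
        rw [this, hab, h3]; ring
    _ ≤ a * f x + b * f y := by
        exact add_le_add (mul_le_mul_of_nonneg_left h1 ha) (mul_le_mul_of_nonneg_left h2 hb)

theorem finPressure_convex (n : ℕ) {Λ : Finset Site} (hΛ : Λ.Nonempty) {β : ℝ} (hβ : 0 < β) :
    ConvexOn ℝ Set.univ (finPressure n Λ β) :=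
  convexOn_of_support (finPressure_support n hΛ hβ)

theorem box_nonempty (N : ℕ) : (box N).Nonempty := by
  rw [← Finset.card_pos, card_box]; positivity

theorem pressure_convex (n : ℕ) {β : ℝ} (hβ : 0 < β) :
    ConvexOn ℝ Set.univ (pressure n β) := by
  refine ⟨convex_univ, ?_⟩
  intro x _ y _ a b ha hb hab
  refine le_of_tendsto_of_tendsto' (pressure_tendsto n hβ (a • x + b • y))
    (((pressure_tendsto n hβ x).const_smul a).add ((pressure_tendsto n hβ y).const_smul b))
    fun N => ?_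
  exact (finPressure_convex n (box_nonempty N) hβ).2 (Set.mem_univ x) (Set.mem_univ y) ha hb hab

/-- The right derivative of the pressure exists at every field. -/
theorem pressure_hasRightDeriv (n : ℕ) {β : ℝ} (hβ : 0 < β) (h : ℝ) :
    HasDerivWithinAt (pressure n β) (derivWithin (pressure n β) (Set.Ioi h) h) (Set.Ioi h) h :=
  (pressure_convex n hβ).hasDerivWithinAt_rightDeriv_of_mem_interior (by simp)

theorem spontMag_hasDeriv (n : ℕ) {β : ℝ} (hβ : 0 < β) :
    HasDerivWithinAt (pressure n β) (spontMag n β) (Set.Ioi 0) 0 :=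
  pressure_hasRightDeriv n hβ 0

theorem rightDeriv_le_slope' (n : ℕ) {β : ℝ} (hβ : 0 < β) {h₀ h : ℝ} (hh : h₀ < h) :
    derivWithin (pressure n β) (Set.Ioi h₀) h₀ ≤ (pressure n β h - pressure n β h₀) / (h - h₀) := by
  have := (pressure_convex n hβ).rightDeriv_le_slope_of_mem_interior (x := h₀) (y := h)
    (by simp) (Set.mem_univ _) hh
  rwa [slope_def_field] at this

theorem gibbsMag_ge_slope (n : ℕ) {Λ : Finset Site} (hΛ : Λ.Nonempty) {β : ℝ} (hβ : 0 < β)
    {h₀ h : ℝ} (hh : h₀ < h) :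
    (finPressure n Λ β h - finPressure n Λ β h₀) / (h - h₀) ≤ gibbsMag n Λ β h / Λ.card := by
  have h1 := finPressure_support n hΛ hβ h h₀
  rw [div_le_iff₀ (by linarith)]
  linarith

/-- Eventually the finite-volume magnetization at field `h > h₀` exceeds any number below the
right derivative of the pressure at `h₀`. -/
theorem eventually_lt_gibbsMag (n : ℕ) {β : ℝ} (hβ : 0 < β) {h₀ h : ℝ} (hh : h₀ < h) {m : ℝ}
    (hm : m < derivWithin (pressure n β) (Set.Ioi h₀) h₀) :
    ∀ᶠ N : ℕ in atTop, m < gibbsMag n (box N) β h / (box N).card := by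
  have h1 := lt_of_lt_of_le hm (rightDeriv_le_slope' n hβ hh)
  have h2 : Tendsto (fun N => (finPressure n (box N) β h - finPressure n (box N) β h₀) / (h - h₀))
      atTop (𝓝 ((pressure n β h - pressure n β h₀) / (h - h₀))) :=
    ((pressure_tendsto n hβ h).sub (pressure_tendsto n hβ h₀)).div_const _
  filter_upwards [(tendsto_order.1 h2).1 m h1] with N hN
  exact lt_of_lt_of_le hN (gibbsMag_ge_slope n (box_nonempty N) hβ hh)

theorem eventually_lt_gibbsMag_zero (n : ℕ) {β : ℝ} (hβ : 0 < β) {h : ℝ} (hh : 0 < h) {m : ℝ}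
    (hm : m < spontMag n β) :
    ∀ᶠ N : ℕ in atTop, m < gibbsMag n (box N) β h / (box N).card :=
  eventually_lt_gibbsMag n hβ hh hm

end Vale.Agent.P361
end

section

namespace Vale.Agent.P361.H

open Matrix

variable {n : ℕ} {Λ : Finset Site}

/-- Product operator. -/
noncomputable def prodOp (A : Λ → Matrix (Fin (n + 1)) (Fin (n + 1)) ℂ) :
    Matrix (Λ → Fin (n + 1)) (Λ → Fin (n + 1)) ℂ :=
  Matrix.of fun σ τ => ∏ y : Λ, A y (σ y) (τ y)

lemma prodOp_mul (A B : Λ → Matrix (Fin (n + 1)) (Fin (n + 1)) ℂ) :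
    prodOp A * prodOp B = prodOp (fun y => A y * B y) := by
  ext σ τ
  simp only [prodOp, Matrix.mul_apply, Matrix.of_apply]
  rw [Finset.prod_univ_sum]
  simp only [Fintype.piFinset_univ, Finset.prod_mul_distrib]

lemma siteOp_eq_prodOp (x : Λ) (A : Matrix (Fin (n + 1)) (Fin (n + 1)) ℂ) :
    siteOp x A = prodOp (fun y => if y = x then A else 1) := rfl

lemma siteOp_mul (x : Λ) (A B : Matrix (Fin (n + 1)) (Fin (n + 1)) ℂ) :
    siteOp x A * siteOp x B = siteOp x (A * B) := by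
  rw [siteOp_eq_prodOp, siteOp_eq_prodOp, siteOp_eq_prodOp, prodOp_mul]
  congr 1
  ext1 y
  split_ifs <;> simp

lemma siteOp_comm {x y : Λ} (hxy : x ≠ y) (A B : Matrix (Fin (n + 1)) (Fin (n + 1)) ℂ) :
    siteOp x A * siteOp y B = siteOp y B * siteOp x A := by
  rw [siteOp_eq_prodOp, siteOp_eq_prodOp, prodOp_mul, prodOp_mul]
  congr 1
  ext1 z
  by_cases h1 : z = x
  · have h2 : z ≠ y := fun h => hxy (h1.symm.trans h)
    simp [h1, hxy]
  · simp [h1]

lemma siteOp_apply (x : Λ) (A : Matrix (Fin (n + 1)) (Fin (n + 1)) ℂ) (σ τ : Λ → Fin (n + 1)) :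
    siteOp x A σ τ = A (σ x) (τ x) *
      ∏ y ∈ Finset.univ.erase x, (1 : Matrix (Fin (n + 1)) (Fin (n + 1)) ℂ) (σ y) (τ y) := by
  simp only [siteOp, Matrix.of_apply]
  rw [← Finset.mul_prod_erase Finset.univ _ (Finset.mem_univ x)]
  congr 1
  · simp
  · refine Finset.prod_congr rfl fun y hy => ?_
    rw [if_neg (Finset.ne_of_mem_erase hy)]

lemma siteOp_add (x : Λ) (A B : Matrix (Fin (n + 1)) (Fin (n + 1)) ℂ) :
    siteOp x (A + B) = siteOp x A + siteOp x B := by
  ext σ τ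
  rw [Matrix.add_apply, siteOp_apply, siteOp_apply, siteOp_apply, Matrix.add_apply, add_mul]

lemma siteOp_smul (x : Λ) (c : ℂ) (A : Matrix (Fin (n + 1)) (Fin (n + 1)) ℂ) :
    siteOp x (c • A) = c • siteOp x A := by
  ext σ τ
  rw [Matrix.smul_apply, siteOp_apply, siteOp_apply, Matrix.smul_apply, smul_eq_mul, smul_eq_mul,
    mul_assoc]

lemma siteOp_neg (x : Λ) (A : Matrix (Fin (n + 1)) (Fin (n + 1)) ℂ) :
    siteOp x (-A) = - siteOp x A := by
  have := siteOp_smul x (-1) A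
  simpa using this

lemma siteOp_sub (x : Λ) (A B : Matrix (Fin (n + 1)) (Fin (n + 1)) ℂ) :
    siteOp x (A - B) = siteOp x A - siteOp x B := by
  rw [sub_eq_add_neg, siteOp_add, siteOp_neg, ← sub_eq_add_neg]

lemma siteOp_one (x : Λ) :
    siteOp x (1 : Matrix (Fin (n + 1)) (Fin (n + 1)) ℂ) = 1 := by
  ext σ τ
  simp only [siteOp, Matrix.of_apply, ite_self]
  by_cases h : σ = τ
  · subst h; simp
  · rw [Matrix.one_apply_ne h]
    obtain ⟨y, hy⟩ := Function.ne_iff.1 h
    exact Finset.prod_eq_zero (Finset.mem_univ y) (Matrix.one_apply_ne hy)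

lemma siteOp_conjTranspose (x : Λ) (A : Matrix (Fin (n + 1)) (Fin (n + 1)) ℂ) :
    (siteOp x A)ᴴ = siteOp x Aᴴ := by
  ext σ τ
  rw [Matrix.conjTranspose_apply]
  simp only [siteOp, Matrix.of_apply]
  rw [star_prod]
  refine Finset.prod_congr rfl fun y _ => ?_
  split_ifs
  · rw [Matrix.conjTranspose_apply]
  · rw [← Matrix.conjTranspose_apply, Matrix.conjTranspose_one]

lemma siteOp_transpose (x : Λ) (A : Matrix (Fin (n + 1)) (Fin (n + 1)) ℂ) :
    (siteOp x A)ᵀ = siteOp x Aᵀ := by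
  ext σ τ
  rw [Matrix.transpose_apply]
  simp only [siteOp, Matrix.of_apply]
  refine Finset.prod_congr rfl fun y _ => ?_
  split_ifs
  · rw [Matrix.transpose_apply]
  · change (1 : Matrix (Fin (n + 1)) (Fin (n + 1)) ℂ)ᵀ (σ y) (τ y) = _
    rw [Matrix.transpose_one]

/-! Local spin algebra. -/

/-- Schwinger factors: `a = diag √(n-j)`, `b |j⟩ = √j |j-1⟩`. -/
noncomputable def schwA (n : ℕ) : Matrix (Fin (n + 1)) (Fin (n + 1)) ℂ :=
  Matrix.diagonal fun j => ((Real.sqrt ((n : ℝ) - (j : ℕ)) : ℝ) : ℂ)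

noncomputable def schwB (n : ℕ) : Matrix (Fin (n + 1)) (Fin (n + 1)) ℂ :=
  Matrix.of fun i j => if (j : ℕ) = (i : ℕ) + 1 then ((Real.sqrt ((j : ℕ) : ℝ) : ℝ) : ℂ) else 0

lemma fin_le (j : Fin (n + 1)) : ((j : ℕ) : ℝ) ≤ n := by
  exact_mod_cast Nat.lt_succ_iff.1 j.2

lemma spinLower_apply (i j : Fin (n + 1)) : spinLower n i j =
    if (i : ℕ) = (j : ℕ) + 1 then ((Real.sqrt (((i : ℕ) : ℝ) * ((n : ℝ) + 1 - (i : ℕ))) : ℝ) : ℂ)
    else 0 := rfl

lemma spinLower_conj_apply (i j : Fin (n + 1)) : (spinLower n)ᴴ i j =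
    if (j : ℕ) = (i : ℕ) + 1 then ((Real.sqrt (((j : ℕ) : ℝ) * ((n : ℝ) + 1 - (j : ℕ))) : ℝ) : ℂ)
    else 0 := by
  rw [Matrix.conjTranspose_apply, spinLower_apply]
  split_ifs <;> simp

lemma spinLower_transpose : (spinLower n)ᵀ = (spinLower n)ᴴ := by
  ext i j
  rw [spinLower_conj_apply, Matrix.transpose_apply, spinLower_apply]

lemma spinZ_conj : (spinZ n)ᴴ = spinZ n := by
  rw [spinZ, Matrix.diagonal_conjTranspose]
  congr 1
  ext j
  simp

lemma spinZ_transpose : (spinZ n)ᵀ = spinZ n := Matrix.diagonal_transpose _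

/-- `a† b = S⁺`. -/
lemma schwA_schwB : (schwA n)ᴴ * schwB n = (spinLower n)ᴴ := by
  ext i j
  rw [spinLower_conj_apply, schwA, Matrix.diagonal_conjTranspose, Matrix.diagonal_mul]
  simp only [schwB, Matrix.of_apply, Pi.star_apply]
  split_ifs with h
  · rw [RCLike.star_def, Complex.conj_ofReal, ← Complex.ofReal_mul, mul_comm, ← Real.sqrt_mul (by positivity)]
    congr 3
    rw [h]; push_cast; ring
  · simp

lemma schwB_schwA : (schwB n)ᴴ * schwA n = spinLower n := by
  have := congrArg Matrix.conjTranspose (schwA_schwB (n := n))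
  rw [Matrix.conjTranspose_mul] at this
  simpa using this

lemma schwA_schwA : (schwA n)ᴴ * schwA n = ((n : ℂ) / 2) • (1 : Matrix _ _ ℂ) + spinZ n := by
  rw [schwA, Matrix.diagonal_conjTranspose, Matrix.diagonal_mul_diagonal, spinZ,
    ← Matrix.diagonal_one, ← Matrix.diagonal_smul, Matrix.diagonal_add]
  congr 1
  ext j
  have h : 0 ≤ (n : ℝ) - (j : ℕ) := by have := fin_le j; linarith
  simp only [Pi.star_apply, RCLike.star_def, Complex.conj_ofReal, Pi.smul_apply, smul_eq_mul, mul_one]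
  rw [← Complex.ofReal_mul, Real.mul_self_sqrt h]
  push_cast; ring

lemma schwB_schwB : (schwB n)ᴴ * schwB n = ((n : ℂ) / 2) • (1 : Matrix _ _ ℂ) - spinZ n := by
  rw [spinZ, ← Matrix.diagonal_one, ← Matrix.diagonal_smul, Matrix.diagonal_sub]
  ext i j
  rw [Matrix.mul_apply]
  simp only [Matrix.conjTranspose_apply, schwB, Matrix.of_apply]
  rw [Matrix.diagonal_apply]
  split_ifs with hij
  · subst hij
    simp only [Pi.smul_apply, smul_eq_mul, mul_one]
    rcases Nat.eq_zero_or_pos (i : ℕ) with h0 | hpos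
    · rw [Finset.sum_eq_zero]
      · simp [h0]
      · intro k _
        rw [if_neg (by omega)]; simp
    · rw [Finset.sum_eq_single (⟨(i : ℕ) - 1, by omega⟩ : Fin (n + 1))]
      · rw [if_pos (by simp; omega)]
        rw [RCLike.star_def, Complex.conj_ofReal, ← Complex.ofReal_mul,
          Real.mul_self_sqrt (by positivity)]
        push_cast; ring
      · intro k _ hk
        rw [if_neg]
        · simp
        · intro h
          apply hk
          ext; simp; omega
      · simp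
  · apply Finset.sum_eq_zero
    intro k _
    by_cases h1 : (i : ℕ) = (k : ℕ) + 1
    · rw [if_neg (c := (j : ℕ) = (k : ℕ) + 1)]
      · simp
      · intro h2; exact hij (Fin.ext (h1.trans h2.symm))
    · rw [if_neg h1]; simp

/-- `S⁻ S⁺ = diag (j (n+1-j))`. -/
lemma lower_raise : spinLower n * (spinLower n)ᴴ =
    Matrix.diagonal fun j : Fin (n + 1) => (((j : ℕ) : ℂ) * ((n : ℂ) + 1 - ((j : ℕ) : ℂ))) := by
  ext i j
  rw [Matrix.mul_apply, Matrix.diagonal_apply]
  simp only [Matrix.conjTranspose_apply, spinLower_apply]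
  split_ifs with hij
  · subst hij
    rcases Nat.eq_zero_or_pos (i : ℕ) with h0 | hpos
    · rw [Finset.sum_eq_zero]
      · simp [h0]
      · intro k _
        rw [if_neg (by omega)]; simp
    · rw [Finset.sum_eq_single (⟨(i : ℕ) - 1, by omega⟩ : Fin (n + 1))]
      · rw [if_pos (by simp; omega)]
        have h : 0 ≤ ((i : ℕ) : ℝ) * ((n : ℝ) + 1 - (i : ℕ)) := by
          have := fin_le i
          exact mul_nonneg (by positivity) (by linarith)
        rw [RCLike.star_def, Complex.conj_ofReal, ← Complex.ofReal_mul, Real.mul_self_sqrt h]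
        push_cast; ring
      · intro k _ hk
        rw [if_neg]
        · simp
        · intro h
          apply hk
          ext; simp; omega
      · simp
  · apply Finset.sum_eq_zero
    intro k _
    by_cases h1 : (i : ℕ) = (k : ℕ) + 1
    · rw [if_neg (c := (j : ℕ) = (k : ℕ) + 1)]
      · simp
      · intro h2; exact hij (Fin.ext (h1.trans h2.symm))
    · rw [if_neg h1]; simp

/-- `S⁺ S⁻ = diag ((j+1) (n-j))`. -/
lemma raise_lower : (spinLower n)ᴴ * spinLower n =
    Matrix.diagonal fun j : Fin (n + 1) => ((((j : ℕ) : ℂ) + 1) * ((n : ℂ) - ((j : ℕ) : ℂ))) := by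
  ext i j
  rw [Matrix.mul_apply, Matrix.diagonal_apply]
  simp only [Matrix.conjTranspose_apply, spinLower_apply]
  split_ifs with hij
  · subst hij
    rcases Nat.lt_or_ge (i : ℕ) n with hlt | hge
    · rw [Finset.sum_eq_single (⟨(i : ℕ) + 1, by omega⟩ : Fin (n + 1))]
      · rw [if_pos (by simp)]
        have h : 0 ≤ (((i : ℕ) + 1 : ℕ) : ℝ) * ((n : ℝ) + 1 - ((i : ℕ) + 1 : ℕ)) := by
          have := fin_le i
          refine mul_nonneg (by positivity) ?_
          push_cast; linarith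
        rw [RCLike.star_def, Complex.conj_ofReal, ← Complex.ofReal_mul, Real.mul_self_sqrt h]
        push_cast; ring
      · intro k _ hk
        rw [if_neg]
        · simp
        · intro h
          apply hk
          ext; simp; omega
      · simp
    · have hi : (i : ℕ) = n := by have := i.2; omega
      rw [Finset.sum_eq_zero]
      · rw [hi]; simp
      · intro k _
        rw [if_neg (by have := k.2; omega)]; simp
  · apply Finset.sum_eq_zero
    intro k _
    by_cases h1 : (k : ℕ) = (i : ℕ) + 1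
    · rw [if_neg (c := (k : ℕ) = (j : ℕ) + 1)]
      · simp
      · intro h2; exact hij (Fin.ext (by omega))
    · rw [if_neg h1]; simp

/-- `[S⁺, S⁻] = 2 S³`. -/
lemma comm_raise_lower : (spinLower n)ᴴ * spinLower n - spinLower n * (spinLower n)ᴴ =
    (2 : ℂ) • spinZ n := by
  rw [raise_lower, lower_raise, Matrix.diagonal_sub, spinZ, ← Matrix.diagonal_smul]
  congr 1
  ext j
  simp only [Pi.smul_apply, smul_eq_mul]
  ring

/-- `[S³, S⁻] = - S⁻`. -/
lemma comm_z_lower : spinZ n * spinLower n - spinLower n * spinZ n = - spinLower n := by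
  ext i j
  rw [Matrix.sub_apply, Matrix.neg_apply, spinZ, Matrix.diagonal_mul, Matrix.mul_diagonal,
    spinLower_apply]
  split_ifs with h
  · rw [h]; push_cast; ring
  · simp

end Vale.Agent.P361.H
end

section

namespace Vale.Agent.P361.H

open Matrix

variable {ι : Type*} [Fintype ι] [DecidableEq ι]

lemma exists_diag (K : Matrix ι ι ℂ) (hK : K.IsHermitian) :
    ∃ (U : Matrix ι ι ℂ) (E : ι → ℝ), Uᴴ * U = 1 ∧ U * Uᴴ = 1 ∧
      K = U * diagonal (fun i => (E i : ℂ)) * Uᴴ ∧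
      NormedSpace.exp K = U * diagonal (fun i => ((Real.exp (E i) : ℝ) : ℂ)) * Uᴴ := by
  refine ⟨hK.eigenvectorUnitary, hK.eigenvalues, ?_, ?_, ?_, ?_⟩
  · exact Unitary.coe_star_mul_self _
  · exact Unitary.coe_mul_star_self _
  · have h := hK.spectral_theorem
    rw [Unitary.conjStarAlgAut_apply] at h
    exact h
  · have h := hK.spectral_theorem
    rw [Unitary.conjStarAlgAut_apply] at h
    have hU : (hK.eigenvectorUnitary : Matrix ι ι ℂ) * (star hK.eigenvectorUnitary : Matrix ι ι ℂ) = 1 :=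
      Unitary.coe_mul_star_self _
    have hinv : (hK.eigenvectorUnitary : Matrix ι ι ℂ)⁻¹ =
        (star (hK.eigenvectorUnitary : Matrix ι ι ℂ)) := Matrix.inv_eq_right_inv hU
    have hunit : IsUnit (hK.eigenvectorUnitary : Matrix ι ι ℂ) :=
      IsUnit.of_mul_eq_one _ hU
    have h2 := Matrix.exp_conj (hK.eigenvectorUnitary : Matrix ι ι ℂ)
      (diagonal (RCLike.ofReal ∘ hK.eigenvalues)) hunit
    rw [hinv] at h2
    rw [← h] at h2
    rw [h2, Matrix.exp_diagonal]
    have h3 : (NormedSpace.exp (RCLike.ofReal ∘ hK.eigenvalues) : ι → ℂ) =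
        fun i => ((Real.exp (hK.eigenvalues i) : ℝ) : ℂ) := by
      ext i
      rw [Pi.coe_exp]
      simp [Complex.exp_eq_exp_ℂ]
    rw [h3]
    rfl

/-- Trace of `X * exp K` in the eigenbasis. -/
lemma trace_mul_conj (U X : Matrix ι ι ℂ) (d : ι → ℂ) :
    trace (X * (U * diagonal d * Uᴴ)) = ∑ i, (Uᴴ * X * U) i i * d i := by
  rw [Matrix.mul_assoc U _ Uᴴ, ← Matrix.mul_assoc X U, ← Matrix.mul_assoc (X * U) _,
    Matrix.trace_mul_comm (X * U * _) Uᴴ, ← Matrix.mul_assoc, ← Matrix.mul_assoc]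
  simp only [Matrix.trace, Matrix.diag_apply, Matrix.mul_diagonal]

lemma mul_star_self' (z : ℂ) : z * star z = ((Complex.normSq z : ℝ) : ℂ) := by
  rw [Complex.star_def, Complex.mul_conj]

lemma star_mul_self'' (z : ℂ) : star z * z = ((Complex.normSq z : ℝ) : ℂ) := by
  rw [mul_comm, mul_star_self']

/-- Termwise log-sum bound. -/
lemma term_bound (a b r : ℝ) (ha : 0 < a) (hb : 0 < b) (hr : 0 < r) :
    (a - b) * Real.log r + (a - b * r) + (b - a / r) ≤ (a - b) * Real.log (a / b) := by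
  have h1 : 1 - (b * r) / a ≤ Real.log (a / (b * r)) := by
    have := Real.one_sub_inv_le_log_of_pos (show 0 < a / (b * r) by positivity)
    rwa [inv_div] at this
  have h2 : Real.log (a / (b * r)) ≤ a / (b * r) - 1 :=
    Real.log_le_sub_one_of_pos (by positivity)
  have h3 : Real.log (a / (b * r)) = Real.log (a / b) - Real.log r := by
    rw [← div_div, Real.log_div (by positivity) (by positivity)]
  rw [h3] at h1 h2
  have h4 : a * (1 - b * r / a) ≤ a * (Real.log (a / b) - Real.log r) :=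
    mul_le_mul_of_nonneg_left h1 ha.le
  have h5 : b * (Real.log (a / b) - Real.log r) ≤ b * (a / (b * r) - 1) :=
    mul_le_mul_of_nonneg_left h2 hb.le
  have h6 : a * (1 - b * r / a) = a - b * r := by field_simp
  have h7 : b * (a / (b * r) - 1) = a / r - b := by field_simp
  nlinarith

/-- Log-sum inequality in the form used below. -/
lemma logsum_diag (N : ι → ι → ℝ) (hN : ∀ i j, 0 ≤ N i j) (E : ι → ℝ) :
    ((∑ i, ∑ j, N i j * Real.exp (E i)) - (∑ i, ∑ j, N i j * Real.exp (E j))) *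
      Real.log ((∑ i, ∑ j, N i j * Real.exp (E i)) / (∑ i, ∑ j, N i j * Real.exp (E j))) ≤
    ∑ i, ∑ j, N i j * ((E i - E j) * (Real.exp (E i) - Real.exp (E j))) := by
  set P := ∑ i, ∑ j, N i j * Real.exp (E i) with hP
  set Q := ∑ i, ∑ j, N i j * Real.exp (E j) with hQ
  have hRHS : ∀ i j, 0 ≤ N i j * ((E i - E j) * (Real.exp (E i) - Real.exp (E j))) := by
    intro i j
    refine mul_nonneg (hN i j) ?_
    rcases le_total (E i) (E j) with h | h
    · exact mul_nonneg_of_nonpos_of_nonpos (by linarith) (by have := Real.exp_le_exp.2 h; linarith)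
    · exact mul_nonneg (by linarith) (by have := Real.exp_le_exp.2 h; linarith)
  have hP0 : 0 ≤ P := Finset.sum_nonneg fun i _ => Finset.sum_nonneg fun j _ =>
    mul_nonneg (hN i j) (Real.exp_pos _).le
  have hQ0 : 0 ≤ Q := Finset.sum_nonneg fun i _ => Finset.sum_nonneg fun j _ =>
    mul_nonneg (hN i j) (Real.exp_pos _).le
  rcases hP0.eq_or_lt with h | hPpos
  · have : P / Q = 0 := by rw [← h]; simp
    rw [this]
    simp only [Real.log_zero, mul_zero]
    exact Finset.sum_nonneg fun i _ => Finset.sum_nonneg fun j _ => hRHS i j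
  rcases hQ0.eq_or_lt with h | hQpos
  · have : P / Q = 0 := by rw [← h]; simp
    rw [this]
    simp only [Real.log_zero, mul_zero]
    exact Finset.sum_nonneg fun i _ => Finset.sum_nonneg fun j _ => hRHS i j
  have hr : 0 < P / Q := by positivity
  have key : ∀ i j, (N i j * Real.exp (E i) - N i j * Real.exp (E j)) * Real.log (P / Q)
      + (N i j * Real.exp (E i) - N i j * Real.exp (E j) * (P / Q))
      + (N i j * Real.exp (E j) - N i j * Real.exp (E i) / (P / Q)) ≤
      N i j * ((E i - E j) * (Real.exp (E i) - Real.exp (E j))) := by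
    intro i j
    have := term_bound (Real.exp (E i)) (Real.exp (E j)) (P / Q) (Real.exp_pos _)
      (Real.exp_pos _) hr
    rw [← Real.exp_sub, Real.log_exp] at this
    have h2 := mul_le_mul_of_nonneg_left this (hN i j)
    refine le_trans (le_of_eq ?_) (h2.trans (le_of_eq ?_)) <;> ring
  have hsum := Finset.sum_le_sum fun i (_ : i ∈ Finset.univ) =>
    Finset.sum_le_sum fun j (_ : j ∈ Finset.univ) => key i j
  refine le_trans (le_of_eq ?_) hsum
  have e1 : ∑ i, ∑ j, ((N i j * Real.exp (E i) - N i j * Real.exp (E j)) * Real.log (P / Q)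
      + (N i j * Real.exp (E i) - N i j * Real.exp (E j) * (P / Q))
      + (N i j * Real.exp (E j) - N i j * Real.exp (E i) / (P / Q))) =
      (P - Q) * Real.log (P / Q) + (P - Q * (P / Q)) + (Q - P / (P / Q)) := by
    have r : ∀ c₁ c₂ : ℝ, ∑ i, ∑ j, (N i j * Real.exp (E i) * c₁ + N i j * Real.exp (E j) * c₂) =
        P * c₁ + Q * c₂ := by
      intro c₁ c₂
      rw [hP, hQ, Finset.sum_mul, Finset.sum_mul, ← Finset.sum_add_distrib]
      refine Finset.sum_congr rfl fun i _ => ?_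
      rw [Finset.sum_mul, Finset.sum_mul, ← Finset.sum_add_distrib]
    have r' := r (Real.log (P / Q) + 1 - (P / Q)⁻¹) (- Real.log (P / Q) - (P / Q) + 1)
    calc _ = ∑ i, ∑ j, (N i j * Real.exp (E i) * (Real.log (P / Q) + 1 - (P / Q)⁻¹) +
          N i j * Real.exp (E j) * (- Real.log (P / Q) - (P / Q) + 1)) := by
          refine Finset.sum_congr rfl fun i _ => Finset.sum_congr rfl fun j _ => ?_
          rw [div_eq_mul_inv _ (P / Q)]; ring
      _ = _ := by rw [r', div_eq_mul_inv _ (P / Q)]; ring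
  rw [e1]
  have h1 : Q * (P / Q) = P := by field_simp
  have h2 : P / (P / Q) = Q := by field_simp
  rw [h1, h2]; ring

/-- The key inequality: with `W = exp K`, `P = Tr (A Aᴴ W)`, `Q = Tr (Aᴴ A W)` and
`C = Tr ([A, [-K, Aᴴ]] W)`, one has `(P - Q) log (P / Q) ≤ C`. -/
theorem logsum_trace (K : Matrix ι ι ℂ) (hK : K.IsHermitian) (A : Matrix ι ι ℂ) :
    ((trace (A * Aᴴ * NormedSpace.exp K)).re - (trace (Aᴴ * A * NormedSpace.exp K)).re) *
      Real.log ((trace (A * Aᴴ * NormedSpace.exp K)).re /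
        (trace (Aᴴ * A * NormedSpace.exp K)).re) ≤
    (trace ((A * (Aᴴ * K - K * Aᴴ) - (Aᴴ * K - K * Aᴴ) * A) * NormedSpace.exp K)).re := by
  obtain ⟨U, E, hU1, hU2, hKd, hexp⟩ := exists_diag K hK
  set B : Matrix ι ι ℂ := Uᴴ * A * U with hB
  have hBH : Bᴴ = Uᴴ * Aᴴ * U := by
    simp [hB, Matrix.conjTranspose_mul, Matrix.mul_assoc]
  have ins : ∀ X Y : Matrix ι ι ℂ, Uᴴ * (X * Y) * U = (Uᴴ * X * U) * (Uᴴ * Y * U) := by
    intro X Y
    calc Uᴴ * (X * Y) * U = Uᴴ * X * 1 * Y * U := by simp [Matrix.mul_assoc]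
      _ = _ := by rw [← hU2]; simp only [Matrix.mul_assoc]
  have hKU : Uᴴ * K * U = diagonal (fun i => (E i : ℂ)) := by
    rw [hKd]
    calc Uᴴ * (U * diagonal (fun i => (E i : ℂ)) * Uᴴ) * U
        = (Uᴴ * U) * diagonal (fun i => (E i : ℂ)) * (Uᴴ * U) := by
          simp only [Matrix.mul_assoc]
      _ = _ := by rw [hU1]; simp
  have hP : (trace (A * Aᴴ * NormedSpace.exp K)).re =
      ∑ i, ∑ j, Complex.normSq (B i j) * Real.exp (E i) := by
    rw [hexp, trace_mul_conj, ins, ← hB, ← hBH, Complex.re_sum]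
    refine Finset.sum_congr rfl fun i _ => ?_
    have : (B * Bᴴ) i i = ∑ j, ((Complex.normSq (B i j) : ℝ) : ℂ) := by
      rw [Matrix.mul_apply]
      refine Finset.sum_congr rfl fun j _ => ?_
      rw [Matrix.conjTranspose_apply, mul_star_self']
    rw [this, ← Complex.ofReal_sum, ← Complex.ofReal_mul, Complex.ofReal_re, Finset.sum_mul]
  have hQ : (trace (Aᴴ * A * NormedSpace.exp K)).re =
      ∑ i, ∑ j, Complex.normSq (B i j) * Real.exp (E j) := by
    rw [hexp, trace_mul_conj, ins, ← hB, ← hBH, Complex.re_sum, Finset.sum_comm]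
    refine Finset.sum_congr rfl fun i _ => ?_
    have : (Bᴴ * B) i i = ∑ j, ((Complex.normSq (B j i) : ℝ) : ℂ) := by
      rw [Matrix.mul_apply]
      refine Finset.sum_congr rfl fun j _ => ?_
      rw [Matrix.conjTranspose_apply, star_mul_self'']
    rw [this, ← Complex.ofReal_sum, ← Complex.ofReal_mul, Complex.ofReal_re, Finset.sum_mul]
  have hC : (trace ((A * (Aᴴ * K - K * Aᴴ) - (Aᴴ * K - K * Aᴴ) * A) * NormedSpace.exp K)).re =
      ∑ i, ∑ j, Complex.normSq (B i j) * ((E i - E j) * (Real.exp (E i) - Real.exp (E j))) := by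
    have e1 : Uᴴ * (A * (Aᴴ * K - K * Aᴴ) - (Aᴴ * K - K * Aᴴ) * A) * U =
        B * (Bᴴ * diagonal (fun i => (E i : ℂ)) - diagonal (fun i => (E i : ℂ)) * Bᴴ) -
        (Bᴴ * diagonal (fun i => (E i : ℂ)) - diagonal (fun i => (E i : ℂ)) * Bᴴ) * B := by
      rw [Matrix.mul_sub, Matrix.sub_mul, ins, ins, Matrix.mul_sub, Matrix.sub_mul, ins, ins,
        ← hB, ← hBH, hKU]
    have e2 : ∀ i j, (Bᴴ * diagonal (fun i => (E i : ℂ)) - diagonal (fun i => (E i : ℂ)) * Bᴴ) i j
        = star (B j i) * ((E j - E i : ℝ) : ℂ) := by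
      intro i j
      rw [Matrix.sub_apply, Matrix.mul_diagonal, Matrix.diagonal_mul, Matrix.conjTranspose_apply]
      push_cast; ring
    have e3 : ∀ i, (B * (Bᴴ * diagonal (fun i => (E i : ℂ)) -
        diagonal (fun i => (E i : ℂ)) * Bᴴ)) i i =
        ∑ j, ((Complex.normSq (B i j) * (E i - E j) : ℝ) : ℂ) := by
      intro i
      rw [Matrix.mul_apply]
      refine Finset.sum_congr rfl fun j _ => ?_
      rw [e2, ← mul_assoc, mul_star_self']; push_cast; ring
    have e4 : ∀ i, ((Bᴴ * diagonal (fun i => (E i : ℂ)) -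
        diagonal (fun i => (E i : ℂ)) * Bᴴ) * B) i i =
        ∑ j, ((Complex.normSq (B j i) * (E j - E i) : ℝ) : ℂ) := by
      intro i
      rw [Matrix.mul_apply]
      refine Finset.sum_congr rfl fun j _ => ?_
      rw [e2, mul_right_comm, star_mul_self'']; push_cast; ring
    have e5 : (trace ((A * (Aᴴ * K - K * Aᴴ) - (Aᴴ * K - K * Aᴴ) * A) * NormedSpace.exp K)).re =
        (∑ i, ∑ j, Complex.normSq (B i j) * (E i - E j) * Real.exp (E i)) -
        ∑ i, ∑ j, Complex.normSq (B j i) * (E j - E i) * Real.exp (E i) := by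
      rw [hexp, trace_mul_conj, e1, Complex.re_sum, ← Finset.sum_sub_distrib]
      refine Finset.sum_congr rfl fun i _ => ?_
      rw [Matrix.sub_apply, e3, e4, ← Complex.ofReal_sum, ← Complex.ofReal_sum,
        ← Complex.ofReal_sub, ← Complex.ofReal_mul, Complex.ofReal_re, sub_mul, Finset.sum_mul,
        Finset.sum_mul]
    rw [e5, Finset.sum_comm (f := fun x i =>
      Complex.normSq (B i x) * (E i - E x) * Real.exp (E x)), ← Finset.sum_sub_distrib]
    refine Finset.sum_congr rfl fun i _ => ?_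
    rw [← Finset.sum_sub_distrib]
    refine Finset.sum_congr rfl fun j _ => ?_
    ring
  rw [hP, hQ, hC]
  exact logsum_diag _ (fun i j => Complex.normSq_nonneg _) E

/-- Consequence of `(P - Q) log (P/Q) ≤ C`. -/
lemma lower_of_logsum (P Q C : ℝ) (hQ : 0 ≤ Q) (hb : 0 < P - Q)
    (h : (P - Q) * Real.log (P / Q) ≤ C) (hQ' : 0 < Q) :
    (P - Q) / (Real.exp (C / (P - Q)) - 1) ≤ Q := by
  have hP : 0 < P := by linarith
  have h1 : Real.log (P / Q) ≤ C / (P - Q) := by
    rw [le_div_iff₀ hb, mul_comm]; exact h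
  have h2 : P / Q ≤ Real.exp (C / (P - Q)) := by
    rw [← Real.log_le_iff_le_exp (by positivity)]; exact h1
  have h3 : (P - Q) / Q ≤ Real.exp (C / (P - Q)) - 1 := by
    rw [sub_div, div_self hQ'.ne']; linarith
  have h4 : 0 < (P - Q) / Q := by positivity
  rw [div_le_iff₀ (by linarith)]
  rw [div_le_iff₀ hQ'] at h3
  linarith

/-- `Tr (Tᴴ T e^K) ≥ 0`. -/
lemma trace_star_mul_exp_nonneg (K : Matrix ι ι ℂ) (hK : K.IsHermitian) (T : Matrix ι ι ℂ) :
    0 ≤ (trace (Tᴴ * T * NormedSpace.exp K)).re := by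
  obtain ⟨U, E, hU1, hU2, hKd, hexp⟩ := exists_diag K hK
  have e : Uᴴ * (Tᴴ * T) * U = (T * U)ᴴ * (T * U) := by
    simp only [Matrix.conjTranspose_mul, Matrix.mul_assoc]
  rw [hexp, trace_mul_conj, e, Complex.re_sum]
  refine Finset.sum_nonneg fun i _ => ?_
  have : ((T * U)ᴴ * (T * U)) i i = ∑ j, ((Complex.normSq ((T * U) j i) : ℝ) : ℂ) := by
    rw [Matrix.mul_apply]
    refine Finset.sum_congr rfl fun j _ => ?_
    rw [Matrix.conjTranspose_apply, star_mul_self'']
  rw [this, ← Complex.ofReal_sum, ← Complex.ofReal_mul, Complex.ofReal_re]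
  exact mul_nonneg (Finset.sum_nonneg fun j _ => Complex.normSq_nonneg _) (Real.exp_pos _).le

/-- `Tr (Tᴴ T e^K) > 0` unless `T = 0`. -/
lemma trace_star_mul_exp_pos (K : Matrix ι ι ℂ) (hK : K.IsHermitian) (T : Matrix ι ι ℂ)
    (hT : T ≠ 0) :
    0 < (trace (Tᴴ * T * NormedSpace.exp K)).re := by
  obtain ⟨U, E, hU1, hU2, hKd, hexp⟩ := exists_diag K hK
  have e : Uᴴ * (Tᴴ * T) * U = (T * U)ᴴ * (T * U) := by
    simp only [Matrix.conjTranspose_mul, Matrix.mul_assoc]
  have hTU : T * U ≠ 0 := by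
    intro h
    apply hT
    calc T = T * (U * Uᴴ) := by rw [hU2, Matrix.mul_one]
      _ = 0 := by rw [← Matrix.mul_assoc, h, Matrix.zero_mul]
  rw [hexp, trace_mul_conj, e, Complex.re_sum]
  have hdiag : ∀ i, (((T * U)ᴴ * (T * U)) i i * ((Real.exp (E i) : ℝ) : ℂ)).re =
      (∑ j, Complex.normSq ((T * U) j i)) * Real.exp (E i) := by
    intro i
    have : ((T * U)ᴴ * (T * U)) i i = ∑ j, ((Complex.normSq ((T * U) j i) : ℝ) : ℂ) := by
      rw [Matrix.mul_apply]
      refine Finset.sum_congr rfl fun j _ => ?_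
      rw [Matrix.conjTranspose_apply, star_mul_self'']
    rw [this, ← Complex.ofReal_sum, ← Complex.ofReal_mul, Complex.ofReal_re]
  simp only [hdiag]
  have hex : ∃ j i, (T * U) j i ≠ 0 := by
    by_contra hcon
    push Not at hcon
    exact hTU (Matrix.ext fun j i => hcon j i)
  obtain ⟨j, i, hji⟩ := hex
  refine Finset.sum_pos' (fun i _ => mul_nonneg
    (Finset.sum_nonneg fun j _ => Complex.normSq_nonneg _) (Real.exp_pos _).le)
    ⟨i, Finset.mem_univ _, mul_pos ?_ (Real.exp_pos _)⟩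
  exact Finset.sum_pos' (fun j _ => Complex.normSq_nonneg _)
    ⟨j, Finset.mem_univ _, Complex.normSq_pos.2 hji⟩

lemma trace_exp_pos [Nonempty ι] (K : Matrix ι ι ℂ) (hK : K.IsHermitian) :
    0 < (trace (NormedSpace.exp K)).re := by
  have := trace_star_mul_exp_pos K hK 1 one_ne_zero
  simpa using this

/-- Peierls–Bogoliubov inequality. -/
theorem peierls_bogoliubov [Nonempty ι] (A B : Matrix ι ι ℂ) (hA : A.IsHermitian)
    (hB : B.IsHermitian) :
    Real.log (trace (NormedSpace.exp A)).re +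
      (trace ((B - A) * NormedSpace.exp A)).re / (trace (NormedSpace.exp A)).re ≤
      Real.log (trace (NormedSpace.exp B)).re := by
  obtain ⟨U, a, hU1, hU2, hAd, hexpA⟩ := exists_diag A hA
  obtain ⟨V, b, hV1, hV2, hBd, hexpB⟩ := exists_diag B hB
  have hZA := trace_exp_pos A hA
  have hZB := trace_exp_pos B hB
  set G : Matrix ι ι ℂ := Uᴴ * V with hG
  have hG1 : G * Gᴴ = 1 := by
    rw [hG, Matrix.conjTranspose_mul, Matrix.conjTranspose_conjTranspose]
    calc Uᴴ * V * (Vᴴ * U) = Uᴴ * (V * Vᴴ) * U := by simp only [Matrix.mul_assoc]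
      _ = 1 := by rw [hV2, Matrix.mul_one, hU1]
  have hG2 : Gᴴ * G = 1 := by
    rw [hG, Matrix.conjTranspose_mul, Matrix.conjTranspose_conjTranspose]
    calc Vᴴ * U * (Uᴴ * V) = Vᴴ * (U * Uᴴ) * V := by simp only [Matrix.mul_assoc]
      _ = 1 := by rw [hU2, Matrix.mul_one, hV1]
  set s : ι → ι → ℝ := fun i j => Complex.normSq (G i j) with hs
  have hs0 : ∀ i j, 0 ≤ s i j := fun i j => Complex.normSq_nonneg _
  have hrow : ∀ i, ∑ j, s i j = 1 := by
    intro i
    have h := congrFun (congrFun hG1 i) i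
    rw [Matrix.mul_apply, Matrix.one_apply_eq] at h
    have h2 : ∑ j, G i j * Gᴴ j i = ((∑ j, s i j : ℝ) : ℂ) := by
      rw [Complex.ofReal_sum]
      refine Finset.sum_congr rfl fun j _ => ?_
      rw [Matrix.conjTranspose_apply, mul_star_self']
    rw [h2] at h
    exact_mod_cast h
  have hcol : ∀ j, ∑ i, s i j = 1 := by
    intro j
    have h := congrFun (congrFun hG2 j) j
    rw [Matrix.mul_apply, Matrix.one_apply_eq] at h
    have h2 : ∑ i, Gᴴ j i * G i j = ((∑ i, s i j : ℝ) : ℂ) := by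
      rw [Complex.ofReal_sum]
      refine Finset.sum_congr rfl fun i _ => ?_
      rw [Matrix.conjTranspose_apply, star_mul_self'']
    rw [h2] at h
    exact_mod_cast h
  have hUXU : ∀ X : Matrix ι ι ℂ, (trace (X * NormedSpace.exp A)).re =
      ∑ i, ((Uᴴ * X * U) i i * ((Real.exp (a i) : ℝ) : ℂ)).re := by
    intro X
    rw [hexpA, trace_mul_conj, Complex.re_sum]
  have hAA : Uᴴ * A * U = diagonal (fun i => (a i : ℂ)) := by
    rw [hAd]
    calc Uᴴ * (U * diagonal (fun i => (a i : ℂ)) * Uᴴ) * U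
        = (Uᴴ * U) * diagonal (fun i => (a i : ℂ)) * (Uᴴ * U) := by
          simp only [Matrix.mul_assoc]
      _ = _ := by rw [hU1]; simp
  have hBB : Uᴴ * B * U = G * diagonal (fun i => (b i : ℂ)) * Gᴴ := by
    rw [hBd, hG, Matrix.conjTranspose_mul, Matrix.conjTranspose_conjTranspose]
    simp only [Matrix.mul_assoc]
  have hZAs : (trace (NormedSpace.exp A)).re = ∑ i, ∑ j, s i j * Real.exp (a i) := by
    have h := hUXU 1
    rw [Matrix.one_mul, Matrix.mul_one, hU1] at h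
    rw [h]
    refine Finset.sum_congr rfl fun i _ => ?_
    rw [Matrix.one_apply_eq, one_mul, Complex.ofReal_re, ← Finset.sum_mul, hrow, one_mul]
  have hZBs : (trace (NormedSpace.exp B)).re = ∑ i, ∑ j, s i j * Real.exp (b j) := by
    have h1 : (trace (NormedSpace.exp B)).re = ∑ j, Real.exp (b j) := by
      have := trace_mul_conj V 1 (fun i => ((Real.exp (b i) : ℝ) : ℂ))
      rw [Matrix.one_mul, Matrix.mul_one, hV1] at this
      rw [hexpB, this, Complex.re_sum]
      refine Finset.sum_congr rfl fun i _ => ?_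
      rw [Matrix.one_apply_eq, one_mul, Complex.ofReal_re]
    rw [h1, Finset.sum_comm]
    refine Finset.sum_congr rfl fun j _ => ?_
    rw [← Finset.sum_mul, hcol, one_mul]
  have hD : (trace ((B - A) * NormedSpace.exp A)).re =
      ∑ i, ∑ j, s i j * Real.exp (a i) * (b j - a i) := by
    rw [hUXU]
    refine Finset.sum_congr rfl fun i _ => ?_
    rw [Matrix.mul_sub, Matrix.sub_mul, Matrix.sub_apply, hAA, hBB, Matrix.diagonal_apply_eq]
    have h1 : (G * diagonal (fun i => (b i : ℂ)) * Gᴴ) i i = ((∑ j, s i j * b j : ℝ) : ℂ) := by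
      rw [Matrix.mul_apply, Complex.ofReal_sum]
      refine Finset.sum_congr rfl fun j _ => ?_
      rw [Matrix.mul_diagonal, Matrix.conjTranspose_apply, mul_right_comm, mul_star_self']
      push_cast; rfl
    rw [h1, ← Complex.ofReal_sub, ← Complex.ofReal_mul, Complex.ofReal_re]
    have h2 : (∑ j, s i j * b j - a i) = ∑ j, s i j * (b j - a i) := by
      simp only [mul_sub, Finset.sum_sub_distrib, ← Finset.sum_mul, hrow, one_mul]
    rw [h2, Finset.sum_mul]
    refine Finset.sum_congr rfl fun j _ => ?_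
    ring
  set ZA := (trace (NormedSpace.exp A)).re with hZAdef
  set ZB := (trace (NormedSpace.exp B)).re with hZBdef
  set D := (trace ((B - A) * NormedSpace.exp A)).re with hDdef
  have hmain : ZA * Real.exp (D / ZA) ≤ ZB := by
    have hterm : ∀ i j, s i j * Real.exp (a i) * (Real.exp (D / ZA) * (1 + ((b j - a i) - D / ZA)))
        ≤ s i j * Real.exp (b j) := by
      intro i j
      have h1 : 1 + ((b j - a i) - D / ZA) ≤ Real.exp ((b j - a i) - D / ZA) := by
        have := Real.add_one_le_exp ((b j - a i) - D / ZA)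
        linarith
      calc s i j * Real.exp (a i) * (Real.exp (D / ZA) * (1 + ((b j - a i) - D / ZA)))
          ≤ s i j * Real.exp (a i) * (Real.exp (D / ZA) * Real.exp ((b j - a i) - D / ZA)) := by
            refine mul_le_mul_of_nonneg_left ?_ (mul_nonneg (hs0 i j) (Real.exp_pos _).le)
            exact mul_le_mul_of_nonneg_left h1 (Real.exp_pos _).le
        _ = s i j * Real.exp (b j) := by
            rw [mul_assoc, ← Real.exp_add, ← Real.exp_add]
            congr 2; ring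
    have hsum := Finset.sum_le_sum fun i (_ : i ∈ Finset.univ) =>
      Finset.sum_le_sum fun j (_ : j ∈ Finset.univ) => hterm i j
    rw [← hZBs] at hsum
    refine le_trans (le_of_eq ?_) hsum
    have r : ∀ c₁ c₂ : ℝ, ∑ i, ∑ j, (s i j * Real.exp (a i) * c₁ +
        s i j * Real.exp (a i) * (b j - a i) * c₂) = ZA * c₁ + D * c₂ := by
      intro c₁ c₂
      rw [hZAs, hD, Finset.sum_mul, Finset.sum_mul, ← Finset.sum_add_distrib]
      refine Finset.sum_congr rfl fun i _ => ?_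
      rw [Finset.sum_mul, Finset.sum_mul, ← Finset.sum_add_distrib]
    calc ZA * Real.exp (D / ZA)
        = ZA * (Real.exp (D / ZA) * (1 - D / ZA)) + D * Real.exp (D / ZA) := by
          field_simp; ring
      _ = _ := by
          rw [← r]
          refine Finset.sum_congr rfl fun i _ => Finset.sum_congr rfl fun j _ => ?_
          ring
  have h1 : 0 < ZA * Real.exp (D / ZA) := mul_pos hZA (Real.exp_pos _)
  have h2 := Real.log_le_log h1 hmain
  rwa [Real.log_mul hZA.ne' (Real.exp_pos _).ne', Real.log_exp] at h2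

end Vale.Agent.P361.H
end

section

namespace Vale.Agent.P361.H

open Matrix

variable {n : ℕ} {Λ : Finset Site}

/-- Site spin operators. -/
noncomputable abbrev oZ (n : ℕ) {Λ : Finset Site} (x : Λ) :
    Matrix (Λ → Fin (n + 1)) (Λ → Fin (n + 1)) ℂ := siteOp x (spinZ n)
noncomputable abbrev oM (n : ℕ) {Λ : Finset Site} (x : Λ) :
    Matrix (Λ → Fin (n + 1)) (Λ → Fin (n + 1)) ℂ := siteOp x (spinLower n)
noncomputable abbrev oP (n : ℕ) {Λ : Finset Site} (x : Λ) :
    Matrix (Λ → Fin (n + 1)) (Λ → Fin (n + 1)) ℂ := siteOp x (spinLower n)ᴴ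
noncomputable abbrev oA (n : ℕ) {Λ : Finset Site} (x : Λ) :
    Matrix (Λ → Fin (n + 1)) (Λ → Fin (n + 1)) ℂ := siteOp x (schwA n)
noncomputable abbrev oB (n : ℕ) {Λ : Finset Site} (x : Λ) :
    Matrix (Λ → Fin (n + 1)) (Λ → Fin (n + 1)) ℂ := siteOp x (schwB n)

lemma oM_conj (x : Λ) : (oM n x)ᴴ = oP n x := siteOp_conjTranspose x _

lemma oP_conj (x : Λ) : (oP n x)ᴴ = oM n x := by
  rw [siteOp_conjTranspose, Matrix.conjTranspose_conjTranspose]

lemma oZ_conj (x : Λ) : (oZ n x)ᴴ = oZ n x := by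
  rw [siteOp_conjTranspose, spinZ_conj]

lemma oM_transpose (x : Λ) : (oM n x)ᵀ = oP n x := by
  rw [siteOp_transpose, spinLower_transpose]

lemma oP_transpose (x : Λ) : (oP n x)ᵀ = oM n x := by
  rw [← oM_transpose, Matrix.transpose_transpose]

lemma oZ_transpose (x : Λ) : (oZ n x)ᵀ = oZ n x := by
  rw [siteOp_transpose, spinZ_transpose]

lemma comm_PM_same (x : Λ) : oP n x * oM n x = oM n x * oP n x + (2 : ℂ) • oZ n x := by
  rw [siteOp_mul, siteOp_mul, ← siteOp_smul, ← siteOp_add, ← comm_raise_lower]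
  congr 1; abel

lemma comm_ZM_same (x : Λ) : oZ n x * oM n x = oM n x * oZ n x - oM n x := by
  rw [siteOp_mul, siteOp_mul, ← siteOp_sub]
  congr 1
  have := comm_z_lower (n := n)
  rw [sub_eq_iff_eq_add] at this
  rw [this]; abel

lemma comm_ZP_same (x : Λ) : oZ n x * oP n x = oP n x * oZ n x + oP n x := by
  have := congrArg Matrix.conjTranspose (comm_ZM_same (n := n) x)
  simp only [Matrix.conjTranspose_mul, Matrix.conjTranspose_sub, oM_conj, oZ_conj] at this
  rw [this]; abel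

/-- The interaction `S_x · S_y`. -/
noncomputable def dotOp (n : ℕ) {Λ : Finset Site} (x y : Λ) :
    Matrix (Λ → Fin (n + 1)) (Λ → Fin (n + 1)) ℂ :=
  ∑ a : Fin 3, siteOp x (spin n a) * siteOp y (spin n a)

lemma dotOp_eq (x y : Λ) :
    dotOp n x y = oZ n x * oZ n y + (1 / 2 : ℂ) • (oP n x * oM n y + oM n x * oP n y) := by
  have hI : (1 / (2 * Complex.I)) * (1 / (2 * Complex.I)) = (-(1 / 4) : ℂ) := by
    field_simp
    rw [Complex.I_sq]; norm_num
  rw [dotOp, Fin.sum_univ_three]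
  have h0 : spin n 0 = (1 / 2 : ℂ) • ((spinLower n)ᴴ + spinLower n) := rfl
  have h1 : spin n 1 = (1 / (2 * Complex.I) : ℂ) • ((spinLower n)ᴴ - spinLower n) := rfl
  have h2 : spin n 2 = spinZ n := rfl
  rw [h0, h1, h2]
  simp only [siteOp_smul, siteOp_add, siteOp_sub, smul_mul_smul_comm, hI]
  simp only [mul_add, add_mul, mul_sub, sub_mul, smul_add, smul_sub]
  module

lemma dotOp_comm {x y : Λ} (hxy : x ≠ y) : dotOp n x y = dotOp n y x := by
  rw [dotOp, dotOp]
  exact Finset.sum_congr rfl fun a _ => siteOp_comm hxy _ _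

/-- `∑ x, f x S⁻_x`. -/
noncomputable def modeOp (n : ℕ) {Λ : Finset Site} (f : Λ → ℂ) :
    Matrix (Λ → Fin (n + 1)) (Λ → Fin (n + 1)) ℂ := ∑ x, f x • oM n x

lemma modeOp_conj (f : Λ → ℂ) : (modeOp n f)ᴴ = ∑ x, star (f x) • oP n x := by
  rw [modeOp, Matrix.conjTranspose_sum]
  exact Finset.sum_congr rfl fun x _ => by rw [Matrix.conjTranspose_smul, oM_conj]

/-- `G_{xy} = S³_x S⁻_y - S⁻_x S³_y`. -/
noncomputable def gOp (n : ℕ) {Λ : Finset Site} (x y : Λ) :
    Matrix (Λ → Fin (n + 1)) (Λ → Fin (n + 1)) ℂ := oZ n x * oM n y - oM n x * oZ n y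

lemma comm_dot_third {x y z : Λ} (hzx : z ≠ x) (hzy : z ≠ y)
    (A : Matrix (Fin (n + 1)) (Fin (n + 1)) ℂ) :
    dotOp n x y * siteOp z A - siteOp z A * dotOp n x y = 0 := by
  rw [dotOp, Finset.sum_mul, Finset.mul_sum, ← Finset.sum_sub_distrib]
  refine Finset.sum_eq_zero fun a _ => ?_
  rw [mul_assoc, siteOp_comm hzy.symm, ← mul_assoc, siteOp_comm hzx.symm, mul_assoc, sub_self]

lemma comm_dot_first {x y : Λ} (hxy : x ≠ y) :
    dotOp n x y * oM n x - oM n x * dotOp n x y = gOp n x y := by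
  rw [dotOp_eq, gOp]
  have e1 : oZ n x * oZ n y * oM n x = (oM n x * oZ n x - oM n x) * oZ n y := by
    rw [mul_assoc, siteOp_comm hxy.symm, ← mul_assoc, comm_ZM_same]
  have e2 : oP n x * oM n y * oM n x = (oM n x * oP n x + (2 : ℂ) • oZ n x) * oM n y := by
    rw [mul_assoc, siteOp_comm hxy.symm, ← mul_assoc, comm_PM_same]
  have e3 : oM n x * oP n y * oM n x = oM n x * (oM n x * oP n y) := by
    rw [mul_assoc, siteOp_comm hxy.symm]
  simp only [add_mul, mul_add, smul_mul_assoc, mul_smul_comm, smul_add, e1, e2, e3, sub_mul]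
  simp only [mul_assoc]
  module

lemma gOp_swap {x y : Λ} (hxy : x ≠ y) : gOp n y x = - gOp n x y := by
  rw [gOp, gOp, siteOp_comm hxy.symm, siteOp_comm hxy.symm]
  abel

lemma comm_dot_second {x y : Λ} (hxy : x ≠ y) :
    dotOp n x y * oM n y - oM n y * dotOp n x y = - gOp n x y := by
  rw [dotOp_comm hxy, comm_dot_first hxy.symm, gOp_swap hxy]

lemma comm_dot_mode {x y : Λ} (hxy : x ≠ y) (f : Λ → ℂ) :
    dotOp n x y * modeOp n f - modeOp n f * dotOp n x y = (f x - f y) • gOp n x y := by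
  rw [modeOp, Finset.mul_sum, Finset.sum_mul, ← Finset.sum_sub_distrib]
  have hterm : ∀ z, dotOp n x y * f z • oM n z - f z • oM n z * dotOp n x y =
      f z • (dotOp n x y * oM n z - oM n z * dotOp n x y) := by
    intro z; rw [mul_smul_comm, smul_mul_assoc, smul_sub]
  simp only [hterm]
  rw [← Finset.add_sum_erase _ _ (Finset.mem_univ x), ← Finset.add_sum_erase _ _
    (show y ∈ Finset.univ.erase x from Finset.mem_erase.2 ⟨hxy.symm, Finset.mem_univ _⟩),
    Finset.sum_eq_zero, comm_dot_first hxy, comm_dot_second hxy]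
  · module
  · intro z hz
    have hzy : z ≠ y := (Finset.mem_erase.1 hz).1
    have hzx : z ≠ x := (Finset.mem_erase.1 (Finset.mem_erase.1 hz).2).1
    rw [comm_dot_third hzx hzy, smul_zero]

lemma comm_P_g_first {x y : Λ} (hxy : x ≠ y) :
    oP n x * gOp n x y - gOp n x y * oP n x =
      -(oP n x * oM n y) - (2 : ℂ) • (oZ n x * oZ n y) := by
  rw [gOp]
  have e1 : oZ n x * oM n y * oP n x = (oP n x * oZ n x + oP n x) * oM n y := by
    rw [mul_assoc, siteOp_comm hxy.symm, ← mul_assoc, comm_ZP_same]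
  have e2 : oM n x * oZ n y * oP n x = (oP n x * oM n x - (2 : ℂ) • oZ n x) * oZ n y := by
    rw [mul_assoc, siteOp_comm hxy.symm, ← mul_assoc, comm_PM_same, add_sub_cancel_right]
  simp only [mul_sub, sub_mul, e1, e2, add_mul, smul_mul_assoc]
  simp only [mul_assoc]
  module

lemma comm_P_g_second {x y : Λ} (hxy : x ≠ y) :
    oP n y * gOp n x y - gOp n x y * oP n y =
      (oM n x * oP n y) + (2 : ℂ) • (oZ n x * oZ n y) := by
  rw [gOp]
  have e1 : oP n y * (oZ n x * oM n y) = oZ n x * (oM n y * oP n y + (2 : ℂ) • oZ n y) := by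
    rw [← mul_assoc, siteOp_comm hxy.symm, mul_assoc, comm_PM_same]
  have e2 : oP n y * (oM n x * oZ n y) = oM n x * (oZ n y * oP n y - oP n y) := by
    rw [← mul_assoc, siteOp_comm hxy.symm, mul_assoc, comm_ZP_same, add_sub_cancel_right]
  simp only [mul_sub, sub_mul, e1, e2, mul_add, mul_smul_comm]
  simp only [mul_assoc]
  module

lemma comm_P_g_third {x y z : Λ} (hzx : z ≠ x) (hzy : z ≠ y) :
    oP n z * gOp n x y - gOp n x y * oP n z = 0 := by
  rw [gOp]
  have e1 : oP n z * (oZ n x * oM n y) = oZ n x * oM n y * oP n z := by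
    rw [← mul_assoc, siteOp_comm hzx, mul_assoc, siteOp_comm hzy, mul_assoc]
  have e2 : oP n z * (oM n x * oZ n y) = oM n x * oZ n y * oP n z := by
    rw [← mul_assoc, siteOp_comm hzx, mul_assoc, siteOp_comm hzy, mul_assoc]
  rw [mul_sub, sub_mul, e1, e2, sub_self]

lemma comm_mode_g {x y : Λ} (hxy : x ≠ y) (f : Λ → ℂ) :
    (modeOp n f)ᴴ * gOp n x y - gOp n x y * (modeOp n f)ᴴ =
      star (f x) • (-(oP n x * oM n y) - (2 : ℂ) • (oZ n x * oZ n y)) +
      star (f y) • ((oM n x * oP n y) + (2 : ℂ) • (oZ n x * oZ n y)) := by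
  rw [modeOp_conj, Finset.mul_sum, Finset.sum_mul, ← Finset.sum_sub_distrib]
  have hterm : ∀ z, star (f z) • oP n z * gOp n x y - gOp n x y * star (f z) • oP n z =
      star (f z) • (oP n z * gOp n x y - gOp n x y * oP n z) := by
    intro z; rw [mul_smul_comm, smul_mul_assoc, smul_sub]
  simp only [hterm]
  rw [← Finset.add_sum_erase _ _ (Finset.mem_univ x), ← Finset.add_sum_erase _ _
    (show y ∈ Finset.univ.erase x from Finset.mem_erase.2 ⟨hxy.symm, Finset.mem_univ _⟩),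
    Finset.sum_eq_zero, comm_P_g_first hxy, comm_P_g_second hxy, add_zero]
  intro z hz
  have hzy : z ≠ y := (Finset.mem_erase.1 hz).1
  have hzx : z ≠ x := (Finset.mem_erase.1 (Finset.mem_erase.1 hz).2).1
  rw [comm_P_g_third hzx hzy, smul_zero]

/-- `[T*, [S_x·S_y, T]]`. -/
lemma double_comm_dot {x y : Λ} (hxy : x ≠ y) (f : Λ → ℂ) :
    (modeOp n f)ᴴ * (dotOp n x y * modeOp n f - modeOp n f * dotOp n x y) -
      (dotOp n x y * modeOp n f - modeOp n f * dotOp n x y) * (modeOp n f)ᴴ =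
      (f x - f y) • (star (f x) • (-(oP n x * oM n y) - (2 : ℂ) • (oZ n x * oZ n y)) +
      star (f y) • ((oM n x * oP n y) + (2 : ℂ) • (oZ n x * oZ n y))) := by
  rw [comm_dot_mode hxy, ← comm_mode_g hxy, mul_smul_comm, smul_mul_assoc, smul_sub]

/-- `S² - S_x·S_y = ½ T† T`. -/
lemma dot_sos {x y : Λ} (hxy : x ≠ y) :
    (oA n x * oB n y - oB n x * oA n y)ᴴ * (oA n x * oB n y - oB n x * oA n y) =
      (2 * ((n : ℂ) / 2) ^ 2) • (1 : Matrix (Λ → Fin (n + 1)) (Λ → Fin (n + 1)) ℂ)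
        - (2 : ℂ) • dotOp n x y := by
  have hAA : ∀ z : Λ, (oA n z)ᴴ * oA n z = ((n : ℂ) / 2) • (1 : Matrix _ _ ℂ) + oZ n z := by
    intro z
    rw [siteOp_conjTranspose, siteOp_mul, schwA_schwA, siteOp_add, siteOp_smul, siteOp_one]
  have hBB : ∀ z : Λ, (oB n z)ᴴ * oB n z = ((n : ℂ) / 2) • (1 : Matrix _ _ ℂ) - oZ n z := by
    intro z
    rw [siteOp_conjTranspose, siteOp_mul, schwB_schwB, siteOp_sub, siteOp_smul, siteOp_one]
  have hAB : ∀ z : Λ, (oA n z)ᴴ * oB n z = oP n z := by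
    intro z
    rw [siteOp_conjTranspose, siteOp_mul, schwA_schwB]
  have hBA : ∀ z : Λ, (oB n z)ᴴ * oA n z = oM n z := by
    intro z
    rw [siteOp_conjTranspose, siteOp_mul, schwB_schwA]
  have sw : ∀ (P Q R T : Matrix (Fin (n + 1)) (Fin (n + 1)) ℂ),
      (siteOp x P * siteOp y Q)ᴴ * (siteOp x R * siteOp y T) =
      ((siteOp x P)ᴴ * siteOp x R) * ((siteOp y Q)ᴴ * siteOp y T) := by
    intro P Q R T
    rw [Matrix.conjTranspose_mul, siteOp_conjTranspose, siteOp_conjTranspose,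
      siteOp_comm hxy.symm, mul_assoc, ← mul_assoc (siteOp y Qᴴ), siteOp_comm hxy.symm]
    simp only [mul_assoc]
  rw [Matrix.conjTranspose_sub, sub_mul, mul_sub, mul_sub, sw, sw, sw, sw, hAA, hBB, hAB, hBA,
    hAA, hBB, hAB, hBA, dotOp_eq]
  simp only [add_mul, mul_add, sub_mul, mul_sub, smul_mul_assoc, mul_smul_comm, Matrix.mul_one,
    Matrix.one_mul, smul_add, smul_sub, smul_smul]
  module

lemma zz_sos {x y : Λ} (hxy : x ≠ y) :
    (oA n x * oB n y)ᴴ * (oA n x * oB n y) + (oB n x * oA n y)ᴴ * (oB n x * oA n y) =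
      (2 * ((n : ℂ) / 2) ^ 2) • (1 : Matrix (Λ → Fin (n + 1)) (Λ → Fin (n + 1)) ℂ)
        - (2 : ℂ) • (oZ n x * oZ n y) := by
  have hAA : ∀ z : Λ, (oA n z)ᴴ * oA n z = ((n : ℂ) / 2) • (1 : Matrix _ _ ℂ) + oZ n z := by
    intro z
    rw [siteOp_conjTranspose, siteOp_mul, schwA_schwA, siteOp_add, siteOp_smul, siteOp_one]
  have hBB : ∀ z : Λ, (oB n z)ᴴ * oB n z = ((n : ℂ) / 2) • (1 : Matrix _ _ ℂ) - oZ n z := by
    intro z
    rw [siteOp_conjTranspose, siteOp_mul, schwB_schwB, siteOp_sub, siteOp_smul, siteOp_one]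
  have sw : ∀ (P Q R T : Matrix (Fin (n + 1)) (Fin (n + 1)) ℂ),
      (siteOp x P * siteOp y Q)ᴴ * (siteOp x R * siteOp y T) =
      ((siteOp x P)ᴴ * siteOp x R) * ((siteOp y Q)ᴴ * siteOp y T) := by
    intro P Q R T
    rw [Matrix.conjTranspose_mul, siteOp_conjTranspose, siteOp_conjTranspose,
      siteOp_comm hxy.symm, mul_assoc, ← mul_assoc (siteOp y Qᴴ), siteOp_comm hxy.symm]
    simp only [mul_assoc]
  rw [sw, sw, hAA, hBB, hAA, hBB]
  simp only [add_mul, mul_add, sub_mul, mul_sub, smul_mul_assoc, mul_smul_comm, Matrix.mul_one,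
    Matrix.one_mul, smul_add, smul_sub, smul_smul]
  module

end Vale.Agent.P361.H
end

section

namespace Vale.Agent.P361.H

open Matrix

variable {n : ℕ} {Λ : Finset Site}

lemma isNN_ne {x y : Λ} (h : IsNN x.1 y.1) : x ≠ y := by
  rintro rfl
  simp [IsNN] at h

lemma isNN_symm {x y : Site} (h : IsNN x y) : IsNN y x := by
  unfold IsNN at *
  rw [← h]
  exact Finset.sum_congr rfl fun i _ => abs_sub_comm _ _

lemma hamiltonian_eq : hamiltonian n Λ =
    -((1 / 2 : ℂ) • ∑ x : Λ, ∑ y : Λ, if IsNN x.1 y.1 then dotOp n x y else 0) := rfl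

lemma magnetization_eq : magnetization n Λ = ∑ x : Λ, oZ n x := rfl

lemma dotOp_conj {x y : Λ} (hxy : x ≠ y) : (dotOp n x y)ᴴ = dotOp n x y := by
  rw [dotOp_eq, Matrix.conjTranspose_add, Matrix.conjTranspose_smul, Matrix.conjTranspose_add,
    Matrix.conjTranspose_mul, Matrix.conjTranspose_mul, Matrix.conjTranspose_mul, oZ_conj, oZ_conj,
    oM_conj, oM_conj, oP_conj, oP_conj, siteOp_comm hxy.symm, siteOp_comm hxy.symm,
    siteOp_comm hxy.symm]
  have : star (1 / 2 : ℂ) = 1 / 2 := by simp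
  rw [this, add_comm (oM n x * oP n y)]

lemma dotOp_transpose {x y : Λ} (hxy : x ≠ y) : (dotOp n x y)ᵀ = dotOp n x y := by
  rw [dotOp_eq, Matrix.transpose_add, Matrix.transpose_smul, Matrix.transpose_add,
    Matrix.transpose_mul, Matrix.transpose_mul, Matrix.transpose_mul, oZ_transpose, oZ_transpose,
    oM_transpose, oM_transpose, oP_transpose, oP_transpose, siteOp_comm hxy.symm,
    siteOp_comm hxy.symm, siteOp_comm hxy.symm]
  rw [add_comm (oM n x * oP n y)]

lemma hamiltonian_conj : (hamiltonian n Λ)ᴴ = hamiltonian n Λ := by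
  rw [hamiltonian_eq, Matrix.conjTranspose_neg, Matrix.conjTranspose_smul,
    Matrix.conjTranspose_sum]
  have : star (1 / 2 : ℂ) = 1 / 2 := by simp
  rw [this]
  congr 2
  refine Finset.sum_congr rfl fun x _ => ?_
  rw [Matrix.conjTranspose_sum]
  refine Finset.sum_congr rfl fun y _ => ?_
  split_ifs with h
  · exact dotOp_conj (isNN_ne h)
  · exact Matrix.conjTranspose_zero

lemma hamiltonian_transpose : (hamiltonian n Λ)ᵀ = hamiltonian n Λ := by
  rw [hamiltonian_eq, Matrix.transpose_neg, Matrix.transpose_smul,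
    Matrix.transpose_sum]
  congr 2
  refine Finset.sum_congr rfl fun x _ => ?_
  rw [Matrix.transpose_sum]
  refine Finset.sum_congr rfl fun y _ => ?_
  split_ifs with h
  · exact dotOp_transpose (isNN_ne h)
  · exact Matrix.transpose_zero

lemma magnetization_conj : (magnetization n Λ)ᴴ = magnetization n Λ := by
  rw [magnetization_eq, Matrix.conjTranspose_sum]
  exact Finset.sum_congr rfl fun x _ => oZ_conj x

lemma magnetization_transpose : (magnetization n Λ)ᵀ = magnetization n Λ := by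
  rw [magnetization_eq, Matrix.transpose_sum]
  exact Finset.sum_congr rfl fun x _ => oZ_transpose x

/-- The exponent `-β (H - h M)`. -/
noncomputable def expo (n : ℕ) (Λ : Finset Site) (β h : ℝ) :
    Matrix (Λ → Fin (n + 1)) (Λ → Fin (n + 1)) ℂ :=
  -(β : ℂ) • (hamiltonian n Λ - (h : ℂ) • magnetization n Λ)

lemma expo_isHermitian (β h : ℝ) : (expo n Λ β h).IsHermitian := by
  unfold Matrix.IsHermitian expo
  rw [Matrix.conjTranspose_smul, Matrix.conjTranspose_sub, Matrix.conjTranspose_smul,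
    hamiltonian_conj, magnetization_conj]
  simp

lemma expo_transpose (β h : ℝ) : (expo n Λ β h)ᵀ = expo n Λ β h := by
  unfold expo
  rw [Matrix.transpose_smul, Matrix.transpose_sub, Matrix.transpose_smul,
    hamiltonian_transpose, magnetization_transpose]

/-- Partition function. -/
noncomputable def partZ (n : ℕ) (Λ : Finset Site) (β h : ℝ) : ℝ :=
  (trace (NormedSpace.exp (expo n Λ β h))).re

/-- Unnormalized expectation `Re Tr (X e^{-β(H-hM)})`. -/
noncomputable def tr (n : ℕ) (Λ : Finset Site) (β h : ℝ)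
    (X : Matrix (Λ → Fin (n + 1)) (Λ → Fin (n + 1)) ℂ) : ℝ :=
  (trace (X * NormedSpace.exp (expo n Λ β h))).re

lemma partZ_pos (β h : ℝ) : 0 < partZ n Λ β h := trace_exp_pos _ (expo_isHermitian β h)

lemma tr_add (β h : ℝ) (X Y : Matrix (Λ → Fin (n + 1)) (Λ → Fin (n + 1)) ℂ) :
    tr n Λ β h (X + Y) = tr n Λ β h X + tr n Λ β h Y := by
  simp [tr, Matrix.add_mul]

lemma tr_sub (β h : ℝ) (X Y : Matrix (Λ → Fin (n + 1)) (Λ → Fin (n + 1)) ℂ) :
    tr n Λ β h (X - Y) = tr n Λ β h X - tr n Λ β h Y := by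
  simp [tr, Matrix.sub_mul]

lemma tr_neg (β h : ℝ) (X : Matrix (Λ → Fin (n + 1)) (Λ → Fin (n + 1)) ℂ) :
    tr n Λ β h (-X) = - tr n Λ β h X := by
  simp [tr]

lemma tr_smul (β h : ℝ) (c : ℝ) (X : Matrix (Λ → Fin (n + 1)) (Λ → Fin (n + 1)) ℂ) :
    tr n Λ β h ((c : ℂ) • X) = c * tr n Λ β h X := by
  simp [tr]

lemma tr_sum {ι : Type*} (s : Finset ι) (β h : ℝ)
    (X : ι → Matrix (Λ → Fin (n + 1)) (Λ → Fin (n + 1)) ℂ) :
    tr n Λ β h (∑ i ∈ s, X i) = ∑ i ∈ s, tr n Λ β h (X i) := by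
  simp [tr, Finset.sum_mul, Matrix.trace_sum, Complex.re_sum]

lemma tr_one (β h : ℝ) : tr n Λ β h 1 = partZ n Λ β h := by
  simp [tr, partZ]

lemma tr_zero (β h : ℝ) : tr n Λ β h 0 = 0 := by
  simp [tr]

lemma tr_star_mul_nonneg (β h : ℝ) (X : Matrix (Λ → Fin (n + 1)) (Λ → Fin (n + 1)) ℂ) :
    0 ≤ tr n Λ β h (Xᴴ * X) := trace_star_mul_exp_nonneg _ (expo_isHermitian β h) X

/-- Invariance of traces under transposition. -/
lemma trace_transpose_exp (β h : ℝ) (X : Matrix (Λ → Fin (n + 1)) (Λ → Fin (n + 1)) ℂ) :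
    trace (Xᵀ * NormedSpace.exp (expo n Λ β h)) = trace (X * NormedSpace.exp (expo n Λ β h)) := by
  conv_rhs => rw [← Matrix.trace_transpose, Matrix.transpose_mul, ← Matrix.exp_transpose,
    expo_transpose, Matrix.trace_mul_comm]

lemma trace_conjTranspose_exp (β h : ℝ) (X : Matrix (Λ → Fin (n + 1)) (Λ → Fin (n + 1)) ℂ) :
    trace (Xᴴ * NormedSpace.exp (expo n Λ β h)) =
      star (trace (X * NormedSpace.exp (expo n Λ β h))) := by
  rw [← Matrix.trace_conjTranspose, Matrix.conjTranspose_mul, ← Matrix.exp_conjTranspose,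
    (expo_isHermitian β h).eq, Matrix.trace_mul_comm]

lemma trace_PM_comm {x y : Λ} (hxy : x ≠ y) (β h : ℝ) :
    trace (oP n x * oM n y * NormedSpace.exp (expo n Λ β h)) =
    trace (oM n x * oP n y * NormedSpace.exp (expo n Λ β h)) := by
  rw [← trace_transpose_exp, Matrix.transpose_mul, oM_transpose, oP_transpose,
    siteOp_comm hxy.symm]

lemma trace_PM_real {x y : Λ} (hxy : x ≠ y) (β h : ℝ) :
    trace (oP n x * oM n y * NormedSpace.exp (expo n Λ β h)) =
    ((tr n Λ β h (oP n x * oM n y) : ℝ) : ℂ) := by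
  have h1 : star (trace (oP n x * oM n y * NormedSpace.exp (expo n Λ β h))) =
      trace (oP n x * oM n y * NormedSpace.exp (expo n Λ β h)) := by
    rw [← trace_conjTranspose_exp, Matrix.conjTranspose_mul, oM_conj, oP_conj,
      siteOp_comm hxy.symm, ← trace_PM_comm hxy]
  exact (Complex.conj_eq_iff_re.1 h1).symm

lemma trace_ZZ_real {x y : Λ} (hxy : x ≠ y) (β h : ℝ) :
    trace (oZ n x * oZ n y * NormedSpace.exp (expo n Λ β h)) =
    ((tr n Λ β h (oZ n x * oZ n y) : ℝ) : ℂ) := by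
  have h1 : star (trace (oZ n x * oZ n y * NormedSpace.exp (expo n Λ β h))) =
      trace (oZ n x * oZ n y * NormedSpace.exp (expo n Λ β h)) := by
    rw [← trace_conjTranspose_exp, Matrix.conjTranspose_mul, oZ_conj, oZ_conj,
      siteOp_comm hxy.symm]
  exact (Complex.conj_eq_iff_re.1 h1).symm

/-- Expectation of the double commutator with `S_x·S_y`. -/
lemma tr_double_comm_dot {x y : Λ} (hxy : x ≠ y) (f : Λ → ℂ) (β h : ℝ) :
    tr n Λ β h ((modeOp n f)ᴴ * (dotOp n x y * modeOp n f - modeOp n f * dotOp n x y) -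
      (dotOp n x y * modeOp n f - modeOp n f * dotOp n x y) * (modeOp n f)ᴴ) =
    - Complex.normSq (f x - f y) * (tr n Λ β h (dotOp n x y) + tr n Λ β h (oZ n x * oZ n y)) := by
  have hdot : tr n Λ β h (dotOp n x y) = tr n Λ β h (oZ n x * oZ n y) +
      tr n Λ β h (oP n x * oM n y) := by
    rw [dotOp_eq, tr_add]
    congr 1
    have : ((1 / 2 : ℂ)) = (((1 / 2 : ℝ)) : ℂ) := by push_cast; rfl
    rw [this, tr_smul, tr_add]
    have h2 : tr n Λ β h (oM n x * oP n y) = tr n Λ β h (oP n x * oM n y) := by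
      unfold tr; rw [trace_PM_comm hxy]
    rw [h2]; ring
  rw [double_comm_dot hxy, hdot]
  unfold tr
  rw [smul_mul_assoc, Matrix.trace_smul, Matrix.add_mul, Matrix.trace_add, smul_mul_assoc,
    smul_mul_assoc, Matrix.trace_smul, Matrix.trace_smul, Matrix.sub_mul, Matrix.add_mul,
    Matrix.trace_sub, Matrix.trace_add, Matrix.neg_mul, Matrix.trace_neg, smul_mul_assoc,
    Matrix.trace_smul, ← trace_PM_comm hxy, trace_PM_real hxy, trace_ZZ_real hxy]
  set p := tr n Λ β h (oP n x * oM n y) with hp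
  set q := tr n Λ β h (oZ n x * oZ n y) with hq
  have e : (f x - f y) • (star (f x) • (-(p : ℂ) - (2 : ℂ) • (q : ℂ)) +
      star (f y) • ((p : ℂ) + (2 : ℂ) • (q : ℂ))) =
      ((- Complex.normSq (f x - f y) * (p + 2 * q) : ℝ) : ℂ) := by
    have h3 := mul_star_self' (f x - f y)
    push_cast
    rw [← h3]
    simp only [smul_eq_mul, star_sub]
    ring
  rw [e, Complex.ofReal_re, Complex.ofReal_re, Complex.ofReal_re]
  ring

lemma tr_dot_le {x y : Λ} (hxy : x ≠ y) (β h : ℝ) :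
    tr n Λ β h (dotOp n x y) ≤ ((n : ℝ) / 2) ^ 2 * partZ n Λ β h := by
  have h1 := tr_star_mul_nonneg β h (oA n x * oB n y - oB n x * oA n y)
  rw [dot_sos hxy] at h1
  have e1 : (2 * ((n : ℂ) / 2) ^ 2) = (((2 * ((n : ℝ) / 2) ^ 2 : ℝ)) : ℂ) := by push_cast; rfl
  have e2 : (2 : ℂ) = ((2 : ℝ) : ℂ) := by push_cast; rfl
  rw [e1, e2, tr_sub, tr_smul, tr_smul, tr_one] at h1
  linarith

lemma tr_zz_le {x y : Λ} (hxy : x ≠ y) (β h : ℝ) :
    tr n Λ β h (oZ n x * oZ n y) ≤ ((n : ℝ) / 2) ^ 2 * partZ n Λ β h := by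
  have h1 := tr_star_mul_nonneg β h (oA n x * oB n y)
  have h2 := tr_star_mul_nonneg β h (oB n x * oA n y)
  have h3 := add_nonneg h1 h2
  rw [← tr_add, zz_sos hxy] at h3
  have e1 : (2 * ((n : ℂ) / 2) ^ 2) = (((2 * ((n : ℝ) / 2) ^ 2 : ℝ)) : ℂ) := by push_cast; rfl
  have e2 : (2 : ℂ) = ((2 : ℝ) : ℂ) := by push_cast; rfl
  rw [e1, e2, tr_sub, tr_smul, tr_smul, tr_one] at h3
  linarith

/-- `[T*, T] = 2 ∑ |f|² S³`. -/
lemma comm_mode_mode (f : Λ → ℂ) :
    (modeOp n f)ᴴ * modeOp n f - modeOp n f * (modeOp n f)ᴴ =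
      ∑ x, ((2 * Complex.normSq (f x) : ℝ) : ℂ) • oZ n x := by
  rw [modeOp_conj, modeOp, Finset.sum_mul_sum, Finset.sum_mul_sum]
  have hsw : ∑ i : Λ, ∑ j : Λ, f i • oM n i * star (f j) • oP n j =
      ∑ i : Λ, ∑ j : Λ, f j • oM n j * star (f i) • oP n i := Finset.sum_comm
  rw [hsw, ← Finset.sum_sub_distrib]
  refine Finset.sum_congr rfl fun x _ => ?_
  rw [← Finset.sum_sub_distrib, Finset.sum_eq_single x]
  · rw [smul_mul_smul_comm, smul_mul_smul_comm, comm_PM_same, smul_add, smul_smul,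
      mul_comm (f x), add_sub_cancel_left, star_mul_self'']
    congr 1
    push_cast; ring
  · intro y _ hyx
    rw [smul_mul_smul_comm, smul_mul_smul_comm, siteOp_comm hyx, mul_comm (f y), sub_self]
  · simp

/-- `[M, T] = -T`. -/
lemma comm_mag_mode (f : Λ → ℂ) :
    magnetization n Λ * modeOp n f - modeOp n f * magnetization n Λ = - modeOp n f := by
  rw [magnetization_eq, modeOp, Finset.sum_mul_sum, Finset.sum_mul_sum]
  have hsw : ∑ i : Λ, ∑ j : Λ, f i • oM n i * oZ n j =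
      ∑ i : Λ, ∑ j : Λ, f j • oM n j * oZ n i := Finset.sum_comm
  rw [hsw, ← Finset.sum_sub_distrib, ← Finset.sum_neg_distrib]
  refine Finset.sum_congr rfl fun x _ => ?_
  rw [← Finset.sum_sub_distrib, Finset.sum_eq_single x]
  · rw [mul_smul_comm, smul_mul_assoc, comm_ZM_same, smul_sub]
    abel
  · intro y _ hyx
    rw [mul_smul_comm, smul_mul_assoc, siteOp_comm hyx, sub_self]
  · simp

/-- The double commutator bound for a mode `f`. -/
lemma tr_double_comm_le (f : Λ → ℂ) {β : ℝ} (hβ : 0 ≤ β) (h : ℝ) :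
    tr n Λ β h ((modeOp n f)ᴴ * (modeOp n f * expo n Λ β h - expo n Λ β h * modeOp n f) -
      (modeOp n f * expo n Λ β h - expo n Λ β h * modeOp n f) * (modeOp n f)ᴴ) ≤
    β * (((n : ℝ) / 2) ^ 2 * (∑ x : Λ, ∑ y : Λ, if IsNN x.1 y.1 then
      Complex.normSq (f x - f y) else 0) * partZ n Λ β h +
      h * tr n Λ β h ((modeOp n f)ᴴ * modeOp n f - modeOp n f * (modeOp n f)ᴴ)) := by
  set T := modeOp n f with hT
  have e1 : T * expo n Λ β h - expo n Λ β h * T =
      (β : ℂ) • ((hamiltonian n Λ * T - T * hamiltonian n Λ) + (h : ℂ) • T) := by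
    have := comm_mag_mode (n := n) f
    rw [← hT] at this
    rw [expo]
    have h2 : magnetization n Λ * T = T * magnetization n Λ - T := by
      rw [sub_eq_iff_eq_add] at this; rw [this]; abel
    simp only [mul_smul_comm, smul_mul_assoc, mul_sub, sub_mul, h2]
    module
  have e2 : hamiltonian n Λ * T - T * hamiltonian n Λ =
      ∑ x : Λ, ∑ y : Λ, if IsNN x.1 y.1 then
        (-(1 / 2) : ℂ) • (dotOp n x y * T - T * dotOp n x y) else 0 := by
    rw [hamiltonian_eq]
    simp only [neg_mul, mul_neg, smul_mul_assoc, mul_smul_comm, Finset.sum_mul, Finset.mul_sum,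
      Finset.smul_sum]
    rw [← neg_sub_neg, neg_neg, neg_neg, ← Finset.sum_sub_distrib]
    refine Finset.sum_congr rfl fun x _ => ?_
    rw [← Finset.sum_sub_distrib]
    refine Finset.sum_congr rfl fun y _ => ?_
    split_ifs
    · module
    · simp
  have e3 : Tᴴ * (T * expo n Λ β h - expo n Λ β h * T) -
      (T * expo n Λ β h - expo n Λ β h * T) * Tᴴ =
      (β : ℂ) • ((∑ x : Λ, ∑ y : Λ, if IsNN x.1 y.1 then
        (((-(1 / 2) : ℝ)) : ℂ) • (Tᴴ * (dotOp n x y * T - T * dotOp n x y) -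
          (dotOp n x y * T - T * dotOp n x y) * Tᴴ) else 0) +
        (h : ℂ) • (Tᴴ * T - T * Tᴴ)) := by
    rw [e1, mul_smul_comm, smul_mul_assoc, ← smul_sub]
    congr 1
    rw [mul_add, add_mul, mul_smul_comm, smul_mul_assoc, add_sub_add_comm, ← smul_sub, e2]
    congr 1
    rw [Finset.mul_sum, Finset.sum_mul, ← Finset.sum_sub_distrib]
    refine Finset.sum_congr rfl fun x _ => ?_
    rw [Finset.mul_sum, Finset.sum_mul, ← Finset.sum_sub_distrib]
    refine Finset.sum_congr rfl fun y _ => ?_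
    split_ifs
    · rw [mul_smul_comm, smul_mul_assoc, ← smul_sub]
      push_cast; rfl
    · simp
  rw [e3, tr_smul, tr_add, tr_smul, tr_sum]
  refine mul_le_mul_of_nonneg_left ?_ hβ
  refine add_le_add_left ?_ _
  rw [Finset.mul_sum, Finset.sum_mul]
  refine Finset.sum_le_sum fun x _ => ?_
  rw [tr_sum, Finset.mul_sum, Finset.sum_mul]
  refine Finset.sum_le_sum fun y _ => ?_
  split_ifs with hnn
  · rw [tr_smul, tr_double_comm_dot (isNN_ne hnn)]
    have h1 := tr_dot_le (n := n) (isNN_ne hnn) β h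
    have h2 := tr_zz_le (n := n) (isNN_ne hnn) β h
    have h3 := Complex.normSq_nonneg (f x - f y)
    have h4 := mul_le_mul_of_nonneg_left (add_le_add h1 h2) h3
    linarith
  · rw [tr_zero]; simp

end Vale.Agent.P361.H
end

section

namespace Vale.Agent.P361.H

open Matrix

lemma box_eq (N : ℕ) : box N = Fintype.piFinset fun _ : Fin 3 => Finset.Icc (-(N : ℤ)) N := rfl

lemma card_box (N : ℕ) : (box N).card = (2 * N + 1) ^ 3 := by
  rw [box_eq, Fintype.card_piFinset]
  simp only [Int.card_Icc, Finset.prod_const, Finset.card_univ, Fintype.card_fin]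
  congr 1
  omega

lemma mem_box {N : ℕ} {x : Site} : x ∈ box N ↔ ∀ i, -(N : ℤ) ≤ x i ∧ x i ≤ N := by
  rw [box_eq, Fintype.mem_piFinset]
  simp

/-- Wave number factor. -/
noncomputable def theta (N : ℕ) : ℝ := 2 * Real.pi / (2 * N + 1)

/-- Plane wave `exp(i k·x)`, `k = 2π l / (2N+1)`. -/
noncomputable def wave (N : ℕ) (l x : Site) : ℂ :=
  Complex.exp (((theta N * ∑ j, (l j : ℝ) * (x j : ℝ) : ℝ) : ℂ) * Complex.I)

lemma wave_normSq (N : ℕ) (l x : Site) : Complex.normSq (wave N l x) = 1 := by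
  rw [Complex.normSq_eq_norm_sq, wave, Complex.norm_exp_ofReal_mul_I]; norm_num

lemma wave_star (N : ℕ) (l x : Site) : star (wave N l x) =
    Complex.exp (((-(theta N * ∑ j, (l j : ℝ) * (x j : ℝ)) : ℝ) : ℂ) * Complex.I) := by
  rw [wave, Complex.star_def, ← Complex.exp_conj]
  congr 1
  simp

lemma normSq_one_sub_exp (a : ℝ) :
    Complex.normSq (1 - Complex.exp ((a : ℂ) * Complex.I)) = 2 * (1 - Real.cos a) := by
  rw [Complex.exp_mul_I, ← Complex.ofReal_cos, ← Complex.ofReal_sin, Complex.normSq_apply]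
  simp only [Complex.sub_re, Complex.one_re, Complex.add_re, Complex.ofReal_re, Complex.mul_re,
    Complex.I_re, mul_zero, Complex.ofReal_im, Complex.I_im, mul_one, sub_self, add_zero,
    Complex.sub_im, Complex.one_im, Complex.add_im, Complex.mul_im, zero_add]
  nlinarith [Real.sin_sq_add_cos_sq a]

lemma wave_sub (N : ℕ) (l x v : Site) :
    Complex.normSq (wave N l x - wave N l (x + v)) =
      2 * (1 - Real.cos (theta N * ∑ j, (l j : ℝ) * (v j : ℝ))) := by
  have : wave N l x - wave N l (x + v) = wave N l x *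
      (1 - Complex.exp (((theta N * ∑ j, (l j : ℝ) * (v j : ℝ) : ℝ) : ℂ) * Complex.I)) := by
    rw [mul_sub, mul_one, wave, wave, ← Complex.exp_add]
    congr 2
    rw [← add_mul, ← Complex.ofReal_add, ← mul_add, ← Finset.sum_add_distrib]
    simp only [Pi.add_apply]
    push_cast
    simp only [mul_add]
  rw [this, Complex.normSq_mul, wave_normSq, one_mul, normSq_one_sub_exp]

/-- The six unit vectors. -/
def dir (p : Fin 3 × Bool) : Site := Pi.single p.1 (if p.2 then 1 else -1)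

lemma dir_injective : Function.Injective dir := by decide +revert

lemma isNN_iff (x y : Site) : IsNN x y ↔ ∃ p, y = x + dir p := by
  constructor
  · intro h
    unfold IsNN at h
    rw [Fin.sum_univ_three] at h
    have key : ∀ a b c : ℤ, |a| + |b| + |c| = 1 →
        (a = 1 ∧ b = 0 ∧ c = 0) ∨ (a = -1 ∧ b = 0 ∧ c = 0) ∨ (a = 0 ∧ b = 1 ∧ c = 0) ∨
        (a = 0 ∧ b = -1 ∧ c = 0) ∨ (a = 0 ∧ b = 0 ∧ c = 1) ∨ (a = 0 ∧ b = 0 ∧ c = -1) := by
      intro a b c h
      rcases abs_cases a with ha | ha <;> rcases abs_cases b with hb | hb <;>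
        rcases abs_cases c with hc | hc <;> omega
    have hx : ∀ p : Fin 3 × Bool, (y 0 = x 0 + dir p 0 ∧ y 1 = x 1 + dir p 1 ∧
        y 2 = x 2 + dir p 2) → y = x + dir p := by
      intro p hp
      ext i
      fin_cases i
      · exact hp.1
      · exact hp.2.1
      · exact hp.2.2
    rcases key _ _ _ h with h | h | h | h | h | h
    · refine ⟨(0, false), hx _ ?_⟩
      simp [dir]; omega
    · refine ⟨(0, true), hx _ ?_⟩
      simp [dir]; omega
    · refine ⟨(1, false), hx _ ?_⟩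
      simp [dir]; omega
    · refine ⟨(1, true), hx _ ?_⟩
      simp [dir]; omega
    · refine ⟨(2, false), hx _ ?_⟩
      simp [dir]; omega
    · refine ⟨(2, true), hx _ ?_⟩
      simp [dir]; omega
  · rintro ⟨p, rfl⟩
    unfold IsNN
    have : ∀ p, ∑ i, |dir p i| = 1 := by decide
    rw [← this p]
    refine Finset.sum_congr rfl fun i _ => ?_
    rw [Pi.add_apply, sub_add_cancel_left, abs_neg]

lemma sum_nn_le (Λ : Finset Site) (x : Site) (g : Site → ℝ) (hg : ∀ y, 0 ≤ g y) :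
    (∑ y : Λ, if IsNN x y.1 then g y.1 else 0) ≤ ∑ p, g (x + dir p) := by
  rw [Finset.sum_coe_sort Λ (fun y => if IsNN x y then g y else 0), ← Finset.sum_filter]
  have hinj : Function.Injective fun p => x + dir p := fun p q h => dir_injective (by simpa using h)
  rw [← Finset.sum_image (f := g) (g := fun p => x + dir p) (s := Finset.univ)
    (fun p _ q _ h => hinj h)]
  refine Finset.sum_le_sum_of_subset_of_nonneg ?_ (fun y _ _ => hg y)
  intro y hy
  rw [Finset.mem_filter] at hy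
  obtain ⟨p, hp⟩ := (isNN_iff x y).1 hy.2
  exact Finset.mem_image.2 ⟨p, Finset.mem_univ _, hp.symm⟩

/-- Dispersion `∑_j (1 - cos k_j)`. -/
noncomputable def disp (N : ℕ) (l : Site) : ℝ := ∑ j, (1 - Real.cos (theta N * (l j : ℝ)))

lemma disp_nonneg (N : ℕ) (l : Site) : 0 ≤ disp N l :=
  Finset.sum_nonneg fun j _ => by have := Real.cos_le_one (theta N * (l j : ℝ)); linarith

lemma sum_wave_nn_le (Λ : Finset Site) (N : ℕ) (l : Site) :
    (∑ x : Λ, ∑ y : Λ, if IsNN x.1 y.1 then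
      Complex.normSq (wave N l x.1 - wave N l y.1) else 0) ≤ Λ.card * (4 * disp N l) := by
  have h1 : ∀ x : Λ, (∑ y : Λ, if IsNN x.1 y.1 then
      Complex.normSq (wave N l x.1 - wave N l y.1) else 0) ≤ 4 * disp N l := by
    intro x
    refine (sum_nn_le Λ x.1 (fun y => Complex.normSq (wave N l x.1 - wave N l y))
      (fun y => Complex.normSq_nonneg _)).trans (le_of_eq ?_)
    simp only [wave_sub]
    rw [Fintype.sum_prod_type, disp, Finset.mul_sum]
    refine Finset.sum_congr rfl fun j _ => ?_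
    have e : ∀ b : Bool, ∑ i, (l i : ℝ) * ((dir (j, b) i : ℤ) : ℝ) =
        (l j : ℝ) * (if b then 1 else -1) := by
      intro b
      rw [Finset.sum_eq_single j]
      · cases b <;> simp [dir]
      · intro i _ hij
        simp [dir, Pi.single_eq_of_ne hij]
      · simp
    rw [Fintype.sum_bool, e, e]
    simp only [if_true, Bool.false_eq_true, if_false, mul_one, mul_neg, Real.cos_neg]
    ring
  calc _ ≤ ∑ x : Λ, 4 * disp N l := Finset.sum_le_sum fun x _ => h1 x
    _ = _ := by simp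

/-- One-dimensional orthogonality. -/
lemma sum_exp_Icc (N : ℕ) (d : ℤ) (hd : |d| ≤ 2 * N) :
    ∑ l ∈ Finset.Icc (-(N : ℤ)) N, Complex.exp (((theta N * ((l : ℝ) * (d : ℝ)) : ℝ) : ℂ) * Complex.I)
      = if d = 0 then (2 * N + 1 : ℂ) else 0 := by
  split_ifs with h0
  · subst h0
    simp
    push_cast [Int.card_Icc]
    have : ((N : ℤ) + 1 + N).toNat = 2 * N + 1 := by omega
    rw [this]; push_cast; rfl
  · set ζ : ℂ := Complex.exp (((theta N * (d : ℝ) : ℝ) : ℂ) * Complex.I) with hζ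
    have hL : (0 : ℝ) < 2 * N + 1 := by positivity
    have hζpow : ζ ^ (2 * N + 1) = 1 := by
      rw [hζ, ← Complex.exp_nat_mul, Complex.exp_eq_one_iff]
      refine ⟨d, ?_⟩
      rw [theta]
      push_cast
      have : (2 * (N : ℂ) + 1) ≠ 0 := by
        exact_mod_cast (Nat.succ_ne_zero (2 * N))
      field_simp
    have hζ1 : ζ ≠ 1 := by
      intro h
      rw [hζ, Complex.exp_eq_one_iff] at h
      obtain ⟨m, hm⟩ := h
      have h2 : theta N * (d : ℝ) = m * (2 * Real.pi) := by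
        have h3 : (((theta N * (d : ℝ) : ℝ) : ℂ)) * Complex.I = ((m * (2 * Real.pi) : ℝ) : ℂ) * Complex.I := by
          rw [hm]; push_cast; ring
        have h4 := mul_right_cancel₀ Complex.I_ne_zero h3
        exact_mod_cast h4
      rw [theta] at h2
      have h5 : (d : ℝ) = m * (2 * N + 1) := by
        have hpi := Real.pi_pos
        field_simp at h2
        linarith
      have h6 : d = m * (2 * N + 1) := by exact_mod_cast h5
      have hm0 : m ≠ 0 := by rintro rfl; simp at h6; exact h0 h6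
      have h7 : (2 * (N : ℤ) + 1) ≤ |d| := by
        rw [h6, abs_mul, abs_of_pos (show (0 : ℤ) < 2 * N + 1 by positivity)]
        have : 1 ≤ |m| := Int.one_le_abs hm0
        nlinarith
      omega
    have hterm : ∀ l : ℤ, Complex.exp (((theta N * ((l : ℝ) * (d : ℝ)) : ℝ) : ℂ) * Complex.I) =
        ζ ^ l := by
      intro l
      rw [hζ, ← Complex.exp_int_mul]
      congr 1
      push_cast; ring
    simp only [hterm]
    have hζ0 : ζ ≠ 0 := Complex.exp_ne_zero _
    have hsum : ∑ l ∈ Finset.Icc (-(N : ℤ)) N, ζ ^ l =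
        ζ ^ (-(N : ℤ)) * ∑ i ∈ Finset.range (2 * N + 1), ζ ^ i := by
      rw [Finset.mul_sum]
      refine Finset.sum_bij' (fun l _ => (l + N).toNat) (fun i _ => (i : ℤ) - N) ?_ ?_ ?_ ?_ ?_
      · intro l hl; rw [Finset.mem_Icc] at hl; rw [Finset.mem_range]; omega
      · intro i hi; rw [Finset.mem_range] at hi; rw [Finset.mem_Icc]; omega
      · intro l hl; rw [Finset.mem_Icc] at hl; omega
      · intro i hi; omega
      · intro l hl
        rw [Finset.mem_Icc] at hl
        rw [← zpow_natCast, ← zpow_add₀ hζ0]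
        congr 1
        omega
    rw [hsum, geom_sum_eq hζ1, hζpow, sub_self, zero_div, mul_zero]

/-- Orthogonality of plane waves on the box. -/
lemma wave_orthog (N : ℕ) {x y : Site} (hx : x ∈ box N) (hy : y ∈ box N) :
    ∑ l ∈ box N, wave N l x * star (wave N l y) =
      if x = y then ((2 * N + 1 : ℂ)) ^ 3 else 0 := by
  have hterm : ∀ l : Site, wave N l x * star (wave N l y) =
      ∏ j, Complex.exp (((theta N * ((l j : ℝ) * (((x j - y j : ℤ)) : ℝ)) : ℝ) : ℂ) *
        Complex.I) := by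
    intro l
    rw [wave_star, wave, ← Complex.exp_add, ← Complex.exp_sum]
    congr 1
    rw [← Finset.sum_mul, ← add_mul, ← Complex.ofReal_add, ← Complex.ofReal_sum]
    congr 2
    rw [← sub_eq_add_neg, ← mul_sub, ← Finset.mul_sum, ← Finset.sum_sub_distrib]
    congr 1
    refine Finset.sum_congr rfl fun j _ => ?_
    push_cast; ring
  simp only [hterm]
  rw [box_eq, ← Finset.prod_univ_sum (fun _ : Fin 3 => Finset.Icc (-(N : ℤ)) N)
    (fun j l => Complex.exp (((theta N * ((l : ℝ) * (((x j - y j : ℤ)) : ℝ)) : ℝ) : ℂ) *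
        Complex.I))]
  rw [mem_box] at hx hy
  have h1 : ∀ j, ∑ l ∈ Finset.Icc (-(N : ℤ)) N,
      Complex.exp (((theta N * ((l : ℝ) * (((x j - y j : ℤ)) : ℝ)) : ℝ) : ℂ) * Complex.I) =
      if x j - y j = 0 then (2 * N + 1 : ℂ) else 0 := by
    intro j
    refine sum_exp_Icc N (x j - y j) ?_
    have := hx j
    have := hy j
    rw [abs_le]; omega
  simp only [h1]
  split_ifs with hxy
  · subst hxy; simp
  · obtain ⟨j, hj⟩ := Function.ne_iff.1 hxy
    refine Finset.prod_eq_zero (Finset.mem_univ j) ?_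
    rw [if_neg (sub_ne_zero.2 hj)]

end Vale.Agent.P361.H
end

section

namespace Vale.Agent.P361.H

open Matrix

variable {n : ℕ}

/-- Local inequality `S⁻S⁺ ≤ n (n/2 - S³)`. -/
lemma local_raise_le (Λ : Finset Site) (x : Λ) (β h : ℝ) :
    tr n Λ β h (oM n x * oP n x) ≤
      (n : ℝ) * ((n : ℝ) / 2 * partZ n Λ β h - tr n Λ β h (oZ n x)) := by
  set X : Matrix (Fin (n + 1)) (Fin (n + 1)) ℂ :=
    Matrix.diagonal fun j => ((Real.sqrt (((j : ℕ) : ℝ) * (((j : ℕ) : ℝ) - 1)) : ℝ) : ℂ) with hX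
  have hXX : Xᴴ * X = ((n : ℂ) * ((n : ℂ) / 2)) • (1 : Matrix _ _ ℂ) - (n : ℂ) • spinZ n
      - spinLower n * (spinLower n)ᴴ := by
    rw [lower_raise, hX, Matrix.diagonal_conjTranspose, Matrix.diagonal_mul_diagonal, spinZ,
      ← Matrix.diagonal_one, ← Matrix.diagonal_smul, ← Matrix.diagonal_smul, Matrix.diagonal_sub,
      Matrix.diagonal_sub]
    congr 1
    ext j
    have h : 0 ≤ ((j : ℕ) : ℝ) * (((j : ℕ) : ℝ) - 1) := by
      rcases Nat.eq_zero_or_pos (j : ℕ) with h | h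
      · rw [h]; simp
      · have : (1 : ℝ) ≤ ((j : ℕ) : ℝ) := by exact_mod_cast h
        exact mul_nonneg (by positivity) (by linarith)
    simp only [Pi.star_apply, RCLike.star_def, Complex.conj_ofReal, Pi.smul_apply, smul_eq_mul,
      mul_one]
    rw [← Complex.ofReal_mul, Real.mul_self_sqrt h]
    push_cast; ring
  have h1 := tr_star_mul_nonneg (n := n) (Λ := Λ) β h (siteOp x X)
  rw [siteOp_conjTranspose, siteOp_mul, hXX, siteOp_sub, siteOp_sub, siteOp_smul, siteOp_smul,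
    siteOp_one, ← siteOp_mul] at h1
  have e1 : ((n : ℂ) * ((n : ℂ) / 2)) = (((n : ℝ) * ((n : ℝ) / 2) : ℝ) : ℂ) := by push_cast; rfl
  have e2 : (n : ℂ) = ((n : ℝ) : ℂ) := by push_cast; rfl
  rw [e1, e2, tr_sub, tr_sub, tr_smul, tr_smul, tr_one] at h1
  linarith

/-- Parseval. -/
lemma sum_mode (N : ℕ) :
    ∑ l ∈ box N, modeOp n (fun x : box N => wave N l x.1) *
      (modeOp n (fun x : box N => wave N l x.1))ᴴ =
      ((((2 * N + 1 : ℝ)) ^ 3 : ℝ) : ℂ) • ∑ x : box N, oM n x * oP n x := by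
  have h1 : ∀ l, modeOp n (fun x : box N => wave N l x.1) *
      (modeOp n (fun x : box N => wave N l x.1))ᴴ =
      ∑ x : box N, ∑ y : box N, (wave N l x.1 * star (wave N l y.1)) • (oM n x * oP n y) := by
    intro l
    rw [modeOp_conj, modeOp, Finset.sum_mul_sum]
    refine Finset.sum_congr rfl fun x _ => Finset.sum_congr rfl fun y _ => ?_
    rw [smul_mul_smul_comm]
  simp only [h1]
  rw [Finset.sum_comm, Finset.smul_sum]
  refine Finset.sum_congr rfl fun x _ => ?_
  rw [Finset.sum_comm]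
  simp only [← Finset.sum_smul]
  rw [Finset.sum_eq_single x]
  · rw [wave_orthog N x.2 x.2, if_pos rfl]
    congr 1
    push_cast; rfl
  · intro y _ hyx
    rw [wave_orthog N x.2 y.2, if_neg (fun h => hyx (Subtype.ext h.symm)), zero_smul]
  · simp

/-- Mean magnetization per site `⟨M⟩ / |Λ|`. -/
noncomputable def mag (n : ℕ) (Λ : Finset Site) (β h : ℝ) : ℝ :=
  tr n Λ β h (magnetization n Λ) / (Λ.card * partZ n Λ β h)

lemma tr_mag (n N : ℕ) (β h : ℝ) : tr n (box N) β h (magnetization n (box N)) =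
    mag n (box N) β h * ((box N).card * partZ n (box N) β h) := by
  rw [mag, div_mul_cancel₀]
  have h1 := partZ_pos (n := n) (Λ := box N) β h
  have h2 : 0 < ((box N).card : ℝ) := by rw [card_box]; positivity
  positivity

lemma exp_arith (β S D V Z μ h : ℝ) (hV : 0 < V) (hZ : 0 < Z) (hμ : 0 < μ) :
    β * (S * (V * (4 * D)) * Z + h * (2 * μ * (V * Z))) / (2 * μ * (V * Z)) =
      β * (2 * S * D / μ + h) := by
  field_simp; ring

lemma mode_bound_aux (β h S V Z μ D P Q C X : ℝ) (hV : 0 < V) (hZ : 0 < Z)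
    (hμ : 0 < μ) (hβ : 0 < β) (hS : 0 ≤ S)
    (hPQ : P - Q = 2 * μ * (V * Z)) (hQ : 0 < Q) (hls : (P - Q) * Real.log (P / Q) ≤ C)
    (hC : C ≤ β * (S * X * Z + h * (2 * μ * (V * Z)))) (hX : X ≤ V * (4 * D)) :
    2 * μ * (V * Z) / (Real.exp (β * (2 * S * D / μ + h)) - 1) ≤ Q := by
  have hbpos : 0 < 2 * μ * (V * Z) := by positivity
  have hC2 : C ≤ β * (S * (V * (4 * D)) * Z + h * (2 * μ * (V * Z))) := by
    refine hC.trans ?_
    refine mul_le_mul_of_nonneg_left ?_ hβ.le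
    refine add_le_add_left ?_ _
    refine mul_le_mul_of_nonneg_right ?_ hZ.le
    exact mul_le_mul_of_nonneg_left hX hS
  have hlow := lower_of_logsum P Q _ hQ.le (by rw [hPQ]; exact hbpos) (hls.trans hC2) hQ
  rw [hPQ, exp_arith β S D V Z μ h hV hZ hμ] at hlow
  exact hlow

lemma mode_bound (N : ℕ) {β h : ℝ} (hβ : 0 < β) (hμ : 0 < mag n (box N) β h) (l : Site) :
    2 * mag n (box N) β h * ((box N).card * partZ n (box N) β h) /
      (Real.exp (β * (2 * ((n : ℝ) / 2) ^ 2 * disp N l / mag n (box N) β h + h)) - 1) ≤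
    tr n (box N) β h (modeOp n (fun x : box N => wave N l x.1) *
      (modeOp n (fun x : box N => wave N l x.1))ᴴ) := by
  have hZ : 0 < partZ n (box N) β h := partZ_pos β h
  have hV : 0 < ((box N).card : ℝ) := by rw [card_box]; positivity
  obtain ⟨T, hT⟩ : ∃ T, T = modeOp n (fun x : box N => wave N l x.1) := ⟨_, rfl⟩
  have hb : tr n (box N) β h (Tᴴ * T - T * Tᴴ) =
      2 * mag n (box N) β h * ((box N).card * partZ n (box N) β h) := by
    rw [hT, comm_mode_mode]
    simp only [wave_normSq, mul_one]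
    rw [← Finset.smul_sum, ← magnetization_eq, tr_smul, tr_mag]
    ring
  have hC := tr_double_comm_le (n := n) (fun x : box N => wave N l x.1) hβ.le h
  rw [← hT, hb] at hC
  have hsum := sum_wave_nn_le (box N) N l
  have hls := logsum_trace (expo n (box N) β h) (expo_isHermitian β h) Tᴴ
  simp only [Matrix.conjTranspose_conjTranspose] at hls
  have hPQ : tr n (box N) β h (Tᴴ * T) - tr n (box N) β h (T * Tᴴ) =
      2 * mag n (box N) β h * ((box N).card * partZ n (box N) β h) := by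
    rw [← tr_sub, hb]
  have hbpos : 0 < 2 * mag n (box N) β h * ((box N).card * partZ n (box N) β h) :=
    mul_pos (mul_pos two_pos hμ) (mul_pos hV hZ)
  have hTne : Tᴴ ≠ 0 := by
    intro h0
    have hT0 : T = 0 := by
      have := congrArg Matrix.conjTranspose h0
      rwa [Matrix.conjTranspose_conjTranspose, Matrix.conjTranspose_zero] at this
    rw [hT0] at hPQ
    simp only [Matrix.zero_mul, Matrix.mul_zero, tr_zero, sub_zero] at hPQ
    exact absurd hPQ hbpos.ne
  have hQpos : 0 < tr n (box N) β h (T * Tᴴ) := by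
    have := trace_star_mul_exp_pos (expo n (box N) β h) (expo_isHermitian β h) Tᴴ hTne
    rwa [Matrix.conjTranspose_conjTranspose] at this
  have hS : (0 : ℝ) ≤ ((n : ℝ) / 2) ^ 2 := sq_nonneg _
  rw [← hT]
  exact mode_bound_aux β h (((n : ℝ) / 2) ^ 2) ((box N).card : ℝ) (partZ n (box N) β h)
    (mag n (box N) β h) (disp N l) (tr n (box N) β h (Tᴴ * T)) (tr n (box N) β h (T * Tᴴ)) _ _
    hV hZ hμ hβ hS hPQ hQpos hls hC hsum

lemma sum_raise_le (n N : ℕ) (β h : ℝ) :
    ∑ x : box N, tr n (box N) β h (oM n x * oP n x) ≤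
      (n : ℝ) * ((n : ℝ) / 2 - mag n (box N) β h) *
        (((2 * N + 1 : ℝ)) ^ 3 * partZ n (box N) β h) := by
  have hcard : ((box N).card : ℝ) = (2 * N + 1 : ℝ) ^ 3 := by rw [card_box]; push_cast; rfl
  have h0 : ∑ x : box N, tr n (box N) β h (oM n x * oP n x) ≤
      ∑ x : box N, (n : ℝ) * ((n : ℝ) / 2 * partZ n (box N) β h - tr n (box N) β h (oZ n x)) :=
    Finset.sum_le_sum fun x _ => local_raise_le (box N) x β h
  refine h0.trans (le_of_eq ?_)
  have h1 := tr_mag n N β h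
  rw [magnetization_eq, tr_sum, hcard] at h1
  rw [← Finset.mul_sum, Finset.sum_sub_distrib, h1, Finset.sum_const,
    Finset.card_univ, Fintype.card_coe, nsmul_eq_mul, hcard]
  ring

lemma arith_aux (V Z S0 μ c : ℝ) (hV : 0 < V) (hZ : 0 < Z)
    (h : 2 * μ * (V * Z) * S0 ≤ V * (2 * c * (c - μ) * (V * Z))) :
    μ * (V⁻¹ * S0) ≤ c * (c - μ) := by
  have h5 : 2 * (V * Z) * (μ * S0) ≤ 2 * (V * Z) * (V * (c * (c - μ))) := by linarith
  have h6 := le_of_mul_le_mul_left h5 (by positivity)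
  have h7 : V⁻¹ * (μ * S0) ≤ V⁻¹ * (V * (c * (c - μ))) :=
    mul_le_mul_of_nonneg_left h6 (by positivity)
  rw [← mul_assoc V⁻¹ V, inv_mul_cancel₀ hV.ne', one_mul] at h7
  linarith

/-- Finite-volume bound. -/
theorem finite_bound (n N : ℕ) {β h : ℝ} (hβ : 0 < β) 
    (hμ : 0 < mag n (box N) β h) :
    mag n (box N) β h * ((((2 * N + 1 : ℝ)) ^ 3)⁻¹ * ∑ l ∈ box N,
      1 / (Real.exp (β * (2 * ((n : ℝ) / 2) ^ 2 * disp N l / mag n (box N) β h + h)) - 1)) ≤
    (n : ℝ) / 2 * ((n : ℝ) / 2 - mag n (box N) β h) := by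
  have hZ : 0 < partZ n (box N) β h := partZ_pos β h
  have hcard : ((box N).card : ℝ) = (2 * N + 1 : ℝ) ^ 3 := by rw [card_box]; push_cast; rfl
  have hV : 0 < (2 * N + 1 : ℝ) ^ 3 := by positivity
  have h1 := Finset.sum_le_sum fun l (_ : l ∈ box N) => mode_bound (n := n) N hβ hμ l
  rw [← tr_sum, sum_mode, tr_smul, tr_sum] at h1
  have h2 := sum_raise_le n N β h
  have h3 := h1.trans (mul_le_mul_of_nonneg_left h2 hV.le)
  refine arith_aux _ (partZ n (box N) β h) _ _ _ hV hZ ?_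
  rw [Finset.mul_sum]
  refine le_trans (le_of_eq ?_) (h3.trans (le_of_eq ?_))
  · refine Finset.sum_congr rfl fun l _ => ?_
    rw [hcard]; ring
  · ring

end Vale.Agent.P361.H
end

section

namespace Vale.Agent.P361.H

open MeasureTheory intervalIntegral Filter Topology

/-- `J(t) = π⁻¹ ∫₀^π exp(-t(1 - cos θ)) dθ`. -/
noncomputable def bJ (t : ℝ) : ℝ :=
  Real.pi⁻¹ * ∫ θ in (0 : ℝ)..Real.pi, Real.exp (-t * (1 - Real.cos θ))

lemma bJ_nonneg (t : ℝ) : 0 ≤ bJ t := by
  unfold bJ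
  refine mul_nonneg (inv_nonneg.2 Real.pi_pos.le) ?_
  exact intervalIntegral.integral_nonneg Real.pi_pos.le fun θ _ => (Real.exp_pos _).le

lemma bJ_integrable (t : ℝ) : IntervalIntegrable
    (fun θ => Real.exp (-t * (1 - Real.cos θ))) volume (0 : ℝ) Real.pi :=
  Continuous.intervalIntegrable (by fun_prop) _ _

lemma bJ_antitone {s t : ℝ} (h : s ≤ t) : bJ t ≤ bJ s := by
  unfold bJ
  refine mul_le_mul_of_nonneg_left ?_ (inv_nonneg.2 Real.pi_pos.le)
  refine intervalIntegral.integral_mono_on Real.pi_pos.le (bJ_integrable t) (bJ_integrable s) ?_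
  intro θ _
  refine Real.exp_le_exp.2 ?_
  have : 0 ≤ 1 - Real.cos θ := by have := Real.cos_le_one θ; linarith
  nlinarith

lemma bJ_continuous : Continuous bJ := by
  unfold bJ
  refine continuous_const.mul ?_
  refine intervalIntegral.continuous_parametric_intervalIntegral_of_continuous' ?_ _ _
  fun_prop

/-- Symmetric sums. -/
lemma sum_Icc_symm (N : ℕ) (g : ℝ → ℝ) (hg : ∀ x, g (-x) = g x) :
    ∑ l ∈ Finset.Icc (-(N : ℤ)) N, g (l : ℝ) =
      2 * ∑ i ∈ Finset.range (N + 1), g (i : ℝ) - g 0 := by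
  induction N with
  | zero => simp; ring
  | succ N ih =>
    have h1 : Finset.Icc (-((N + 1 : ℕ) : ℤ)) ((N + 1 : ℕ) : ℤ) =
        insert ((N + 1 : ℕ) : ℤ) (insert (-((N + 1 : ℕ) : ℤ)) (Finset.Icc (-(N : ℤ)) N)) := by
      ext l
      simp only [Finset.mem_Icc, Finset.mem_insert]
      omega
    rw [h1, Finset.sum_insert, Finset.sum_insert, ih, Finset.sum_range_succ _ (N + 1)]
    · have : g (((-((N + 1 : ℕ) : ℤ)) : ℤ) : ℝ) = g ((N + 1 : ℕ) : ℝ) := by
        rw [← hg]; congr 1; push_cast; ring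
      rw [this]
      push_cast
      ring
    · simp only [Finset.mem_Icc]; omega
    · simp only [Finset.mem_Icc, Finset.mem_insert]; omega

/-- Riemann-sum lower bound. -/
lemma riemann_lower (N : ℕ) (t : ℝ) (ht : 0 ≤ t) :
    bJ t - (2 * N + 1 : ℝ)⁻¹ ≤ (2 * N + 1 : ℝ)⁻¹ * ∑ l ∈ Finset.Icc (-(N : ℤ)) N,
      Real.exp (-t * (1 - Real.cos (2 * Real.pi / (2 * N + 1) * (l : ℝ)))) := by
  set L : ℝ := 2 * N + 1 with hL
  have hLpos : 0 < L := by positivity
  have hpi := Real.pi_pos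
  set w : ℝ := 2 * Real.pi / L with hw
  have hwpos : 0 < w := by positivity
  rw [sum_Icc_symm N (fun x => Real.exp (-t * (1 - Real.cos (w * x))))
    (fun x => by rw [mul_neg, Real.cos_neg])]
  set g : ℝ → ℝ := fun x => Real.exp (-t * (1 - Real.cos (min (w * x) Real.pi))) with hg
  have hanti : AntitoneOn g (Set.Icc (0 : ℝ) (0 + ((N + 1 : ℕ) : ℝ))) := by
    intro x hx y hy hxy
    refine Real.exp_le_exp.2 ?_
    have h1 : Real.cos (min (w * y) Real.pi) ≤ Real.cos (min (w * x) Real.pi) := by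
      refine Real.cos_le_cos_of_nonneg_of_le_pi ?_ (min_le_right _ _) ?_
      · exact le_min (mul_nonneg hwpos.le hx.1) hpi.le
      · exact min_le_min_right _ (mul_le_mul_of_nonneg_left hxy hwpos.le)
    nlinarith
  have h1 := hanti.integral_le_sum
  simp only [zero_add] at h1
  have hcont : Continuous g := by rw [hg]; fun_prop
  have hwN : ∀ i : ℕ, i < N + 1 → w * i ≤ Real.pi := by
    intro i hi
    have : (i : ℝ) ≤ N := by exact_mod_cast Nat.lt_succ_iff.1 hi
    rw [hw, div_mul_eq_mul_div, div_le_iff₀ hLpos, hL]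
    nlinarith
  have h2 : ∑ i ∈ Finset.range (N + 1), g (i : ℝ) =
      ∑ i ∈ Finset.range (N + 1), Real.exp (-t * (1 - Real.cos (w * (i : ℝ)))) := by
    refine Finset.sum_congr rfl fun i hi => ?_
    rw [hg]
    simp only
    rw [min_eq_left (hwN i (Finset.mem_range.1 hi))]
  rw [h2] at h1
  have h3 : ∫ x in (0 : ℝ)..(L / 2), g x ≤ ∫ x in (0 : ℝ)..((N + 1 : ℕ) : ℝ), g x := by
    have hadd := intervalIntegral.integral_add_adjacent_intervals (μ := volume)
      (hcont.intervalIntegrable 0 (L / 2)) (hcont.intervalIntegrable (L / 2) ((N + 1 : ℕ) : ℝ))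
    have : 0 ≤ ∫ x in (L / 2)..((N + 1 : ℕ) : ℝ), g x := by
      refine intervalIntegral.integral_nonneg ?_ fun x _ => (Real.exp_pos _).le
      rw [hL]; push_cast; linarith
    linarith
  have h4 : ∫ x in (0 : ℝ)..(L / 2), g x = w⁻¹ * ∫ θ in (0 : ℝ)..Real.pi,
      Real.exp (-t * (1 - Real.cos θ)) := by
    have e1 : ∫ x in (0 : ℝ)..(L / 2), g x = ∫ x in (0 : ℝ)..(L / 2),
        (fun θ => Real.exp (-t * (1 - Real.cos θ))) (w * x) := by
      refine intervalIntegral.integral_congr fun x hx => ?_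
      rw [Set.uIcc_of_le (by positivity)] at hx
      simp only [hg]
      rw [min_eq_left]
      calc w * x ≤ w * (L / 2) := mul_le_mul_of_nonneg_left hx.2 hwpos.le
        _ = Real.pi := by rw [hw]; field_simp
    rw [e1, intervalIntegral.integral_comp_mul_left (f := fun θ => Real.exp (-t * (1 - Real.cos θ)))
      hwpos.ne', mul_zero]
    have : w * (L / 2) = Real.pi := by rw [hw]; field_simp
    rw [this, smul_eq_mul]
  have h5 : L * bJ t ≤ 2 * ∑ i ∈ Finset.range (N + 1), Real.exp (-t * (1 - Real.cos (w * (i : ℝ)))) := by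
    have e : L * bJ t = 2 * (w⁻¹ * ∫ θ in (0 : ℝ)..Real.pi, Real.exp (-t * (1 - Real.cos θ))) := by
      rw [bJ, hw]; field_simp
    rw [e, ← h4]
    linarith
  have h6 : Real.exp (-t * (1 - Real.cos (w * 0))) = 1 := by simp
  rw [h6]
  have h7 : L⁻¹ * (L * bJ t) ≤ L⁻¹ * (2 * ∑ i ∈ Finset.range (N + 1),
      Real.exp (-t * (1 - Real.cos (w * (i : ℝ))))) :=
    mul_le_mul_of_nonneg_left h5 (by positivity)
  rw [← mul_assoc, inv_mul_cancel₀ hLpos.ne', one_mul] at h7
  rw [mul_sub, mul_one]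
  linarith

/-- Gaussian lower bound for `J`. -/
lemma bJ_gauss_lower {t : ℝ} (ht : 0 < t) :
    Real.pi⁻¹ * (∫ u in (0 : ℝ)..(Real.pi * Real.sqrt t), Real.exp (-(1 / 2) * u ^ 2)) ≤
      Real.sqrt t * bJ t := by
  have hs : 0 < Real.sqrt t := Real.sqrt_pos.2 ht
  have h1 : ∫ θ in (0 : ℝ)..Real.pi, Real.exp (-(1 / 2) * (Real.sqrt t * θ) ^ 2) ≤
      ∫ θ in (0 : ℝ)..Real.pi, Real.exp (-t * (1 - Real.cos θ)) := by
    refine intervalIntegral.integral_mono_on Real.pi_pos.le
      (Continuous.intervalIntegrable (by fun_prop) _ _) (bJ_integrable t) ?_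
    intro θ _
    refine Real.exp_le_exp.2 ?_
    rw [mul_pow, Real.sq_sqrt ht.le]
    have := Real.one_sub_sq_div_two_le_cos (x := θ)
    nlinarith
  rw [intervalIntegral.integral_comp_mul_left (f := fun u => Real.exp (-(1 / 2) * u ^ 2)) hs.ne',
    mul_zero, smul_eq_mul, mul_comm (Real.sqrt t) Real.pi] at h1
  rw [bJ]
  have h2 := mul_le_mul_of_nonneg_left h1 (mul_nonneg hs.le (inv_nonneg.2 Real.pi_pos.le))
  calc _ = Real.sqrt t * Real.pi⁻¹ * ((Real.sqrt t)⁻¹ *
      ∫ u in (0 : ℝ)..(Real.pi * Real.sqrt t), Real.exp (-(1 / 2) * u ^ 2)) := by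
        field_simp
    _ ≤ _ := h2
    _ = _ := by ring

lemma gauss_tendsto : Tendsto (fun t : ℝ => Real.pi⁻¹ *
    (∫ u in (0 : ℝ)..(Real.pi * Real.sqrt t), Real.exp (-(1 / 2) * u ^ 2))) atTop
    (𝓝 (Real.sqrt (2 * Real.pi))⁻¹) := by
  have h1 : Tendsto (fun X : ℝ => ∫ u in (0 : ℝ)..X, Real.exp (-(1 / 2) * u ^ 2)) atTop
      (𝓝 (∫ u in Set.Ioi (0 : ℝ), Real.exp (-(1 / 2) * u ^ 2))) := by
    refine intervalIntegral_tendsto_integral_Ioi 0 ?_ tendsto_id
    exact (integrable_exp_neg_mul_sq (by norm_num)).integrableOn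
  rw [integral_gaussian_Ioi] at h1
  have h2 : Tendsto (fun t : ℝ => Real.pi * Real.sqrt t) atTop atTop :=
    Tendsto.const_mul_atTop Real.pi_pos Real.tendsto_sqrt_atTop
  have h3 := (h1.comp h2).const_mul Real.pi⁻¹
  have e : Real.pi⁻¹ * (Real.sqrt (Real.pi / (1 / 2)) / 2) = (Real.sqrt (2 * Real.pi))⁻¹ := by
    have hpi := Real.pi_pos
    have h4 : Real.sqrt (2 * Real.pi) ^ 2 = 2 * Real.pi := Real.sq_sqrt (by positivity)
    have h5 : 0 < Real.sqrt (2 * Real.pi) := Real.sqrt_pos.2 (by positivity)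
    rw [show Real.pi / (1 / 2) = 2 * Real.pi by ring]
    generalize Real.sqrt (2 * Real.pi) = s at h4 h5
    have h6 : Real.pi = s ^ 2 / 2 := by linarith
    rw [h6]
    field_simp
  rw [e] at h3
  exact h3

/-- For every `c < (2π)^{-1/2}`, eventually `c ≤ √t J(t)`. -/
lemma bJ_asymp {c : ℝ} (hc : c < (Real.sqrt (2 * Real.pi))⁻¹) :
    ∀ᶠ t : ℝ in atTop, c ≤ Real.sqrt t * bJ t := by
  filter_upwards [gauss_tendsto.eventually (lt_mem_nhds hc), eventually_gt_atTop 0] with t h1 h2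
  exact h1.le.trans (bJ_gauss_lower h2)

/-- Partial geometric sums below `1/(e^y - 1)`. -/
lemma geom_le {y : ℝ} (hy : 0 < y) (R : ℕ) :
    ∑ r ∈ Finset.range R, Real.exp (-(((r : ℝ) + 1) * y)) ≤ 1 / (Real.exp y - 1) := by
  have h1 : 0 < Real.exp y - 1 := by have := Real.add_one_lt_exp hy.ne'; linarith
  rw [le_div_iff₀ h1]
  have h2 : ∀ R : ℕ, (∑ r ∈ Finset.range R, Real.exp (-(((r : ℝ) + 1) * y))) * (Real.exp y - 1) =
      1 - Real.exp (-((R : ℝ) * y)) := by
    intro R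
    induction R with
    | zero => simp
    | succ R ih =>
      rw [Finset.sum_range_succ, add_mul, ih, mul_sub, ← Real.exp_add]
      push_cast
      have : -(((R : ℝ) + 1) * y) + y = -(R * y) := by ring
      rw [this]; ring
  rw [h2]
  have := Real.exp_pos (-((R : ℝ) * y))
  linarith

end Vale.Agent.P361.H
end

section

namespace Vale.Agent.P361.H

open Matrix Filter Topology

variable {n : ℕ}

lemma finPressure_eq (Λ : Finset Site) (β h : ℝ) :
    finPressure n Λ β h = (β * Λ.card)⁻¹ * Real.log (partZ n Λ β h) := rfl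

/-- Peierls–Bogoliubov for the field dependence. -/
lemma log_partZ_le (Λ : Finset Site) (β h h' : ℝ) :
    Real.log (partZ n Λ β h) + β * (h' - h) * (tr n Λ β h (magnetization n Λ) / partZ n Λ β h) ≤
      Real.log (partZ n Λ β h') := by
  have h1 := peierls_bogoliubov (expo n Λ β h) (expo n Λ β h') (expo_isHermitian β h)
    (expo_isHermitian β h')
  have e : expo n Λ β h' - expo n Λ β h = ((β * (h' - h) : ℝ) : ℂ) • magnetization n Λ := by
    unfold expo; push_cast; module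
  rw [e] at h1
  change Real.log (partZ n Λ β h) + tr n Λ β h (((β * (h' - h) : ℝ) : ℂ) • magnetization n Λ) /
    partZ n Λ β h ≤ Real.log (partZ n Λ β h') at h1
  rw [tr_smul, mul_div_assoc] at h1
  exact h1

lemma mag_ge (N : ℕ) {β h₀ h : ℝ} (hβ : 0 < β) (hh : h₀ < h) :
    (finPressure n (box N) β h - finPressure n (box N) β h₀) / (h - h₀) ≤
      mag n (box N) β h := by
  have hZ : 0 < partZ n (box N) β h := partZ_pos β h
  have hV : 0 < ((box N).card : ℝ) := by rw [card_box]; positivity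
  have hd : 0 < h - h₀ := sub_pos.2 hh
  have h1 := log_partZ_le (n := n) (box N) β h h₀
  rw [finPressure_eq, finPressure_eq, div_le_iff₀ hd, ← mul_sub, mag]
  rw [inv_mul_le_iff₀ (by positivity)]
  have e : β * (h₀ - h) * (tr n (box N) β h (magnetization n (box N)) / partZ n (box N) β h) =
    -(β * ((box N).card : ℝ) * (tr n (box N) β h (magnetization n (box N)) /
      (((box N).card : ℝ) * partZ n (box N) β h) * (h - h₀))) := by
    field_simp; ring
  rw [e] at h1
  linarith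

/-- Product structure of the momentum sum. -/
lemma sum_box_exp (N : ℕ) (t : ℝ) :
    ∑ l ∈ box N, Real.exp (-t * disp N l) =
      (∑ l ∈ Finset.Icc (-(N : ℤ)) N,
        Real.exp (-t * (1 - Real.cos (2 * Real.pi / (2 * N + 1) * (l : ℝ))))) ^ 3 := by
  have h1 : ∀ l : Site, Real.exp (-t * disp N l) =
      ∏ j, Real.exp (-t * (1 - Real.cos (2 * Real.pi / (2 * N + 1) * ((l j : ℤ) : ℝ)))) := by
    intro l
    rw [disp, Finset.mul_sum, Real.exp_sum]; rfl
  simp only [h1]
  rw [box_eq, ← Finset.prod_univ_sum (fun _ : Fin 3 => Finset.Icc (-(N : ℤ)) N)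
    (fun _ l => Real.exp (-t * (1 - Real.cos (2 * Real.pi / (2 * N + 1) * (l : ℝ)))))]
  simp

lemma sum_box_lower (N : ℕ) {t : ℝ} (ht : 0 ≤ t) :
    (max (bJ t - (2 * N + 1 : ℝ)⁻¹) 0) ^ 3 ≤
      ((2 * N + 1 : ℝ) ^ 3)⁻¹ * ∑ l ∈ box N, Real.exp (-t * disp N l) := by
  rw [sum_box_exp, ← inv_pow, ← mul_pow]
  refine pow_le_pow_left₀ (le_max_right _ _) ?_ 3
  refine max_le (riemann_lower N t ht) ?_
  exact mul_nonneg (by positivity) (Finset.sum_nonneg fun l _ => (Real.exp_pos _).le)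

lemma series_lower (N R : ℕ) {β h q μ S : ℝ} (hβ : 0 < β) (hh : 0 < h) (hq : 0 < q)
    (hμ : q ≤ μ) (hS : 0 ≤ S) :
    q * ∑ r ∈ Finset.range R, Real.exp (-(((r : ℝ) + 1) * (β * h))) *
      (max (bJ (((r : ℝ) + 1) * (β * S) / q) - (2 * N + 1 : ℝ)⁻¹) 0) ^ 3 ≤
    μ * (((2 * N + 1 : ℝ) ^ 3)⁻¹ * ∑ l ∈ box N,
      1 / (Real.exp (β * (S * disp N l / μ + h)) - 1)) := by
  have hμ0 : 0 < μ := hq.trans_le hμ
  have hV : 0 < ((2 * N + 1 : ℝ) ^ 3)⁻¹ := by positivity
  have hy : ∀ l, 0 < β * (S * disp N l / μ + h) := by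
    intro l
    have := disp_nonneg N l
    positivity
  have h1 : ∀ r : ℕ, Real.exp (-(((r : ℝ) + 1) * (β * h))) *
      (max (bJ (((r : ℝ) + 1) * (β * S) / q) - (2 * N + 1 : ℝ)⁻¹) 0) ^ 3 ≤
      ((2 * N + 1 : ℝ) ^ 3)⁻¹ * ∑ l ∈ box N,
        Real.exp (-(((r : ℝ) + 1) * (β * (S * disp N l / μ + h)))) := by
    intro r
    have ht : 0 ≤ ((r : ℝ) + 1) * (β * S) / q := by positivity
    refine (mul_le_mul_of_nonneg_left (sum_box_lower N ht) (Real.exp_pos _).le).trans ?_
    rw [← mul_assoc, mul_comm (Real.exp _), mul_assoc, Finset.mul_sum]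
    refine mul_le_mul_of_nonneg_left (Finset.sum_le_sum fun l _ => ?_) hV.le
    rw [← Real.exp_add]
    refine Real.exp_le_exp.2 ?_
    have hD := disp_nonneg N l
    have hdiv : S * disp N l / μ ≤ S * disp N l / q :=
      div_le_div_of_nonneg_left (mul_nonneg hS hD) hq hμ
    have h2 : ((r : ℝ) + 1) * β * (S * disp N l / μ) ≤ ((r : ℝ) + 1) * β * (S * disp N l / q) :=
      mul_le_mul_of_nonneg_left hdiv (by positivity)
    have e1 : -(((r : ℝ) + 1) * (β * h)) + -(((r : ℝ) + 1) * (β * S) / q) * disp N l =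
      -(((r : ℝ) + 1) * (β * h)) - ((r : ℝ) + 1) * β * (S * disp N l / q) := by ring
    have e2 : -(((r : ℝ) + 1) * (β * (S * disp N l / μ + h))) =
      -(((r : ℝ) + 1) * (β * h)) - ((r : ℝ) + 1) * β * (S * disp N l / μ) := by ring
    rw [e1, e2]
    linarith
  have h3 : ∑ r ∈ Finset.range R, Real.exp (-(((r : ℝ) + 1) * (β * h))) *
      (max (bJ (((r : ℝ) + 1) * (β * S) / q) - (2 * N + 1 : ℝ)⁻¹) 0) ^ 3 ≤
      ((2 * N + 1 : ℝ) ^ 3)⁻¹ * ∑ l ∈ box N, 1 / (Real.exp (β * (S * disp N l / μ + h)) - 1) := by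
    refine (Finset.sum_le_sum fun r _ => h1 r).trans ?_
    rw [← Finset.mul_sum, Finset.sum_comm]
    refine mul_le_mul_of_nonneg_left (Finset.sum_le_sum fun l _ => ?_) hV.le
    exact geom_le (hy l) R
  exact mul_le_mul hμ h3 (Finset.sum_nonneg fun r _ =>
    mul_nonneg (Real.exp_pos _).le (pow_nonneg (le_max_right _ _) 3)) hμ0.le

lemma finite_bound' (n N R : ℕ) {β h q : ℝ} (hβ : 0 < β) (hh : 0 < h) (hq : 0 < q)
    (hμ : q ≤ mag n (box N) β h) :
    q * ∑ r ∈ Finset.range R, Real.exp (-(((r : ℝ) + 1) * (β * h))) *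
      (max (bJ (((r : ℝ) + 1) * (β * (2 * ((n : ℝ) / 2) ^ 2)) / q) - (2 * N + 1 : ℝ)⁻¹) 0) ^ 3 ≤
    (n : ℝ) / 2 * ((n : ℝ) / 2 - mag n (box N) β h) :=
  (series_lower N R hβ hh hq hμ (mul_nonneg two_pos.le (sq_nonneg _))).trans
    (finite_bound n N hβ (hq.trans_le hμ))

/-- Infinite-volume bound: `m` is any lower bound for the slopes of the pressure to the right
of `h₀ ≥ 0`. -/
theorem limit_bound (n R : ℕ) {β : ℝ} (hβ : 0 < β) (p : ℝ → ℝ)
    (hp : ∀ h, Tendsto (fun N => finPressure n (box N) β h) atTop (𝓝 (p h))) (m : ℝ)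
    {h₀ : ℝ} (hh₀ : 0 ≤ h₀)
    (hm : ∀ h, h₀ < h → m ≤ (p h - p h₀) / (h - h₀)) {q : ℝ} (hq : 0 < q) (hqm : q < m) :
    q * ∑ r ∈ Finset.range R, Real.exp (-(((r : ℝ) + 1) * (β * h₀))) *
      (bJ (((r : ℝ) + 1) * (β * (2 * ((n : ℝ) / 2) ^ 2)) / q)) ^ 3 ≤
    (n : ℝ) / 2 * ((n : ℝ) / 2 - m) := by
  have hinv : Tendsto (fun N : ℕ => (2 * (N : ℝ) + 1)⁻¹) atTop (𝓝 0) := by
    refine tendsto_inv_atTop_zero.comp ?_
    refine tendsto_atTop_add_const_right _ _ ?_
    exact Tendsto.const_mul_atTop two_pos tendsto_natCast_atTop_atTop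
  have step : ∀ h, h₀ < h → q * ∑ r ∈ Finset.range R, Real.exp (-(((r : ℝ) + 1) * (β * h))) *
      (bJ (((r : ℝ) + 1) * (β * (2 * ((n : ℝ) / 2) ^ 2)) / q)) ^ 3 ≤
      (n : ℝ) / 2 * ((n : ℝ) / 2 - m) := by
    intro h hh
    have hdiff : Tendsto (fun N => (finPressure n (box N) β h - finPressure n (box N) β h₀) /
        (h - h₀)) atTop (𝓝 ((p h - p h₀) / (h - h₀))) := ((hp h).sub (hp h₀)).div_const _
    have hge : m ≤ (p h - p h₀) / (h - h₀) := hm h hh
    have hev : ∀ᶠ N : ℕ in atTop,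
        q < (finPressure n (box N) β h - finPressure n (box N) β h₀) / (h - h₀) :=
      hdiff.eventually (lt_mem_nhds (hqm.trans_le hge))
    have hL : Tendsto (fun N : ℕ => q * ∑ r ∈ Finset.range R,
        Real.exp (-(((r : ℝ) + 1) * (β * h))) *
        (max (bJ (((r : ℝ) + 1) * (β * (2 * ((n : ℝ) / 2) ^ 2)) / q) - (2 * N + 1 : ℝ)⁻¹) 0) ^ 3)
        atTop (𝓝 (q * ∑ r ∈ Finset.range R, Real.exp (-(((r : ℝ) + 1) * (β * h))) *
        (max (bJ (((r : ℝ) + 1) * (β * (2 * ((n : ℝ) / 2) ^ 2)) / q) - 0) 0) ^ 3)) := by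
      refine Tendsto.const_mul _ (tendsto_finsetSum _ fun r _ => ?_)
      refine Tendsto.const_mul _ (Tendsto.pow ?_ 3)
      exact (tendsto_const_nhds.sub hinv).max tendsto_const_nhds
    have hR : Tendsto (fun N : ℕ => (n : ℝ) / 2 * ((n : ℝ) / 2 -
        (finPressure n (box N) β h - finPressure n (box N) β h₀) / (h - h₀))) atTop
        (𝓝 ((n : ℝ) / 2 * ((n : ℝ) / 2 - (p h - p h₀) / (h - h₀)))) :=
      Tendsto.const_mul _ (tendsto_const_nhds.sub hdiff)
    have hle := le_of_tendsto_of_tendsto hL hR (by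
      filter_upwards [hev] with N hN
      have h1 := mag_ge (n := n) N hβ hh
      refine (finite_bound' n N R hβ (hh₀.trans_lt hh) hq (hN.le.trans h1)).trans ?_
      exact mul_le_mul_of_nonneg_left (by linarith) (by positivity))
    have hmax : ∀ r : ℕ, max (bJ (((r : ℝ) + 1) * (β * (2 * ((n : ℝ) / 2) ^ 2)) / q) - 0) 0 =
        bJ (((r : ℝ) + 1) * (β * (2 * ((n : ℝ) / 2) ^ 2)) / q) := by
      intro r; rw [sub_zero, max_eq_left (bJ_nonneg _)]
    simp only [hmax] at hle
    refine hle.trans ?_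
    exact mul_le_mul_of_nonneg_left (by linarith) (by positivity)
  have hlim : Tendsto (fun h : ℝ => q * ∑ r ∈ Finset.range R,
      Real.exp (-(((r : ℝ) + 1) * (β * h))) *
      (bJ (((r : ℝ) + 1) * (β * (2 * ((n : ℝ) / 2) ^ 2)) / q)) ^ 3) (𝓝[>] h₀)
      (𝓝 (q * ∑ r ∈ Finset.range R, Real.exp (-(((r : ℝ) + 1) * (β * h₀))) *
      (bJ (((r : ℝ) + 1) * (β * (2 * ((n : ℝ) / 2) ^ 2)) / q)) ^ 3)) := by
    have hc : Continuous (fun h : ℝ => q * ∑ r ∈ Finset.range R,
      Real.exp (-(((r : ℝ) + 1) * (β * h))) *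
      (bJ (((r : ℝ) + 1) * (β * (2 * ((n : ℝ) / 2) ^ 2)) / q)) ^ 3) := by fun_prop
    exact (hc.tendsto h₀).mono_left nhdsWithin_le_nhds
  exact le_of_tendsto hlim (by
    filter_upwards [self_mem_nhdsWithin] with h hh
    exact step h hh)

/-- The same with `q = m`. -/
theorem limit_bound_self (n R : ℕ) {β : ℝ} (hβ : 0 < β) (p : ℝ → ℝ)
    (hp : ∀ h, Tendsto (fun N => finPressure n (box N) β h) atTop (𝓝 (p h))) (m : ℝ)
    {h₀ : ℝ} (hh₀ : 0 ≤ h₀)
    (hm : ∀ h, h₀ < h → m ≤ (p h - p h₀) / (h - h₀)) (hm0 : 0 < m) :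
    m * ∑ r ∈ Finset.range R, Real.exp (-(((r : ℝ) + 1) * (β * h₀))) *
      (bJ (((r : ℝ) + 1) * (β * (2 * ((n : ℝ) / 2) ^ 2)) / m)) ^ 3 ≤
    (n : ℝ) / 2 * ((n : ℝ) / 2 - m) := by
  have hlim : Tendsto (fun q : ℝ => q * ∑ r ∈ Finset.range R,
      Real.exp (-(((r : ℝ) + 1) * (β * h₀))) *
      (bJ (((r : ℝ) + 1) * (β * (2 * ((n : ℝ) / 2) ^ 2)) / q)) ^ 3) (𝓝[<] m)
      (𝓝 (m * ∑ r ∈ Finset.range R, Real.exp (-(((r : ℝ) + 1) * (β * h₀))) *
      (bJ (((r : ℝ) + 1) * (β * (2 * ((n : ℝ) / 2) ^ 2)) / m)) ^ 3)) := by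
    refine Tendsto.mono_left ?_ nhdsWithin_le_nhds
    refine Tendsto.mul tendsto_id (tendsto_finsetSum _ fun r _ => ?_)
    refine Tendsto.const_mul _ (Tendsto.pow ?_ 3)
    exact (bJ_continuous.tendsto _).comp (tendsto_const_nhds.div tendsto_id hm0.ne')
  refine le_of_tendsto hlim ?_
  have h1 : ∀ᶠ q : ℝ in 𝓝[<] m, 0 < q := mem_nhdsWithin_of_mem_nhds (lt_mem_nhds hm0)
  filter_upwards [h1, self_mem_nhdsWithin] with q hq hqm
  exact limit_bound n R hβ p hp m hh₀ hm hq hqm

end Vale.Agent.P361.H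
end

section

namespace Vale.Agent.P361.H

open Filter Topology

/-- The predicted Bloch coefficient `ζ(3/2) / (8 π^{3/2} S^{3/2})`, here in terms of `S`. -/
noncomputable def blochCoeff (S : ℝ) : ℝ :=
  (riemannZeta (3 / 2)).re / (8 * Real.pi ^ (3 / 2 : ℝ) * S ^ (3 / 2 : ℝ))

lemma rpow_three_half {x : ℝ} (hx : 0 ≤ x) : x ^ (3 / 2 : ℝ) = Real.sqrt x ^ 3 := by
  rw [Real.sqrt_eq_rpow, ← Real.rpow_natCast, ← Real.rpow_mul hx]
  norm_num

lemma zeta_hasSum : HasSum (fun r : ℕ => 1 / Real.sqrt ((r : ℝ) + 1) ^ 3) (riemannZeta (3 / 2)).re := by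
  have h1 : riemannZeta (3 / 2) = ∑' r : ℕ, 1 / ((r : ℂ) + 1) ^ (3 / 2 : ℂ) :=
    zeta_eq_tsum_one_div_nat_add_one_cpow (by norm_num)
  have hterm : ∀ r : ℕ, 1 / ((r : ℂ) + 1) ^ (3 / 2 : ℂ) =
      ((1 / Real.sqrt ((r : ℝ) + 1) ^ 3 : ℝ) : ℂ) := by
    intro r
    rw [← rpow_three_half (by positivity)]
    push_cast
    rw [Complex.ofReal_cpow (by positivity)]
    push_cast
    rfl
  have hsum : Summable (fun r : ℕ => 1 / Real.sqrt ((r : ℝ) + 1) ^ 3) := by
    have h2 : Summable (fun r : ℕ => 1 / ((r : ℝ)) ^ (3 / 2 : ℝ)) :=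
      Real.summable_one_div_nat_rpow.2 (by norm_num)
    have h3 := (summable_nat_add_iff 1).2 h2
    refine h3.congr fun r => ?_
    push_cast
    rw [rpow_three_half (by positivity)]
  simp only [hterm] at h1
  rw [h1, ← Complex.ofReal_tsum, Complex.ofReal_re]
  exact hsum.hasSum

/-- Abstract asymptotic step: a function `m ≤ S` satisfying the self-consistent bound
obeys the one-sided Bloch law. -/
theorem bloch_of_bound {S : ℝ} (hS : 0 < S) (m : ℝ → ℝ)
    (hm : ∀ β, 0 < β → ∀ q, 0 < q → q < m β → ∀ R : ℕ,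
      q * ∑ r ∈ Finset.range R, (bJ (((r : ℝ) + 1) * (β * (2 * S ^ 2)) / q)) ^ 3 ≤
        S * (S - m β))
    {c : ℝ} (hc : c < blochCoeff S) :
    ∀ᶠ β : ℝ in atTop, c < β ^ (3 / 2 : ℝ) * (S - m β) := by
  have hpi := Real.pi_pos
  -- choose `R`
  have hB : blochCoeff S = (riemannZeta (3 / 2)).re * (1 / (Real.sqrt (2 * Real.pi) ^ 3 *
      Real.sqrt (2 * S) ^ 3)) := by
    rw [blochCoeff, rpow_three_half hpi.le, rpow_three_half hS.le]
    have e : Real.sqrt (2 * Real.pi) ^ 3 * Real.sqrt (2 * S) ^ 3 =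
        8 * Real.sqrt Real.pi ^ 3 * Real.sqrt S ^ 3 := by
      rw [← mul_pow, ← Real.sqrt_mul (by positivity),
        show 2 * Real.pi * (2 * S) = 2 ^ 2 * (Real.pi * S) by ring,
        Real.sqrt_mul (by positivity), Real.sqrt_sq (by norm_num), Real.sqrt_mul hpi.le]
      ring
    rw [e]; ring
  have hR := zeta_hasSum.tendsto_sum_nat
  have hR' := hR.mul_const (1 / (Real.sqrt (2 * Real.pi) ^ 3 * Real.sqrt (2 * S) ^ 3))
  rw [← hB] at hR'
  obtain ⟨R, hRc⟩ := (hR'.eventually (lt_mem_nhds hc)).exists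
  set K : ℝ := (∑ r ∈ Finset.range R, 1 / Real.sqrt ((r : ℝ) + 1) ^ 3) *
    (1 / (Real.sqrt (2 * Real.pi) ^ 3 * Real.sqrt (2 * S) ^ 3)) with hK
  -- choose `s`
  have hφ : Tendsto (fun s : ℝ => K * s ^ 4 * Real.sqrt s ^ 3) (𝓝[<] 1) (𝓝 K) := by
    have hc1 : Continuous (fun s : ℝ => K * s ^ 4 * Real.sqrt s ^ 3) := by fun_prop
    have := (hc1.tendsto 1).mono_left (nhdsWithin_le_nhds (s := Set.Iio 1))
    simpa using this
  have hpos : ∀ᶠ s : ℝ in 𝓝[<] 1, 0 < s :=
    mem_nhdsWithin_of_mem_nhds (lt_mem_nhds one_pos)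
  obtain ⟨s, hs1, hs2, hs3⟩ := ((hφ.eventually (lt_mem_nhds hRc)).and
    (hpos.and self_mem_nhdsWithin)).exists
  have hs3 : s < 1 := hs3
  -- asymptotics of `J`
  have hc0 : s * (Real.sqrt (2 * Real.pi))⁻¹ < (Real.sqrt (2 * Real.pi))⁻¹ := by
    have : 0 < (Real.sqrt (2 * Real.pi))⁻¹ := by positivity
    nlinarith
  have hJ := bJ_asymp hc0
  have hJr : ∀ r ∈ Finset.range R, ∀ᶠ β : ℝ in atTop, s * (Real.sqrt (2 * Real.pi))⁻¹ ≤
      Real.sqrt ((((r : ℝ) + 1) * (2 * S) / s) * β) * bJ ((((r : ℝ) + 1) * (2 * S) / s) * β) := by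
    intro r _
    have : Tendsto (fun β : ℝ => (((r : ℝ) + 1) * (2 * S) / s) * β) atTop atTop :=
      Tendsto.const_mul_atTop (by positivity) tendsto_id
    exact this.eventually hJ
  have hJall := (Finset.eventually_all (Finset.range R)).2 hJr
  have hlarge : ∀ᶠ β : ℝ in atTop, c < β ^ (3 / 2 : ℝ) * (S * (1 - s)) := by
    have : Tendsto (fun β : ℝ => β ^ (3 / 2 : ℝ) * (S * (1 - s))) atTop atTop :=
      Tendsto.atTop_mul_const (mul_pos hS (by linarith)) (tendsto_rpow_atTop (by norm_num))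
    exact this.eventually_gt_atTop c
  filter_upwards [hJall, hlarge, eventually_gt_atTop 0] with β h1 h2 hβ
  rcases le_or_gt (m β) (s * S) with hle | hgt
  · refine h2.trans_le (mul_le_mul_of_nonneg_left ?_ (by positivity))
    linarith
  · have hb := hm β hβ (s * S) (by positivity) hgt R
    have hsb : 0 < Real.sqrt β := Real.sqrt_pos.2 hβ
    rw [rpow_three_half hβ.le]
    -- termwise bound
    have hterm : ∀ r ∈ Finset.range R, s ^ 3 * Real.sqrt s ^ 3 * (1 / (Real.sqrt (2 * Real.pi) ^ 3 *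
        Real.sqrt (2 * S) ^ 3)) * (1 / Real.sqrt ((r : ℝ) + 1) ^ 3) ≤
        Real.sqrt β ^ 3 * (bJ (((r : ℝ) + 1) * (β * (2 * S ^ 2)) / (s * S))) ^ 3 := by
      intro r hr
      have h3 := h1 r hr
      have e1 : ((r : ℝ) + 1) * (β * (2 * S ^ 2)) / (s * S) = ((r : ℝ) + 1) * (2 * S) / s * β := by
        field_simp
      rw [e1]
      set J := bJ (((r : ℝ) + 1) * (2 * S) / s * β) with hJdef
      have e2 : Real.sqrt (((r : ℝ) + 1) * (2 * S) / s * β) =
          Real.sqrt ((r : ℝ) + 1) * Real.sqrt (2 * S) / Real.sqrt s * Real.sqrt β := by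
        rw [Real.sqrt_mul (by positivity), Real.sqrt_div (by positivity),
          Real.sqrt_mul (by positivity)]
      rw [e2] at h3
      have hss : 0 < Real.sqrt s := Real.sqrt_pos.2 hs2
      have hsr : 0 < Real.sqrt ((r : ℝ) + 1) := Real.sqrt_pos.2 (by positivity)
      have hs2S : 0 < Real.sqrt (2 * S) := Real.sqrt_pos.2 (by positivity)
      have hs2p : 0 < Real.sqrt (2 * Real.pi) := Real.sqrt_pos.2 (by positivity)
      have h4 : s * Real.sqrt s * (1 / (Real.sqrt (2 * Real.pi) * Real.sqrt (2 * S))) *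
          (1 / Real.sqrt ((r : ℝ) + 1)) ≤ Real.sqrt β * J := by
        have h5 := mul_le_mul_of_nonneg_left h3 (a := Real.sqrt s / (Real.sqrt ((r : ℝ) + 1) *
          Real.sqrt (2 * S))) (by positivity)
        refine le_trans (le_of_eq ?_) (h5.trans (le_of_eq ?_))
        · field_simp
        · field_simp
      have h6 := pow_le_pow_left₀ (by positivity) h4 3
      refine le_trans (le_of_eq ?_) (h6.trans (le_of_eq ?_))
      · field_simp
      · ring
    have hsum := Finset.sum_le_sum hterm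
    rw [← Finset.mul_sum, ← Finset.mul_sum] at hsum
    have hfin : K * s ^ 4 * Real.sqrt s ^ 3 ≤ Real.sqrt β ^ 3 * (S - m β) := by
      have h7 : Real.sqrt β ^ 3 * (s * S * ∑ r ∈ Finset.range R,
          (bJ (((r : ℝ) + 1) * (β * (2 * S ^ 2)) / (s * S))) ^ 3) ≤
          Real.sqrt β ^ 3 * (S * (S - m β)) := mul_le_mul_of_nonneg_left hb (by positivity)
      have h8 : S * (K * s ^ 4 * Real.sqrt s ^ 3) ≤ S * (Real.sqrt β ^ 3 * (S - m β)) := by
        calc S * (K * s ^ 4 * Real.sqrt s ^ 3)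
            = s * S * (s ^ 3 * Real.sqrt s ^ 3 * (1 / (Real.sqrt (2 * Real.pi) ^ 3 *
        Real.sqrt (2 * S) ^ 3)) * ∑ r ∈ Finset.range R, (1 / Real.sqrt ((r : ℝ) + 1) ^ 3)) := by
              rw [hK]; ring
          _ ≤ s * S * (Real.sqrt β ^ 3 * ∑ r ∈ Finset.range R,
                (bJ (((r : ℝ) + 1) * (β * (2 * S ^ 2)) / (s * S))) ^ 3) :=
              mul_le_mul_of_nonneg_left hsum (by positivity)
          _ = Real.sqrt β ^ 3 * (s * S * ∑ r ∈ Finset.range R,
                (bJ (((r : ℝ) + 1) * (β * (2 * S ^ 2)) / (s * S))) ^ 3) := by ring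
          _ ≤ Real.sqrt β ^ 3 * (S * (S - m β)) := h7
          _ = _ := by ring
      exact le_of_mul_le_mul_left h8 hS
    exact hs1.trans_le hfin

end Vale.Agent.P361.H
end

section

namespace Vale.Agent.P361.H

open MeasureTheory Filter Topology

/-- The Brillouin zone `[-π, π]³`. -/
def cube : Set (Fin 3 → ℝ) := Set.univ.pi fun _ => Set.Icc (-Real.pi) Real.pi

lemma integral_symm (t : ℝ) :
    ∫ θ in Set.Icc (-Real.pi) Real.pi, Real.exp (-t * (1 - Real.cos θ)) = 2 * Real.pi * bJ t := by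
  have hpi := Real.pi_pos
  rw [integral_Icc_eq_integral_Ioc, ← intervalIntegral.integral_of_le (by linarith)]
  have hint : ∀ a b : ℝ, IntervalIntegrable (fun θ => Real.exp (-t * (1 - Real.cos θ))) volume a b :=
    fun a b => Continuous.intervalIntegrable (by fun_prop) _ _
  rw [← intervalIntegral.integral_add_adjacent_intervals (hint (-Real.pi) 0) (hint 0 Real.pi)]
  have h1 : ∫ θ in (-Real.pi)..0, Real.exp (-t * (1 - Real.cos θ)) =
      ∫ θ in (0 : ℝ)..Real.pi, Real.exp (-t * (1 - Real.cos θ)) := by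
    have := intervalIntegral.integral_comp_neg (a := 0) (b := Real.pi)
      (fun θ => Real.exp (-t * (1 - Real.cos θ)))
    simp only [Real.cos_neg, neg_zero] at this
    exact this.symm
  rw [h1, bJ]
  field_simp
  ring

lemma cube_measure : (volume : Measure (Fin 3 → ℝ)).restrict cube =
    Measure.pi (fun _ : Fin 3 => (volume : Measure ℝ).restrict (Set.Icc (-Real.pi) Real.pi)) := by
  rw [cube, volume_pi, Measure.restrict_pi_pi]

lemma integral_cube_exp (t : ℝ) :
    ∫ k in cube, Real.exp (-t * ∑ j, (1 - Real.cos (k j))) = (2 * Real.pi * bJ t) ^ 3 := by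
  rw [cube_measure]
  have h1 : ∀ k : Fin 3 → ℝ, Real.exp (-t * ∑ j, (1 - Real.cos (k j))) =
      ∏ j, Real.exp (-t * (1 - Real.cos (k j))) := by
    intro k; rw [Finset.mul_sum, Real.exp_sum]
  simp only [h1]
  rw [integral_fintype_prod_eq_pow (fun θ => Real.exp (-t * (1 - Real.cos θ))), integral_symm]
  simp

lemma integrable_cube_exp (t : ℝ) :
    IntegrableOn (fun k : Fin 3 → ℝ => Real.exp (-t * ∑ j, (1 - Real.cos (k j)))) cube := by
  have hc : Continuous (fun k : Fin 3 → ℝ => Real.exp (-t * ∑ j, (1 - Real.cos (k j)))) := by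
    fun_prop
  refine hc.continuousOn.integrableOn_compact ?_
  exact isCompact_univ_pi fun _ => isCompact_Icc

/-- Series expansion of the Bose factor: convergence of the partial sums. -/
lemma bose_tendsto {y : ℝ} (hy : 0 < y) :
    Tendsto (fun R : ℕ => ∑ r ∈ Finset.range R, Real.exp (-(((r : ℝ) + 1) * y))) atTop
      (𝓝 (1 / (Real.exp y - 1))) := by
  have h1 : 0 < Real.exp y - 1 := by have := Real.add_one_lt_exp hy.ne'; linarith
  have h2 : ∀ R : ℕ, ∑ r ∈ Finset.range R, Real.exp (-(((r : ℝ) + 1) * y)) =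
      (1 - Real.exp (-y) ^ R) / (Real.exp y - 1) := by
    intro R
    rw [eq_div_iff h1.ne']
    induction R with
    | zero => simp
    | succ R ih =>
      rw [Finset.sum_range_succ, add_mul, ih, mul_sub, ← Real.exp_add]
      rw [← Real.exp_nat_mul, ← Real.exp_nat_mul]
      push_cast
      have e1 : -(((R : ℝ) + 1) * y) + y = (R : ℝ) * (-y) := by ring
      have e2 : -(((R : ℝ) + 1) * y) = ((R : ℝ) + 1) * (-y) := by ring
      rw [e1, e2]; ring
  simp only [h2]
  have h3 : Tendsto (fun R : ℕ => Real.exp (-y) ^ R) atTop (𝓝 0) :=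
    tendsto_pow_atTop_nhds_zero_of_lt_one (Real.exp_pos _).le (Real.exp_lt_one_iff.2 (by linarith))
  have h4 := (tendsto_const_nhds (x := (1 : ℝ))).sub h3
  rw [sub_zero] at h4
  exact h4.div_const _

/-- Passage from the truncated series to the integral of the Bose factor. -/
theorem integral_bose_le {a b C : ℝ} (ha : 0 < a) (hb : 0 ≤ b)
    (hC : ∀ R : ℕ, ∑ r ∈ Finset.range R, Real.exp (-(((r : ℝ) + 1) * b)) *
      (bJ (((r : ℝ) + 1) * a)) ^ 3 ≤ C) :
    IntegrableOn (fun k : Fin 3 → ℝ =>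
      1 / (Real.exp (a * ∑ j, (1 - Real.cos (k j)) + b) - 1)) cube ∧
    ((2 * Real.pi) ^ 3)⁻¹ * ∫ k in cube,
      1 / (Real.exp (a * ∑ j, (1 - Real.cos (k j)) + b) - 1) ≤ C := by
  have hpi := Real.pi_pos
  set D : (Fin 3 → ℝ) → ℝ := fun k => ∑ j, (1 - Real.cos (k j)) with hD
  have hD0 : ∀ k, 0 ≤ D k := fun k => Finset.sum_nonneg fun j _ => by
    have := Real.cos_le_one (k j); linarith
  have hDc : Continuous D := by rw [hD]; fun_prop
  set g : ℕ → (Fin 3 → ℝ) → ℝ := fun R k =>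
    ∑ r ∈ Finset.range R, Real.exp (-(((r : ℝ) + 1) * (a * D k + b))) with hg
  set f : (Fin 3 → ℝ) → ℝ := fun k => 1 / (Real.exp (a * D k + b) - 1) with hf
  have hgc : ∀ R, Continuous (g R) := fun R => by
    rw [hg]; fun_prop
  have hg0 : ∀ R k, 0 ≤ g R k := fun R k => Finset.sum_nonneg fun r _ => (Real.exp_pos _).le
  have hf0 : ∀ k, 0 ≤ f k := by
    intro k
    have h1 : 0 ≤ a * D k + b := by have := hD0 k; positivity
    have h2 : 1 ≤ Real.exp (a * D k + b) := Real.one_le_exp h1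
    exact div_nonneg zero_le_one (by linarith)
  have hfm : Measurable f := by
    rw [hf]
    exact measurable_const.div ((Real.continuous_exp.comp
      ((continuous_const.mul hDc).add continuous_const)).measurable.sub measurable_const)
  -- integrals of partial sums
  have hgint : ∀ R, ∫ k in cube, g R k = (2 * Real.pi) ^ 3 *
      ∑ r ∈ Finset.range R, Real.exp (-(((r : ℝ) + 1) * b)) * (bJ (((r : ℝ) + 1) * a)) ^ 3 := by
    intro R
    simp only [hg]
    rw [integral_finsetSum, Finset.mul_sum]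
    · refine Finset.sum_congr rfl fun r _ => ?_
      have e : ∀ k, Real.exp (-(((r : ℝ) + 1) * (a * D k + b))) =
          Real.exp (-(((r : ℝ) + 1) * b)) * Real.exp (-(((r : ℝ) + 1) * a) * D k) := by
        intro k; rw [← Real.exp_add]; congr 1; ring
      simp only [e]
      rw [integral_const_mul]
      have := integral_cube_exp (((r : ℝ) + 1) * a)
      simp only [hD]
      rw [this]; ring
    · intro r _
      have : Continuous (fun k => Real.exp (-(((r : ℝ) + 1) * (a * D k + b)))) := by fun_prop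
      exact (this.continuousOn.integrableOn_compact (isCompact_univ_pi fun _ => isCompact_Icc))
  have hgI : ∀ R, IntegrableOn (g R) cube := fun R =>
    (hgc R).continuousOn.integrableOn_compact (isCompact_univ_pi fun _ => isCompact_Icc)
  have hC' : ∀ R, ∫ k in cube, g R k ≤ (2 * Real.pi) ^ 3 * C := by
    intro R
    rw [hgint]
    exact mul_le_mul_of_nonneg_left (hC R) (by positivity)
  have hC0 : 0 ≤ (2 * Real.pi) ^ 3 * C := by
    have := hC' 0
    simp only [hg, Finset.range_zero, Finset.sum_empty, integral_zero] at this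
    exact this
  -- a.e. convergence
  have hae : ∀ᵐ k ∂(volume.restrict cube), Tendsto (fun R => ENNReal.ofReal (g R k)) atTop
      (𝓝 (ENNReal.ofReal (f k))) := by
    have h0 : ∀ᵐ k : Fin 3 → ℝ ∂(volume.restrict cube), k 0 ≠ 0 := by
      refine ae_restrict_of_ae ?_
      rw [volume_pi]
      exact Measure.ae_eval_ne (fun _ => (volume : Measure ℝ)) 0 0
    have hmem : ∀ᵐ k : Fin 3 → ℝ ∂(volume.restrict cube), k ∈ cube :=
      ae_restrict_mem (MeasurableSet.univ_pi fun _ => measurableSet_Icc)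
    filter_upwards [h0, hmem] with k hk hkc
    have hDpos : 0 < D k := by
      have h1 : 0 < 1 - Real.cos (k 0) := by
        have hk0 := hkc 0 (Set.mem_univ _)
        have h2 : Real.cos (k 0) ≠ 1 := by
          intro h
          have h3 := (Real.cos_eq_one_iff_of_lt_of_lt (by linarith [hk0.1]) (by linarith [hk0.2])).1 h
          exact hk h3
        have := lt_of_le_of_ne (Real.cos_le_one (k 0)) h2
        linarith
      refine Finset.sum_pos' (fun j _ => ?_) ⟨0, Finset.mem_univ _, h1⟩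
      have := Real.cos_le_one (k j); linarith
    have hy : 0 < a * D k + b := by positivity
    exact (ENNReal.continuous_ofReal.tendsto _).comp (bose_tendsto hy)
  have hmono : ∀ᵐ k ∂(volume.restrict cube), Monotone fun R => ENNReal.ofReal (g R k) := by
    refine Eventually.of_forall fun k => monotone_nat_of_le_succ fun R => ?_
    refine ENNReal.ofReal_le_ofReal ?_
    simp only [hg]
    rw [Finset.sum_range_succ]
    have := (Real.exp_pos (-(((R : ℝ) + 1) * (a * D k + b)))).le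
    linarith
  have hlim := lintegral_tendsto_of_tendsto_of_monotone
    (fun R => ((hgc R).measurable.ennreal_ofReal).aemeasurable) hmono hae
  have hle : ∫⁻ k in cube, ENNReal.ofReal (f k) ≤ ENNReal.ofReal ((2 * Real.pi) ^ 3 * C) := by
    refine le_of_tendsto hlim (Eventually.of_forall fun R => ?_)
    rw [← ofReal_integral_eq_lintegral_ofReal (hgI R) (Eventually.of_forall fun k => hg0 R k)]
    exact ENNReal.ofReal_le_ofReal (hC' R)
  have hfI : IntegrableOn f cube := by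
    refine ⟨hfm.aestronglyMeasurable, ?_⟩
    rw [hasFiniteIntegral_iff_ofReal (Eventually.of_forall hf0)]
    exact hle.trans_lt ENNReal.ofReal_lt_top
  refine ⟨hfI, ?_⟩
  have hint : ∫ k in cube, f k ≤ (2 * Real.pi) ^ 3 * C := by
    rw [integral_eq_lintegral_of_nonneg_ae (Eventually.of_forall hf0) hfm.aestronglyMeasurable]
    exact ENNReal.toReal_le_of_le_ofReal hC0 hle
  have h8 : 0 < ((2 * Real.pi) ^ 3)⁻¹ := by positivity
  calc ((2 * Real.pi) ^ 3)⁻¹ * ∫ k in cube, f k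
      ≤ ((2 * Real.pi) ^ 3)⁻¹ * ((2 * Real.pi) ^ 3 * C) := mul_le_mul_of_nonneg_left hint h8.le
    _ = C := by rw [← mul_assoc, inv_mul_cancel₀ (by positivity), one_mul]

end Vale.Agent.P361.H
end

section

namespace Vale.Agent.P361.H

open MeasureTheory Filter Topology

/-- Right derivative of the pressure at the field `h`. -/
noncomputable def magAt (n : ℕ) (β h : ℝ) : ℝ := derivWithin (pressure n β) (Set.Ioi h) h

lemma magAt_slope (n : ℕ) {β : ℝ} (hβ : 0 < β) (h₀ : ℝ) :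
    ∀ h, h₀ < h → magAt n β h₀ ≤ (pressure n β h - pressure n β h₀) / (h - h₀) :=
  fun _ hh => rightDeriv_le_slope' n hβ hh

/-- Series form of the bound at field `h₀ ≥ 0`. -/
theorem magAt_series (n R : ℕ) {β h₀ : ℝ} (hβ : 0 < β) (hh₀ : 0 ≤ h₀) (hm : 0 < magAt n β h₀) :
    magAt n β h₀ * ∑ r ∈ Finset.range R, Real.exp (-(((r : ℝ) + 1) * (β * h₀))) *
      (bJ (((r : ℝ) + 1) * (β * (2 * ((n : ℝ) / 2) ^ 2)) / magAt n β h₀)) ^ 3 ≤
    (n : ℝ) / 2 * ((n : ℝ) / 2 - magAt n β h₀) :=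
  limit_bound_self n R hβ (pressure n β) (fun h => pressure_tendsto n hβ h) _ hh₀
    (magAt_slope n hβ h₀) hm

/-- Integral form of the bound at field `h₀ ≥ 0`. -/
theorem magAt_integral {n : ℕ} (hn : 1 ≤ n) {β h₀ : ℝ} (hβ : 0 < β) (hh₀ : 0 ≤ h₀)
    (hm : 0 < magAt n β h₀) :
    IntegrableOn (fun k : Fin 3 → ℝ => 1 / (Real.exp (β * ((n : ℝ) / 2 / magAt n β h₀ *
      (2 * ((n : ℝ) / 2) * ∑ j, (1 - Real.cos (k j))) + h₀)) - 1)) cube ∧
    magAt n β h₀ / ((n : ℝ) / 2) * (((2 * Real.pi) ^ 3)⁻¹ * ∫ k in cube,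
      1 / (Real.exp (β * ((n : ℝ) / 2 / magAt n β h₀ *
        (2 * ((n : ℝ) / 2) * ∑ j, (1 - Real.cos (k j))) + h₀)) - 1)) ≤
      (n : ℝ) / 2 - magAt n β h₀ := by
  obtain ⟨m, hmdef⟩ : ∃ m, m = magAt n β h₀ := ⟨_, rfl⟩
  have hser := fun R => magAt_series n R hβ hh₀ hm
  rw [← hmdef] at hm hser ⊢
  clear hmdef
  have hS : 0 < (n : ℝ) / 2 := by
    have : (1 : ℝ) ≤ n := by exact_mod_cast hn
    linarith
  obtain ⟨S, hSdef⟩ : ∃ S : ℝ, S = (n : ℝ) / 2 := ⟨_, rfl⟩
  rw [← hSdef] at hS hser ⊢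
  have key := integral_bose_le (a := β * (2 * S ^ 2) / m) (b := β * h₀)
    (C := S * (S - m) / m) (by positivity) (by positivity) (by
      intro R
      rw [le_div_iff₀ hm, mul_comm]
      refine le_trans (le_of_eq ?_) (hser R)
      congr 1
      refine Finset.sum_congr rfl fun r _ => ?_
      congr 3
      ring)
  have e : ∀ k : Fin 3 → ℝ, β * (S / m * (2 * S * ∑ j, (1 - Real.cos (k j))) + h₀) =
      β * (2 * S ^ 2) / m * ∑ j, (1 - Real.cos (k j)) + β * h₀ := by
    intro k; ring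
  simp only [e]
  refine ⟨key.1, ?_⟩
  have h2 := mul_le_mul_of_nonneg_left key.2 (a := m / S) (by positivity)
  refine h2.trans (le_of_eq ?_)
  field_simp

theorem spontMag_le (n : ℕ) {β : ℝ} (hβ : 0 < β) (hn : 1 ≤ n) : spontMag n β ≤ (n : ℝ) / 2 := by
  have hS : 0 < (n : ℝ) / 2 := by
    have : (1 : ℝ) ≤ n := by exact_mod_cast hn
    linarith
  rcases le_or_gt (spontMag n β) 0 with h | h
  · linarith
  · have h1 := magAt_series n 0 hβ le_rfl (h₀ := 0) h
    simp only [Finset.range_zero, Finset.sum_empty, mul_zero] at h1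
    have h2 := (mul_nonneg_iff_of_pos_left hS).1 h1
    change 0 ≤ (n : ℝ) / 2 - spontMag n β at h2
    linarith

/-- One-sided Bloch law. -/
theorem one_sided_bloch {n : ℕ} (hn : 1 ≤ n) {c : ℝ} (hc : c < blochCoeff ((n : ℝ) / 2)) :
    ∀ᶠ β : ℝ in atTop, c < β ^ (3 / 2 : ℝ) * ((n : ℝ) / 2 - spontMag n β) := by
  have hS : 0 < (n : ℝ) / 2 := by
    have : (1 : ℝ) ≤ n := by exact_mod_cast hn
    linarith
  refine bloch_of_bound hS (spontMag n) ?_ hc
  intro β hβ q hq hqm R
  have h := limit_bound n R hβ (pressure n β) (fun h => pressure_tendsto n hβ h)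
    (spontMag n β) le_rfl (magAt_slope n hβ 0) hq hqm
  simpa using h

end Vale.Agent.P361.H
end

section

/-!
Part B: definitions. `hT = H + S²|E| ≥ 0`, `numOp = S|Λ| - M ≥ 0`.
-/

namespace Vale.Agent.P361.B

open Matrix

/-- The cube `{0,…,L-1}³`. -/
noncomputable def cube (L : ℕ) : Finset Site := Fintype.piFinset fun _ : Fin 3 => Finset.Ico (0 : ℤ) L

/-- `H̃_Λ = ∑_{edges} (S² - S_x·S_y)`. -/
noncomputable def hT (n : ℕ) (Λ : Finset Site) : Matrix (Λ → Fin (n + 1)) (Λ → Fin (n + 1)) ℂ :=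
  (1 / 2 : ℂ) • ∑ x : Λ, ∑ y : Λ,
    if IsNN x.1 y.1 then (((n : ℂ) / 2) ^ 2) • (1 : Matrix _ _ ℂ) - H.dotOp n x y else 0

/-- Number of lowered spins `∑_x (S - S³_x)`. -/
noncomputable def numOp (n : ℕ) (Λ : Finset Site) : Matrix (Λ → Fin (n + 1)) (Λ → Fin (n + 1)) ℂ :=
  ∑ x : Λ, (((n : ℂ) / 2) • (1 : Matrix _ _ ℂ) - H.oZ n x)

/-- `Tr exp(-β H̃ - t N)`. -/
noncomputable def Zt (n : ℕ) (Λ : Finset Site) (β t : ℝ) : ℝ :=
  (trace (NormedSpace.exp (-((β : ℂ) • hT n Λ + (t : ℂ) • numOp n Λ)))).re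

end Vale.Agent.P361.B
end

section

/-!
Part B, steps D1 and D3: subadditivity of `log Zt` and comparison of the pressure with one cube.
-/

namespace Vale.Agent.P361.B

open Matrix Finset Filter Topology
open scoped ComplexOrder Kronecker

set_option linter.unusedSectionVars false

section General

variable {α β γ : Type*} [Fintype α] [DecidableEq α] [Fintype β] [DecidableEq β]
  [Fintype γ] [DecidableEq γ]

/-- `tr exp (X₁ ⊗ 1 + 1 ⊗ X₂) = tr e^{X₁} tr e^{X₂}`. -/
theorem trace_exp_kron {X₁ : Matrix α α ℂ} {X₂ : Matrix β β ℂ}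
    (h₁ : X₁.IsHermitian) (h₂ : X₂.IsHermitian) :
    trace (NormedSpace.exp (X₁ ⊗ₖ (1 : Matrix β β ℂ) + (1 : Matrix α α ℂ) ⊗ₖ X₂)) =
      ((∑ p : α × β, Real.exp (h₁.eigenvalues p.1 + h₂.eigenvalues p.2) : ℝ) : ℂ) := by
  set U₁ := (h₁.eigenvectorUnitary : Matrix α α ℂ) with hU₁
  set U₂ := (h₂.eigenvectorUnitary : Matrix β β ℂ) with hU₂
  have hUU₁ : star U₁ * U₁ = 1 := Unitary.coe_star_mul_self _
  have hUU₂ : star U₂ * U₂ = 1 := Unitary.coe_star_mul_self _
  set W := U₁ ⊗ₖ U₂ with hW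
  have hstarW : star W = star U₁ ⊗ₖ star U₂ := by
    rw [hW, Matrix.star_eq_conjTranspose, Matrix.conjTranspose_kronecker]; rfl
  have hWW : star W * W = 1 := by
    rw [hstarW, hW, ← Matrix.mul_kronecker_mul, hUU₁, hUU₂, Matrix.one_kronecker_one]
  have hWW' : W * star W = 1 := mul_eq_one_comm.1 hWW
  have hinv : star W = W⁻¹ := (Matrix.inv_eq_left_inv hWW).symm
  have hunit : IsUnit W := ⟨⟨W, star W, hWW', hWW⟩, rfl⟩
  have e3 : star W * (X₁ ⊗ₖ (1 : Matrix β β ℂ) + (1 : Matrix α α ℂ) ⊗ₖ X₂) * W =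
      diagonal (fun p : α × β => (h₁.eigenvalues p.1 : ℂ) + (h₂.eigenvalues p.2 : ℂ)) := by
    rw [Matrix.mul_add, Matrix.add_mul, hstarW, hW, ← Matrix.mul_kronecker_mul,
      ← Matrix.mul_kronecker_mul, ← Matrix.mul_kronecker_mul, ← Matrix.mul_kronecker_mul,
      Matrix.mul_one, Matrix.mul_one, hUU₁, hUU₂, diag_conj_eigen h₁, diag_conj_eigen h₂]
    ext p q
    obtain ⟨p1, p2⟩ := p
    obtain ⟨q1, q2⟩ := q
    simp only [Matrix.add_apply, Matrix.kroneckerMap_apply, Matrix.diagonal_apply,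
      Matrix.one_apply, Prod.mk.injEq]
    by_cases h1 : p1 = q1 <;> by_cases h2 : p2 = q2 <;> simp [h1, h2]
  have e4 : X₁ ⊗ₖ (1 : Matrix β β ℂ) + (1 : Matrix α α ℂ) ⊗ₖ X₂ =
      W * diagonal (fun p : α × β => (h₁.eigenvalues p.1 : ℂ) + (h₂.eigenvalues p.2 : ℂ)) *
        W⁻¹ := by
    rw [← e3, ← hinv]
    calc X₁ ⊗ₖ (1 : Matrix β β ℂ) + (1 : Matrix α α ℂ) ⊗ₖ X₂ =
        (W * star W) * (X₁ ⊗ₖ (1 : Matrix β β ℂ) + (1 : Matrix α α ℂ) ⊗ₖ X₂) *
          (W * star W) := by rw [hWW', Matrix.one_mul, Matrix.mul_one]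
      _ = _ := by simp only [Matrix.mul_assoc]
  rw [e4, Matrix.exp_conj _ _ hunit, Matrix.exp_diagonal, Matrix.trace_mul_comm,
    ← Matrix.mul_assoc, ← hinv, hWW, Matrix.one_mul, Matrix.trace_diagonal, Complex.ofReal_sum]
  refine Finset.sum_congr rfl fun p _ => ?_
  rw [Pi.exp_def]
  simp [← Complex.exp_eq_exp_ℂ]

/-- Subadditivity tool: if `Y ≤ X₁ ⊗ 1 + 1 ⊗ X₂` then `tr e^Y ≤ tr e^{X₁} tr e^{X₂}`. -/
theorem trace_exp_prod_ge [Nonempty α] [Nonempty β] (e : α × β ≃ γ) {X₁ : Matrix α α ℂ}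
    {X₂ : Matrix β β ℂ}
    {Y : Matrix γ γ ℂ} (h₁ : X₁.IsHermitian) (h₂ : X₂.IsHermitian) (hY : Y.IsHermitian)
    (hP : ((X₁ ⊗ₖ (1 : Matrix β β ℂ) + (1 : Matrix α α ℂ) ⊗ₖ X₂) - Y.submatrix e e).PosSemidef) :
    (trace (NormedSpace.exp Y)).re ≤
    (trace (NormedSpace.exp X₁)).re * (trace (NormedSpace.exp X₂)).re := by
  have hY' : (Y.submatrix e e).IsHermitian := hY.submatrix e
  have hX : (X₁ ⊗ₖ (1 : Matrix β β ℂ) + (1 : Matrix α α ℂ) ⊗ₖ X₂).IsHermitian := by
    rw [Matrix.IsHermitian, Matrix.conjTranspose_add, Matrix.conjTranspose_kronecker,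
      Matrix.conjTranspose_kronecker, h₁, h₂, Matrix.conjTranspose_one, Matrix.conjTranspose_one]
  have h := trace_exp_mono hY' hX hP
  rw [trace_exp_submatrix, trace_exp_kron h₁ h₂, Complex.ofReal_re] at h
  refine h.trans (le_of_eq ?_)
  rw [trace_exp_re h₁, trace_exp_re h₂, Finset.sum_mul_sum, Fintype.sum_prod_type]
  simp_rw [Real.exp_add]

end General

section

variable {d κ : Type*} [Fintype d] [DecidableEq d] [Fintype κ]
  {V : Type*} [Fintype V] [DecidableEq V]
  {V₁ : Type*} [Fintype V₁] [DecidableEq V₁] {V₂ : Type*} [Fintype V₂] [DecidableEq V₂]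

/-- Splitting identity of the total exponent. -/
theorem totOp_split_eq (b c : ℝ) (S : κ → Matrix d d ℂ)
    (F : Matrix d d ℂ) (adj : V → V → Prop) [DecidableRel adj] (f : V₁ ⊕ V₂ ≃ V) :
    (totOp b c S F adj).submatrix (confEquiv f) (confEquiv f) -
      (totOp b c S F (fun x y : V₁ => adj (f (Sum.inl x)) (f (Sum.inl y))) ⊗ₖ
          (1 : Matrix (V₂ → d) (V₂ → d) ℂ) +
        (1 : Matrix (V₁ → d) (V₁ → d) ℂ) ⊗ₖ
          totOp b c S F (fun x y : V₂ => adj (f (Sum.inr x)) (f (Sum.inr y)))) =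
      (b : ℂ) • ((∑ x : V₁, ∑ y : V₂, if adj (f (Sum.inl x)) (f (Sum.inr y)) then
          (pairOp c S (f (Sum.inl x)) (f (Sum.inr y))).submatrix (confEquiv f) (confEquiv f)
          else 0) +
        (∑ x : V₂, ∑ y : V₁, if adj (f (Sum.inr x)) (f (Sum.inl y)) then
          (pairOp c S (f (Sum.inr x)) (f (Sum.inl y))).submatrix (confEquiv f) (confEquiv f)
          else 0)) := by
  have h2 : ∀ x y : V, (if adj x y then pairOp c S x y else 0).submatrix
      (confEquiv f) (confEquiv f) = if adj x y then (pairOp c S x y).submatrix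
      (confEquiv f) (confEquiv f) else 0 := by
    intro x y
    by_cases h : adj x y
    · rw [if_pos h, if_pos h]
    · rw [if_neg h, if_neg h]
      ext i j; rfl
  have h3 : ∀ x y : V₁, (if adj (f (Sum.inl x)) (f (Sum.inl y)) then pairOp c S x y
      else 0) ⊗ₖ (1 : Matrix (V₂ → d) (V₂ → d) ℂ) =
      if adj (f (Sum.inl x)) (f (Sum.inl y)) then
        pairOp c S x y ⊗ₖ (1 : Matrix (V₂ → d) (V₂ → d) ℂ) else 0 := by
    intro x y
    by_cases h : adj (f (Sum.inl x)) (f (Sum.inl y))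
    · rw [if_pos h, if_pos h]
    · rw [if_neg h, if_neg h]
      exact Matrix.zero_kronecker _
  have h4 : ∀ x y : V₂, (1 : Matrix (V₁ → d) (V₁ → d) ℂ) ⊗ₖ
      (if adj (f (Sum.inr x)) (f (Sum.inr y)) then pairOp c S x y else 0) =
      if adj (f (Sum.inr x)) (f (Sum.inr y)) then
        (1 : Matrix (V₁ → d) (V₁ → d) ℂ) ⊗ₖ pairOp c S x y else 0 := by
    intro x y
    by_cases h : adj (f (Sum.inr x)) (f (Sum.inr y))
    · rw [if_pos h, if_pos h]
    · rw [if_neg h, if_neg h]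
      exact Matrix.kronecker_zero _
  simp only [totOp, Matrix.submatrix_add, Pi.add_apply, Matrix.submatrix_smul, Pi.smul_apply,
    submatrix_sum_eq, h2, Matrix.add_kronecker, Matrix.smul_kronecker, sum_kron,
    Matrix.kronecker_add, Matrix.kronecker_smul, kron_sum, h3, h4]
  simp only [← Equiv.sum_comp f, Fintype.sum_sum_type, pairOp_inl, pairOp_inr, siteOpV_inl,
    siteOpV_inr, Finset.sum_add_distrib, smul_add]
  abel

/-- Subadditivity of `logZ` when the pair terms are negative. -/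
theorem logZ_subadd [Nonempty d] {b c : ℝ} (hb : 0 ≤ b) {S : κ → Matrix d d ℂ}
    (hS : ∀ a, (S a).IsHermitian) {F : Matrix d d ℂ} (hF : F.IsHermitian)
    (adj : V → V → Prop) [DecidableRel adj] (hadj : ∀ x, ¬ adj x x)
    (hneg : ∀ x y : V, x ≠ y → (-pairOp c S x y).PosSemidef) (f : V₁ ⊕ V₂ ≃ V) :
    logZ b c S F adj ≤
    logZ b c S F (fun x y : V₁ => adj (f (Sum.inl x)) (f (Sum.inl y))) +
      logZ b c S F (fun x y : V₂ => adj (f (Sum.inr x)) (f (Sum.inr y))) := by
  have h1 := totOp_isHermitian b c hS hF (fun x y : V₁ => adj (f (Sum.inl x)) (f (Sum.inl y)))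
    (fun x => hadj _)
  have h2 := totOp_isHermitian b c hS hF (fun x y : V₂ => adj (f (Sum.inr x)) (f (Sum.inr y)))
    (fun x => hadj _)
  have h3 := totOp_isHermitian b c hS hF adj hadj
  have key : ((totOp b c S F (fun x y : V₁ => adj (f (Sum.inl x)) (f (Sum.inl y))) ⊗ₖ
          (1 : Matrix (V₂ → d) (V₂ → d) ℂ) +
        (1 : Matrix (V₁ → d) (V₁ → d) ℂ) ⊗ₖ
          totOp b c S F (fun x y : V₂ => adj (f (Sum.inr x)) (f (Sum.inr y)))) -
      (totOp b c S F adj).submatrix (confEquiv f) (confEquiv f)).PosSemidef := by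
    have e := totOp_split_eq b c S F adj f
    rw [← neg_sub, e, ← smul_neg, neg_add, ← Finset.sum_neg_distrib, ← Finset.sum_neg_distrib]
    refine Matrix.PosSemidef.smul ?_ (by simpa using hb)
    refine Matrix.PosSemidef.add ?_ ?_
    · refine Matrix.posSemidef_sum _ fun x _ => ?_
      rw [← Finset.sum_neg_distrib]
      refine Matrix.posSemidef_sum _ fun y _ => ?_
      split_ifs
      · refine Matrix.PosSemidef.submatrix (hneg _ _ ?_) _
        intro h
        simpa using f.injective h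
      · rw [neg_zero]; exact Matrix.PosSemidef.zero
    · refine Matrix.posSemidef_sum _ fun x _ => ?_
      rw [← Finset.sum_neg_distrib]
      refine Matrix.posSemidef_sum _ fun y _ => ?_
      split_ifs
      · refine Matrix.PosSemidef.submatrix (hneg _ _ ?_) _
        intro h
        simpa using f.injective h
      · rw [neg_zero]; exact Matrix.PosSemidef.zero
  have h := trace_exp_prod_ge (confEquiv f) h1 h2 h3 key
  have p1 := trace_exp_pos h1
  have p2 := trace_exp_pos h2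
  have p3 := trace_exp_pos h3
  unfold logZ
  rw [← Real.log_mul p1.ne' p2.ne']
  exact Real.log_le_log p3 h

end

section Lattice

variable {n : ℕ} {Λ : Finset Site}

/-- One-site field term. -/
noncomputable def fld (n : ℕ) (t : ℝ) : Matrix (Fin (n + 1)) (Fin (n + 1)) ℂ :=
  -((t : ℂ) • (((n : ℂ) / 2) • (1 : Matrix (Fin (n + 1)) (Fin (n + 1)) ℂ) - spin n 2))

theorem fld_isHermitian (n : ℕ) (t : ℝ) : (fld n t).IsHermitian := by
  rw [fld, Matrix.IsHermitian, Matrix.conjTranspose_neg, Matrix.conjTranspose_smul,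
    Matrix.conjTranspose_sub, Matrix.conjTranspose_smul, Matrix.conjTranspose_one,
    spin_isHermitian n 2]
  simp

theorem pairOp_eq_dot (x y : Λ) : pairOp (-((n : ℝ) / 2) ^ 2) (spin n) x y =
    -((((n : ℂ) / 2) ^ 2) • (1 : Matrix (Λ → Fin (n + 1)) (Λ → Fin (n + 1)) ℂ) -
      H.dotOp n x y) := by
  unfold pairOp H.dotOp
  simp only [siteOp_eq_siteOpV]
  push_cast
  module

theorem neg_pairOp_posSemidef {x y : Λ} (hxy : x ≠ y) :
    (-pairOp (-((n : ℝ) / 2) ^ 2) (spin n) x y).PosSemidef := by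
  rw [pairOp_eq_dot, neg_neg]
  have h := H.dot_sos (n := n) hxy
  have h2 : (((n : ℂ) / 2) ^ 2) • (1 : Matrix (Λ → Fin (n + 1)) (Λ → Fin (n + 1)) ℂ) -
      H.dotOp n x y = (1 / 2 : ℂ) • ((H.oA n x * H.oB n y - H.oB n x * H.oA n y)ᴴ *
        (H.oA n x * H.oB n y - H.oB n x * H.oA n y)) := by
    rw [h]
    module
  rw [h2]
  exact Matrix.PosSemidef.smul (Matrix.posSemidef_conjTranspose_mul_self _)
    (by norm_num [Complex.le_def])

theorem totOp_eq_hT (β t : ℝ) : totOp (V := Λ) (β / 2) (-((n : ℝ) / 2) ^ 2) (spin n) (fld n t)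
      (fun x y => IsNN x.1 y.1) =
      -((β : ℂ) • hT n Λ + (t : ℂ) • numOp n Λ) := by
  unfold totOp hT numOp fld
  simp only [pairOp_eq_dot]
  have e1 : (∑ x : Λ, ∑ y : Λ, if IsNN x.1 y.1 then
      -((((n : ℂ) / 2) ^ 2) • (1 : Matrix (Λ → Fin (n + 1)) (Λ → Fin (n + 1)) ℂ) -
      H.dotOp n x y) else 0) = -∑ x : Λ, ∑ y : Λ, if IsNN x.1 y.1 then
      ((((n : ℂ) / 2) ^ 2) • (1 : Matrix (Λ → Fin (n + 1)) (Λ → Fin (n + 1)) ℂ) -
      H.dotOp n x y) else 0 := by
    rw [← Finset.sum_neg_distrib]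
    refine Finset.sum_congr rfl fun x _ => ?_
    rw [← Finset.sum_neg_distrib]
    refine Finset.sum_congr rfl fun y _ => ?_
    split_ifs <;> simp
  rw [e1]
  have e2 : ∀ x : Λ, siteOpV x (-((t : ℂ) • (((n : ℂ) / 2) •
      (1 : Matrix (Fin (n + 1)) (Fin (n + 1)) ℂ) - spin n 2))) =
      -((t : ℂ) • (((n : ℂ) / 2) • (1 : Matrix _ _ ℂ) - H.oZ n x)) := by
    intro x
    rw [siteOpV_neg, siteOpV_smul, siteOpV_sub, siteOpV_smul, siteOpV_one,
      ← siteOp_eq_siteOpV]
    rfl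
  simp only [e2, Finset.sum_neg_distrib, ← Finset.smul_sum]
  push_cast
  module

theorem log_Zt_eq (β t : ℝ) : Real.log (Zt n Λ β t) =
    lz (β / 2) (-((n : ℝ) / 2) ^ 2) n (fld n t) Λ := by
  unfold lz logZ Zt
  rw [totOp_eq_hT]

theorem hT_isHermitian : (hT n Λ).IsHermitian := by
  have h := totOp_isHermitian (V := Λ) ((-2 : ℝ) / 2) (-((n : ℝ) / 2) ^ 2) (spin_isHermitian n)
    (fld_isHermitian n 0) (fun x y => IsNN x.1 y.1) (fun x => isNN_irrefl x.1)
  rw [totOp_eq_hT] at h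
  have h2 : hT n Λ = (1 / 2 : ℂ) • (-((((-2 : ℝ) : ℂ)) • hT n Λ + ((0 : ℝ) : ℂ) • numOp n Λ)) := by
    push_cast
    module
  rw [h2, Matrix.IsHermitian, Matrix.conjTranspose_smul, h]
  congr 1
  simp

theorem expo_isHermitian' (β t : ℝ) :
    (-((β : ℂ) • hT n Λ + (t : ℂ) • numOp n Λ)).IsHermitian := by
  rw [← totOp_eq_hT]
  exact totOp_isHermitian (V := Λ) (β / 2) (-((n : ℝ) / 2) ^ 2) (spin_isHermitian n)
    (fld_isHermitian n t) (fun x y => IsNN x.1 y.1) (fun x => isNN_irrefl x.1)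

theorem Zt_pos (β t : ℝ) : 0 < Zt n Λ β t := trace_exp_pos (expo_isHermitian' β t)

theorem hT_posSemidef : (hT n Λ).PosSemidef := by
  unfold hT
  refine Matrix.PosSemidef.smul ?_ (by norm_num [Complex.le_def])
  refine Matrix.posSemidef_sum _ fun x _ => Matrix.posSemidef_sum _ fun y _ => ?_
  split_ifs with h
  · have h2 := neg_pairOp_posSemidef (n := n) (Λ := Λ) (x := x) (y := y) (by
      rintro rfl; exact isNN_irrefl _ h)
    rwa [pairOp_eq_dot, neg_neg] at h2
  · exact Matrix.PosSemidef.zero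

end Lattice

section Ground

variable {n : ℕ} {Λ : Finset Site}

/-- The fully polarized configuration. -/
def e0 (n : ℕ) (Λ : Finset Site) : (Λ → Fin (n + 1)) → ℂ := Pi.single (fun _ => 0) 1

theorem oB_e0 (y : Λ) : H.oB n y *ᵥ e0 n Λ = 0 := by
  ext σ
  rw [e0, Matrix.mulVec_single_one]
  refine (H.siteOp_apply y (H.schwB n) σ (fun _ => 0)).trans ?_
  simp [H.schwB]

theorem oZ_e0 (y : Λ) : H.oZ n y *ᵥ e0 n Λ = ((n : ℂ) / 2) • e0 n Λ := by
  have h : H.oZ n y = ((n : ℂ) / 2) • (1 : Matrix _ _ ℂ) - (H.oB n y)ᴴ * H.oB n y := by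
    rw [siteOp_conjTranspose, H.siteOp_mul, H.schwB_schwB, H.siteOp_sub, H.siteOp_smul,
      H.siteOp_one]
    abel
  rw [h, Matrix.sub_mulVec, ← Matrix.mulVec_mulVec, oB_e0, Matrix.mulVec_zero, sub_zero,
    Matrix.smul_mulVec, Matrix.one_mulVec]

theorem pair_e0 {x y : Λ} (hxy : x ≠ y) :
    ((((n : ℂ) / 2) ^ 2) • (1 : Matrix (Λ → Fin (n + 1)) (Λ → Fin (n + 1)) ℂ) -
      H.dotOp n x y) *ᵥ e0 n Λ = 0 := by
  have h := H.dot_sos (n := n) hxy
  have h2 : (((n : ℂ) / 2) ^ 2) • (1 : Matrix (Λ → Fin (n + 1)) (Λ → Fin (n + 1)) ℂ) -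
      H.dotOp n x y = (1 / 2 : ℂ) • ((H.oA n x * H.oB n y - H.oB n x * H.oA n y)ᴴ *
        (H.oA n x * H.oB n y - H.oB n x * H.oA n y)) := by
    rw [h]
    module
  rw [h2, Matrix.smul_mulVec, ← Matrix.mulVec_mulVec, Matrix.sub_mulVec,
    H.siteOp_comm hxy (H.schwB n) (H.schwA n), ← Matrix.mulVec_mulVec, ← Matrix.mulVec_mulVec,
    oB_e0, oB_e0]
  simp

theorem hT_e0 : hT n Λ *ᵥ e0 n Λ = 0 := by
  unfold hT
  rw [Matrix.smul_mulVec, Matrix.sum_mulVec]
  rw [Finset.sum_eq_zero, smul_zero]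
  intro x _
  rw [Matrix.sum_mulVec]
  refine Finset.sum_eq_zero fun y _ => ?_
  split_ifs with h
  · exact pair_e0 (by rintro rfl; exact isNN_irrefl _ h)
  · exact Matrix.zero_mulVec _

theorem numOp_e0 : numOp n Λ *ᵥ e0 n Λ = 0 := by
  unfold numOp
  rw [Matrix.sum_mulVec]
  refine Finset.sum_eq_zero fun x _ => ?_
  rw [Matrix.sub_mulVec, oZ_e0, Matrix.smul_mulVec, Matrix.one_mulVec, sub_self]

theorem one_le_Zt (β t : ℝ) : 1 ≤ Zt n Λ β t := by
  have h0 : (-((β : ℂ) • hT n Λ + (t : ℂ) • numOp n Λ)) *ᵥ e0 n Λ = 0 := by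
    rw [Matrix.neg_mulVec, Matrix.add_mulVec, Matrix.smul_mulVec, Matrix.smul_mulVec, hT_e0,
      numOp_e0]
    simp
  have hH := expo_isHermitian' (n := n) (Λ := Λ) β t
  unfold Zt
  generalize -((β : ℂ) • hT n Λ + (t : ℂ) • numOp n Λ) = X at h0 hH ⊢
  have h := peierls hH (V := 1) (by simp)
  refine le_trans ?_ h
  rw [star_one, Matrix.one_mul, Matrix.mul_one]
  have h1 : X (fun _ => 0) (fun _ => 0) = 0 := by
    have := congrFun h0 (fun _ => 0)
    rw [e0, Matrix.mulVec_single_one] at this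
    exact this
  have h2 : Real.exp ((X (fun _ => 0) (fun _ => 0)).re) ≤ ∑ i, Real.exp ((X i i).re) :=
    Finset.single_le_sum (f := fun i => Real.exp ((X i i).re))
      (fun _ _ => (Real.exp_pos _).le) (Finset.mem_univ _)
  refine le_trans ?_ h2
  rw [h1]
  simp

theorem numOp_posSemidef : (numOp n Λ).PosSemidef := by
  unfold numOp
  refine Matrix.posSemidef_sum _ fun x _ => ?_
  have h : ((n : ℂ) / 2) • (1 : Matrix (Λ → Fin (n + 1)) (Λ → Fin (n + 1)) ℂ) - H.oZ n x =
      (H.oB n x)ᴴ * H.oB n x := by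
    rw [siteOp_conjTranspose, H.siteOp_mul, H.schwB_schwB, H.siteOp_sub, H.siteOp_smul,
      H.siteOp_one]
  rw [h]
  exact Matrix.posSemidef_conjTranspose_mul_self _

theorem Zt_le_card {β t : ℝ} (hβ : 0 ≤ β) (ht : 0 ≤ t) :
    Zt n Λ β t ≤ ((n : ℝ) + 1) ^ Λ.card := by
  have h := trace_exp_mono (expo_isHermitian' (n := n) (Λ := Λ) β t)
    (Y := (0 : Matrix (Λ → Fin (n + 1)) (Λ → Fin (n + 1)) ℂ)) Matrix.isHermitian_zero (by
      rw [zero_sub, neg_neg]
      exact (hT_posSemidef.smul (by simpa using hβ)).add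
        (numOp_posSemidef.smul (by simpa using ht)))
  refine le_trans h (le_of_eq ?_)
  rw [NormedSpace.exp_zero, Matrix.trace_one, Complex.natCast_re]
  simp

/-- Monotonicity in both parameters. -/
theorem Zt_anti {β β' t t' : ℝ} (hβ : β ≤ β') (ht : t ≤ t') :
    Zt n Λ β' t' ≤ Zt n Λ β t := by
  refine trace_exp_mono (expo_isHermitian' (n := n) (Λ := Λ) β' t')
    (expo_isHermitian' (n := n) (Λ := Λ) β t) ?_
  have e : -((β : ℂ) • hT n Λ + (t : ℂ) • numOp n Λ) - -((β' : ℂ) • hT n Λ + (t' : ℂ) • numOp n Λ)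
      = ((β' - β : ℝ) : ℂ) • hT n Λ + ((t' - t : ℝ) : ℂ) • numOp n Λ := by
    push_cast
    module
  rw [e]
  exact (hT_posSemidef.smul (by rw [Complex.zero_le_real]; linarith)).add
    (numOp_posSemidef.smul (by rw [Complex.zero_le_real]; linarith))

end Ground

section SetFunction

variable {n : ℕ} {β t : ℝ}

theorem log_Zt_nonneg (Λ : Finset Site) : 0 ≤ Real.log (Zt n Λ β t) :=
  Real.log_nonneg (one_le_Zt β t)

theorem log_Zt_le (hβ : 0 ≤ β) (ht : 0 ≤ t) (Λ : Finset Site) :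
    Real.log (Zt n Λ β t) ≤ Real.log ((n : ℝ) + 1) * Λ.card := by
  have h := Real.log_le_log (Zt_pos β t) (Zt_le_card (n := n) (Λ := Λ) hβ ht)
  rwa [Real.log_pow, mul_comm] at h

theorem log_Zt_subadd (hβ : 0 ≤ β) (Λ₁ Λ₂ : Finset Site) (h : Disjoint Λ₁ Λ₂) :
    Real.log (Zt n (Λ₁ ∪ Λ₂) β t) ≤ Real.log (Zt n Λ₁ β t) + Real.log (Zt n Λ₂ β t) := by
  simp only [log_Zt_eq]
  unfold lz
  exact logZ_subadd (V := (Λ₁ ∪ Λ₂ : Finset Site)) (by positivity) (spin_isHermitian n)
    (fld_isHermitian n t) (fun x y : (Λ₁ ∪ Λ₂ : Finset Site) => IsNN x.1 y.1)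
    (fun x => isNN_irrefl x.1) (fun x y hxy => neg_pairOp_posSemidef hxy)
    (Equiv.Finset.union Λ₁ Λ₂ h)

theorem log_Zt_translate (v : Site) (Λ : Finset Site) :
    Real.log (Zt n (Λ.map (addRightEmbedding v)) β t) = Real.log (Zt n Λ β t) := by
  simp only [log_Zt_eq]
  exact lz_translate v Λ

/-- Superadditive companion of `log Zt`. -/
noncomputable def gset (n : ℕ) (β t : ℝ) (Λ : Finset Site) : ℝ :=
  Real.log ((n : ℝ) + 1) * Λ.card - Real.log (Zt n Λ β t)

theorem gset_superadd (hβ : 0 ≤ β) (Λ₁ Λ₂ : Finset Site) (h : Disjoint Λ₁ Λ₂) :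
    gset n β t Λ₁ + gset n β t Λ₂ ≤ gset n β t (Λ₁ ∪ Λ₂) := by
  unfold gset
  rw [Finset.card_union_of_disjoint h]
  push_cast
  linarith [log_Zt_subadd (n := n) (t := t) hβ Λ₁ Λ₂ h]

theorem gset_translate (v : Site) (Λ : Finset Site) :
    gset n β t (Λ.map (addRightEmbedding v)) = gset n β t Λ := by
  unfold gset
  rw [log_Zt_translate, Finset.card_map]

theorem gset_nonneg (hβ : 0 ≤ β) (ht : 0 ≤ t) (Λ : Finset Site) : 0 ≤ gset n β t Λ := by
  unfold gset
  linarith [log_Zt_le (n := n) hβ ht Λ]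

theorem gset_le (Λ : Finset Site) : gset n β t Λ ≤ Real.log ((n : ℝ) + 1) * Λ.card := by
  unfold gset
  linarith [log_Zt_nonneg (n := n) (β := β) (t := t) Λ]

theorem cube_eq (L : ℕ) : cube L = P361.cube L := rfl

/-- (D3) -/
theorem log_Zt_cube_mul (hβ : 0 ≤ β) (ht : 0 ≤ t) (q L : ℕ) (hL : 0 < L) :
    Real.log (Zt n (cube (q * L)) β t) ≤ (q : ℝ) ^ 3 * Real.log (Zt n (cube L) β t) := by
  have h := G_cube_mul (G := gset n β t) (gset_superadd hβ) gset_translate
    (gset_nonneg hβ ht) L q (q * L) hL le_rfl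
  unfold gset at h
  rw [card_cube, card_cube] at h
  rw [cube_eq, cube_eq]
  push_cast at h
  nlinarith

/-- Existence of the limit along boxes. -/
theorem log_Zt_box_le (hβ : 0 ≤ β) (ht : 0 ≤ t) {a : ℝ} (L : ℕ) (hL : 0 < L)
    (ha : Tendsto (fun N : ℕ => Real.log (Zt n (box N) β t) / ((box N).card : ℝ)) atTop (𝓝 a)) :
    a ≤ Real.log (Zt n (cube L) β t) / (L : ℝ) ^ 3 := by
  have hLR : (0 : ℝ) < L := by exact_mod_cast hL
  -- lower bound for the superadditive function along boxes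
  have h1 : ∀ N : ℕ, ((((2 * N + 1) / L : ℕ) : ℝ) / ((2 * N + 1 : ℕ) : ℝ)) ^ 3 *
      gset n β t (cube L) ≤ gset n β t (box N) / ((box N).card : ℝ) := by
    intro N
    have h := G_cube_mul (G := gset n β t) (gset_superadd hβ) gset_translate
      (gset_nonneg hβ ht) L ((2 * N + 1) / L) (2 * N + 1) hL (Nat.div_mul_le_self _ _)
    rw [box_eq_map, gset_translate, Finset.card_map, card_cube]
    have hpos : (0 : ℝ) < ((2 * N + 1 : ℕ) : ℝ) := by positivity
    rw [Nat.cast_pow, le_div_iff₀ (by positivity), div_pow]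
    rw [cube_eq]
    calc _ = (((2 * N + 1) / L : ℕ) : ℝ) ^ 3 * gset n β t (P361.cube L) := by
          field_simp
      _ ≤ _ := h
  have h2 : Tendsto (fun N : ℕ => ((((2 * N + 1) / L : ℕ) : ℝ) / ((2 * N + 1 : ℕ) : ℝ)) ^ 3 *
      gset n β t (cube L)) atTop (𝓝 ((1 / (L : ℝ)) ^ 3 * gset n β t (cube L))) := by
    refine Tendsto.mul_const _ (Tendsto.pow ?_ 3)
    have h3 := (tendsto_nat_floor_mul_div_atTop (R := ℝ) (a := 1 / (L : ℝ))
      (by positivity)).comp tendsto_natCast_atTop_atTop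
    have h4 : Tendsto (fun N : ℕ => 2 * N + 1) atTop atTop := by
      refine tendsto_atTop_mono (fun n => ?_) tendsto_id
      simp only [id]; omega
    refine (h3.comp h4).congr fun N => ?_
    simp only [Function.comp]
    congr 2
    rw [one_div, inv_mul_eq_div, Nat.floor_div_eq_div]
  have h5 : Tendsto (fun N : ℕ => gset n β t (box N) / ((box N).card : ℝ)) atTop
      (𝓝 (Real.log ((n : ℝ) + 1) - a)) := by
    refine (tendsto_const_nhds.sub ha).congr fun N => ?_
    have hpos : (0 : ℝ) < (box N).card := by exact_mod_cast (box_nonempty N).card_pos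
    unfold gset
    field_simp
  have h6 := le_of_tendsto_of_tendsto' h2 h5 h1
  unfold gset at h6
  rw [cube_eq, card_cube] at h6
  rw [cube_eq]
  push_cast at h6
  have h7 : (1 / (L : ℝ)) ^ 3 * (Real.log ((n : ℝ) + 1) * (L : ℝ) ^ 3 -
      Real.log (Zt n (P361.cube L) β t)) = Real.log ((n : ℝ) + 1) -
      Real.log (Zt n (P361.cube L) β t) / (L : ℝ) ^ 3 := by
    field_simp
  linarith

end SetFunction

section Pressure

variable {n : ℕ}

theorem nn_count_eq (Λ : Finset Site) (x : Site) :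
    (∑ y ∈ Λ, if IsNN x y then (1 : ℝ) else 0) =
      ((Finset.univ.filter fun p : Fin 3 × Bool => x + H.dir p ∈ Λ).card : ℝ) := by
  rw [← Finset.sum_filter, Finset.sum_const, nsmul_eq_mul, mul_one]
  congr 1
  symm
  refine Finset.card_bij (fun p _ => x + H.dir p) ?_ ?_ ?_
  · intro p hp
    rw [Finset.mem_filter] at hp ⊢
    exact ⟨hp.2, (H.isNN_iff _ _).2 ⟨p, rfl⟩⟩
  · intro p _ q _ h
    exact H.dir_injective (by simpa using h)
  · intro y hy
    rw [Finset.mem_filter] at hy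
    obtain ⟨p, rfl⟩ := (H.isNN_iff _ _).1 hy.2
    exact ⟨p, by rw [Finset.mem_filter]; exact ⟨Finset.mem_univ _, hy.1⟩, rfl⟩

theorem edgeCount_le_six (Λ : Finset Site) : edgeCount Λ ≤ 6 * Λ.card := by
  rw [edgeCount_eq]
  calc ∑ x ∈ Λ, ∑ y ∈ Λ, (if IsNN x y then (1 : ℝ) else 0) ≤ ∑ _x ∈ Λ, (6 : ℝ) := by
        refine Finset.sum_le_sum fun x _ => ?_
        rw [nn_count_eq]
        have : (Finset.univ.filter fun p : Fin 3 × Bool => x + H.dir p ∈ Λ).card ≤ 6 :=
          (Finset.card_filter_le _ _).trans (by simp)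
        exact_mod_cast this
    _ = 6 * Λ.card := by
        rw [Finset.sum_const, nsmul_eq_mul]; ring

theorem dir_abs_le : ∀ (p : Fin 3 × Bool) (i : Fin 3), |H.dir p i| ≤ 1 := by decide

theorem edgeCount_box_ge (N : ℕ) : 6 * ((2 * (N : ℝ) + 1) ^ 3) ≤ edgeCount (box (N + 1)) := by
  rw [edgeCount_eq]
  have hsub : box N ⊆ box (N + 1) := by
    intro x hx
    rw [H.mem_box] at hx ⊢
    intro i
    have := hx i
    push_cast
    constructor <;> linarith
  calc 6 * ((2 * (N : ℝ) + 1) ^ 3) = ∑ _x ∈ box N, (6 : ℝ) := by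
        rw [Finset.sum_const, nsmul_eq_mul, card_box]; push_cast; ring
    _ ≤ ∑ x ∈ box N, ∑ y ∈ box (N + 1), (if IsNN x y then (1 : ℝ) else 0) := by
        refine Finset.sum_le_sum fun x hx => ?_
        rw [nn_count_eq, Finset.filter_true_of_mem]
        · simp
        · intro p _
          rw [H.mem_box] at hx ⊢
          intro i
          have h1 := hx i
          have h2 : |H.dir p i| ≤ 1 := dir_abs_le p i
          have h3 := abs_le.1 h2
          simp only [Pi.add_apply]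
          push_cast
          constructor <;> linarith
    _ ≤ ∑ x ∈ box (N + 1), ∑ y ∈ box (N + 1), (if IsNN x y then (1 : ℝ) else 0) := by
        refine Finset.sum_le_sum_of_subset_of_nonneg hsub fun _ _ _ => ?_
        exact Finset.sum_nonneg fun _ _ => by split_ifs <;> norm_num

theorem edge_density : Tendsto (fun N : ℕ => edgeCount (box N) / ((box N).card : ℝ)) atTop
    (𝓝 6) := by
  rw [← tendsto_add_atTop_iff_nat 1]
  have h1 : Tendsto (fun N : ℕ => 6 * ((2 * (N : ℝ) + 1) / (2 * ((N : ℝ) + 1) + 1)) ^ 3) atTop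
      (𝓝 (6 * 1 ^ 3)) := by
    refine Tendsto.const_mul _ (Tendsto.pow ?_ 3)
    have h2 : Tendsto (fun N : ℕ => 1 - 2 / (2 * ((N : ℝ) + 1) + 1)) atTop (𝓝 (1 - 0)) := by
      refine tendsto_const_nhds.sub (Tendsto.div_atTop tendsto_const_nhds ?_)
      refine tendsto_atTop_mono (f := fun N : ℕ => (N : ℝ)) (fun N => ?_)
        tendsto_natCast_atTop_atTop
      have : (0 : ℝ) ≤ N := Nat.cast_nonneg N
      linarith
    rw [sub_zero] at h2
    refine h2.congr fun N => ?_
    have : (0 : ℝ) ≤ N := Nat.cast_nonneg N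
    field_simp
    ring
  rw [one_pow, mul_one] at h1
  refine tendsto_of_tendsto_of_tendsto_of_le_of_le h1 tendsto_const_nhds (fun N => ?_)
    (fun N => ?_)
  · have h3 := edgeCount_box_ge N
    simp only
    rw [card_box, le_div_iff₀ (by positivity), div_pow]
    push_cast
    refine le_trans (le_of_eq ?_) h3
    have : (0 : ℝ) ≤ N := Nat.cast_nonneg N
    field_simp
  · have h3 := edgeCount_le_six (box (N + 1))
    have hpos : (0 : ℝ) < (box (N + 1)).card := by exact_mod_cast (box_nonempty (N + 1)).card_pos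
    simp only
    rw [div_le_iff₀ hpos]
    exact h3

/-- The reduced pressure `β (p_β(h) - 3S² - S h)`. -/
noncomputable def gRed (n : ℕ) (β h : ℝ) : ℝ :=
  β * (pressure n β h - 3 * ((n : ℝ) / 2) ^ 2 - (n : ℝ) / 2 * h)

theorem finPressure_Zt (Λ : Finset Site) (β h : ℝ) :
    finPressure n Λ β h = (β * Λ.card)⁻¹ * (Real.log (Zt n Λ β (β * h)) +
      (β / 2) * ((n : ℝ) / 2) ^ 2 * edgeCount Λ + β * h * ((n : ℝ) / 2) * Λ.card) := by
  rw [finPressure_eq n Λ β h (-((n : ℝ) / 2) ^ 2) (-(β * h * ((n : ℝ) / 2))), log_Zt_eq]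
  have e : (((-(β * h * ((n : ℝ) / 2)) : ℝ) : ℂ) •
      (1 : Matrix (Fin (n + 1)) (Fin (n + 1)) ℂ) + ((β * h : ℝ) : ℂ) • spin n 2) =
      fld n (β * h) := by
    unfold fld
    push_cast
    module
  rw [e]
  ring

/-- `β (p - 3S² - S h)` is the limit of `|Λ|⁻¹ log Zt`. -/
theorem gRed_tendsto {β : ℝ} (hβ : 0 < β) (h : ℝ) :
    Tendsto (fun N : ℕ => Real.log (Zt n (box N) β (β * h)) / ((box N).card : ℝ)) atTop
      (𝓝 (gRed n β h)) := by
  have h1 := ((pressure_tendsto n hβ h).const_mul β)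
  have h2 := (edge_density.const_mul (β / 2 * ((n : ℝ) / 2) ^ 2))
  have h3 := (h1.sub h2).sub_const (β * ((n : ℝ) / 2) * h)
  have e : β * pressure n β h - β / 2 * ((n : ℝ) / 2) ^ 2 * 6 - β * ((n : ℝ) / 2) * h =
      gRed n β h := by
    unfold gRed; ring
  rw [e] at h3
  refine h3.congr fun N => ?_
  have hpos : (0 : ℝ) < (box N).card := by exact_mod_cast (box_nonempty N).card_pos
  rw [finPressure_Zt]
  field_simp
  ring

/-- (D1) -/
theorem gRed_le {β h : ℝ} (hβ : 0 < β) (hh : 0 ≤ h) {L : ℕ} (hL : 0 < L) :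
    gRed n β h ≤ Real.log (Zt n (cube L) β (β * h)) / (L : ℝ) ^ 3 :=
  log_Zt_box_le hβ.le (by positivity) L hL (gRed_tendsto hβ h)

theorem gRed_nonneg {β : ℝ} (hβ : 0 < β) (h : ℝ) : 0 ≤ gRed n β h := by
  refine ge_of_tendsto' (gRed_tendsto (n := n) hβ h) fun N => ?_
  exact div_nonneg (log_Zt_nonneg _) (by positivity)

end Pressure

end Vale.Agent.P361.B
end

section

/-!
Part B, step D7: sharp lower bound on the reduced pressure, uniformly in the field.
-/

namespace Vale.Agent.P361.B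

open MeasureTheory Filter Topology

/-- Gaussian tail. -/
theorem gauss_tail {A : ℝ} (hA : 0 < A) :
    ∫ u in Set.Ioi A, Real.exp (-(1 / 2) * u ^ 2) ≤ Real.exp (-(1 / 2) * A ^ 2) / A := by
  have hi1 : IntegrableOn (fun u : ℝ => Real.exp (-(1 / 2) * u ^ 2)) (Set.Ioi A) :=
    (integrable_exp_neg_mul_sq (by norm_num)).integrableOn
  have hi2 : IntegrableOn (fun u : ℝ => u * Real.exp (-(1 / 2) * u ^ 2)) (Set.Ioi A) :=
    (integrable_mul_exp_neg_mul_sq (by norm_num)).integrableOn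
  have h1 : ∫ u in Set.Ioi A, u * Real.exp (-(1 / 2) * u ^ 2) = Real.exp (-(1 / 2) * A ^ 2) := by
    have hd : ∀ x ∈ Set.Ici A, HasDerivAt (fun u : ℝ => -Real.exp (-(1 / 2) * u ^ 2))
        (x * Real.exp (-(1 / 2) * x ^ 2)) x := by
      intro x _
      have h := (((hasDerivAt_pow 2 x).const_mul (-(1 / 2 : ℝ))).exp).fun_neg
      refine h.congr_deriv ?_
      push_cast
      ring
    have ht : Tendsto (fun u : ℝ => -Real.exp (-(1 / 2) * u ^ 2)) atTop (𝓝 (-0)) := by
      refine Tendsto.neg (Real.tendsto_exp_atBot.comp ?_)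
      refine Tendsto.const_mul_atTop_of_neg (by norm_num) (tendsto_pow_atTop (by norm_num))
    rw [integral_Ioi_of_hasDerivAt_of_tendsto' hd hi2 ht]
    ring
  have h2 : ∫ u in Set.Ioi A, Real.exp (-(1 / 2) * u ^ 2) ≤
      ∫ u in Set.Ioi A, A⁻¹ * (u * Real.exp (-(1 / 2) * u ^ 2)) := by
    refine setIntegral_mono_on hi1 (hi2.const_mul _) measurableSet_Ioi fun u hu => ?_
    rw [← mul_assoc]
    refine le_mul_of_one_le_left (Real.exp_pos _).le ?_
    rw [inv_mul_eq_div, one_le_div hA]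
    exact (Set.mem_Ioi.1 hu).le
  rw [integral_const_mul, h1] at h2
  rw [div_eq_inv_mul (Real.exp _) A]
  exact h2

/-- Quantitative lower bound for the Bessel factor. -/
theorem bJ_lower {x : ℝ} (hx : 0 < x) :
    (Real.sqrt (2 * Real.pi))⁻¹ * (1 - 1 / x) ≤ Real.sqrt x * H.bJ x := by
  have hpi := Real.pi_pos
  have hs : 0 < Real.sqrt x := Real.sqrt_pos.2 hx
  refine le_trans ?_ (H.bJ_gauss_lower hx)
  set A := Real.pi * Real.sqrt x with hA
  have hA0 : 0 < A := by positivity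
  have hint : IntegrableOn (fun u : ℝ => Real.exp (-(1 / 2) * u ^ 2)) (Set.Ioi 0) :=
    (integrable_exp_neg_mul_sq (by norm_num)).integrableOn
  have h1 : ∫ u in (0 : ℝ)..A, Real.exp (-(1 / 2) * u ^ 2) =
      Real.sqrt (Real.pi / (1 / 2)) / 2 - ∫ u in Set.Ioi A, Real.exp (-(1 / 2) * u ^ 2) := by
    rw [← integral_gaussian_Ioi]
    rw [intervalIntegral.integral_of_le hA0.le, eq_sub_iff_add_eq,
      ← setIntegral_union Set.Ioc_disjoint_Ioi_same measurableSet_Ioi
        (hint.mono_set Set.Ioc_subset_Ioi_self)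
        (hint.mono_set (Set.Ioi_subset_Ioi hA0.le)), Set.Ioc_union_Ioi_eq_Ioi hA0.le]
  rw [h1]
  have h2 := gauss_tail hA0
  have e : Real.pi⁻¹ * (Real.sqrt (Real.pi / (1 / 2)) / 2) = (Real.sqrt (2 * Real.pi))⁻¹ := by
    have h4 : Real.sqrt (2 * Real.pi) ^ 2 = 2 * Real.pi := Real.sq_sqrt (by positivity)
    have h5 : 0 < Real.sqrt (2 * Real.pi) := Real.sqrt_pos.2 (by positivity)
    rw [show Real.pi / (1 / 2) = 2 * Real.pi by ring]
    generalize Real.sqrt (2 * Real.pi) = s at h4 h5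
    have h6 : Real.pi = s ^ 2 / 2 := by linarith
    rw [h6]
    field_simp
  rw [mul_sub (Real.pi⁻¹), e, mul_sub, mul_one]
  have h3 : Real.pi⁻¹ * ∫ u in Set.Ioi A, Real.exp (-(1 / 2) * u ^ 2) ≤
      (Real.sqrt (2 * Real.pi))⁻¹ * (1 / x) := by
    refine (mul_le_mul_of_nonneg_left h2 (by positivity)).trans ?_
    have h6 : Real.exp (-(1 / 2) * A ^ 2) ≤ 1 / (1 + 4 * x) := by
      have h7 : (1 / 2) * A ^ 2 = Real.pi ^ 2 * x / 2 := by
        rw [hA, mul_pow, Real.sq_sqrt hx.le]; ring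
      have h8 : 9 ≤ Real.pi ^ 2 := by nlinarith [Real.pi_gt_three]
      have h9 : 1 + 4 * x ≤ Real.exp ((1 / 2) * A ^ 2) := by
        have := Real.add_one_le_exp ((1 / 2) * A ^ 2)
        rw [h7] at this ⊢
        nlinarith
      rw [show -(1 / 2 : ℝ) * A ^ 2 = -((1 / 2) * A ^ 2) by ring, Real.exp_neg, ← one_div]
      exact one_div_le_one_div_of_le (by positivity) h9
    have h10 : Real.pi⁻¹ * (Real.exp (-(1 / 2) * A ^ 2) / A) ≤
        Real.pi⁻¹ * ((1 / (1 + 4 * x)) / A) :=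
      mul_le_mul_of_nonneg_left (div_le_div_of_nonneg_right h6 hA0.le) (by positivity)
    refine h10.trans ?_
    have hsq : Real.sqrt (2 * Real.pi) ≤ 3 := by
      rw [show (3 : ℝ) = Real.sqrt 9 by
        rw [show (9 : ℝ) = 3 ^ 2 by norm_num, Real.sqrt_sq (by norm_num)]]
      exact Real.sqrt_le_sqrt (by nlinarith [Real.pi_lt_four])
    have hsq0 : 0 < Real.sqrt (2 * Real.pi) := Real.sqrt_pos.2 (by positivity)
    have h11 : (3 : ℝ)⁻¹ * (1 / x) ≤ (Real.sqrt (2 * Real.pi))⁻¹ * (1 / x) :=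
      mul_le_mul_of_nonneg_right (inv_anti₀ hsq0 hsq) (by positivity)
    refine le_trans ?_ h11
    have h12 : Real.pi⁻¹ * ((1 / (1 + 4 * x)) / A) = 1 / (Real.pi ^ 2 * (1 + 4 * x) *
        Real.sqrt x) := by
      rw [hA]; field_simp
    rw [h12]
    have h13 : (3 : ℝ)⁻¹ * (1 / x) = 1 / (3 * x) := by field_simp
    rw [h13]
    refine one_div_le_one_div_of_le (by positivity) ?_
    have hx2 : Real.sqrt x ^ 2 = x := Real.sq_sqrt hx.le
    have h8 : 9 ≤ Real.pi ^ 2 := by nlinarith [Real.pi_gt_three]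
    have h14 : 3 * x ≤ 9 * ((1 + 4 * x) * Real.sqrt x) := by
      have : 3 * x = 3 * Real.sqrt x * Real.sqrt x := by nlinarith
      rw [this]
      have h15 : 3 * Real.sqrt x ≤ 9 * (1 + 4 * x) := by nlinarith [sq_nonneg (Real.sqrt x - 1)]
      nlinarith
    have h16 : 9 * ((1 + 4 * x) * Real.sqrt x) ≤ Real.pi ^ 2 * ((1 + 4 * x) * Real.sqrt x) :=
      mul_le_mul_of_nonneg_right h8 (by positivity)
    calc 3 * x ≤ 9 * ((1 + 4 * x) * Real.sqrt x) := h14
      _ ≤ Real.pi ^ 2 * ((1 + 4 * x) * Real.sqrt x) := h16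
      _ = _ := by ring
  linarith

/-- Partial sums of `(4πS)^{-3/2} Li_{3/2}(e^{-t})`. -/
noncomputable def fR (S : ℝ) (R : ℕ) (t : ℝ) : ℝ :=
  (Real.sqrt (4 * Real.pi * S) ^ 3)⁻¹ *
    ∑ r ∈ Finset.range R, Real.exp (-(((r : ℝ) + 1) * t)) / Real.sqrt ((r : ℝ) + 1) ^ 3

/-- Partial sums of `(4πS)^{-3/2} Li_{5/2}(e^{-t})`. -/
noncomputable def FR (S : ℝ) (R : ℕ) (t : ℝ) : ℝ :=
  (Real.sqrt (4 * Real.pi * S) ^ 3)⁻¹ *
    ∑ r ∈ Finset.range R, Real.exp (-(((r : ℝ) + 1) * t)) /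
      (((r : ℝ) + 1) * Real.sqrt ((r : ℝ) + 1) ^ 3)

theorem fR_nonneg (S : ℝ) (R : ℕ) (t : ℝ) : 0 ≤ fR S R t := by
  unfold fR
  refine mul_nonneg (by positivity) (Finset.sum_nonneg fun r _ => ?_)
  positivity

theorem FR_nonneg (S : ℝ) (R : ℕ) (t : ℝ) : 0 ≤ FR S R t := by
  unfold FR
  refine mul_nonneg (by positivity) (Finset.sum_nonneg fun r _ => ?_)
  positivity

/-- The limiting coefficient at zero field. -/
noncomputable def aS (S : ℝ) : ℝ :=
  (Real.sqrt (4 * Real.pi * S) ^ 3)⁻¹ * (riemannZeta (3 / 2)).re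

theorem fR_le (S : ℝ) (R : ℕ) {t : ℝ} (ht : 0 ≤ t) : fR S R t ≤ aS S := by
  unfold fR aS
  refine mul_le_mul_of_nonneg_left ?_ (by positivity)
  refine le_trans ?_ (sum_le_hasSum (Finset.range R) (fun r _ => by positivity) H.zeta_hasSum)
  refine Finset.sum_le_sum fun r _ => ?_
  refine div_le_div_of_nonneg_right ?_ (by positivity)
  rw [Real.exp_le_one_iff]
  have : 0 ≤ ((r : ℝ) + 1) * t := by positivity
  linarith

theorem aS_nonneg (S : ℝ) : 0 ≤ aS S := (fR_nonneg S 0 0).trans (fR_le S 0 le_rfl)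

theorem hasDerivAt_FR (S : ℝ) (R : ℕ) (t : ℝ) : HasDerivAt (FR S R) (-fR S R t) t := by
  have h1 : ∀ r ∈ Finset.range R, HasDerivAt (fun t : ℝ => Real.exp (-(((r : ℝ) + 1) * t)) /
      (((r : ℝ) + 1) * Real.sqrt ((r : ℝ) + 1) ^ 3))
      (-(Real.exp (-(((r : ℝ) + 1) * t)) / Real.sqrt ((r : ℝ) + 1) ^ 3)) t := by
    intro r _
    have h2 : HasDerivAt (fun t : ℝ => -(((r : ℝ) + 1) * t)) (-((r : ℝ) + 1)) t := by
      have := ((hasDerivAt_id' t).const_mul ((r : ℝ) + 1)).fun_neg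
      refine this.congr_deriv ?_
      ring
    have h3 := h2.exp.div_const (((r : ℝ) + 1) * Real.sqrt ((r : ℝ) + 1) ^ 3)
    refine h3.congr_deriv ?_
    have h4 : 0 < Real.sqrt ((r : ℝ) + 1) := Real.sqrt_pos.2 (by positivity)
    field_simp
  have h5 := (HasDerivAt.fun_sum h1).const_mul ((Real.sqrt (4 * Real.pi * S) ^ 3)⁻¹)
  refine h5.congr_deriv ?_
  rw [fR, Finset.sum_neg_distrib, mul_neg]

theorem FR_tendsto_zero (S : ℝ) (R : ℕ) : Tendsto (FR S R) atTop (𝓝 0) := by
  unfold FR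
  have h1 : Tendsto (fun t : ℝ => ∑ r ∈ Finset.range R, Real.exp (-(((r : ℝ) + 1) * t)) /
      (((r : ℝ) + 1) * Real.sqrt ((r : ℝ) + 1) ^ 3)) atTop (𝓝 (∑ _r ∈ Finset.range R, 0)) := by
    refine tendsto_finsetSum _ fun r _ => ?_
    have h2 : Tendsto (fun t : ℝ => Real.exp (-(((r : ℝ) + 1) * t))) atTop (𝓝 0) := by
      refine Real.tendsto_exp_neg_atTop_nhds_zero.comp ?_
      exact Tendsto.const_mul_atTop (by positivity) tendsto_id
    simpa using h2.div_const (((r : ℝ) + 1) * Real.sqrt ((r : ℝ) + 1) ^ 3)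
  simpa using h1.const_mul ((Real.sqrt (4 * Real.pi * S) ^ 3)⁻¹)

/-- The Bernoulli type inequality used for the self-consistent bound. -/
theorem bernoulli_aux {u : ℝ} (hu : 0 ≤ u) : 1 - 5 / 2 * (1 - u ^ 2) ≤ u ^ 5 := by
  have h : 2 * u ^ 5 - 5 * u ^ 2 + 3 = (1 - u) ^ 2 * (2 * u ^ 3 + 4 * u ^ 2 + 6 * u + 3) := by ring
  have h2 : 0 ≤ (1 - u) ^ 2 * (2 * u ^ 3 + 4 * u ^ 2 + 6 * u + 3) := by positivity
  nlinarith

/-- One term of the series bound. -/
theorem bJ_term {S β m : ℝ} (hS : 0 < S) (hβ : 0 < β) (hm : 0 < m) (hmS : m ≤ S)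
    (hy : 1 ≤ 2 * S * β) (r : ℕ) :
    (1 - 1 / (2 * S * β)) ^ 3 * (Real.sqrt (m / S) ^ 3 * ((Real.sqrt (4 * Real.pi * S) ^ 3)⁻¹ *
      ((Real.sqrt β ^ 3)⁻¹ * (Real.sqrt ((r : ℝ) + 1) ^ 3)⁻¹))) ≤
      (H.bJ (((r : ℝ) + 1) * (β * (2 * S ^ 2)) / m)) ^ 3 := by
  have hpi := Real.pi_pos
  set x := ((r : ℝ) + 1) * (β * (2 * S ^ 2)) / m with hx
  have hx0 : 0 < x := by positivity
  have hxy : 2 * S * β ≤ x := by
    rw [hx, le_div_iff₀ hm]
    have h1 : 2 * S * β * m ≤ 2 * S * β * S := mul_le_mul_of_nonneg_left hmS (by positivity)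
    have h2 : 2 * S * β * S ≤ ((r : ℝ) + 1) * (β * (2 * S ^ 2)) := by
      have : (1 : ℝ) ≤ (r : ℝ) + 1 := by linarith [Nat.cast_nonneg (α := ℝ) r]
      calc 2 * S * β * S = 1 * (β * (2 * S ^ 2)) := by ring
        _ ≤ _ := mul_le_mul_of_nonneg_right this (by positivity)
    linarith
  have hb := bJ_lower hx0
  have hsx : 0 < Real.sqrt x := Real.sqrt_pos.2 hx0
  have h3 : (Real.sqrt (2 * Real.pi))⁻¹ * (1 - 1 / (2 * S * β)) ≤ Real.sqrt x * H.bJ x := by
    refine le_trans ?_ hb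
    refine mul_le_mul_of_nonneg_left ?_ (by positivity)
    have : 1 / x ≤ 1 / (2 * S * β) := one_div_le_one_div_of_le (by positivity) hxy
    linarith
  have h4 : (Real.sqrt x)⁻¹ * ((Real.sqrt (2 * Real.pi))⁻¹ * (1 - 1 / (2 * S * β))) ≤ H.bJ x := by
    rw [inv_mul_le_iff₀ hsx]; exact h3
  have h5 : 0 ≤ 1 - 1 / (2 * S * β) := by
    rw [sub_nonneg, div_le_one (by positivity)]; exact hy
  have h6 := pow_le_pow_left₀ (by positivity) h4 3
  refine le_trans (le_of_eq ?_) h6
  have h7 : Real.sqrt x * Real.sqrt (2 * Real.pi) * Real.sqrt (m / S) =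
      Real.sqrt (4 * Real.pi * S) * (Real.sqrt β * Real.sqrt ((r : ℝ) + 1)) := by
    rw [← Real.sqrt_mul hx0.le, ← Real.sqrt_mul (by positivity), ← Real.sqrt_mul (by positivity),
      ← Real.sqrt_mul (by positivity)]
    congr 1
    rw [hx]
    field_simp
    ring
  have hr0 : 0 < Real.sqrt ((r : ℝ) + 1) := Real.sqrt_pos.2 (by positivity)
  have hb0 : 0 < Real.sqrt β := Real.sqrt_pos.2 hβ
  have h40 : 0 < Real.sqrt (4 * Real.pi * S) := Real.sqrt_pos.2 (by positivity)
  have h20 : 0 < Real.sqrt (2 * Real.pi) := Real.sqrt_pos.2 (by positivity)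
  have h8 : (Real.sqrt x)⁻¹ * (Real.sqrt (2 * Real.pi))⁻¹ =
      Real.sqrt (m / S) * ((Real.sqrt (4 * Real.pi * S))⁻¹ * ((Real.sqrt β)⁻¹ *
        (Real.sqrt ((r : ℝ) + 1))⁻¹)) := by
    generalize Real.sqrt (4 * Real.pi * S) = z1 at h7 h40 ⊢
    generalize Real.sqrt (2 * Real.pi) = z2 at h7 h20 ⊢
    generalize Real.sqrt (m / S) = z3 at h7 ⊢
    generalize Real.sqrt x = z4 at h7 hsx ⊢
    generalize Real.sqrt β = z5 at h7 hb0 ⊢
    generalize Real.sqrt ((r : ℝ) + 1) = z6 at h7 hr0 ⊢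
    field_simp
    linarith
  rw [← mul_assoc ((Real.sqrt x)⁻¹), h8]
  ring

theorem magAt_le {n : ℕ} (hn : 1 ≤ n) {β h : ℝ} (hβ : 0 < β) (hh : 0 ≤ h) :
    H.magAt n β h ≤ (n : ℝ) / 2 := by
  have hS : 0 < (n : ℝ) / 2 := by
    have : (1 : ℝ) ≤ n := by exact_mod_cast hn
    linarith
  rcases le_or_gt (H.magAt n β h) 0 with h0 | h0
  · linarith
  · have h1 := H.magAt_series n 0 hβ hh h0
    simp only [Finset.range_zero, Finset.sum_empty, mul_zero] at h1
    have h2 := (mul_nonneg_iff_of_pos_left hS).1 h1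
    linarith

/-- Uniform lower bound for the magnetization deficit. -/
theorem mag_lower {n : ℕ} (hn : 1 ≤ n) : ∃ K : ℝ, 1 ≤ K ∧ ∀ β : ℝ, K ≤ β → ∀ h : ℝ, 0 ≤ h →
    ∀ R : ℕ, (1 - K / β) * fR ((n : ℝ) / 2) R (β * h) ≤
      Real.sqrt β ^ 3 * ((n : ℝ) / 2 - H.magAt n β h) := by
  set S : ℝ := (n : ℝ) / 2 with hSdef
  have hS : 0 < S := by
    have : (1 : ℝ) ≤ n := by exact_mod_cast hn
    rw [hSdef]; linarith
  have hA := aS_nonneg S
  refine ⟨1 + 1 / (2 * S) + aS S / S + (3 + 5 * aS S) / (2 * S), ?_, ?_⟩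
  · have h1 : 0 ≤ 1 / (2 * S) := by positivity
    have h2 : 0 ≤ aS S / S := by positivity
    have h3 : 0 ≤ (3 + 5 * aS S) / (2 * S) := by positivity
    linarith
  intro β hβK h hh R
  set K := 1 + 1 / (2 * S) + aS S / S + (3 + 5 * aS S) / (2 * S) with hK
  have k1 : 0 ≤ 1 / (2 * S) := by positivity
  have k2 : 0 ≤ aS S / S := by positivity
  have k3 : 0 ≤ (3 + 5 * aS S) / (2 * S) := by positivity
  have hβ1 : 1 ≤ β := by linarith
  have hβ : 0 < β := by linarith
  have hy : 1 ≤ 2 * S * β := by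
    have : 1 / (2 * S) ≤ β := by linarith
    rw [div_le_iff₀ (by positivity)] at this
    linarith
  have hAβ : aS S ≤ S * β := by
    have : aS S / S ≤ β := by linarith
    rw [div_le_iff₀ hS] at this
    linarith
  have hsβ : 1 ≤ Real.sqrt β := by rw [Real.one_le_sqrt]; exact hβ1
  have hs2 : Real.sqrt β ^ 2 = β := Real.sq_sqrt hβ.le
  have hs3 : β ≤ Real.sqrt β ^ 3 := by
    calc β = Real.sqrt β ^ 2 * 1 := by rw [hs2, mul_one]
      _ ≤ Real.sqrt β ^ 2 * Real.sqrt β := mul_le_mul_of_nonneg_left hsβ (by positivity)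
      _ = _ := by ring
  have ht : 0 ≤ β * h := by positivity
  set f := fR S R (β * h) with hf
  have hf0 : 0 ≤ f := fR_nonneg _ _ _
  have hfA : f ≤ aS S := fR_le _ _ ht
  set m := H.magAt n β h with hm
  have hmS : m ≤ S := magAt_le hn hβ hh
  have hM0 : 0 ≤ Real.sqrt β ^ 3 * (S - m) := mul_nonneg (by positivity) (by linarith)
  rcases le_or_gt m 0 with hneg | hpos
  · have h1 : (1 - K / β) * f ≤ f := by
      have : 0 ≤ K / β := by positivity
      nlinarith
    calc (1 - K / β) * f ≤ aS S := h1.trans hfA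
      _ ≤ S * β := hAβ
      _ ≤ Real.sqrt β ^ 3 * S := by nlinarith
      _ ≤ Real.sqrt β ^ 3 * (S - m) := mul_le_mul_of_nonneg_left (by linarith) (by positivity)
  · have hser := H.magAt_series n R hβ hh hpos
    rw [← hm, ← hSdef] at hser
    set c := (1 - 1 / (2 * S * β)) ^ 3 with hc
    have hc1 : 0 ≤ 1 - 1 / (2 * S * β) := by
      rw [sub_nonneg, div_le_one (by positivity)]; exact hy
    have hc2 : 1 - 1 / (2 * S * β) ≤ 1 := by
      have : 0 ≤ 1 / (2 * S * β) := by positivity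
      linarith
    have hc0 : 0 ≤ c := by positivity
    have hcle : c ≤ 1 := pow_le_one₀ hc1 hc2
    have hcge : 1 - 3 * (1 / (2 * S * β)) ≤ c := by
      rw [hc]
      generalize 1 / (2 * S * β) = w at hc1 hc2
      nlinarith [mul_nonneg (sq_nonneg w) hc1, sq_nonneg w]
    set u := Real.sqrt (m / S) with hu
    have hu0 : 0 ≤ u := Real.sqrt_nonneg _
    have hu2 : u ^ 2 = m / S := Real.sq_sqrt (by positivity)
    -- lower bound of the series
    have hlow : c * (u ^ 3 * (Real.sqrt β ^ 3)⁻¹) * f ≤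
        ∑ r ∈ Finset.range R, Real.exp (-(((r : ℝ) + 1) * (β * h))) *
          (H.bJ (((r : ℝ) + 1) * (β * (2 * S ^ 2)) / m)) ^ 3 := by
      rw [hf, fR, Finset.mul_sum, Finset.mul_sum]
      refine Finset.sum_le_sum fun r _ => ?_
      have h1 := bJ_term hS hβ hpos hmS hy r
      have h2 := mul_le_mul_of_nonneg_left h1 (Real.exp_pos (-(((r : ℝ) + 1) * (β * h)))).le
      refine le_trans (le_of_eq ?_) h2
      rw [← hc, ← hu]
      ring
    have h1 : m * (c * (u ^ 3 * (Real.sqrt β ^ 3)⁻¹) * f) ≤ S * (S - m) :=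
      (mul_le_mul_of_nonneg_left hlow hpos.le).trans hser
    -- self-consistency
    set M := Real.sqrt β ^ 3 * (S - m) with hM
    have hsb : 0 < Real.sqrt β ^ 3 := by positivity
    have h2 : u ^ 5 * (c * f) ≤ M := by
      have h3 := mul_le_mul_of_nonneg_left h1 (a := Real.sqrt β ^ 3 / S) (by positivity)
      have e1 : Real.sqrt β ^ 3 / S * (m * (c * (u ^ 3 * (Real.sqrt β ^ 3)⁻¹) * f)) =
          u ^ 5 * (c * f) := by
        have : u ^ 5 = m / S * u ^ 3 := by rw [← hu2]; ring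
        rw [this]
        field_simp
      have e2 : Real.sqrt β ^ 3 / S * (S * (S - m)) = M := by
        rw [hM]; field_simp
      rw [e1, e2] at h3
      exact h3
    have h3 := bernoulli_aux hu0
    have hcf : 0 ≤ c * f := mul_nonneg hc0 hf0
    have h4 : 1 - u ^ 2 = M / (S * Real.sqrt β ^ 3) := by
      rw [hu2, hM]; field_simp
    rw [h4] at h3
    have h5 : (1 - 5 / 2 * (M / (S * Real.sqrt β ^ 3))) * (c * f) ≤ M :=
      (mul_le_mul_of_nonneg_right h3 hcf).trans h2
    set δ := 5 / (2 * S) / Real.sqrt β ^ 3 * (c * f) with hδ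
    have hδ0 : 0 ≤ δ := by positivity
    have h6 : c * f ≤ M * (1 + δ) := by
      have e : (1 - 5 / 2 * (M / (S * Real.sqrt β ^ 3))) * (c * f) = c * f - M * δ := by
        rw [hδ]; field_simp
      rw [e] at h5
      linarith
    have h7 : c * f * (1 - δ) ≤ M := by
      rcases le_or_gt δ 1 with hd | hd
      · calc c * f * (1 - δ) ≤ M * (1 + δ) * (1 - δ) :=
              mul_le_mul_of_nonneg_right h6 (by linarith)
          _ = M - M * δ ^ 2 := by ring
          _ ≤ M := by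
            have : 0 ≤ M * δ ^ 2 := by positivity
            linarith
      · have : c * f * (1 - δ) ≤ 0 := mul_nonpos_of_nonneg_of_nonpos hcf (by linarith)
        linarith
    refine le_trans ?_ h7
    have hδle : δ ≤ 5 * aS S / (2 * S) / β := by
      rw [hδ]
      have h8 : c * f ≤ aS S := by
        calc c * f ≤ 1 * f := mul_le_mul_of_nonneg_right hcle hf0
          _ = f := one_mul _
          _ ≤ aS S := hfA
      calc 5 / (2 * S) / Real.sqrt β ^ 3 * (c * f) ≤ 5 / (2 * S) / β * aS S := by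
            refine mul_le_mul ?_ h8 hcf (by positivity)
            exact div_le_div_of_nonneg_left (by positivity) hβ hs3
        _ = _ := by ring
    have h9 : 1 - K / β ≤ c * (1 - δ) := by
      rcases le_or_gt (1 - K / β) 0 with hk | hk
      · rcases le_or_gt δ 1 with hd | hd
        · exact hk.trans (mul_nonneg hc0 (by linarith))
        · -- δ > 1 forces K / β > 1
          have h10 : (5 * aS S / (2 * S)) / β ≤ K / β := by
            refine div_le_div_of_nonneg_right ?_ hβ.le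
            have : (3 + 5 * aS S) / (2 * S) = 3 / (2 * S) + 5 * aS S / (2 * S) := by ring
            have : 0 ≤ 3 / (2 * S) := by positivity
            linarith
          have h11 : 0 ≤ (1 - c) * (δ - 1) := mul_nonneg (by linarith) (by linarith)
          have h12 : c * (1 - δ) = 1 - δ + (1 - c) * (δ - 1) := by ring
          linarith
      · have h10 : c * (1 - δ) ≥ 1 - 3 * (1 / (2 * S * β)) - δ := by
          have h13 : 0 ≤ (1 - c) * δ := mul_nonneg (by linarith) hδ0
          have h12 : c * (1 - δ) = c - δ + (1 - c) * δ := by ring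
          linarith
        have h11 : 3 * (1 / (2 * S * β)) + 5 * aS S / (2 * S) / β ≤ K / β := by
          have : 3 * (1 / (2 * S * β)) + 5 * aS S / (2 * S) / β =
              ((3 + 5 * aS S) / (2 * S)) / β := by field_simp
          rw [this]
          exact div_le_div_of_nonneg_right (by linarith) hβ.le
        linarith
    calc (1 - K / β) * f ≤ c * (1 - δ) * f := mul_le_mul_of_nonneg_right h9 hf0
      _ = c * f * (1 - δ) := by ring

theorem gRed_hasDeriv (n : ℕ) {β : ℝ} (hβ : 0 < β) (h : ℝ) :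
    HasDerivWithinAt (gRed n β) (β * (H.magAt n β h - (n : ℝ) / 2)) (Set.Ici h) h := by
  have h1 : HasDerivWithinAt (pressure n β) (H.magAt n β h) (Set.Ici h) h :=
    hasDerivWithinAt_Ioi_iff_Ici.1 (pressure_hasRightDeriv n hβ h)
  have h2 : HasDerivWithinAt (fun x : ℝ => (n : ℝ) / 2 * x) ((n : ℝ) / 2) (Set.Ici h) h := by
    simpa using (hasDerivWithinAt_id h (Set.Ici h)).const_mul ((n : ℝ) / 2)
  have h3 := ((h1.sub_const (3 * ((n : ℝ) / 2) ^ 2)).sub h2).const_mul β
  exact h3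

theorem gRed_continuous (n : ℕ) {β : ℝ} (hβ : 0 < β) : Continuous (gRed n β) := by
  have h1 : Continuous (pressure n β) := by
    have := (pressure_convex n hβ).continuousOn isOpen_univ
    exact continuousOn_univ.1 this
  unfold gRed
  fun_prop

/-- (D7) Sharp lower bound for the reduced pressure, uniformly in the field. -/
theorem gRed_lower {n : ℕ} (hn : 1 ≤ n) : ∃ K : ℝ, 1 ≤ K ∧ ∀ β : ℝ, K ≤ β → ∀ h : ℝ, 0 ≤ h →
    ∀ R : ℕ, (1 - K / β) * FR ((n : ℝ) / 2) R (β * h) ≤ Real.sqrt β ^ 3 * gRed n β h := by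
  obtain ⟨K, hK1, hK⟩ := mag_lower hn
  refine ⟨K, hK1, fun β hβK a ha R => ?_⟩
  have hβ : 0 < β := by linarith
  have hsb : 0 < Real.sqrt β ^ 3 := by positivity
  set c := (1 - K / β) / Real.sqrt β ^ 3 with hc
  -- comparison on `[a, b]`
  have key : ∀ b : ℝ, a ≤ b → c * FR ((n : ℝ) / 2) R (β * a) ≤
      gRed n β a + c * FR ((n : ℝ) / 2) R (β * b) := by
    intro b hab
    have hd : ∀ x : ℝ, HasDerivAt (fun x => gRed n β a + (c * FR ((n : ℝ) / 2) R (β * x) -
        c * FR ((n : ℝ) / 2) R (β * a))) (-(c * β * fR ((n : ℝ) / 2) R (β * x))) x := by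
      intro x
      have h1 := hasDerivAt_FR ((n : ℝ) / 2) R (β * x)
      have h2 : HasDerivAt (fun x : ℝ => β * x) β x := by
        simpa using (hasDerivAt_id x).const_mul β
      have h3 := (h1.comp x h2).const_mul c
      have h4 := (h3.sub_const (c * FR ((n : ℝ) / 2) R (β * a))).const_add (gRed n β a)
      refine h4.congr_deriv ?_
      ring
    have h := image_le_of_deriv_right_le_deriv_boundary (f := gRed n β)
      (f' := fun x => β * (H.magAt n β x - (n : ℝ) / 2)) (a := a) (b := b)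
      (gRed_continuous n hβ).continuousOn (fun x _ => gRed_hasDeriv n hβ x)
      (B := fun x => gRed n β a + (c * FR ((n : ℝ) / 2) R (β * x) -
        c * FR ((n : ℝ) / 2) R (β * a)))
      (B' := fun x => -(c * β * fR ((n : ℝ) / 2) R (β * x))) (by simp)
      (fun x _ => (hd x).continuousAt.continuousWithinAt) (fun x _ => (hd x).hasDerivWithinAt)
      (by
        intro x hx
        have hx0 : 0 ≤ x := ha.trans hx.1
        have h5 := hK β hβK x hx0 R
        have h6 : c * β * fR ((n : ℝ) / 2) R (β * x) ≤ β * ((n : ℝ) / 2 - H.magAt n β x) := by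
          have h7 : c * fR ((n : ℝ) / 2) R (β * x) ≤ (n : ℝ) / 2 - H.magAt n β x := by
            rw [hc, div_mul_eq_mul_div, div_le_iff₀ hsb]
            linarith
          have := mul_le_mul_of_nonneg_left h7 hβ.le
          linarith
        linarith) (x := b) ⟨hab, le_rfl⟩
    have h0 := gRed_nonneg (n := n) hβ b
    linarith
  have hlim : Tendsto (fun b : ℝ => gRed n β a + c * FR ((n : ℝ) / 2) R (β * b)) atTop
      (𝓝 (gRed n β a + c * 0)) := by
    refine tendsto_const_nhds.add (Tendsto.const_mul _ ((FR_tendsto_zero _ R).comp ?_))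
    exact Tendsto.const_mul_atTop hβ tendsto_id
  have h1 : c * FR ((n : ℝ) / 2) R (β * a) ≤ gRed n β a + c * 0 := by
    refine ge_of_tendsto hlim ?_
    filter_upwards [eventually_ge_atTop a] with b hb
    exact key b hb
  rw [mul_zero, add_zero, hc, div_mul_eq_mul_div, div_le_iff₀ hsb] at h1
  linarith

/-- Upper bound of the deficit by difference quotients of the reduced pressure. -/
theorem mag_le_slope {n : ℕ} {β : ℝ} (hβ : 0 < β) {h₁ h₀ : ℝ} (hh : h₁ < h₀) :
    (n : ℝ) / 2 - H.magAt n β h₀ ≤ (gRed n β h₁ - gRed n β h₀) / (β * (h₀ - h₁)) := by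
  have hc := pressure_convex n hβ
  have h1 := hc.slope_le_leftDeriv_of_mem_interior (x := h₁) (y := h₀) (Set.mem_univ _)
    (by simp) hh
  have h2 := hc.leftDeriv_le_rightDeriv_of_mem_interior (x := h₀) (by simp)
  have h3 : (pressure n β h₀ - pressure n β h₁) / (h₀ - h₁) ≤ H.magAt n β h₀ := by
    rw [← slope_def_field]
    exact h1.trans h2
  have hpos : 0 < h₀ - h₁ := by linarith
  rw [div_le_iff₀ hpos] at h3
  rw [le_div_iff₀ (by positivity)]
  unfold gRed
  nlinarith

end Vale.Agent.P361.B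
end

section

/-!
Part B, step D8: from bounds on the reduced pressure to the uniform Bloch law in small fields.
-/

namespace Vale.Agent.P361.B

open MeasureTheory Filter Topology

/-- `(4πS)^{-3/2} Li_{3/2}(e^{-t})`. -/
noncomputable def fS (S t : ℝ) : ℝ :=
  (Real.sqrt (4 * Real.pi * S) ^ 3)⁻¹ *
    ∑' r : ℕ, Real.exp (-(((r : ℝ) + 1) * t)) / Real.sqrt ((r : ℝ) + 1) ^ 3

/-- `(4πS)^{-3/2} Li_{5/2}(e^{-t})`. -/
noncomputable def FS (S t : ℝ) : ℝ :=
  (Real.sqrt (4 * Real.pi * S) ^ 3)⁻¹ *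
    ∑' r : ℕ, Real.exp (-(((r : ℝ) + 1) * t)) / (((r : ℝ) + 1) * Real.sqrt ((r : ℝ) + 1) ^ 3)

theorem zsum : Summable (fun r : ℕ => 1 / Real.sqrt ((r : ℝ) + 1) ^ 3) := H.zeta_hasSum.summable

theorem exp_le_one {t : ℝ} (ht : 0 ≤ t) (r : ℕ) : Real.exp (-(((r : ℝ) + 1) * t)) ≤ 1 := by
  rw [Real.exp_le_one_iff]
  have : 0 ≤ ((r : ℝ) + 1) * t := by positivity
  linarith

theorem summable_f {t : ℝ} (ht : 0 ≤ t) :
    Summable (fun r : ℕ => Real.exp (-(((r : ℝ) + 1) * t)) / Real.sqrt ((r : ℝ) + 1) ^ 3) := by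
  refine Summable.of_nonneg_of_le (fun r => by positivity) (fun r => ?_) zsum
  exact div_le_div_of_nonneg_right (exp_le_one ht r) (by positivity)

theorem summable_F {t : ℝ} (ht : 0 ≤ t) :
    Summable (fun r : ℕ => Real.exp (-(((r : ℝ) + 1) * t)) /
      (((r : ℝ) + 1) * Real.sqrt ((r : ℝ) + 1) ^ 3)) := by
  refine Summable.of_nonneg_of_le (fun r => by positivity) (fun r => ?_) (summable_f ht)
  refine div_le_div_of_nonneg_left (Real.exp_pos _).le (by positivity) ?_
  exact le_mul_of_one_le_left (by positivity) (by linarith [Nat.cast_nonneg (α := ℝ) r])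

theorem fR_tendsto (S : ℝ) {t : ℝ} (ht : 0 ≤ t) :
    Tendsto (fun R => fR S R t) atTop (𝓝 (fS S t)) :=
  (summable_f ht).hasSum.tendsto_sum_nat.const_mul _

theorem FR_tendsto (S : ℝ) {t : ℝ} (ht : 0 ≤ t) :
    Tendsto (fun R => FR S R t) atTop (𝓝 (FS S t)) :=
  (summable_F ht).hasSum.tendsto_sum_nat.const_mul _

theorem fS_nonneg (S t : ℝ) : 0 ≤ fS S t :=
  mul_nonneg (by positivity) (tsum_nonneg fun r => by positivity)

theorem FS_nonneg (S t : ℝ) : 0 ≤ FS S t :=
  mul_nonneg (by positivity) (tsum_nonneg fun r => by positivity)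

theorem fS_zero (S : ℝ) : fS S 0 = aS S := by
  unfold fS aS
  rw [← H.zeta_hasSum.tsum_eq]
  simp

theorem fS_le (S : ℝ) {t : ℝ} (ht : 0 ≤ t) : fS S t ≤ aS S :=
  le_of_tendsto' (fR_tendsto S ht) fun R => fR_le S R ht

/-- Convexity estimate for `f`. -/
theorem fS_sub_le (S : ℝ) {t δ : ℝ} (ht : 0 ≤ t) (hδ : 0 ≤ δ) :
    fS S t - fS S (t + δ) ≤ fS S 0 - fS S δ := by
  unfold fS
  rw [← mul_sub, ← mul_sub, ← (summable_f ht).tsum_sub (summable_f (add_nonneg ht hδ)),
    ← (summable_f le_rfl).tsum_sub (summable_f hδ)]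
  refine mul_le_mul_of_nonneg_left ?_ (by positivity)
  refine Summable.tsum_le_tsum (fun r => ?_) ((summable_f ht).sub (summable_f (add_nonneg ht hδ)))
    ((summable_f le_rfl).sub (summable_f hδ))
  rw [← sub_div, ← sub_div]
  refine div_le_div_of_nonneg_right ?_ (by positivity)
  have h1 : Real.exp (-(((r : ℝ) + 1) * (t + δ))) =
      Real.exp (-(((r : ℝ) + 1) * t)) * Real.exp (-(((r : ℝ) + 1) * δ)) := by
    rw [← Real.exp_add]; congr 1; ring
  have h2 : Real.exp (-(((r : ℝ) + 1) * 0)) = 1 := by simp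
  rw [h1, h2]
  have h3 := exp_le_one ht r
  have h4 := exp_le_one hδ r
  nlinarith

/-- `F(t₁) - F(t₁ + δ) ≤ δ f(t₁)`. -/
theorem FS_sub_le (S : ℝ) {t δ : ℝ} (ht : 0 ≤ t) (hδ : 0 ≤ δ) :
    FS S t - FS S (t + δ) ≤ δ * fS S t := by
  unfold FS fS
  rw [← mul_sub, ← (summable_F ht).tsum_sub (summable_F (add_nonneg ht hδ)),
    mul_left_comm δ]
  refine mul_le_mul_of_nonneg_left ?_ (by positivity)
  rw [← tsum_mul_left]
  refine Summable.tsum_le_tsum (fun r => ?_) ((summable_F ht).sub (summable_F (add_nonneg ht hδ)))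
    ((summable_f ht).mul_left δ)
  rw [← sub_div]
  have h1 : Real.exp (-(((r : ℝ) + 1) * (t + δ))) =
      Real.exp (-(((r : ℝ) + 1) * t)) * Real.exp (-(((r : ℝ) + 1) * δ)) := by
    rw [← Real.exp_add]; congr 1; ring
  have h2 : 1 - ((r : ℝ) + 1) * δ ≤ Real.exp (-(((r : ℝ) + 1) * δ)) := by
    have := Real.add_one_le_exp (-(((r : ℝ) + 1) * δ))
    linarith
  rw [h1, div_le_iff₀ (by positivity)]
  have h3 : δ * (Real.exp (-(((r : ℝ) + 1) * t)) / Real.sqrt ((r : ℝ) + 1) ^ 3) *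
      (((r : ℝ) + 1) * Real.sqrt ((r : ℝ) + 1) ^ 3) =
      Real.exp (-(((r : ℝ) + 1) * t)) * (((r : ℝ) + 1) * δ) := by
    have : 0 < Real.sqrt ((r : ℝ) + 1) := Real.sqrt_pos.2 (by positivity)
    field_simp
  rw [h3]
  have := Real.exp_pos (-(((r : ℝ) + 1) * t))
  nlinarith

theorem FS_le (S : ℝ) {t : ℝ} (ht : 0 ≤ t) : FS S t ≤ aS S := by
  refine le_trans ?_ (fS_le S ht)
  unfold FS fS
  refine mul_le_mul_of_nonneg_left ?_ (by positivity)
  refine Summable.tsum_le_tsum (fun r => ?_) (summable_F ht) (summable_f ht)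
  refine div_le_div_of_nonneg_left (Real.exp_pos _).le (by positivity) ?_
  exact le_mul_of_one_le_left (by positivity) (by linarith [Nat.cast_nonneg (α := ℝ) r])

/-- Continuity of `f` at zero from the right. -/
theorem fS_tendsto_zero (S : ℝ) : Tendsto (fS S) (𝓝[≥] 0) (𝓝 (fS S 0)) := by
  unfold fS
  refine Tendsto.const_mul _ ?_
  refine tendsto_tsum_of_dominated_convergence zsum (fun r => ?_) ?_
  · refine Tendsto.div_const ?_ _
    have : Continuous fun t : ℝ => Real.exp (-(((r : ℝ) + 1) * t)) := by fun_prop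
    exact (this.tendsto 0).mono_left nhdsWithin_le_nhds
  · filter_upwards [self_mem_nhdsWithin] with t ht r
    rw [Real.norm_of_nonneg (by positivity)]
    exact div_le_div_of_nonneg_right (exp_le_one ht r) (by positivity)

/-- (D8) Uniform two-sided law from an upper bound on the reduced pressure. -/
theorem deficit_uniform {n : ℕ} (hn : 1 ≤ n) {κ κ' : ℝ} (hκ : 0 < κ) (hκκ : κ < κ') (hκ1 : κ' ≤ 1)
    (hU : ∃ C β₀ : ℝ, ∀ β : ℝ, β₀ ≤ β → ∀ t : ℝ, β ^ (-κ') ≤ t →
      Real.sqrt β ^ 3 * gRed n β (t / β) ≤ FS ((n : ℝ) / 2) t + C * β ^ (-κ')) :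
    ∀ ε : ℝ, 0 < ε → ∀ᶠ β : ℝ in atTop, ∀ t : ℝ, β ^ (-κ) ≤ t →
      |Real.sqrt β ^ 3 * ((n : ℝ) / 2 - H.magAt n β (t / β)) - fS ((n : ℝ) / 2) t| ≤ ε := by
  intro ε hε
  obtain ⟨C, β₀, hU⟩ := hU
  obtain ⟨K, hK1, hK⟩ := mag_lower hn
  obtain ⟨K', hK1', hK'⟩ := gRed_lower hn
  set S : ℝ := (n : ℝ) / 2 with hS
  have hA := aS_nonneg S
  -- smallness conditions
  have l1 : Tendsto (fun β : ℝ => K / β * aS S) atTop (𝓝 0) := by
    simpa using ((tendsto_const_nhds (x := K)).div_atTop tendsto_id).mul_const (aS S)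
  have l2 : Tendsto (fun β : ℝ => fS S 0 - fS S (β ^ (-κ) / 2)) atTop (𝓝 0) := by
    have h1 : Tendsto (fun β : ℝ => β ^ (-κ) / 2) atTop (𝓝[≥] 0) := by
      refine tendsto_nhdsWithin_iff.2 ⟨?_, ?_⟩
      · simpa using (tendsto_rpow_neg_atTop hκ).div_const 2
      · filter_upwards [eventually_gt_atTop 0] with β hβ
        exact Set.mem_Ici.2 (by positivity)
    have h2 := ((fS_tendsto_zero S).comp h1).const_sub (fS S 0)
    simpa using h2
  have l3 : Tendsto (fun β : ℝ => 2 * (C * β ^ (κ - κ') + K' * aS S * β ^ (κ - 1))) atTop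
      (𝓝 0) := by
    have h1 : Tendsto (fun β : ℝ => β ^ (κ - κ')) atTop (𝓝 0) := by
      have := tendsto_rpow_neg_atTop (y := κ' - κ) (by linarith)
      simpa using this
    have h2 : Tendsto (fun β : ℝ => β ^ (κ - 1)) atTop (𝓝 0) := by
      have := tendsto_rpow_neg_atTop (y := 1 - κ) (by linarith)
      simpa using this
    simpa using ((h1.const_mul C).add (h2.const_mul (K' * aS S))).const_mul 2
  have l4 : Tendsto (fun β : ℝ => β ^ (κ' - κ)) atTop atTop :=
    tendsto_rpow_atTop (by linarith)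
  filter_upwards [l1.eventually (ge_mem_nhds hε), l2.eventually (ge_mem_nhds (half_pos hε)),
    l3.eventually (ge_mem_nhds (half_pos hε)), l4.eventually_ge_atTop 2,
    eventually_ge_atTop β₀, eventually_ge_atTop K, eventually_ge_atTop K',
    eventually_gt_atTop 0] with β e1 e2 e3 e4 hβ0 hβK hβK' hβ t ht
  have hsb : 0 < Real.sqrt β ^ 3 := by positivity
  have hκpos : 0 < β ^ (-κ) := by positivity
  have ht0 : 0 ≤ t := hκpos.le.trans ht
  -- lower bound
  have low : (1 - K / β) * fS S t ≤ Real.sqrt β ^ 3 * (S - H.magAt n β (t / β)) := by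
    refine le_of_tendsto' ((fR_tendsto S ht0).const_mul (1 - K / β)) fun R => ?_
    have h := hK β hβK (t / β) (by positivity) R
    rwa [mul_div_cancel₀ t hβ.ne'] at h
  have low2 : (1 - K' / β) * FS S t ≤ Real.sqrt β ^ 3 * gRed n β (t / β) := by
    refine le_of_tendsto' ((FR_tendsto S ht0).const_mul (1 - K' / β)) fun R => ?_
    have h := hK' β hβK' (t / β) (by positivity) R
    rwa [mul_div_cancel₀ t hβ.ne'] at h
  -- upper bound
  set δ : ℝ := β ^ (-κ) / 2 with hδ
  have hδ0 : 0 < δ := by positivity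
  have ht1 : β ^ (-κ') ≤ t - δ := by
    have h1 : β ^ (-κ') * 2 ≤ β ^ (-κ) := by
      calc β ^ (-κ') * 2 ≤ β ^ (-κ') * β ^ (κ' - κ) :=
            mul_le_mul_of_nonneg_left e4 (by positivity)
        _ = β ^ (-κ) := by rw [← Real.rpow_add hβ]; congr 1; ring
    rw [hδ]
    linarith
  have ht10 : 0 ≤ t - δ := le_trans (by positivity) ht1
  have up := hU β hβ0 (t - δ) ht1
  have sl := mag_le_slope (n := n) hβ (h₁ := (t - δ) / β) (h₀ := t / β)
    (div_lt_div_of_pos_right (by linarith) hβ)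
  have e5 : β * (t / β - (t - δ) / β) = δ := by field_simp; ring
  rw [e5, le_div_iff₀ hδ0, ← hS] at sl
  have f1 := FS_sub_le S ht10 hδ0.le
  have f2 := fS_sub_le S ht10 hδ0.le
  rw [sub_add_cancel] at f1 f2
  have f3 := FS_le S ht0
  have f4 := FS_nonneg S t
  have hi : Real.sqrt β ^ 3 * (S - H.magAt n β (t / β)) ≤ fS S t + ε := by
    have g1 : Real.sqrt β ^ 3 * (S - H.magAt n β (t / β)) * δ ≤
        δ * fS S (t - δ) + (C * β ^ (-κ') + K' / β * aS S) := by
      have g2 := mul_le_mul_of_nonneg_left sl hsb.le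
      have g3 : K' / β * FS S t ≤ K' / β * aS S := mul_le_mul_of_nonneg_left f3 (by positivity)
      have g6 : Real.sqrt β ^ 3 * (S - H.magAt n β (t / β)) * δ =
          Real.sqrt β ^ 3 * ((S - H.magAt n β (t / β)) * δ) := by ring
      rw [g6]
      rw [mul_sub (Real.sqrt β ^ 3) (gRed n β _)] at g2
      linarith
    have g4 : Real.sqrt β ^ 3 * (S - H.magAt n β (t / β)) ≤
        fS S (t - δ) + (C * β ^ (-κ') + K' / β * aS S) / δ := by
      rw [← sub_le_iff_le_add', le_div_iff₀ hδ0]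
      linarith
    have g5 : (C * β ^ (-κ') + K' / β * aS S) / δ =
        2 * (C * β ^ (κ - κ') + K' * aS S * β ^ (κ - 1)) := by
      have h1 : β ^ (κ - κ') = β ^ (-κ') / β ^ (-κ) := by
        rw [← Real.rpow_sub hβ]; congr 1; ring
      have h2 : β ^ (κ - 1) = β⁻¹ / β ^ (-κ) := by
        rw [← Real.rpow_neg_one, ← Real.rpow_sub hβ]; congr 1; ring
      rw [h1, h2, hδ]
      field_simp
    rw [g5] at g4
    linarith
  have hlow : fS S t - ε ≤ Real.sqrt β ^ 3 * (S - H.magAt n β (t / β)) := by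
    have g1 : K / β * fS S t ≤ K / β * aS S :=
      mul_le_mul_of_nonneg_left (fS_le S ht0) (by positivity)
    linarith
  rw [abs_le]
  constructor <;> linarith

end Vale.Agent.P361.B
end

section

/-!
Part B: joint diagonalization with a number operator.
-/

namespace Vale.Agent.P361.B

open Matrix Finset

variable {κ : Type*} [Fintype κ] [DecidableEq κ]

lemma joint_diag (A : Matrix κ κ ℝ) (hA : Aᵀ = A) (tot : κ → ℕ)
    (hcomm : ∀ i j, tot i ≠ tot j → A i j = 0) :
    ∃ (U : Matrix κ κ ℝ) (E : κ → ℝ) (Nn : κ → ℕ), Uᵀ * U = 1 ∧ U * Uᵀ = 1 ∧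
      A = U * diagonal E * Uᵀ ∧ ∀ i j, tot i ≠ Nn j → U i j = 0 := by
  set C : ℝ := ∑ i, ∑ j, |A i j| with hC
  have hC0 : 0 ≤ C := Finset.sum_nonneg fun i _ => Finset.sum_nonneg fun j _ => abs_nonneg _
  set τ : ℝ := 2 * C + 1 with hτ
  set B : Matrix κ κ ℝ := A + τ • diagonal (fun i => (tot i : ℝ)) with hB
  have hBh : B.IsHermitian := by
    unfold Matrix.IsHermitian
    rw [hB, Matrix.conjTranspose_add, Matrix.conjTranspose_smul, Matrix.diagonal_conjTranspose]
    have h1 : Aᴴ = A := by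
      ext i j
      rw [Matrix.conjTranspose_apply]
      simp only [star_trivial]
      conv_rhs => rw [← hA]
      rfl
    rw [h1]
    simp
  set U : Matrix κ κ ℝ := (hBh.eigenvectorUnitary : Matrix κ κ ℝ) with hU
  have hstar : star U = Uᵀ := by
    ext i j
    rw [Matrix.star_apply, Matrix.transpose_apply]; simp
  have hUU : Uᵀ * U = 1 := by rw [← hstar]; exact Unitary.coe_star_mul_self _
  have hUU' : U * Uᵀ = 1 := by rw [← hstar]; exact Unitary.coe_mul_star_self _
  set b : κ → ℝ := hBh.eigenvalues with hb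
  have hspec : B = U * diagonal b * Uᵀ := by
    have h := hBh.spectral_theorem
    rw [Unitary.conjStarAlgAut_apply] at h
    rw [← hstar]
    exact h
  have hcol : B * U = U * diagonal b := by
    calc B * U = U * diagonal b * Uᵀ * U := by rw [← hspec]
      _ = U * diagonal b := by rw [Matrix.mul_assoc, hUU, Matrix.mul_one]
  -- mass in each sector
  set S : ℕ → κ → ℝ := fun N j => ∑ i, if tot i = N then U i j ^ 2 else 0 with hS
  have hS0 : ∀ N j, 0 ≤ S N j := fun N j =>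
    Finset.sum_nonneg fun i _ => by split_ifs <;> positivity
  have hle : ∀ i j, U i j ^ 2 ≤ S (tot i) j := by
    intro i j
    have := Finset.single_le_sum (f := fun k => if tot k = tot i then U k j ^ 2 else 0)
      (fun k _ => by split_ifs <;> positivity) (Finset.mem_univ i)
    simpa using this
  have hkey : ∀ (N : ℕ) (j : κ), |b j - τ * N| * S N j ≤ C * S N j := by
    intro N j
    have h1 : ∀ i, (∑ k, A i k * U k j) + τ * tot i * U i j = U i j * b j := by
      intro i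
      have h2 := congrFun (congrFun hcol i) j
      rw [Matrix.mul_diagonal, Matrix.mul_apply] at h2
      rw [← h2, hB]
      simp only [Matrix.add_apply, Matrix.smul_apply, Matrix.diagonal_apply, add_mul,
        Finset.sum_add_distrib, smul_eq_mul]
      congr 1
      rw [Finset.sum_eq_single i]
      · simp
      · intro k _ hk; simp [Ne.symm hk]
      · simp
    have h2 : (b j - τ * N) * S N j =
        ∑ i, ∑ k, if tot i = N then A i k * (U i j * U k j) else 0 := by
      simp only [hS]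
      rw [Finset.mul_sum]
      refine Finset.sum_congr rfl fun i _ => ?_
      by_cases hi : tot i = N
      · simp only [if_pos hi]
        have h3 := h1 i
        rw [hi] at h3
        calc (b j - τ * N) * U i j ^ 2 = U i j * (U i j * b j - τ * N * U i j) := by ring
          _ = U i j * ∑ k, A i k * U k j := by rw [← h3]; ring
          _ = _ := by rw [Finset.mul_sum]; exact Finset.sum_congr rfl fun k _ => by ring
      · simp [if_neg hi]
    calc |b j - τ * N| * S N j = |(b j - τ * N) * S N j| := by rw [abs_mul, abs_of_nonneg (hS0 N j)]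
      _ = |∑ i, ∑ k, if tot i = N then A i k * (U i j * U k j) else 0| := by rw [h2]
      _ ≤ ∑ i, ∑ k, |A i k| * S N j := by
          refine (Finset.abs_sum_le_sum_abs _ _).trans (Finset.sum_le_sum fun i _ => ?_)
          refine (Finset.abs_sum_le_sum_abs _ _).trans (Finset.sum_le_sum fun k _ => ?_)
          split_ifs with hi
          · rw [abs_mul]
            by_cases hk : tot i = tot k
            · refine mul_le_mul_of_nonneg_left ?_ (abs_nonneg _)
              have e1 := hle i j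
              have e2 := hle k j
              rw [hi] at e1
              rw [← hk, hi] at e2
              rw [abs_le]
              constructor <;> nlinarith [sq_nonneg (U i j + U k j), sq_nonneg (U i j - U k j)]
            · rw [hcomm i k hk]; simp
          · rw [abs_zero]; exact mul_nonneg (abs_nonneg _) (hS0 N j)
      _ = C * S N j := by
          rw [hC, Finset.sum_mul]
          exact Finset.sum_congr rfl fun i _ => by rw [Finset.sum_mul]
  have hnz : ∀ j, ∃ i, U i j ≠ 0 := by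
    intro j
    by_contra hcon
    push Not at hcon
    have h1 := congrFun (congrFun hUU j) j
    rw [Matrix.mul_apply, Matrix.one_apply_eq] at h1
    rw [Finset.sum_eq_zero] at h1
    · exact zero_ne_one h1
    · intro i _
      rw [hcon i, mul_zero]
  choose i0 hi0 using hnz
  have hzero : ∀ i j, tot i ≠ tot (i0 j) → U i j = 0 := by
    intro i j hij
    by_contra hne
    have p1 : 0 < S (tot i) j := lt_of_lt_of_le (by positivity) (hle i j)
    have p2 : 0 < S (tot (i0 j)) j :=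
      lt_of_lt_of_le (by have := hi0 j; positivity) (hle (i0 j) j)
    have q1 : |b j - τ * tot i| ≤ C := le_of_mul_le_mul_right (hkey _ _) p1
    have q2 : |b j - τ * tot (i0 j)| ≤ C := le_of_mul_le_mul_right (hkey _ _) p2
    have h3 : τ ≤ |τ * tot i - τ * tot (i0 j)| := by
      rw [← mul_sub, abs_mul, abs_of_nonneg (by positivity : 0 ≤ τ)]
      have : (1 : ℝ) ≤ |(tot i : ℝ) - tot (i0 j)| := by
        have h4 : (1 : ℤ) ≤ |(tot i : ℤ) - tot (i0 j)| := by
          exact Int.one_le_abs (by omega)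
        exact_mod_cast h4
      nlinarith
    have h5 : |τ * tot i - τ * tot (i0 j)| ≤ |b j - τ * tot i| + |b j - τ * tot (i0 j)| := by
      rw [abs_sub_comm (b j) (τ * tot i)]
      have := abs_add_le (τ * tot i - b j) (b j - τ * tot (i0 j))
      simpa using this
    linarith
  refine ⟨U, fun j => b j - τ * tot (i0 j), fun j => tot (i0 j), hUU, hUU', ?_, hzero⟩
  have hnum : diagonal (fun i => (tot i : ℝ)) = U * diagonal (fun j => (tot (i0 j) : ℝ)) * Uᵀ := by
    have h1 : diagonal (fun i => (tot i : ℝ)) * U = U * diagonal (fun j => (tot (i0 j) : ℝ)) := by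
      ext i j
      rw [Matrix.diagonal_mul, Matrix.mul_diagonal]
      by_cases hij : tot i = tot (i0 j)
      · rw [hij]; ring
      · rw [hzero i j hij]; ring
    rw [← h1, Matrix.mul_assoc, hUU', Matrix.mul_one]
  have h1 : A = B - τ • diagonal (fun i => (tot i : ℝ)) := by rw [hB]; simp
  have h2 : (diagonal fun j => b j - τ * (tot (i0 j) : ℝ)) =
      diagonal b - τ • diagonal (fun j => (tot (i0 j) : ℝ)) := by
    rw [← Matrix.diagonal_smul, Matrix.diagonal_sub]
    rfl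
  rw [h2, Matrix.mul_sub, Matrix.sub_mul, ← hspec, Matrix.mul_smul, Matrix.smul_mul, ← hnum]
  exact h1

lemma trace_exp_real_conj (U : Matrix κ κ ℝ) (h1 : Uᵀ * U = 1) (h2 : U * Uᵀ = 1) (d : κ → ℝ) :
    trace (NormedSpace.exp ((U * diagonal d * Uᵀ).map (fun r : ℝ => (r : ℂ)))) =
      ((∑ i, Real.exp (d i) : ℝ) : ℂ) := by
  set W : Matrix κ κ ℂ := U.map (fun r : ℝ => (r : ℂ)) with hW
  have hWi : W⁻¹ = (Uᵀ).map (fun r : ℝ => (r : ℂ)) := by
    apply Matrix.inv_eq_right_inv
    have := congrArg (fun M : Matrix κ κ ℝ => M.map (fun r : ℝ => (r : ℂ))) h2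
    have e1 := Matrix.map_mul (L := U) (M := Uᵀ) (f := Complex.ofRealHom)
    have e2 : (1 : Matrix κ κ ℝ).map (fun r : ℝ => (r : ℂ)) = 1 := by
      ext i j
      by_cases h : i = j
      · subst h; simp
      · simp [Matrix.one_apply_ne h]
    rw [e2] at this
    exact e1.symm.trans this
  have hunit : IsUnit W := by
    have := congrArg (fun M : Matrix κ κ ℝ => M.map (fun r : ℝ => (r : ℂ))) h2
    have e1 := Matrix.map_mul (L := U) (M := Uᵀ) (f := Complex.ofRealHom)
    have e2 : (1 : Matrix κ κ ℝ).map (fun r : ℝ => (r : ℂ)) = 1 := by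
      ext i j
      by_cases h : i = j
      · subst h; simp
      · simp [Matrix.one_apply_ne h]
    rw [e2] at this
    exact IsUnit.of_mul_eq_one _ (e1.symm.trans this)
  have hD : (diagonal d).map (fun r : ℝ => (r : ℂ)) = diagonal (fun i => ((d i : ℝ) : ℂ)) := by
    rw [Matrix.diagonal_map (by simp)]
  have hfac : (U * diagonal d * Uᵀ).map (fun r : ℝ => (r : ℂ)) =
      W * diagonal (fun i => ((d i : ℝ) : ℂ)) * W⁻¹ := by
    rw [hWi, ← hD]
    have e1 := Matrix.map_mul (L := U * diagonal d) (M := Uᵀ) (f := Complex.ofRealHom)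
    have e2 := Matrix.map_mul (L := U) (M := diagonal d) (f := Complex.ofRealHom)
    rw [e2] at e1
    exact e1
  rw [hfac, Matrix.exp_conj _ _ hunit, Matrix.exp_diagonal, Matrix.trace_mul_comm,
    ← Matrix.mul_assoc, Matrix.nonsing_inv_mul _ ((Matrix.isUnit_iff_isUnit_det _).1 hunit),
    Matrix.one_mul, Matrix.trace_diagonal]
  push_cast
  refine Finset.sum_congr rfl fun i _ => ?_
  rw [Pi.exp_def]
  simp [Complex.exp_eq_exp_ℂ]

end Vale.Agent.P361.B
end

section

set_option linter.unusedSectionVars false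

/-!
Part B: pair functions of eigenvectors. Occupation numbers are functions `V → ℕ`.
-/

namespace Vale.Agent.P361.B

open Finset

variable {V : Type*} [Fintype V] [DecidableEq V]

/-- Occupation numbers at most `n`. -/
def occBox (V : Type*) [Fintype V] [DecidableEq V] (n : ℕ) : Finset (V → ℕ) :=
  Fintype.piFinset fun _ => Finset.range (n + 1)

lemma mem_occBox {n : ℕ} {ζ : V → ℕ} : ζ ∈ occBox V n ↔ ∀ x, ζ x ≤ n := by
  simp [occBox]

lemma add_single_apply (σ : V → ℕ) (x y : V) :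
    ((σ + Pi.single y 1 : V → ℕ) x : ℝ) = (σ x : ℝ) + if x = y then 1 else 0 := by
  rw [Pi.add_apply]
  by_cases h : x = y
  · subst h; simp
  · simp [h]

lemma sub_single_apply (η : V → ℕ) (x y : V) (hy : 0 < η y) :
    ((η - Pi.single y 1 : V → ℕ) x : ℝ) = (η x : ℝ) - if x = y then 1 else 0 := by
  rw [Pi.sub_apply]
  by_cases h : x = y
  · subst h
    simp only [Pi.single_eq_same, if_true]
    rw [Nat.cast_sub hy]; simp
  · simp [h]

lemma sub_add_single (η : V → ℕ) (y : V) (hy : 0 < η y) :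
    (η - Pi.single y 1 : V → ℕ) + Pi.single y 1 = η := by
  ext x
  rw [Pi.add_apply, Pi.sub_apply]
  by_cases h : x = y
  · subst h; simp; omega
  · simp [h]

lemma add_sub_single (σ : V → ℕ) (y : V) :
    (σ + Pi.single y 1 : V → ℕ) - Pi.single y 1 = σ := by
  ext x
  rw [Pi.sub_apply, Pi.add_apply]; omega

lemma sum_shift (n : ℕ) (y : V) (F g : (V → ℕ) → ℝ) (hF : ∀ ζ, ζ ∉ occBox V n → F ζ = 0) :
    ∑ σ ∈ occBox V n, ((σ y : ℝ) + 1) * F (σ + Pi.single y 1) * g σ =
      ∑ η ∈ occBox V n, (η y : ℝ) * F η * g (η - Pi.single y 1) := by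
  have h1 : ∑ σ ∈ occBox V n, ((σ y : ℝ) + 1) * F (σ + Pi.single y 1) * g σ =
      ∑ σ ∈ (occBox V n).filter (fun σ => σ y < n),
        ((σ y : ℝ) + 1) * F (σ + Pi.single y 1) * g σ := by
    rw [Finset.sum_filter]
    refine Finset.sum_congr rfl fun σ hσ => ?_
    split_ifs with h
    · rfl
    · rw [hF]
      · ring
      · rw [mem_occBox]
        push Not
        refine ⟨y, ?_⟩
        simp; omega
  have h2 : ∑ η ∈ occBox V n, (η y : ℝ) * F η * g (η - Pi.single y 1) =
      ∑ η ∈ (occBox V n).filter (fun η => 0 < η y),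
        (η y : ℝ) * F η * g (η - Pi.single y 1) := by
    rw [Finset.sum_filter]
    refine Finset.sum_congr rfl fun η hη => ?_
    split_ifs with h
    · rfl
    · have : η y = 0 := by omega
      rw [this]; simp
  rw [h1, h2]
  refine Finset.sum_nbij' (fun σ => σ + Pi.single y 1) (fun η => η - Pi.single y 1) ?_ ?_ ?_ ?_ ?_
  · intro σ hσ
    rw [Finset.mem_filter, mem_occBox] at hσ ⊢
    refine ⟨fun x => ?_, by simp⟩
    rw [Pi.add_apply]
    by_cases h : x = y
    · subst h; simp; omega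
    · simp [h, hσ.1 x]
  · intro η hη
    rw [Finset.mem_filter, mem_occBox] at hη ⊢
    refine ⟨fun x => ?_, ?_⟩
    · rw [Pi.sub_apply]; exact (Nat.sub_le _ _).trans (hη.1 x)
    · have := hη.1 y
      have h0 := hη.2
      simp; omega
  · intro σ _
    exact add_sub_single σ y
  · intro η hη
    exact sub_add_single η y (Finset.mem_filter.1 hη).2
  · intro σ hσ
    rw [add_sub_single, add_single_apply, if_pos rfl]

/-- The edge operator `a_x b_y - b_x a_y` on functions of occupation numbers. -/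
noncomputable def edgeT (n : ℕ) (x y : V) (f : (V → ℕ) → ℝ) (σ : V → ℕ) : ℝ :=
  Real.sqrt ((n : ℝ) - σ x) * (Real.sqrt ((σ y : ℝ) + 1) * f (σ + Pi.single y 1)) -
    Real.sqrt ((n : ℝ) - σ y) * (Real.sqrt ((σ x : ℝ) + 1) * f (σ + Pi.single x 1))

/-- `ψ` is a normalized eigenvector with `N` magnons and energy `E` (weak form). -/
structure IsEig (n : ℕ) (adj : V → V → Prop) [DecidableRel adj] (N : ℕ) (E : ℝ)
    (ψ : (V → ℕ) → ℝ) : Prop where
  supp : ∀ ζ, ζ ∉ occBox V n → ψ ζ = 0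
  sect : ∀ ζ, ∑ x, ζ x ≠ N → ψ ζ = 0
  norm : ∑ ζ ∈ occBox V n, ψ ζ ^ 2 = 1
  weak : ∀ X : (V → ℕ) → ℝ, E * ∑ ζ ∈ occBox V n, X ζ * ψ ζ ^ 2 =
    1 / 4 * ∑ x, ∑ y, if adj x y then
      ∑ σ ∈ occBox V n, edgeT n x y (fun ζ => X ζ * ψ ζ) σ * edgeT n x y ψ σ else 0

section

variable {n N : ℕ} {adj : V → V → Prop} [DecidableRel adj] {E : ℝ} {ψ : (V → ℕ) → ℝ}

lemma edge_pointwise (x y : V) (X : (V → ℕ) → ℝ) (hX : ∀ ζ, 0 ≤ X ζ) (σ : V → ℕ)
    (hσ : σ ∈ occBox V n) :
    1 / 2 * ((((n : ℝ) - σ x) * ((σ y : ℝ) + 1) * ψ (σ + Pi.single y 1) ^ 2 *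
        (X (σ + Pi.single y 1) - X (σ + Pi.single x 1))) +
      (((n : ℝ) - σ y) * ((σ x : ℝ) + 1) * ψ (σ + Pi.single x 1) ^ 2 *
        (X (σ + Pi.single x 1) - X (σ + Pi.single y 1)))) ≤
      edgeT n x y (fun ζ => X ζ * ψ ζ) σ * edgeT n x y ψ σ := by
  rw [mem_occBox] at hσ
  have hx : 0 ≤ (n : ℝ) - σ x := by have := hσ x; rw [sub_nonneg]; exact_mod_cast this
  have hy : 0 ≤ (n : ℝ) - σ y := by have := hσ y; rw [sub_nonneg]; exact_mod_cast this
  have hx1 : (0 : ℝ) ≤ (σ x : ℝ) + 1 := by positivity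
  have hy1 : (0 : ℝ) ≤ (σ y : ℝ) + 1 := by positivity
  simp only [edgeT]
  set Xy := X (σ + Pi.single y 1) with hXy
  set Xx := X (σ + Pi.single x 1) with hXx
  set A := Real.sqrt ((n : ℝ) - σ x) * (Real.sqrt ((σ y : ℝ) + 1) * ψ (σ + Pi.single y 1)) with hA
  set B := Real.sqrt ((n : ℝ) - σ y) * (Real.sqrt ((σ x : ℝ) + 1) * ψ (σ + Pi.single x 1)) with hB
  have eA : A ^ 2 = ((n : ℝ) - σ x) * ((σ y : ℝ) + 1) * ψ (σ + Pi.single y 1) ^ 2 := by
    rw [hA, mul_pow, mul_pow, Real.sq_sqrt hx, Real.sq_sqrt hy1]; ring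
  have eB : B ^ 2 = ((n : ℝ) - σ y) * ((σ x : ℝ) + 1) * ψ (σ + Pi.single x 1) ^ 2 := by
    rw [hB, mul_pow, mul_pow, Real.sq_sqrt hy, Real.sq_sqrt hx1]; ring
  rw [← eA, ← eB]
  have e1 : Real.sqrt ((n : ℝ) - σ x) * (Real.sqrt ((σ y : ℝ) + 1) *
      (Xy * ψ (σ + Pi.single y 1))) = Xy * A := by rw [hA]; ring
  have e2 : Real.sqrt ((n : ℝ) - σ y) * (Real.sqrt ((σ x : ℝ) + 1) *
      (Xx * ψ (σ + Pi.single x 1))) = Xx * B := by rw [hB]; ring
  rw [e1, e2]
  have h1 : 0 ≤ Xx := hX _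
  have h2 : 0 ≤ Xy := hX _
  nlinarith [mul_nonneg (add_nonneg h1 h2) (sq_nonneg (A - B))]

lemma IsEig.dirichlet (h : IsEig n adj N E ψ) (hadj : ∀ x y, adj x y → adj y x)
    (X : (V → ℕ) → ℝ) (hX : ∀ ζ, 0 ≤ X ζ) :
    1 / 4 * ∑ x, ∑ y, (if adj x y then ∑ σ ∈ occBox V n,
      ((n : ℝ) - σ x) * ((σ y : ℝ) + 1) * ψ (σ + Pi.single y 1) ^ 2 *
        (X (σ + Pi.single y 1) - X (σ + Pi.single x 1)) else 0) ≤
      E * ∑ ζ ∈ occBox V n, X ζ * ψ ζ ^ 2 := by
  rw [h.weak X]
  refine mul_le_mul_of_nonneg_left ?_ (by norm_num)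
  set t : V → V → ℝ := fun x y => ∑ σ ∈ occBox V n,
      ((n : ℝ) - σ x) * ((σ y : ℝ) + 1) * ψ (σ + Pi.single y 1) ^ 2 *
        (X (σ + Pi.single y 1) - X (σ + Pi.single x 1)) with ht
  have hsymm : ∑ x, ∑ y, (if adj x y then t x y else 0) =
      ∑ x, ∑ y, (if adj x y then t y x else 0) := by
    rw [Finset.sum_comm]
    refine Finset.sum_congr rfl fun y _ => Finset.sum_congr rfl fun x _ => ?_
    by_cases hxy : adj x y
    · rw [if_pos hxy, if_pos (hadj _ _ hxy)]
    · rw [if_neg hxy, if_neg fun h' => hxy (hadj _ _ h')]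
  have hhalf : ∑ x, ∑ y, (if adj x y then t x y else 0) =
      ∑ x, ∑ y, (if adj x y then 1 / 2 * (t x y + t y x) else 0) := by
    have : ∑ x, ∑ y, (if adj x y then 1 / 2 * (t x y + t y x) else 0) =
        1 / 2 * (∑ x, ∑ y, (if adj x y then t x y else 0) +
          ∑ x, ∑ y, (if adj x y then t y x else 0)) := by
      rw [← Finset.sum_add_distrib, Finset.mul_sum]
      refine Finset.sum_congr rfl fun x _ => ?_
      rw [← Finset.sum_add_distrib, Finset.mul_sum]
      refine Finset.sum_congr rfl fun y _ => ?_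
      split_ifs <;> ring
    rw [this, ← hsymm]; ring
  rw [hhalf]
  refine Finset.sum_le_sum fun x _ => Finset.sum_le_sum fun y _ => ?_
  split_ifs with hxy
  · rw [ht, ← Finset.sum_add_distrib, Finset.mul_sum]
    exact Finset.sum_le_sum fun σ hσ => edge_pointwise x y X hX σ hσ
  · exact le_rfl

/-- `φ(u,v) = ⟨η_u (η_v - δ_uv)⟩`. -/
noncomputable def pairFn (n : ℕ) (ψ : (V → ℕ) → ℝ) (u v : V) : ℝ :=
  ∑ η ∈ occBox V n, ((η u : ℝ) * ((η v : ℝ) - if u = v then 1 else 0)) * ψ η ^ 2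

lemma pair_nonneg_aux (η : V → ℕ) (u v : V) :
    0 ≤ (η u : ℝ) * ((η v : ℝ) - if u = v then 1 else 0) := by
  split_ifs with h
  · subst h
    rcases Nat.eq_zero_or_pos (η u) with h0 | h0
    · rw [h0]; simp
    · have : (1 : ℝ) ≤ η u := by exact_mod_cast h0
      exact mul_nonneg (by linarith) (by linarith)
  · rw [sub_zero]; positivity

lemma pair_symm_aux (η : V → ℕ) (u v : V) :
    (η u : ℝ) * ((η v : ℝ) - if u = v then 1 else 0) =
      (η v : ℝ) * ((η u : ℝ) - if v = u then 1 else 0) := by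
  by_cases h : u = v
  · subst h; ring
  · rw [if_neg h, if_neg (Ne.symm h)]; ring

lemma pairFn_nonneg (u v : V) : 0 ≤ pairFn n ψ u v :=
  Finset.sum_nonneg fun η _ => mul_nonneg (pair_nonneg_aux η u v) (sq_nonneg _)

lemma pairFn_symm (u v : V) : pairFn n ψ u v = pairFn n ψ v u :=
  Finset.sum_congr rfl fun η _ => by rw [pair_symm_aux]

lemma pair_diff (σ : V → ℕ) (u v x y : V) :
    ((σ + Pi.single y 1 : V → ℕ) u : ℝ) *
        (((σ + Pi.single y 1 : V → ℕ) v : ℝ) - if u = v then 1 else 0) -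
      ((σ + Pi.single x 1 : V → ℕ) u : ℝ) *
        (((σ + Pi.single x 1 : V → ℕ) v : ℝ) - if u = v then 1 else 0) =
    ((if u = y then 1 else 0) - if u = x then 1 else 0) * (σ v : ℝ) +
      ((if v = y then 1 else 0) - if v = x then 1 else 0) * (σ u : ℝ) := by
  simp only [add_single_apply]
  by_cases huv : u = v
  · subst huv
    rw [if_pos rfl]
    by_cases h1 : u = y
    · by_cases h2 : u = x
      · simp only [if_pos h1, if_pos h2]; ring
      · simp only [if_pos h1, if_neg h2]; ring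
    · by_cases h2 : u = x
      · simp only [if_neg h1, if_pos h2]; ring
      · simp only [if_neg h1, if_neg h2]; ring
  · by_cases h1 : u = y
    · have h3 : v ≠ y := fun h => huv (h1.trans h.symm)
      by_cases h2 : u = x
      · have h4 : v ≠ x := fun h => huv (h2.trans h.symm)
        simp only [if_neg huv, if_pos h1, if_pos h2, if_neg h3, if_neg h4]; ring
      · by_cases h4 : v = x
        · simp only [if_neg huv, if_pos h1, if_neg h2, if_neg h3, if_pos h4]; ring
        · simp only [if_neg huv, if_pos h1, if_neg h2, if_neg h3, if_neg h4]; ring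
    · by_cases h3 : v = y
      · by_cases h2 : u = x
        · have h4 : v ≠ x := fun h => huv (h2.trans h.symm)
          simp only [if_neg huv, if_neg h1, if_pos h2, if_pos h3, if_neg h4]; ring
        · by_cases h4 : v = x
          · simp only [if_neg huv, if_neg h1, if_neg h2, if_pos h3, if_pos h4]; ring
          · simp only [if_neg huv, if_neg h1, if_neg h2, if_pos h3, if_neg h4]; ring
      · by_cases h2 : u = x
        · have h4 : v ≠ x := fun h => huv (h2.trans h.symm)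
          simp only [if_neg huv, if_neg h1, if_pos h2, if_neg h3, if_neg h4]; ring
        · by_cases h4 : v = x
          · simp only [if_neg huv, if_neg h1, if_neg h2, if_neg h3, if_pos h4]; ring
          · simp only [if_neg huv, if_neg h1, if_neg h2, if_neg h3, if_neg h4]; ring

lemma IsEig.term_eq (h : IsEig n adj N E ψ) (u v x y : V) (hxy : x ≠ y) :
    ∑ σ ∈ occBox V n, ((n : ℝ) - σ x) * ((σ y : ℝ) + 1) * ψ (σ + Pi.single y 1) ^ 2 *
        (((σ + Pi.single y 1 : V → ℕ) u : ℝ) *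
            (((σ + Pi.single y 1 : V → ℕ) v : ℝ) - if u = v then 1 else 0) -
          ((σ + Pi.single x 1 : V → ℕ) u : ℝ) *
            (((σ + Pi.single x 1 : V → ℕ) v : ℝ) - if u = v then 1 else 0)) =
      ∑ η ∈ occBox V n, ψ η ^ 2 * ((η y : ℝ) * ((n : ℝ) - η x) *
        (((if u = y then 1 else 0) - if u = x then 1 else 0) *
            ((η v : ℝ) - if v = y then 1 else 0) +
          ((if v = y then 1 else 0) - if v = x then 1 else 0) *
            ((η u : ℝ) - if u = y then 1 else 0))) := by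
  have hF : ∀ ζ, ζ ∉ occBox V n → (fun ζ => ψ ζ ^ 2) ζ = 0 := by
    intro ζ hζ
    simp only [h.supp ζ hζ]; norm_num
  have key := sum_shift n y (fun ζ => ψ ζ ^ 2) (fun σ => ((n : ℝ) - σ x) *
    (((if u = y then 1 else 0) - if u = x then 1 else 0) * (σ v : ℝ) +
      ((if v = y then 1 else 0) - if v = x then 1 else 0) * (σ u : ℝ))) hF
  calc _ = ∑ σ ∈ occBox V n, ((σ y : ℝ) + 1) * ψ (σ + Pi.single y 1) ^ 2 *
        (((n : ℝ) - σ x) * (((if u = y then 1 else 0) - if u = x then 1 else 0) * (σ v : ℝ) +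
      ((if v = y then 1 else 0) - if v = x then 1 else 0) * (σ u : ℝ))) := by
        refine Finset.sum_congr rfl fun σ _ => ?_
        rw [pair_diff]; ring
    _ = _ := key
    _ = _ := by
        refine Finset.sum_congr rfl fun η _ => ?_
        rcases Nat.eq_zero_or_pos (η y) with h0 | h0
        · rw [h0]; simp
        · rw [sub_single_apply η x y h0, sub_single_apply η v y h0, sub_single_apply η u y h0,
            if_neg hxy]
          ring

lemma sum_delta_right (adj : V → V → Prop) [DecidableRel adj] (u : V) (g : V → V → ℝ) :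
    ∑ x, ∑ y, (if adj x y then (if u = y then 1 else 0) * g x y else 0) =
      ∑ x, if adj x u then g x u else 0 := by
  refine Finset.sum_congr rfl fun x _ => ?_
  rw [Finset.sum_eq_single u]
  · simp
  · intro y _ hy
    rw [if_neg (Ne.symm hy)]; simp
  · simp

lemma sum_delta_left (adj : V → V → Prop) [DecidableRel adj] (u : V) (g : V → V → ℝ) :
    ∑ x, ∑ y, (if adj x y then (if u = x then 1 else 0) * g x y else 0) =
      ∑ y, if adj u y then g u y else 0 := by
  rw [Finset.sum_comm]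
  refine Finset.sum_congr rfl fun y _ => ?_
  rw [Finset.sum_eq_single u]
  · simp
  · intro x _ hx
    rw [if_neg (Ne.symm hx)]; simp
  · simp

lemma pair_combine (hadj : ∀ x y, adj x y → adj y x) (hirr : ∀ x, ¬ adj x x)
    (η : V → ℕ) (u v : V) :
    ∑ x, ∑ y, (if adj x y then (η y : ℝ) * ((n : ℝ) - η x) *
        (((if u = y then 1 else 0) - if u = x then 1 else 0) *
            ((η v : ℝ) - if v = y then 1 else 0) +
          ((if v = y then 1 else 0) - if v = x then 1 else 0) *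
            ((η u : ℝ) - if u = y then 1 else 0)) else 0) =
    ∑ z, (if adj u z then
        (n : ℝ) * ((η u : ℝ) * ((η v : ℝ) - if u = v then 1 else 0)) -
        n * ((η z : ℝ) * ((η v : ℝ) - if z = v then 1 else 0)) +
        ((if u = v then 1 else 0) - if v = z then 1 else 0) *
          ((η z : ℝ) * ((η u : ℝ) - if z = u then 1 else 0)) else 0) +
    ∑ z, (if adj v z then
        (n : ℝ) * ((η u : ℝ) * ((η v : ℝ) - if u = v then 1 else 0)) -
        n * ((η z : ℝ) * ((η u : ℝ) - if z = u then 1 else 0)) +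
        ((if u = v then 1 else 0) - if u = z then 1 else 0) *
          ((η z : ℝ) * ((η v : ℝ) - if z = v then 1 else 0)) else 0) := by
  have hsym : ∀ x y, adj x y ↔ adj y x := fun x y => ⟨hadj x y, hadj y x⟩
  have expand : ∑ x, ∑ y, (if adj x y then (η y : ℝ) * ((n : ℝ) - η x) *
        (((if u = y then 1 else 0) - if u = x then 1 else 0) *
            ((η v : ℝ) - if v = y then 1 else 0) +
          ((if v = y then 1 else 0) - if v = x then 1 else 0) *
            ((η u : ℝ) - if u = y then 1 else 0)) else 0) =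
      (∑ x, ∑ y, (if adj x y then (if u = y then 1 else 0) *
          ((η y : ℝ) * ((n : ℝ) - η x) * ((η v : ℝ) - if v = y then 1 else 0)) else 0) -
       ∑ x, ∑ y, (if adj x y then (if u = x then 1 else 0) *
          ((η y : ℝ) * ((n : ℝ) - η x) * ((η v : ℝ) - if v = y then 1 else 0)) else 0)) +
      (∑ x, ∑ y, (if adj x y then (if v = y then 1 else 0) *
          ((η y : ℝ) * ((n : ℝ) - η x) * ((η u : ℝ) - if u = y then 1 else 0)) else 0) -
       ∑ x, ∑ y, (if adj x y then (if v = x then 1 else 0) *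
          ((η y : ℝ) * ((n : ℝ) - η x) * ((η u : ℝ) - if u = y then 1 else 0)) else 0)) := by
    rw [← Finset.sum_sub_distrib, ← Finset.sum_sub_distrib, ← Finset.sum_add_distrib]
    refine Finset.sum_congr rfl fun x _ => ?_
    rw [← Finset.sum_sub_distrib, ← Finset.sum_sub_distrib, ← Finset.sum_add_distrib]
    refine Finset.sum_congr rfl fun y _ => ?_
    by_cases hxy : adj x y
    · simp only [if_pos hxy]; ring
    · simp only [if_neg hxy]; ring
  rw [expand, sum_delta_right, sum_delta_left, sum_delta_right, sum_delta_left,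
    ← Finset.sum_sub_distrib, ← Finset.sum_sub_distrib]
  congr 1
  · refine Finset.sum_congr rfl fun z _ => ?_
    by_cases hz : adj u z
    · have hz' : adj z u := hadj _ _ hz
      have hne : z ≠ u := fun h' => hirr u (h' ▸ hz)
      rw [if_pos hz, if_pos hz', if_pos hz, if_neg hne]
      by_cases h1 : u = v
      · have h2 : v ≠ z := fun h' => hne (h1.trans h').symm
        rw [if_pos h1, if_pos h1.symm, if_neg h2, if_neg (Ne.symm h2)]
        ring
      · rw [if_neg h1, if_neg (Ne.symm h1)]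
        by_cases h2 : v = z
        · rw [if_pos h2, if_pos h2.symm]; ring
        · rw [if_neg h2, if_neg (Ne.symm h2)]; ring
    · have hz' : ¬ adj z u := fun h' => hz (hadj _ _ h')
      rw [if_neg hz, if_neg hz', if_neg hz]; ring
  · refine Finset.sum_congr rfl fun z _ => ?_
    by_cases hz : adj v z
    · have hz' : adj z v := hadj _ _ hz
      have hne : z ≠ v := fun h' => hirr v (h' ▸ hz)
      rw [if_pos hz, if_pos hz', if_pos hz, if_neg hne]
      by_cases h1 : u = v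
      · have h2 : u ≠ z := fun h' => hne (h1.symm.trans h').symm
        rw [if_pos h1, if_neg h2, if_neg (Ne.symm h2)]
        rw [h1]
        ring
      · rw [if_neg h1]
        by_cases h2 : u = z
        · rw [if_pos h2, if_pos h2.symm]; ring
        · rw [if_neg h2, if_neg (Ne.symm h2)]; ring
    · have hz' : ¬ adj z v := fun h' => hz (hadj _ _ h')
      rw [if_neg hz, if_neg hz', if_neg hz]; ring

lemma sum_swap3 {ι : Type*} (s : Finset ι) (w : ι → ℝ) (c : V → V → ι → ℝ) :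
    ∑ x, ∑ y, ∑ i ∈ s, w i * c x y i = ∑ i ∈ s, w i * ∑ x, ∑ y, c x y i := by
  simp only [Finset.mul_sum]
  calc ∑ x, ∑ y, ∑ i ∈ s, w i * c x y i = ∑ x, ∑ i ∈ s, ∑ y, w i * c x y i :=
        Finset.sum_congr rfl fun x _ => Finset.sum_comm
    _ = ∑ i ∈ s, ∑ x, ∑ y, w i * c x y i := Finset.sum_comm

/-- The two-particle operator. -/
noncomputable def pairOpM (n : ℕ) (adj : V → V → Prop) [DecidableRel adj] (g : V → V → ℝ)
    (u v : V) : ℝ :=
  ∑ z, (if adj u z then (n : ℝ) * (g z v - g u v) +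
      ((if v = z then 1 else 0) - if u = v then 1 else 0) * g z u else 0) +
  ∑ z, (if adj v z then (n : ℝ) * (g u z - g u v) +
      ((if u = z then 1 else 0) - if u = v then 1 else 0) * g v z else 0)

lemma IsEig.pair_ineq (h : IsEig n adj N E ψ) (hadj : ∀ x y, adj x y → adj y x)
    (hirr : ∀ x, ¬ adj x x) (u v : V) :
    0 ≤ pairOpM n adj (pairFn n ψ) u v + 4 * E * pairFn n ψ u v := by
  have h1 := h.dirichlet hadj
    (fun η => (η u : ℝ) * ((η v : ℝ) - if u = v then 1 else 0)) (fun η => pair_nonneg_aux η u v)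
  have h2 : ∑ x, ∑ y, (if adj x y then ∑ σ ∈ occBox V n,
      ((n : ℝ) - σ x) * ((σ y : ℝ) + 1) * ψ (σ + Pi.single y 1) ^ 2 *
        (((σ + Pi.single y 1 : V → ℕ) u : ℝ) *
            (((σ + Pi.single y 1 : V → ℕ) v : ℝ) - if u = v then 1 else 0) -
          ((σ + Pi.single x 1 : V → ℕ) u : ℝ) *
            (((σ + Pi.single x 1 : V → ℕ) v : ℝ) - if u = v then 1 else 0)) else 0) =
      - pairOpM n adj (pairFn n ψ) u v := by
    have e1 : ∀ x y, (if adj x y then ∑ σ ∈ occBox V n,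
      ((n : ℝ) - σ x) * ((σ y : ℝ) + 1) * ψ (σ + Pi.single y 1) ^ 2 *
        (((σ + Pi.single y 1 : V → ℕ) u : ℝ) *
            (((σ + Pi.single y 1 : V → ℕ) v : ℝ) - if u = v then 1 else 0) -
          ((σ + Pi.single x 1 : V → ℕ) u : ℝ) *
            (((σ + Pi.single x 1 : V → ℕ) v : ℝ) - if u = v then 1 else 0)) else 0) =
      ∑ η ∈ occBox V n, ψ η ^ 2 * (if adj x y then (η y : ℝ) * ((n : ℝ) - η x) *
        (((if u = y then 1 else 0) - if u = x then 1 else 0) *
            ((η v : ℝ) - if v = y then 1 else 0) +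
          ((if v = y then 1 else 0) - if v = x then 1 else 0) *
            ((η u : ℝ) - if u = y then 1 else 0)) else 0) := by
      intro x y
      by_cases hxy : adj x y
      · have hne : x ≠ y := fun h' => hirr x (by rw [← h'] at hxy; exact hxy)
        simp only [if_pos hxy]
        exact h.term_eq u v x y hne
      · simp only [if_neg hxy, mul_zero, Finset.sum_const_zero]
    simp only [e1]
    rw [sum_swap3]
    simp only [pair_combine hadj hirr]
    have e3 : ∀ a b, pairFn n ψ a b = ∑ η ∈ occBox V n,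
      ψ η ^ 2 * ((η a : ℝ) * ((η b : ℝ) - if a = b then 1 else 0)) := fun a b =>
      Finset.sum_congr rfl fun η _ => by ring
    have e4 : ∀ (a b : V) (G : V → (V → ℕ) → ℝ), ∑ η ∈ occBox V n, ψ η ^ 2 *
        (∑ z, if adj a z then G z η else 0) =
        ∑ z, if adj a z then ∑ η ∈ occBox V n, ψ η ^ 2 * G z η else 0 := by
      intro a b G
      simp only [Finset.mul_sum]
      rw [Finset.sum_comm]
      refine Finset.sum_congr rfl fun z _ => ?_
      split_ifs
      · rfl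
      · simp
    simp only [mul_add (ψ _ ^ 2), Finset.sum_add_distrib]
    rw [e4 u v, e4 v u, pairOpM, neg_add, ← Finset.sum_neg_distrib, ← Finset.sum_neg_distrib]
    have e5 : ∀ (a b c d e f : V) (w : ℝ), ∑ η ∈ occBox V n, ψ η ^ 2 *
        ((n : ℝ) * ((η a : ℝ) * ((η b : ℝ) - if a = b then 1 else 0)) -
        n * ((η c : ℝ) * ((η d : ℝ) - if c = d then 1 else 0)) +
        w * ((η e : ℝ) * ((η f : ℝ) - if e = f then 1 else 0))) =
        n * pairFn n ψ a b - n * pairFn n ψ c d + w * pairFn n ψ e f := by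
      intro a b c d e f w
      rw [e3, e3, e3, Finset.mul_sum, Finset.mul_sum, Finset.mul_sum, ← Finset.sum_sub_distrib,
        ← Finset.sum_add_distrib]
      exact Finset.sum_congr rfl fun η _ => by ring
    congr 1
    · refine Finset.sum_congr rfl fun z _ => ?_
      by_cases hz : adj u z
      · rw [if_pos hz, if_pos hz, e5]; ring
      · rw [if_neg hz, if_neg hz]; ring
    · refine Finset.sum_congr rfl fun z _ => ?_
      by_cases hz : adj v z
      · rw [if_pos hz, if_pos hz]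
        have e6 : ∑ η ∈ occBox V n, ψ η ^ 2 *
            ((n : ℝ) * ((η u : ℝ) * ((η v : ℝ) - if u = v then 1 else 0)) -
            n * ((η z : ℝ) * ((η u : ℝ) - if z = u then 1 else 0)) +
            ((if u = v then 1 else 0) - if u = z then 1 else 0) *
              ((η z : ℝ) * ((η v : ℝ) - if z = v then 1 else 0))) =
            n * pairFn n ψ u v - n * pairFn n ψ z u +
              ((if u = v then 1 else 0) - if u = z then 1 else 0) * pairFn n ψ z v :=
          e5 u v z u z v _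
        rw [e6, pairFn_symm z u, pairFn_symm z v]; ring
      · rw [if_neg hz, if_neg hz]; ring
  rw [h2] at h1
  have h3 : ∑ ζ ∈ occBox V n, ((ζ u : ℝ) * ((ζ v : ℝ) - if u = v then 1 else 0)) * ψ ζ ^ 2 =
      pairFn n ψ u v := rfl
  rw [h3] at h1
  linarith

end

end Vale.Agent.P361.B
end

section

set_option linter.unusedSectionVars false

/-!
Part B: comparison of pair functions with the heat flow.
-/

namespace Vale.Agent.P361.B

open Finset Filter Topology

lemma quasi_monotone {ι : Type*} [Finite ι] (G G' : ℝ → ι → ℝ) (K : ℝ)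
    (hd : ∀ s i, HasDerivAt (fun s => G s i) (G' s i) s) (h0 : ∀ i, 0 ≤ G 0 i)
    (hq : ∀ s, 0 ≤ s → ∀ δ, 0 < δ → (∀ j, -δ ≤ G s j) → ∀ i, G s i = -δ → -(K * δ) ≤ G' s i) :
    ∀ s, 0 ≤ s → ∀ i, 0 ≤ G s i := by
  intro s1 hs1 i1
  by_contra hneg
  push Not at hneg
  obtain ⟨ε, hε, hεs⟩ : ∃ ε > 0, ε * Real.exp ((K + 1) * s1) < - G s1 i1 := by
    refine ⟨- G s1 i1 / Real.exp ((K + 1) * s1) / 2, by have := Real.exp_pos ((K + 1) * s1)
                                                        apply div_pos (div_pos (by linarith) this)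
                                                        norm_num, ?_⟩
    have := Real.exp_pos ((K + 1) * s1)
    field_simp
    linarith
  set δ : ℝ → ℝ := fun s => ε * Real.exp ((K + 1) * s) with hδ
  have hδpos : ∀ s, 0 < δ s := fun s => mul_pos hε (Real.exp_pos _)
  have hδd : ∀ s, HasDerivAt δ ((K + 1) * δ s) s := by
    intro s
    have h1 : HasDerivAt (fun s : ℝ => (K + 1) * s) (K + 1) s := by
      simpa using (hasDerivAt_id s).const_mul (K + 1)
    have h2 := (h1.exp).const_mul ε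
    have e : (K + 1) * δ s = ε * (Real.exp ((K + 1) * s) * (K + 1)) := by simp only [hδ]; ring
    rw [e]
    exact h2
  have hFd : ∀ s i, HasDerivAt (fun s => G s i + δ s) (G' s i + (K + 1) * δ s) s :=
    fun s i => (hd s i).add (hδd s)
  have hFc : ∀ i, Continuous fun s => G s i + δ s := fun i =>
    continuous_iff_continuousAt.2 fun s => (hFd s i).continuousAt
  set B : Set ℝ := {s | s ∈ Set.Icc 0 s1 ∧ ∃ i, G s i + δ s ≤ 0} with hB
  have hBc : IsCompact B := by
    have : B = Set.Icc 0 s1 ∩ ⋃ i, {s | G s i + δ s ≤ 0} := by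
      ext s; simp [hB]
    rw [this]
    refine isCompact_Icc.inter_right ?_
    exact isClosed_iUnion_of_finite fun i => isClosed_le (hFc i) continuous_const
  have hBn : B.Nonempty := ⟨s1, ⟨hs1, le_rfl⟩, i1, by linarith⟩
  obtain ⟨t, ⟨⟨ht0, ht1⟩, i, hi⟩, hmin⟩ := hBc.exists_isLeast hBn
  have htpos : 0 < t := by
    rcases ht0.lt_or_eq with h | h
    · exact h
    · exfalso
      rw [← h] at hi
      have := h0 i
      have := hδpos 0
      linarith
  have hbefore : ∀ s, 0 ≤ s → s < t → ∀ j, 0 < G s j + δ s := by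
    intro s hs hst j
    by_contra hcon
    push Not at hcon
    exact absurd (hmin ⟨⟨hs, by linarith⟩, j, hcon⟩) (not_le.2 hst)
  have hge : ∀ j, 0 ≤ G t j + δ t := by
    intro j
    have h1 : Tendsto (fun s => G s j + δ s) (𝓝[<] t) (𝓝 (G t j + δ t)) :=
      ((hFc j).tendsto t).mono_left nhdsWithin_le_nhds
    refine ge_of_tendsto h1 ?_
    filter_upwards [Ioo_mem_nhdsLT htpos] with s hs
    exact (hbefore s hs.1.le hs.2 j).le
  have hit : G t i = - δ t := by linarith [hge i]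
  have hG' := hq t ht0 (δ t) (hδpos t) (fun j => by linarith [hge j]) i hit
  have hpos : 0 < G' t i + (K + 1) * δ t := by
    have := hδpos t
    nlinarith
  have hslope := hasDerivAt_iff_tendsto_slope.1 (hFd t i)
  have hev : ∀ᶠ s in 𝓝[≠] t, 0 < slope (fun s => G s i + δ s) t s :=
    hslope.eventually (lt_mem_nhds hpos)
  have hev2 : ∀ᶠ s in 𝓝[<] t, 0 < slope (fun s => G s i + δ s) t s :=
    hev.filter_mono (nhdsWithin_mono _ fun s hs => ne_of_lt hs)
  obtain ⟨s, hs1', hs2⟩ := (hev2.and (Ioo_mem_nhdsLT htpos)).exists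
  have h3 := hbefore s hs2.1.le hs2.2 i
  rw [slope_def_field] at hs1'
  have h4 : G t i + δ t = 0 := by linarith
  have h5 : s - t < 0 := by linarith [hs2.2]
  rw [h4] at hs1'
  have : (G s i + δ s - 0) / (s - t) < 0 := div_neg_of_pos_of_neg (by linarith) h5
  linarith

variable {V : Type*} [Fintype V] [DecidableEq V]

/-- Eigenbasis of the graph Laplacian. -/
structure Spec (adj : V → V → Prop) [DecidableRel adj] (e : V → V → ℝ) (lam : V → ℝ) : Prop where
  eig : ∀ k x, ∑ z, (if adj x z then e k z - e k x else 0) = - lam k * e k x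
  compl : ∀ x y, ∑ k, e k x * e k y = if x = y then 1 else 0
  orth : ∀ k l, ∑ x, e k x * e l x = if k = l then 1 else 0

/-- Heat flow. -/
noncomputable def heat (n : ℕ) (e : V → V → ℝ) (lam : V → ℝ) (ζ : V → ℕ) (s : ℝ) (x : V) : ℝ :=
  ∑ k, Real.exp (-(s * n * lam k)) * (∑ y, (ζ y : ℝ) * e k y) * e k x

section

variable {n : ℕ} {adj : V → V → Prop} [DecidableRel adj] {e : V → V → ℝ} {lam : V → ℝ}

lemma heat_zero (hS : Spec adj e lam) (ζ : V → ℕ) (x : V) : heat n e lam ζ 0 x = ζ x := by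
  unfold heat
  calc _ = ∑ k, ∑ y, (ζ y : ℝ) * (e k y * e k x) := by
        refine Finset.sum_congr rfl fun k _ => ?_
        rw [zero_mul, zero_mul, neg_zero, Real.exp_zero, one_mul, Finset.sum_mul]
        exact Finset.sum_congr rfl fun y _ => by ring
    _ = ∑ y, (ζ y : ℝ) * ∑ k, e k y * e k x := by
        rw [Finset.sum_comm]
        exact Finset.sum_congr rfl fun y _ => by rw [Finset.mul_sum]
    _ = _ := by
        simp only [hS.compl]
        simp

lemma heat_deriv (hS : Spec adj e lam) (ζ : V → ℕ) (s : ℝ) (x : V) :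
    HasDerivAt (fun s => heat n e lam ζ s x)
      (n * ∑ z, (if adj x z then heat n e lam ζ s z - heat n e lam ζ s x else 0)) s := by
  have h1 : HasDerivAt (fun s => heat n e lam ζ s x)
      (∑ k, Real.exp (-(s * n * lam k)) * (-(n * lam k)) * (∑ y, (ζ y : ℝ) * e k y) * e k x) s := by
    unfold heat
    refine HasDerivAt.fun_sum fun k _ => ?_
    have h2 : HasDerivAt (fun s : ℝ => -(s * n * lam k)) (-(n * lam k)) s := by
      have h0 : HasDerivAt (fun s : ℝ => (-((n : ℝ) * lam k)) * s) (-(n * lam k)) s := by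
        simpa using (hasDerivAt_id' s).const_mul (-((n : ℝ) * lam k))
      have h3 : (fun s : ℝ => -(s * n * lam k)) = fun s : ℝ => (-((n : ℝ) * lam k)) * s := by
        funext s; ring
      rw [h3]; exact h0
    exact (h2.exp.mul_const _).mul_const _
  convert h1 using 1
  have h3 : ∀ z, (if adj x z then heat n e lam ζ s z - heat n e lam ζ s x else 0) =
      ∑ k, Real.exp (-(s * n * lam k)) * (∑ y, (ζ y : ℝ) * e k y) *
        (if adj x z then e k z - e k x else 0) := by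
    intro z
    split_ifs
    · unfold heat
      rw [← Finset.sum_sub_distrib]
      exact Finset.sum_congr rfl fun k _ => by ring
    · simp
  simp only [h3]
  rw [Finset.sum_comm, Finset.mul_sum]
  refine Finset.sum_congr rfl fun k _ => ?_
  rw [← Finset.mul_sum, hS.eig]
  ring

lemma heat_sq (hS : Spec adj e lam) (ζ : V → ℕ) (s : ℝ) :
    ∑ x, heat n e lam ζ s x ^ 2 =
      ∑ k, Real.exp (-(2 * s * n * lam k)) * (∑ y, (ζ y : ℝ) * e k y) ^ 2 := by
  have h1 : ∀ x, heat n e lam ζ s x ^ 2 = ∑ k, ∑ l,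
      (Real.exp (-(s * n * lam k)) * (∑ y, (ζ y : ℝ) * e k y)) *
      (Real.exp (-(s * n * lam l)) * (∑ y, (ζ y : ℝ) * e l y)) * (e k x * e l x) := by
    intro x
    rw [sq]
    unfold heat
    rw [Finset.sum_mul_sum]
    exact Finset.sum_congr rfl fun k _ => Finset.sum_congr rfl fun l _ => by ring
  simp only [h1]
  rw [Finset.sum_comm]
  refine Finset.sum_congr rfl fun k _ => ?_
  rw [Finset.sum_comm]
  simp only [← Finset.mul_sum, hS.orth]
  rw [Finset.sum_eq_single k]
  · rw [if_pos rfl, mul_one]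
    have : Real.exp (-(2 * s * n * lam k)) = Real.exp (-(s * n * lam k)) *
        Real.exp (-(s * n * lam k)) := by rw [← Real.exp_add]; congr 1; ring
    rw [this]; ring
  · intro l _ hl
    rw [if_neg (Ne.symm hl), mul_zero]
  · simp

lemma heat_sq_le (hS : Spec adj e lam) {N : ℕ} (ζ : V → ℕ) (hζ : ∑ x, ζ x = N) (s : ℝ)
    {b : V → ℝ} (hb : ∀ k x, e k x ^ 2 ≤ b k) :
    ∑ x, heat n e lam ζ s x ^ 2 ≤ (N : ℝ) ^ 2 * ∑ k, Real.exp (-(2 * s * n * lam k)) * b k := by
  rw [heat_sq hS, Finset.mul_sum]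
  refine Finset.sum_le_sum fun k _ => ?_
  have h1 : (∑ y, (ζ y : ℝ) * e k y) ^ 2 ≤ (N : ℝ) ^ 2 * b k := by
    have h2 : (∑ y, (ζ y : ℝ) * e k y) ^ 2 ≤ (∑ y, (ζ y : ℝ)) * ∑ y, (ζ y : ℝ) * e k y ^ 2 := by
      have := Finset.sum_sq_le_sum_mul_sum_of_sq_le_mul (R := ℝ) Finset.univ
        (r := fun y => (ζ y : ℝ) * e k y) (f := fun y => (ζ y : ℝ))
        (g := fun y => (ζ y : ℝ) * e k y ^ 2) (fun y _ => by positivity)
        (fun y _ => by positivity) (fun y _ => le_of_eq (by ring))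
      exact this
    have h3 : ∑ y, (ζ y : ℝ) = N := by rw [← hζ]; push_cast; rfl
    have h4 : ∑ y, (ζ y : ℝ) * e k y ^ 2 ≤ N * b k := by
      rw [← h3, Finset.sum_mul]
      exact Finset.sum_le_sum fun y _ => mul_le_mul_of_nonneg_left (hb k y) (by positivity)
    calc _ ≤ _ := h2
      _ ≤ (N : ℝ) * (N * b k) := by rw [h3]; exact mul_le_mul_of_nonneg_left h4 (by positivity)
      _ = _ := by ring
  calc _ ≤ Real.exp (-(2 * s * n * lam k)) * ((N : ℝ) ^ 2 * b k) :=
        mul_le_mul_of_nonneg_left h1 (Real.exp_pos _).le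
    _ = _ := by ring

/-- Product supersolution. -/
noncomputable def prodW (n : ℕ) (a : V → ℝ) (u v : V) : ℝ :=
  (1 - (if u = v then (1 : ℝ) else 0) / n) * (a u * a v)

/-- Its time derivative. -/
noncomputable def prodW' (n : ℕ) (adj : V → V → Prop) [DecidableRel adj] (a : V → ℝ)
    (u v : V) : ℝ :=
  (1 - (if u = v then (1 : ℝ) else 0) / n) *
    ((n * ∑ z, (if adj u z then a z - a u else 0)) * a v +
      a u * (n * ∑ z, (if adj v z then a z - a v else 0)))

lemma pairOpM_prodW (hn : 1 ≤ n) (hadj : ∀ x y, adj x y → adj y x) (hirr : ∀ x, ¬ adj x x)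
    (a : V → ℝ) (u v : V) :
    pairOpM n adj (prodW n a) u v ≤ prodW' n adj a u v := by
  have hn0 : (n : ℝ) ≠ 0 := by positivity
  have hrest : prodW' n adj a u v = (1 - (if u = v then (1 : ℝ) else 0) / n) *
      (∑ z, (if adj u z then n * (a z - a u) * a v else 0) +
       ∑ z, (if adj v z then n * (a z - a v) * a u else 0)) := by
    unfold prodW'
    congr 1
    rw [Finset.mul_sum, Finset.sum_mul, Finset.mul_sum, Finset.mul_sum]
    congr 1
    · exact Finset.sum_congr rfl fun z _ => by split_ifs <;> ring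
    · exact Finset.sum_congr rfl fun z _ => by split_ifs <;> ring
  rw [hrest]
  by_cases huv : u = v
  · subst huv
    rw [if_pos rfl]
    refine le_of_eq ?_
    unfold pairOpM
    rw [mul_add, Finset.mul_sum]
    congr 1
    · refine Finset.sum_congr rfl fun z _ => ?_
      by_cases hz : adj u z
      · have hne : z ≠ u := fun h' => hirr u (h' ▸ hz)
        rw [if_pos hz, if_pos hz, if_pos rfl, if_neg (Ne.symm hne), prodW, prodW, if_neg hne,
          if_pos rfl]
        field_simp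
        ring
      · rw [if_neg hz, if_neg hz, mul_zero]
    · refine Finset.sum_congr rfl fun z _ => ?_
      by_cases hz : adj u z
      · have hne : z ≠ u := fun h' => hirr u (h' ▸ hz)
        rw [if_pos hz, if_pos hz, if_pos rfl, if_neg (Ne.symm hne), prodW, prodW,
          if_neg (Ne.symm hne), if_pos rfl]
        field_simp
        ring
      · rw [if_neg hz, if_neg hz, mul_zero]
  · rw [if_neg huv, zero_div, sub_zero, one_mul]
    unfold pairOpM
    have h1 : ∑ z, (if adj u z then (n : ℝ) * (prodW n a z v - prodW n a u v) +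
        ((if v = z then 1 else 0) - if u = v then 1 else 0) * prodW n a z u else 0) =
        ∑ z, (if adj u z then n * (a z - a u) * a v else 0) +
          (if adj u v then a v * a u - a v ^ 2 else 0) := by
      have h2 : (if adj u v then a v * a u - a v ^ 2 else 0) =
          ∑ z, (if v = z then (if adj u v then a v * a u - a v ^ 2 else 0) else 0) := by
        simp
      rw [h2, ← Finset.sum_add_distrib]
      refine Finset.sum_congr rfl fun z _ => ?_
      by_cases hz : adj u z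
      · have hne : z ≠ u := fun h' => hirr u (h' ▸ hz)
        rw [if_pos hz, if_pos hz, if_neg huv, prodW, prodW, prodW, if_neg huv, if_neg hne]
        by_cases hvz : v = z
        · rw [if_pos hvz, if_pos hvz.symm, if_pos hvz, hvz, if_pos hz]
          field_simp
          ring
        · rw [if_neg hvz, if_neg (Ne.symm hvz), if_neg hvz]; ring
      · rw [if_neg hz, if_neg hz]
        by_cases hvz : v = z
        · rw [if_pos hvz, hvz, if_neg hz]; ring
        · rw [if_neg hvz]; ring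
    have h3 : ∑ z, (if adj v z then (n : ℝ) * (prodW n a u z - prodW n a u v) +
        ((if u = z then 1 else 0) - if u = v then 1 else 0) * prodW n a v z else 0) =
        ∑ z, (if adj v z then n * (a z - a v) * a u else 0) +
          (if adj v u then a u * a v - a u ^ 2 else 0) := by
      have h2 : (if adj v u then a u * a v - a u ^ 2 else 0) =
          ∑ z, (if u = z then (if adj v u then a u * a v - a u ^ 2 else 0) else 0) := by
        simp
      rw [h2, ← Finset.sum_add_distrib]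
      refine Finset.sum_congr rfl fun z _ => ?_
      by_cases hz : adj v z
      · have hne : z ≠ v := fun h' => hirr v (h' ▸ hz)
        rw [if_pos hz, if_pos hz, if_neg huv, prodW, prodW, prodW, if_neg huv,
          if_neg (Ne.symm hne)]
        by_cases hvz : u = z
        · rw [if_pos hvz, if_pos hvz, hvz, if_pos hz]
          field_simp
          ring
        · rw [if_neg hvz, if_neg hvz]; ring
      · rw [if_neg hz, if_neg hz]
        by_cases hvz : u = z
        · rw [if_pos hvz, hvz, if_neg hz]; ring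
        · rw [if_neg hvz]; ring
    rw [h1, h3]
    by_cases huv2 : adj u v
    · rw [if_pos huv2, if_pos (hadj _ _ huv2)]
      nlinarith [sq_nonneg (a u - a v)]
    · rw [if_neg huv2, if_neg fun h' => huv2 (hadj _ _ h')]
      linarith

lemma pairOpM_lower (hn : 1 ≤ n) (hirr : ∀ x, ¬ adj x x) {g : V → V → ℝ} {δ : ℝ} (hδ : 0 < δ)
    (hg : ∀ a b, -δ ≤ g a b) {u v : V} (huv : g u v = -δ) : -(2 * δ) ≤ pairOpM n adj g u v := by
  have hn1 : (1 : ℝ) ≤ n := by exact_mod_cast hn
  unfold pairOpM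
  have key : ∀ (u v : V) (g : V → V → ℝ), (∀ a b, -δ ≤ g a b) → g u v = -δ →
      -δ ≤ ∑ z, (if adj u z then (n : ℝ) * (g z v - g u v) +
      ((if v = z then 1 else 0) - if u = v then 1 else 0) * g z u else 0) := by
    intro u v g hg huv
    by_cases h : u = v
    · refine le_trans (by linarith : -δ ≤ 0) (Finset.sum_nonneg fun z _ => ?_)
      split_ifs with hz h1
      · exfalso; rw [← h1, ← h] at hz; exact hirr u hz
      · rw [← h] at huv ⊢
        have := hg z u
        rw [huv]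
        nlinarith
      · exact le_rfl
    · rw [show (-δ : ℝ) = ∑ z, (if v = z then -δ else 0) by simp]
      refine Finset.sum_le_sum fun z _ => ?_
      rw [if_neg h, huv]
      have h1 := hg z v
      have h2 := hg z u
      have h3 : 0 ≤ (n : ℝ) * (g z v - -δ) := mul_nonneg (by linarith) (by linarith)
      split_ifs <;> linarith
  have k1 := key u v g hg huv
  have k2 := key v u (fun a b => g b a) (fun a b => hg b a) huv
  have e : (∑ z, if adj v z then (n : ℝ) * (g u z - g u v) +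
      ((if u = z then 1 else 0) - if v = u then 1 else 0) * g v z else 0) =
      ∑ z, if adj v z then (n : ℝ) * (g u z - g u v) +
      ((if u = z then 1 else 0) - if u = v then 1 else 0) * g v z else 0 := by
    refine Finset.sum_congr rfl fun z _ => ?_
    by_cases h : u = v
    · rw [if_pos h, if_pos h.symm]
    · rw [if_neg h, if_neg (Ne.symm h)]
  rw [e] at k2
  linarith

end

end Vale.Agent.P361.B
end

section

set_option linter.unusedSectionVars false

/-!
Part B: bound on the pair function of an eigenvector.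
-/

namespace Vale.Agent.P361.B

open Finset Filter Topology

variable {V : Type*} [Fintype V] [DecidableEq V]
variable {n N : ℕ} {adj : V → V → Prop} [DecidableRel adj] {e : V → V → ℝ} {lam : V → ℝ}
variable {E : ℝ} {ψ : (V → ℕ) → ℝ}

lemma pairOpM_comb {ι : Type*} (t : Finset ι) (c : ι → ℝ) (g : ι → V → V → ℝ) (h : V → V → ℝ)
    (w : ℝ) (u v : V) :
    pairOpM n adj (fun a b => w * ∑ i ∈ t, c i * g i a b - h a b) u v =
      w * ∑ i ∈ t, c i * pairOpM n adj (g i) u v - pairOpM n adj h u v := by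
  unfold pairOpM
  simp only [mul_add (c _), Finset.sum_add_distrib, mul_add w]
  have key : ∀ (u v : V) (f₁ f₂ f₃ : V → V × V) (r : V → ℝ),
      ∑ z, (if adj u z then (n : ℝ) * ((w * ∑ i ∈ t, c i * g i (f₁ z).1 (f₁ z).2 -
          h (f₁ z).1 (f₁ z).2) - (w * ∑ i ∈ t, c i * g i (f₂ z).1 (f₂ z).2 -
          h (f₂ z).1 (f₂ z).2)) + r z * (w * ∑ i ∈ t, c i * g i (f₃ z).1 (f₃ z).2 -
          h (f₃ z).1 (f₃ z).2) else 0) =
      w * ∑ i ∈ t, c i * ∑ z, (if adj u z then (n : ℝ) * (g i (f₁ z).1 (f₁ z).2 -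
          g i (f₂ z).1 (f₂ z).2) + r z * g i (f₃ z).1 (f₃ z).2 else 0) -
        ∑ z, (if adj u z then (n : ℝ) * (h (f₁ z).1 (f₁ z).2 -
          h (f₂ z).1 (f₂ z).2) + r z * h (f₃ z).1 (f₃ z).2 else 0) := by
    intro u v f₁ f₂ f₃ r
    have e1 : ∑ i ∈ t, c i * ∑ z, (if adj u z then (n : ℝ) * (g i (f₁ z).1 (f₁ z).2 -
          g i (f₂ z).1 (f₂ z).2) + r z * g i (f₃ z).1 (f₃ z).2 else 0) =
        ∑ z, (if adj u z then (n : ℝ) * (∑ i ∈ t, c i * g i (f₁ z).1 (f₁ z).2 -
          ∑ i ∈ t, c i * g i (f₂ z).1 (f₂ z).2) +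
          r z * ∑ i ∈ t, c i * g i (f₃ z).1 (f₃ z).2 else 0) := by
      simp only [Finset.mul_sum (Finset.univ)]
      rw [Finset.sum_comm]
      refine Finset.sum_congr rfl fun z _ => ?_
      split_ifs
      · rw [← Finset.sum_sub_distrib, Finset.mul_sum, Finset.mul_sum, ← Finset.sum_add_distrib]
        exact Finset.sum_congr rfl fun i _ => by ring
      · simp
    rw [e1, Finset.mul_sum, ← Finset.sum_sub_distrib]
    refine Finset.sum_congr rfl fun z _ => ?_
    split_ifs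
    · ring
    · ring
  have k1 := key u v (fun z => (z, v)) (fun _ => (u, v)) (fun z => (z, u))
    (fun z => (if v = z then 1 else 0) - if u = v then 1 else 0)
  have k2 := key v u (fun z => (u, z)) (fun _ => (u, v)) (fun z => (v, z))
    (fun z => (if u = z then 1 else 0) - if u = v then 1 else 0)
  simp only at k1 k2
  rw [k1, k2]
  ring

lemma prodW_deriv (hS : Spec adj e lam) (ζ : V → ℕ) (u v : V) (s : ℝ) :
    HasDerivAt (fun s => prodW n (heat n e lam ζ s) u v) (prodW' n adj (heat n e lam ζ s) u v) s :=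
  ((heat_deriv hS ζ s u).mul (heat_deriv hS ζ s v)).const_mul _

theorem IsEig.pair_le (h : IsEig n adj N E ψ) (hn : 1 ≤ n) (hE : 0 ≤ E)
    (hadj : ∀ x y, adj x y → adj y x) (hirr : ∀ x, ¬ adj x x) (hS : Spec adj e lam)
    {s : ℝ} (hs : 0 ≤ s) (u v : V) :
    pairFn n ψ u v ≤ Real.exp (4 * E * s) *
      ∑ ζ ∈ occBox V n, ψ ζ ^ 2 * prodW n (heat n e lam ζ s) u v := by
  set G : ℝ → V × V → ℝ := fun s p => Real.exp (4 * E * s) *
      ∑ ζ ∈ occBox V n, ψ ζ ^ 2 * prodW n (heat n e lam ζ s) p.1 p.2 - pairFn n ψ p.1 p.2 with hG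
  set G' : ℝ → V × V → ℝ := fun s p => Real.exp (4 * E * s) * (4 * E) *
      ∑ ζ ∈ occBox V n, ψ ζ ^ 2 * prodW n (heat n e lam ζ s) p.1 p.2 +
      Real.exp (4 * E * s) *
      ∑ ζ ∈ occBox V n, ψ ζ ^ 2 * prodW' n adj (heat n e lam ζ s) p.1 p.2 with hG'
  have hd : ∀ s p, HasDerivAt (fun s => G s p) (G' s p) s := by
    intro s p
    have h1 : HasDerivAt (fun s : ℝ => Real.exp (4 * E * s)) (Real.exp (4 * E * s) * (4 * E)) s := by
      have h0 : HasDerivAt (fun s : ℝ => 4 * E * s) (4 * E) s := by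
        simpa using (hasDerivAt_id' s).const_mul (4 * E)
      exact h0.exp
    have h2 : HasDerivAt (fun s => ∑ ζ ∈ occBox V n, ψ ζ ^ 2 *
        prodW n (heat n e lam ζ s) p.1 p.2)
        (∑ ζ ∈ occBox V n, ψ ζ ^ 2 * prodW' n adj (heat n e lam ζ s) p.1 p.2) s :=
      HasDerivAt.fun_sum fun ζ _ => (prodW_deriv hS ζ p.1 p.2 s).const_mul _
    exact (h1.mul h2).sub_const _
  have hn0 : (0 : ℝ) < n := by exact_mod_cast hn
  have h0 : ∀ p, 0 ≤ G 0 p := by
    intro p
    simp only [hG, mul_zero, Real.exp_zero, one_mul, sub_nonneg, pairFn]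
    refine Finset.sum_le_sum fun ζ hζ => ?_
    rw [mul_comm]
    refine mul_le_mul_of_nonneg_left ?_ (sq_nonneg _)
    rw [prodW, heat_zero hS, heat_zero hS]
    rw [mem_occBox] at hζ
    by_cases hp : p.1 = p.2
    · rw [if_pos hp, hp]
      have h1 : (ζ p.2 : ℝ) ≤ n := by exact_mod_cast hζ p.2
      have h2 : (0 : ℝ) ≤ ζ p.2 := by positivity
      have h3 : (ζ p.2 : ℝ) * ζ p.2 / n ≤ ζ p.2 := by
        rw [div_le_iff₀ hn0]
        exact mul_le_mul_of_nonneg_left h1 h2
      have h4 : (1 - 1 / (n : ℝ)) * ((ζ p.2 : ℝ) * ζ p.2) =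
        (ζ p.2 : ℝ) * ζ p.2 - (ζ p.2 : ℝ) * ζ p.2 / n := by ring
      rw [h4]; nlinarith
    · rw [if_neg hp]; simp
  have hq : ∀ s, 0 ≤ s → ∀ δ, 0 < δ → (∀ j, -δ ≤ G s j) → ∀ p, G s p = -δ →
      -((2 + 4 * E) * δ) ≤ G' s p := by
    intro s _ δ hδ hge p hp
    have h1 : -(2 * δ) ≤ pairOpM n adj (fun a b => G s (a, b)) p.1 p.2 :=
      pairOpM_lower hn hirr hδ (fun a b => hge (a, b)) hp
    have h2 : pairOpM n adj (fun a b => G s (a, b)) p.1 p.2 =
        Real.exp (4 * E * s) * ∑ ζ ∈ occBox V n, ψ ζ ^ 2 *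
          pairOpM n adj (prodW n (heat n e lam ζ s)) p.1 p.2 -
        pairOpM n adj (pairFn n ψ) p.1 p.2 :=
      pairOpM_comb (occBox V n) (fun ζ => ψ ζ ^ 2) (fun ζ => prodW n (heat n e lam ζ s))
        (pairFn n ψ) (Real.exp (4 * E * s)) p.1 p.2
    have h3 : ∑ ζ ∈ occBox V n, ψ ζ ^ 2 * pairOpM n adj (prodW n (heat n e lam ζ s)) p.1 p.2 ≤
        ∑ ζ ∈ occBox V n, ψ ζ ^ 2 * prodW' n adj (heat n e lam ζ s) p.1 p.2 :=
      Finset.sum_le_sum fun ζ _ => mul_le_mul_of_nonneg_left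
        (pairOpM_prodW hn hadj hirr _ p.1 p.2) (sq_nonneg _)
    have h4 := mul_le_mul_of_nonneg_left h3 (Real.exp_pos (4 * E * s)).le
    have h5 := h.pair_ineq hadj hirr p.1 p.2
    have h6 : G' s p = 4 * E * (G s p + pairFn n ψ p.1 p.2) + Real.exp (4 * E * s) *
      ∑ ζ ∈ occBox V n, ψ ζ ^ 2 * prodW' n adj (heat n e lam ζ s) p.1 p.2 := by
      simp only [hG, hG']; ring
    rw [h6, hp]
    rw [h2] at h1
    nlinarith
  have hfin := quasi_monotone G G' (2 + 4 * E) hd h0 hq s hs (u, v)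
  simp only [hG] at hfin
  linarith

/-- Main bound on pair correlations across edges. -/
theorem IsEig.edge_sum_le (h : IsEig n adj N E ψ) (hn : 1 ≤ n) (hE : 0 ≤ E)
    (hadj : ∀ x y, adj x y → adj y x) (hirr : ∀ x, ¬ adj x x) (hS : Spec adj e lam)
    {D : ℝ} (hD : ∀ x, ∑ y, (if adj x y then (1 : ℝ) else 0) ≤ D)
    {b : V → ℝ} (hb : ∀ k x, e k x ^ 2 ≤ b k) {s : ℝ} (hs : 0 ≤ s) :
    ∑ x, ∑ y, (if adj x y then pairFn n ψ x y + pairFn n ψ y y else 0) ≤
      2 * D * Real.exp (4 * E * s) * ((N : ℝ) ^ 2 * ∑ k, Real.exp (-(2 * s * n * lam k)) * b k) := by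
  have hn0 : (0 : ℝ) < n := by exact_mod_cast hn
  have hn1 : (1 : ℝ) ≤ n := by exact_mod_cast hn
  set P := (N : ℝ) ^ 2 * ∑ k, Real.exp (-(2 * s * n * lam k)) * b k with hP
  have hD0 : ∀ x : V, 0 ≤ D := fun x => le_trans
    (Finset.sum_nonneg fun y _ => by split_ifs <;> norm_num) (hD x)
  -- bound for one configuration
  have hone : ∀ ζ : V → ℕ, ∑ x, ∑ y, (if adj x y then prodW n (heat n e lam ζ s) x y +
      prodW n (heat n e lam ζ s) y y else 0) ≤ 2 * D * ∑ x, heat n e lam ζ s x ^ 2 := by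
    intro ζ
    set a := heat n e lam ζ s with ha
    have h1 : ∀ x y, adj x y → prodW n a x y + prodW n a y y ≤
        1 / 2 * a x ^ 2 + 3 / 2 * a y ^ 2 := by
      intro x y hxy
      have hne : x ≠ y := fun h' => hirr x (by rw [← h'] at hxy; exact hxy)
      rw [prodW, prodW, if_neg hne, if_pos rfl]
      have h2 : (1 - 1 / (n : ℝ)) * (a y * a y) ≤ a y ^ 2 := by
        have : 0 ≤ 1 / (n : ℝ) * (a y * a y) := mul_nonneg (by positivity) (mul_self_nonneg _)
        nlinarith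
      have h3 : (1 - 0 / (n : ℝ)) * (a x * a y) ≤ 1 / 2 * a x ^ 2 + 1 / 2 * a y ^ 2 := by
        rw [zero_div, sub_zero, one_mul]
        nlinarith [sq_nonneg (a x - a y)]
      linarith
    calc ∑ x, ∑ y, (if adj x y then prodW n a x y + prodW n a y y else 0)
        ≤ ∑ x, ∑ y, ((if adj x y then (1 : ℝ) else 0) * (1 / 2 * a x ^ 2) +
            (if adj x y then (1 : ℝ) else 0) * (3 / 2 * a y ^ 2)) := by
          refine Finset.sum_le_sum fun x _ => Finset.sum_le_sum fun y _ => ?_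
          split_ifs with hxy
          · have := h1 x y hxy; linarith
          · simp
      _ = ∑ x, (∑ y, (if adj x y then (1 : ℝ) else 0)) * (1 / 2 * a x ^ 2) +
          ∑ y, (∑ x, (if adj y x then (1 : ℝ) else 0)) * (3 / 2 * a y ^ 2) := by
          simp only [Finset.sum_add_distrib]
          congr 1
          · exact Finset.sum_congr rfl fun x _ => by rw [Finset.sum_mul]
          · rw [Finset.sum_comm]
            refine Finset.sum_congr rfl fun y _ => ?_
            rw [Finset.sum_mul]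
            refine Finset.sum_congr rfl fun x _ => ?_
            by_cases hxy : adj x y
            · rw [if_pos hxy, if_pos (hadj _ _ hxy)]
            · rw [if_neg hxy, if_neg fun h' => hxy (hadj _ _ h')]
      _ ≤ ∑ x, D * (1 / 2 * a x ^ 2) + ∑ y, D * (3 / 2 * a y ^ 2) := by
          refine add_le_add (Finset.sum_le_sum fun x _ => ?_) (Finset.sum_le_sum fun y _ => ?_)
          · exact mul_le_mul_of_nonneg_right (hD x) (by positivity)
          · exact mul_le_mul_of_nonneg_right (hD y) (by positivity)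
      _ = _ := by
          rw [← Finset.sum_add_distrib, Finset.mul_sum]
          exact Finset.sum_congr rfl fun x _ => by ring
  have hsum : ∑ x, ∑ y, (if adj x y then pairFn n ψ x y + pairFn n ψ y y else 0) ≤
      Real.exp (4 * E * s) * ∑ ζ ∈ occBox V n, ψ ζ ^ 2 *
        ∑ x, ∑ y, (if adj x y then prodW n (heat n e lam ζ s) x y +
          prodW n (heat n e lam ζ s) y y else 0) := by
    rw [← sum_swap3, Finset.mul_sum]
    refine Finset.sum_le_sum fun x _ => ?_
    rw [Finset.mul_sum]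
    refine Finset.sum_le_sum fun y _ => ?_
    by_cases hxy : adj x y
    · simp only [if_pos hxy]
      have h1 := h.pair_le hn hE hadj hirr hS hs x y
      have h2 := h.pair_le hn hE hadj hirr hS hs y y
      calc _ ≤ _ := add_le_add h1 h2
        _ = _ := by
          rw [← mul_add, ← Finset.sum_add_distrib]
          congr 1
          exact Finset.sum_congr rfl fun ζ _ => by ring
    · simp only [if_neg hxy, mul_zero, Finset.sum_const_zero]
      exact le_rfl
  refine hsum.trans ?_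
  have hfin : ∑ ζ ∈ occBox V n, ψ ζ ^ 2 *
        ∑ x, ∑ y, (if adj x y then prodW n (heat n e lam ζ s) x y +
          prodW n (heat n e lam ζ s) y y else 0) ≤ 2 * D * P := by
    have h1 : ∀ ζ ∈ occBox V n, ψ ζ ^ 2 *
        ∑ x, ∑ y, (if adj x y then prodW n (heat n e lam ζ s) x y +
          prodW n (heat n e lam ζ s) y y else 0) ≤ ψ ζ ^ 2 * (2 * D * P) := by
      intro ζ _
      by_cases hζ : ∑ x, ζ x = N
      · refine mul_le_mul_of_nonneg_left ((hone ζ).trans ?_) (sq_nonneg _)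
        rcases isEmpty_or_nonempty V with hV | ⟨⟨x⟩⟩
        · simp [hP]
        · exact mul_le_mul_of_nonneg_left (heat_sq_le hS ζ hζ s hb)
            (by have := hD0 x; positivity)
      · rw [h.sect ζ hζ]; simp
    calc _ ≤ ∑ ζ ∈ occBox V n, ψ ζ ^ 2 * (2 * D * P) := Finset.sum_le_sum h1
      _ = 2 * D * P := by rw [← Finset.sum_mul, h.norm, one_mul]
  calc _ ≤ Real.exp (4 * E * s) * (2 * D * P) :=
        mul_le_mul_of_nonneg_left hfin (Real.exp_pos _).le
    _ = _ := by ring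

end Vale.Agent.P361.B
end

section

set_option linter.unusedSectionVars false

/-!
Part B: comparison with free bosons, occupation numbers.
-/

namespace Vale.Agent.P361.B

open Finset Filter Topology

variable {V : Type*} [Fintype V] [DecidableEq V]
variable {n N : ℕ} {adj : V → V → Prop} [DecidableRel adj] {e : V → V → ℝ} {lam : V → ℝ}
variable {E : ℝ} {ψ : (V → ℕ) → ℝ}

/-- Boson hopping form. -/
noncomputable def kform (n : ℕ) (adj : V → V → Prop) [DecidableRel adj] (ψ : (V → ℕ) → ℝ) : ℝ :=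
  (n : ℝ) / 4 * ∑ x, ∑ y, if adj x y then ∑ σ ∈ occBox V n,
    (Real.sqrt ((σ x : ℝ) + 1) * ψ (σ + Pi.single x 1) -
      Real.sqrt ((σ y : ℝ) + 1) * ψ (σ + Pi.single y 1)) ^ 2 else 0

lemma hop_pointwise {m a b A B : ℝ} (ha : 0 ≤ a) (hb : 0 ≤ b) (ham : a ≤ m) (hbm : b ≤ m) :
    m * (B - A) ^ 2 ≤ (Real.sqrt (m - a) * A - Real.sqrt (m - b) * B) ^ 2 +
      2 * (a + b) * (A ^ 2 + B ^ 2) := by
  have h1 : 0 ≤ m - a := by linarith
  have h2 : 0 ≤ m - b := by linarith
  have s1 := Real.sq_sqrt h1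
  have s2 := Real.sq_sqrt h2
  have p1 := Real.sqrt_nonneg (m - a)
  have p2 := Real.sqrt_nonneg (m - b)
  set p := Real.sqrt (m - a)
  set q := Real.sqrt (m - b)
  have hm : 0 ≤ m := ha.trans ham
  have hpq : p * q ≤ m := by nlinarith [sq_nonneg (p - q)]
  have hpq2 : m - a - b ≤ p * q := by
    rcases le_or_gt (m - a - b) 0 with h | h
    · exact h.trans (mul_nonneg p1 p2)
    · refine le_of_sq_le_sq ?_ (mul_nonneg p1 p2)
      rw [mul_pow, s1, s2]
      nlinarith [mul_nonneg ha hb, mul_nonneg ha h.le, mul_nonneg hb h.le]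
  have e1 : m * (B - A) ^ 2 = (p * A - q * B) ^ 2 + (a * A ^ 2 + b * B ^ 2 -
      2 * (m - p * q) * (A * B)) := by
    have : (p * A - q * B) ^ 2 = (m - a) * A ^ 2 + (m - b) * B ^ 2 - 2 * (p * q) * (A * B) := by
      rw [← s1, ← s2]; ring
    rw [this]; ring
  rw [e1]
  have h3 : -(2 * (m - p * q) * (A * B)) ≤ (m - p * q) * (A ^ 2 + B ^ 2) := by
    nlinarith [mul_nonneg (sub_nonneg.2 hpq) (sq_nonneg (A + B))]
  have h4 : (m - p * q) * (A ^ 2 + B ^ 2) ≤ (a + b) * (A ^ 2 + B ^ 2) :=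
    mul_le_mul_of_nonneg_right (by linarith) (by positivity)
  nlinarith [mul_nonneg ha (sq_nonneg B), mul_nonneg hb (sq_nonneg A)]

theorem IsEig.kform_le (h : IsEig n adj N E ψ)
    (hadj : ∀ x y, adj x y → adj y x) (hirr : ∀ x, ¬ adj x x) :
    kform n adj ψ ≤ E +
      ∑ x, ∑ y, (if adj x y then pairFn n ψ x y + pairFn n ψ y y else 0) := by
  have hE : E = 1 / 4 * ∑ x, ∑ y, if adj x y then
      ∑ σ ∈ occBox V n, edgeT n x y ψ σ ^ 2 else 0 := by
    have := h.weak (fun _ => 1)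
    simp only [one_mul, h.norm, mul_one] at this
    rw [this]
    congr 1
    refine Finset.sum_congr rfl fun x _ => Finset.sum_congr rfl fun y _ => ?_
    split_ifs
    · exact Finset.sum_congr rfl fun σ _ => by ring
    · rfl
  set t : V → V → ℝ := fun x y => ∑ σ ∈ occBox V n,
    ((σ x : ℝ) + σ y) * (((σ y : ℝ) + 1) * ψ (σ + Pi.single y 1) ^ 2) with ht
  have hmain : kform n adj ψ ≤ 1 / 4 * ∑ x, ∑ y, (if adj x y then
      ∑ σ ∈ occBox V n, edgeT n x y ψ σ ^ 2 + 2 * (t x y + t y x) else 0) := by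
    unfold kform
    rw [div_eq_mul_one_div, mul_comm (n : ℝ), mul_assoc]
    refine mul_le_mul_of_nonneg_left ?_ (by norm_num)
    rw [Finset.mul_sum]
    refine Finset.sum_le_sum fun x _ => ?_
    rw [Finset.mul_sum]
    refine Finset.sum_le_sum fun y _ => ?_
    by_cases hxy : adj x y
    · rw [if_pos hxy, if_pos hxy, Finset.mul_sum, ht, ← Finset.sum_add_distrib, Finset.mul_sum,
        ← Finset.sum_add_distrib]
      refine Finset.sum_le_sum fun σ hσ => ?_
      rw [mem_occBox] at hσ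
      have := @hop_pointwise (n : ℝ) (σ x) (σ y) (Real.sqrt ((σ y : ℝ) + 1) * ψ (σ + Pi.single y 1))
        (Real.sqrt ((σ x : ℝ) + 1) * ψ (σ + Pi.single x 1)) (by positivity) (by positivity)
        (by exact_mod_cast hσ x) (by exact_mod_cast hσ y)
      have e1 : (Real.sqrt ((σ y : ℝ) + 1) * ψ (σ + Pi.single y 1)) ^ 2 =
          ((σ y : ℝ) + 1) * ψ (σ + Pi.single y 1) ^ 2 := by
        rw [mul_pow, Real.sq_sqrt (by positivity)]
      have e2 : (Real.sqrt ((σ x : ℝ) + 1) * ψ (σ + Pi.single x 1)) ^ 2 =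
          ((σ x : ℝ) + 1) * ψ (σ + Pi.single x 1) ^ 2 := by
        rw [mul_pow, Real.sq_sqrt (by positivity)]
      rw [e1, e2] at this
      refine this.trans (le_of_eq ?_)
      unfold edgeT
      ring
    · rw [if_neg hxy, if_neg hxy, mul_zero]
  have hsplit : 1 / 4 * ∑ x, ∑ y, (if adj x y then
      ∑ σ ∈ occBox V n, edgeT n x y ψ σ ^ 2 + 2 * (t x y + t y x) else 0) =
      E + 1 / 2 * (∑ x, ∑ y, (if adj x y then t x y else 0) +
        ∑ x, ∑ y, (if adj x y then t y x else 0)) := by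
    rw [hE, ← Finset.sum_add_distrib, Finset.mul_sum, Finset.mul_sum, Finset.mul_sum,
      ← Finset.sum_add_distrib]
    refine Finset.sum_congr rfl fun x _ => ?_
    rw [← Finset.sum_add_distrib, Finset.mul_sum, Finset.mul_sum, Finset.mul_sum,
      ← Finset.sum_add_distrib]
    refine Finset.sum_congr rfl fun y _ => ?_
    split_ifs <;> ring
  have hsymm : ∑ x, ∑ y, (if adj x y then t y x else 0) =
      ∑ x, ∑ y, (if adj x y then t x y else 0) := by
    rw [Finset.sum_comm]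
    refine Finset.sum_congr rfl fun y _ => Finset.sum_congr rfl fun x _ => ?_
    by_cases hxy : adj x y
    · rw [if_pos hxy, if_pos (hadj _ _ hxy)]
    · rw [if_neg hxy, if_neg fun h' => hxy (hadj _ _ h')]
  have hterm : ∀ x y, adj x y → t x y = pairFn n ψ x y + pairFn n ψ y y := by
    intro x y hxy
    have hne : x ≠ y := fun h' => hirr x (by rw [← h'] at hxy; exact hxy)
    have hF : ∀ ζ, ζ ∉ occBox V n → (fun ζ => ψ ζ ^ 2) ζ = 0 := by
      intro ζ hζ
      simp only [h.supp ζ hζ]; norm_num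
    have key := sum_shift n y (fun ζ => ψ ζ ^ 2) (fun σ => (σ x : ℝ) + σ y) hF
    have e1 : t x y = ∑ σ ∈ occBox V n, ((σ y : ℝ) + 1) * ψ (σ + Pi.single y 1) ^ 2 *
        ((σ x : ℝ) + σ y) := Finset.sum_congr rfl fun σ _ => by ring
    rw [e1, key, pairFn, pairFn, ← Finset.sum_add_distrib]
    refine Finset.sum_congr rfl fun η _ => ?_
    rcases Nat.eq_zero_or_pos (η y) with h0 | h0
    · rw [h0, if_neg hne]; simp
    · rw [sub_single_apply η x y h0, sub_single_apply η y y h0, if_neg hne, if_pos rfl]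
      ring
  have hfin : ∑ x, ∑ y, (if adj x y then t x y else 0) =
      ∑ x, ∑ y, (if adj x y then pairFn n ψ x y + pairFn n ψ y y else 0) := by
    refine Finset.sum_congr rfl fun x _ => Finset.sum_congr rfl fun y _ => ?_
    split_ifs with hxy
    · exact hterm x y hxy
    · rfl
  rw [hsplit, hsymm, hfin] at hmain
  linarith

/-! Occupation numbers of `N` labelled particles. -/

/-- Occupation numbers. -/
def occ {N : ℕ} (x : Fin N → V) (v : V) : ℕ := ∑ i, if x i = v then 1 else 0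

lemma occ_cons {N : ℕ} (v : V) (x : Fin N → V) :
    occ (Fin.cons v x : Fin (N + 1) → V) = occ x + Pi.single v 1 := by
  ext w
  rw [Pi.add_apply, occ, occ, Fin.sum_univ_succ, add_comm]
  simp only [Fin.cons_zero, Fin.cons_succ]
  congr 1
  by_cases h : v = w
  · subst h; simp
  · rw [if_neg h, Pi.single_apply, if_neg (Ne.symm h)]

lemma sum_occ {N : ℕ} (x : Fin N → V) : ∑ v, occ x v = N := by
  unfold occ
  rw [Finset.sum_comm]
  simp

lemma occ_perm {N : ℕ} (x : Fin N → V) (p : Equiv.Perm (Fin N)) : occ (x ∘ p) = occ x := by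
  ext v
  exact Equiv.sum_comp p (fun i => if x i = v then 1 else 0)

lemma occ_eq_card {N : ℕ} (x : Fin N → V) (v : V) : occ x v = Fintype.card {i // x i = v} := by
  rw [occ, Fintype.card_subtype, Finset.card_filter]

lemma exists_perm {N : ℕ} {x y : Fin N → V} (h : occ x = occ y) :
    ∃ p : Equiv.Perm (Fin N), y ∘ p = x := by
  have e : ∀ v, Nonempty ({i // x i = v} ≃ {i // y i = v}) := by
    intro v
    rw [← Fintype.card_eq, ← occ_eq_card, ← occ_eq_card, h]
  let f := fun v => Classical.choice (e v)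
  refine ⟨Equiv.ofFiberEquiv f, ?_⟩
  ext i
  exact Equiv.ofFiberEquiv_map f i

/-- Number of labelled configurations with given occupation numbers. -/
def cnt (N : ℕ) (ζ : V → ℕ) : ℕ := (Finset.univ.filter fun x : Fin N → V => occ x = ζ).card

lemma cnt_eq_sum (N : ℕ) (ζ : V → ℕ) :
    cnt N ζ = ∑ x : Fin N → V, if occ x = ζ then 1 else 0 := by
  rw [cnt, Finset.card_filter]

lemma cnt_succ (N : ℕ) (ζ : V → ℕ) (v : V) :
    cnt (N + 1) (ζ + Pi.single v 1) * (ζ v + 1) = (N + 1) * cnt N ζ := by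
  have h1 : ∑ x : Fin (N + 1) → V, ∑ i, (if occ x = ζ + Pi.single v 1 then
      (if x i = v then 1 else 0) else 0) = cnt (N + 1) (ζ + Pi.single v 1) * (ζ v + 1) := by
    rw [cnt_eq_sum, Finset.sum_mul]
    refine Finset.sum_congr rfl fun x _ => ?_
    by_cases h : occ x = ζ + Pi.single v 1
    · simp only [if_pos h, one_mul]
      have : occ x v = ζ v + 1 := by rw [h]; simp
      rw [← this]; rfl
    · simp only [if_neg h, zero_mul, Finset.sum_const_zero]
  have h0 : ∑ x : Fin (N + 1) → V, (if occ x = ζ + Pi.single v 1 then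
      (if x 0 = v then 1 else 0) else 0) = cnt N ζ := by
    rw [← (Fin.consEquiv fun _ => V).sum_comp, Fintype.sum_prod_type, cnt_eq_sum]
    rw [Finset.sum_eq_single v]
    · refine Finset.sum_congr rfl fun x _ => ?_
      change (if occ (Fin.cons v x : Fin (N + 1) → V) = ζ + Pi.single v 1 then
        (if v = v then 1 else 0) else 0) = _
      rw [occ_cons, if_pos rfl]
      simp only [add_left_inj]
    · intro w _ hw
      refine Finset.sum_eq_zero fun x _ => ?_
      change (if occ (Fin.cons w x : Fin (N + 1) → V) = ζ + Pi.single v 1 then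
        (if w = v then 1 else 0) else 0) = _
      rw [if_neg hw, ite_self]
    · simp
  rw [← h1, Finset.sum_comm]
  have h2 : ∀ i : Fin (N + 1), ∑ x : Fin (N + 1) → V, (if occ x = ζ + Pi.single v 1 then
      (if x i = v then 1 else 0) else 0) = cnt N ζ := by
    intro i
    rw [← h0, ← (Equiv.arrowCongr (Equiv.swap 0 i) (Equiv.refl V)).sum_comp]
    refine Finset.sum_congr rfl fun x _ => ?_
    have e1 : (Equiv.arrowCongr (Equiv.swap 0 i) (Equiv.refl V)) x = x ∘ Equiv.swap 0 i := by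
      ext j; simp [Equiv.arrowCongr]
    rw [e1, occ_perm]
    simp
  simp only [h2]
  simp

lemma cnt_pos (N : ℕ) : ∀ ζ : V → ℕ, ∑ v, ζ v = N → 0 < cnt N ζ := by
  induction N with
  | zero =>
    intro ζ hζ
    rw [cnt, Finset.card_pos]
    refine ⟨Fin.elim0, ?_⟩
    rw [Finset.mem_filter]
    refine ⟨Finset.mem_univ _, ?_⟩
    ext v
    have : ζ v = 0 := (Finset.sum_eq_zero_iff.1 hζ) v (Finset.mem_univ _)
    rw [this, occ]; simp
  | succ N ih =>
    intro ζ hζ
    obtain ⟨v, hv⟩ : ∃ v, 0 < ζ v := by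
      by_contra hcon
      push Not at hcon
      have : ∑ v, ζ v = 0 := Finset.sum_eq_zero fun v _ => Nat.le_zero.1 (hcon v)
      omega
    set ζ' : V → ℕ := ζ - Pi.single v 1 with hζ'
    have e1 : ζ' + Pi.single v 1 = ζ := sub_add_single ζ v hv
    have e2 : ∑ w, ζ' w = N := by
      have : ∑ w, (ζ' + Pi.single v 1 : V → ℕ) w = N + 1 := by rw [e1, hζ]
      simp only [Pi.add_apply, Finset.sum_add_distrib] at this
      rw [Finset.sum_pi_single'] at this
      simp at this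
      exact this
    have h := cnt_succ N ζ' v
    rw [e1] at h
    have h3 := ih ζ' e2
    by_contra hcon
    have h4 : cnt (N + 1) ζ = 0 := by omega
    rw [h4, zero_mul] at h
    have : 0 < (N + 1) * cnt N ζ' := by positivity
    omega

lemma cnt_eq_zero {N : ℕ} {ζ : V → ℕ} (h : ∑ v, ζ v ≠ N) : cnt N ζ = 0 := by
  rw [cnt, Finset.card_eq_zero, Finset.filter_eq_empty_iff]
  intro x _ hx
  apply h
  rw [← hx, sum_occ]

lemma fiber_sum (n N : ℕ) (g : (V → ℕ) → ℝ) (h1 : ∀ ζ, ζ ∉ occBox V n → g ζ = 0)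
    (h2 : ∀ ζ, ∑ v, ζ v ≠ N → g ζ = 0) :
    ∑ x : Fin N → V, g (occ x) / cnt N (occ x) = ∑ ζ ∈ occBox V n, g ζ := by
  have e1 : ∀ ζ ∈ occBox V n, g ζ = ∑ x : Fin N → V, if occ x = ζ then g ζ / cnt N ζ else 0 := by
    intro ζ _
    by_cases h : ∑ v, ζ v = N
    · rw [← Finset.sum_filter, Finset.sum_const, nsmul_eq_mul]
      have h3 : (0 : ℝ) < cnt N ζ := by exact_mod_cast cnt_pos N ζ h
      change g ζ = (cnt N ζ : ℝ) * (g ζ / cnt N ζ)
      field_simp
    · rw [h2 ζ h]; simp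
  rw [Finset.sum_congr rfl e1, Finset.sum_comm]
  refine Finset.sum_congr rfl fun x _ => ?_
  by_cases h : occ x ∈ occBox V n
  · rw [Finset.sum_ite_eq, if_pos h]
  · rw [Finset.sum_ite_eq, if_neg h, h1 _ h]; simp

end Vale.Agent.P361.B
end

section

set_option linter.unusedSectionVars false

/-!
Part B: comparison with free bosons, spectral side.
-/

namespace Vale.Agent.P361.B

open Finset Filter Topology

variable {V : Type*} [Fintype V] [DecidableEq V]
variable {n N : ℕ} {adj : V → V → Prop} [DecidableRel adj] {e : V → V → ℝ} {lam : V → ℝ}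
variable {E : ℝ} {ψ : (V → ℕ) → ℝ}

/-- Tensor basis. -/
noncomputable def tens (e : V → V → ℝ) {N : ℕ} (k x : Fin N → V) : ℝ := ∏ i, e (k i) (x i)

lemma tens_compl (hS : Spec adj e lam) (x y : Fin N → V) :
    ∑ k : Fin N → V, tens e k x * tens e k y = if x = y then 1 else 0 := by
  unfold tens
  simp only [← Finset.prod_mul_distrib]
  have h := Finset.prod_univ_sum (fun _ : Fin N => (Finset.univ : Finset V))
    (fun i v => e v (x i) * e v (y i))
  rw [Fintype.piFinset_univ] at h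
  rw [← h]
  simp only [hS.compl]
  by_cases hxy : x = y
  · subst hxy; simp
  · rw [if_neg hxy]
    obtain ⟨i, hi⟩ := Function.ne_iff.1 hxy
    exact Finset.prod_eq_zero (Finset.mem_univ i) (if_neg hi)

lemma tens_orth (hS : Spec adj e lam) (k l : Fin N → V) :
    ∑ x : Fin N → V, tens e k x * tens e l x = if k = l then 1 else 0 := by
  unfold tens
  simp only [← Finset.prod_mul_distrib]
  have h := Finset.prod_univ_sum (fun _ : Fin N => (Finset.univ : Finset V))
    (fun i v => e (k i) v * e (l i) v)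
  rw [Fintype.piFinset_univ] at h
  rw [← h]
  simp only [hS.orth]
  by_cases hkl : k = l
  · subst hkl; simp
  · rw [if_neg hkl]
    obtain ⟨i, hi⟩ := Function.ne_iff.1 hkl
    exact Finset.prod_eq_zero (Finset.mem_univ i) (if_neg hi)

/-- Fourier coefficient. -/
noncomputable def four (e : V → V → ℝ) {N : ℕ} (F : (Fin N → V) → ℝ) (k : Fin N → V) : ℝ :=
  ∑ x, tens e k x * F x

lemma parseval (hS : Spec adj e lam) (F : (Fin N → V) → ℝ) :
    ∑ k, four e F k ^ 2 = ∑ x, F x ^ 2 := by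
  have h1 : ∀ k, four e F k ^ 2 = ∑ x, ∑ y, F x * F y * (tens e k x * tens e k y) := by
    intro k
    rw [sq, four, Finset.sum_mul_sum]
    exact Finset.sum_congr rfl fun x _ => Finset.sum_congr rfl fun y _ => by ring
  simp only [h1]
  rw [Finset.sum_comm]
  refine Finset.sum_congr rfl fun x _ => ?_
  rw [Finset.sum_comm]
  simp only [← Finset.mul_sum, tens_compl hS]
  rw [Finset.sum_eq_single x]
  · rw [if_pos rfl]; ring
  · intro y _ hy
    rw [if_neg (Ne.symm hy), mul_zero]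
  · simp

lemma edge_spectral (hS : Spec adj e lam) (hadj : ∀ x y, adj x y → adj y x) (f : V → ℝ) :
    ∑ x, ∑ y, (if adj x y then (f x - f y) ^ 2 else 0) =
      2 * ∑ k, lam k * (∑ x, e k x * f x) ^ 2 := by
  have hexp : ∀ x, f x = ∑ k, (∑ y, e k y * f y) * e k x := by
    intro x
    calc f x = ∑ y, f y * ∑ k, e k y * e k x := by simp only [hS.compl]; simp
      _ = _ := by
        simp only [Finset.mul_sum, Finset.sum_mul]
        rw [Finset.sum_comm]
        exact Finset.sum_congr rfl fun k _ => Finset.sum_congr rfl fun y _ => by ring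
  have hlap : ∀ x, ∑ y, (if adj x y then f x - f y else 0) =
      ∑ k, lam k * (∑ y, e k y * f y) * e k x := by
    intro x
    have h1 : ∀ y, (if adj x y then f x - f y else 0) =
        ∑ k, -((∑ y, e k y * f y) * (if adj x y then e k y - e k x else 0)) := by
      intro y
      split_ifs
      · conv_lhs => rw [hexp x, hexp y]
        rw [← Finset.sum_sub_distrib]
        exact Finset.sum_congr rfl fun k _ => by ring
      · simp
    simp only [h1]
    rw [Finset.sum_comm]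
    refine Finset.sum_congr rfl fun k _ => ?_
    rw [Finset.sum_neg_distrib, ← Finset.mul_sum, hS.eig]
    ring
  have hsq : ∑ x, ∑ y, (if adj x y then (f x - f y) ^ 2 else 0) =
      2 * ∑ x, f x * ∑ y, (if adj x y then f x - f y else 0) := by
    have h1 : ∑ x, ∑ y, (if adj x y then (f x - f y) ^ 2 else 0) =
        ∑ x, ∑ y, (if adj x y then f x * (f x - f y) else 0) +
        ∑ x, ∑ y, (if adj x y then f y * (f y - f x) else 0) := by
      rw [← Finset.sum_add_distrib]
      refine Finset.sum_congr rfl fun x _ => ?_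
      rw [← Finset.sum_add_distrib]
      refine Finset.sum_congr rfl fun y _ => ?_
      split_ifs <;> ring
    have h2 : ∑ x, ∑ y, (if adj x y then f y * (f y - f x) else 0) =
        ∑ x, ∑ y, (if adj x y then f x * (f x - f y) else 0) := by
      rw [Finset.sum_comm]
      refine Finset.sum_congr rfl fun y _ => Finset.sum_congr rfl fun x _ => ?_
      by_cases hxy : adj x y
      · rw [if_pos hxy, if_pos (hadj _ _ hxy)]
      · rw [if_neg hxy, if_neg fun h' => hxy (hadj _ _ h')]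
    rw [h1, h2, ← two_mul]
    congr 1
    refine Finset.sum_congr rfl fun x _ => ?_
    rw [Finset.mul_sum]
    exact Finset.sum_congr rfl fun y _ => by split_ifs <;> ring
  rw [hsq]
  congr 1
  simp only [hlap]
  set c : V → ℝ := fun k => ∑ y, e k y * f y with hc
  calc ∑ x, f x * ∑ k, lam k * c k * e k x = ∑ x, ∑ k, lam k * c k * (e k x * f x) := by
        refine Finset.sum_congr rfl fun x _ => ?_
        rw [Finset.mul_sum]
        exact Finset.sum_congr rfl fun k _ => by ring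
    _ = ∑ k, ∑ x, lam k * c k * (e k x * f x) := Finset.sum_comm
    _ = ∑ k, lam k * c k ^ 2 := by
        refine Finset.sum_congr rfl fun k _ => ?_
        rw [← Finset.mul_sum, sq, mul_assoc]

/-- Wave function of labelled particles. -/
noncomputable def wf (N : ℕ) (ψ : (V → ℕ) → ℝ) (x : Fin N → V) : ℝ :=
  ψ (occ x) / Real.sqrt (cnt N (occ x))

lemma wf_perm (ψ : (V → ℕ) → ℝ) (x : Fin N → V) (p : Equiv.Perm (Fin N)) :
    wf N ψ (x ∘ p) = wf N ψ x := by
  rw [wf, occ_perm, wf]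

lemma cnt_occ_pos (x : Fin N → V) : (0 : ℝ) < cnt N (occ x) := by
  exact_mod_cast cnt_pos N (occ x) (sum_occ x)

lemma wf_inner {ψ₁ ψ₂ : (V → ℕ) → ℝ} (h1 : ∀ ζ, ζ ∉ occBox V n → ψ₁ ζ = 0)
    (h2 : ∀ ζ, ∑ v, ζ v ≠ N → ψ₁ ζ = 0) :
    ∑ x, wf N ψ₁ x * wf N ψ₂ x = ∑ ζ ∈ occBox V n, ψ₁ ζ * ψ₂ ζ := by
  rw [← fiber_sum n N (fun ζ => ψ₁ ζ * ψ₂ ζ) (fun ζ hζ => by simp only [h1 ζ hζ, zero_mul])
    (fun ζ hζ => by simp only [h2 ζ hζ, zero_mul])]
  refine Finset.sum_congr rfl fun x _ => ?_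
  have h3 := cnt_occ_pos x
  rw [wf, wf, div_mul_div_comm, Real.mul_self_sqrt h3.le]

lemma four_perm (hS : Spec adj e lam) (F : (Fin N → V) → ℝ)
    (hF : ∀ x (p : Equiv.Perm (Fin N)), F (x ∘ p) = F x) (k : Fin N → V)
    (p : Equiv.Perm (Fin N)) : four e F (k ∘ p) = four e F k := by
  unfold four
  rw [← (Equiv.arrowCongr p.symm (Equiv.refl V)).sum_comp]
  refine Finset.sum_congr rfl fun x _ => ?_
  have e1 : (Equiv.arrowCongr p.symm (Equiv.refl V)) x = x ∘ p := by
    ext j; simp [Equiv.arrowCongr]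
  rw [e1]
  have e2 : tens e (k ∘ p) (x ∘ p) = tens e k x :=
    Equiv.prod_comp p (fun i => e (k i) (x i))
  rw [e2, hF]

lemma four_occ (hS : Spec adj e lam) (F : (Fin N → V) → ℝ)
    (hF : ∀ x (p : Equiv.Perm (Fin N)), F (x ∘ p) = F x) {k l : Fin N → V} (h : occ k = occ l) :
    four e F k = four e F l := by
  obtain ⟨p, hp⟩ := exists_perm h
  rw [← hp, four_perm hS F hF]

lemma four_cons (F : (Fin (N + 1) → V) → ℝ) (v : V) (k : Fin N → V) :
    four e F (Fin.cons v k) = four e (fun x => ∑ w, e v w * F (Fin.cons w x)) k := by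
  unfold four
  rw [← (Fin.consEquiv fun _ => V).sum_comp, Fintype.sum_prod_type, Finset.sum_comm]
  refine Finset.sum_congr rfl fun x _ => ?_
  rw [Finset.mul_sum]
  refine Finset.sum_congr rfl fun w _ => ?_
  change tens e (Fin.cons v k : Fin (N + 1) → V) (Fin.cons w x : Fin (N + 1) → V) *
    F (Fin.cons w x) = _
  rw [tens, Fin.prod_univ_succ]
  simp only [Fin.cons_zero, Fin.cons_succ]
  rw [tens]; ring

lemma hop_sum (ψ : (V → ℕ) → ℝ) (h1 : ∀ ζ, ζ ∉ occBox V n → ψ ζ = 0)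
    (h2 : ∀ ζ, ∑ v, ζ v ≠ N + 1 → ψ ζ = 0) (v w : V) :
    ∑ σ ∈ occBox V n, (Real.sqrt ((σ v : ℝ) + 1) * ψ (σ + Pi.single v 1) -
      Real.sqrt ((σ w : ℝ) + 1) * ψ (σ + Pi.single w 1)) ^ 2 =
    (N + 1 : ℝ) * ∑ x : Fin N → V, (wf (N + 1) ψ (Fin.cons v x) -
      wf (N + 1) ψ (Fin.cons w x)) ^ 2 := by
  have hout : ∀ ζ : V → ℕ, ζ ∉ occBox V n → ∀ v, ψ (ζ + Pi.single v 1) = 0 := by
    intro ζ hζ v
    apply h1
    rw [mem_occBox] at hζ ⊢
    push Not at hζ ⊢
    obtain ⟨x, hx⟩ := hζ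
    refine ⟨x, ?_⟩
    rw [Pi.add_apply]; omega
  have hsec : ∀ ζ : V → ℕ, ∑ u, ζ u ≠ N → ∀ v, ψ (ζ + Pi.single v 1) = 0 := by
    intro ζ hζ v
    apply h2
    simp only [Pi.add_apply, Finset.sum_add_distrib]
    rw [Finset.sum_pi_single']
    simp [hζ]
  refine (fiber_sum n N (fun σ => (Real.sqrt ((σ v : ℝ) + 1) * ψ (σ + Pi.single v 1) -
      Real.sqrt ((σ w : ℝ) + 1) * ψ (σ + Pi.single w 1)) ^ 2)
      (fun ζ hζ => by simp only [hout ζ hζ]; simp)
      (fun ζ hζ => by simp only [hsec ζ hζ]; simp)).symm.trans ?_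
  rw [Finset.mul_sum]
  refine Finset.sum_congr rfl fun x _ => ?_
  have hc := cnt_occ_pos x
  have hwf : ∀ u, Real.sqrt (N + 1 : ℝ) * wf (N + 1) ψ (Fin.cons u x) =
      Real.sqrt ((occ x u : ℝ) + 1) * ψ (occ x + Pi.single u 1) / Real.sqrt (cnt N (occ x)) := by
    intro u
    rw [wf, occ_cons]
    have hc2 : (0 : ℝ) < cnt (N + 1) (occ x + Pi.single u 1) := by
      rw [← occ_cons]; exact cnt_occ_pos _
    have h3 : (cnt (N + 1) (occ x + Pi.single u 1) : ℝ) * ((occ x u : ℝ) + 1) =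
        ((N : ℝ) + 1) * cnt N (occ x) := by exact_mod_cast cnt_succ N (occ x) u
    have h4 : Real.sqrt (cnt (N + 1) (occ x + Pi.single u 1)) * Real.sqrt ((occ x u : ℝ) + 1) =
        Real.sqrt ((N : ℝ) + 1) * Real.sqrt (cnt N (occ x)) := by
      rw [← Real.sqrt_mul hc2.le, h3, Real.sqrt_mul (by positivity)]
    have h5 : 0 < Real.sqrt (cnt (N + 1) (occ x + Pi.single u 1)) := Real.sqrt_pos.2 hc2
    have h6 : 0 < Real.sqrt (cnt N (occ x)) := Real.sqrt_pos.2 hc
    rw [mul_div_assoc', div_eq_div_iff h5.ne' h6.ne']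
    calc _ = (Real.sqrt ((N : ℝ) + 1) * Real.sqrt (cnt N (occ x))) * ψ (occ x + Pi.single u 1) := by
          ring
      _ = _ := by rw [← h4]; ring
  have h7 : (N + 1 : ℝ) * (wf (N + 1) ψ (Fin.cons v x) - wf (N + 1) ψ (Fin.cons w x)) ^ 2 =
      (Real.sqrt (N + 1 : ℝ) * wf (N + 1) ψ (Fin.cons v x) -
        Real.sqrt (N + 1 : ℝ) * wf (N + 1) ψ (Fin.cons w x)) ^ 2 := by
    rw [← mul_sub, mul_pow, Real.sq_sqrt (by positivity)]
  rw [h7, hwf, hwf, ← sub_div, div_pow, Real.sq_sqrt hc.le]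

/-- One-particle energies summed. -/
noncomputable def bosE (n : ℕ) (lam : V → ℝ) (m : V → ℕ) : ℝ := (n : ℝ) / 2 * ∑ v, lam v * m v

lemma sum_lam_occ (k : Fin N → V) : ∑ v, lam v * (occ k v : ℝ) = ∑ i, lam (k i) := by
  unfold occ
  push_cast
  simp only [Finset.mul_sum]
  rw [Finset.sum_comm]
  refine Finset.sum_congr rfl fun i _ => ?_
  simp

theorem kform_eq (hS : Spec adj e lam) (hadj : ∀ x y, adj x y → adj y x)
    (h1 : ∀ ζ, ζ ∉ occBox V n → ψ ζ = 0) (h2 : ∀ ζ, ∑ v, ζ v ≠ N → ψ ζ = 0) :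
    kform n adj ψ = ∑ k : Fin N → V, bosE n lam (occ k) * four e (wf N ψ) k ^ 2 := by
  rcases N with _ | N
  · have h3 : ∀ (σ : V → ℕ) v, ψ (σ + Pi.single v 1) = 0 := by
      intro σ v
      apply h2
      simp only [Pi.add_apply, Finset.sum_add_distrib]
      rw [Finset.sum_pi_single']
      simp
    have h4 : kform n adj ψ = 0 := by
      unfold kform
      simp [h3]
    rw [h4]
    symm
    refine Finset.sum_eq_zero fun k _ => ?_
    rw [bosE, sum_lam_occ]; simp
  · unfold kform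
    have h3 : ∀ v w, (if adj v w then ∑ σ ∈ occBox V n,
        (Real.sqrt ((σ v : ℝ) + 1) * ψ (σ + Pi.single v 1) -
          Real.sqrt ((σ w : ℝ) + 1) * ψ (σ + Pi.single w 1)) ^ 2 else 0) =
        (N + 1 : ℝ) * ∑ x : Fin N → V, (if adj v w then (wf (N + 1) ψ (Fin.cons v x) -
          wf (N + 1) ψ (Fin.cons w x)) ^ 2 else 0) := by
      intro v w
      split_ifs
      · exact hop_sum ψ h1 h2 v w
      · simp
    simp only [h3]
    have h4 : ∑ v, ∑ w, (N + 1 : ℝ) * ∑ x : Fin N → V, (if adj v w then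
        (wf (N + 1) ψ (Fin.cons v x) - wf (N + 1) ψ (Fin.cons w x)) ^ 2 else 0) =
        (N + 1 : ℝ) * ∑ x : Fin N → V, ∑ v, ∑ w, (if adj v w then
        (wf (N + 1) ψ (Fin.cons v x) - wf (N + 1) ψ (Fin.cons w x)) ^ 2 else 0) := by
      have h5 := sum_swap3 (Finset.univ : Finset (Fin N → V)) (fun _ => (N + 1 : ℝ))
        (fun v w x => if adj v w then
          (wf (N + 1) ψ (Fin.cons v x) - wf (N + 1) ψ (Fin.cons w x)) ^ 2 else 0)
      simp only [← Finset.mul_sum] at h5 ⊢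
      exact h5
    rw [h4]
    have h6 : ∀ x : Fin N → V, ∑ v, ∑ w, (if adj v w then
        (wf (N + 1) ψ (Fin.cons v x) - wf (N + 1) ψ (Fin.cons w x)) ^ 2 else 0) =
        2 * ∑ k, lam k * (∑ v, e k v * wf (N + 1) ψ (Fin.cons v x)) ^ 2 := fun x =>
      edge_spectral hS hadj (fun v => wf (N + 1) ψ (Fin.cons v x))
    simp only [h6]
    have h7 : ∑ x : Fin N → V, 2 * ∑ k, lam k *
        (∑ v, e k v * wf (N + 1) ψ (Fin.cons v x)) ^ 2 =
        2 * ∑ k : Fin (N + 1) → V, lam (k 0) * four e (wf (N + 1) ψ) k ^ 2 := by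
      rw [← Finset.mul_sum, Finset.sum_comm]
      congr 1
      rw [← (Fin.consEquiv fun _ => V).sum_comp, Fintype.sum_prod_type]
      refine Finset.sum_congr rfl fun k0 _ => ?_
      have h8 := parseval hS (fun x : Fin N → V => ∑ v, e k0 v * wf (N + 1) ψ (Fin.cons v x))
      rw [← Finset.mul_sum, ← h8, Finset.mul_sum]
      refine Finset.sum_congr rfl fun k _ => ?_
      change _ = lam ((Fin.cons k0 k : Fin (N + 1) → V) 0) *
        four e (wf (N + 1) ψ) (Fin.cons k0 k) ^ 2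
      rw [four_cons, Fin.cons_zero]
    rw [h7]
    have h9 : ∀ i : Fin (N + 1), ∑ k : Fin (N + 1) → V, lam (k i) * four e (wf (N + 1) ψ) k ^ 2 =
        ∑ k : Fin (N + 1) → V, lam (k 0) * four e (wf (N + 1) ψ) k ^ 2 := by
      intro i
      rw [← (Equiv.arrowCongr (Equiv.swap 0 i) (Equiv.refl V)).sum_comp]
      refine Finset.sum_congr rfl fun k _ => ?_
      have e1 : (Equiv.arrowCongr (Equiv.swap 0 i) (Equiv.refl V)) k = k ∘ Equiv.swap 0 i := by
        ext j; simp [Equiv.arrowCongr]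
      rw [e1, four_perm hS _ (wf_perm ψ)]
      simp
    have h10 : ∑ k : Fin (N + 1) → V, bosE n lam (occ k) * four e (wf (N + 1) ψ) k ^ 2 =
        (n : ℝ) / 2 * ∑ i : Fin (N + 1), ∑ k : Fin (N + 1) → V,
          lam (k i) * four e (wf (N + 1) ψ) k ^ 2 := by
      rw [Finset.sum_comm, Finset.mul_sum]
      refine Finset.sum_congr rfl fun k _ => ?_
      rw [bosE, sum_lam_occ, ← Finset.sum_mul]
      ring
    rw [h10]
    simp only [h9]
    rw [Finset.sum_const, Finset.card_univ, Fintype.card_fin, nsmul_eq_mul]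
    push_cast
    ring

end Vale.Agent.P361.B
end

section

set_option linter.unusedSectionVars false

/-!
Part B: low-energy part of the partition function against free bosons.
-/

namespace Vale.Agent.P361.B

open Finset Filter Topology

variable {V : Type*} [Fintype V] [DecidableEq V]
variable {n N : ℕ} {adj : V → V → Prop} [DecidableRel adj] {e : V → V → ℝ} {lam : V → ℝ}

lemma bessel {X ι : Type*} [Fintype X] (I : Finset ι) (F : ι → X → ℝ) (Φ : X → ℝ)
    (h1 : ∀ i ∈ I, ∑ x, F i x ^ 2 = 1) (h2 : ∀ i ∈ I, ∀ j ∈ I, i ≠ j → ∑ x, F i x * F j x = 0) :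
    ∑ i ∈ I, (∑ x, Φ x * F i x) ^ 2 ≤ ∑ x, Φ x ^ 2 := by
  set c : ι → ℝ := fun i => ∑ x, Φ x * F i x with hc
  have h0 : 0 ≤ ∑ x, (Φ x - ∑ i ∈ I, c i * F i x) ^ 2 := Finset.sum_nonneg fun x _ => sq_nonneg _
  have e1 : ∑ x, (Φ x - ∑ i ∈ I, c i * F i x) ^ 2 = ∑ x, Φ x ^ 2 -
      2 * ∑ x, Φ x * ∑ i ∈ I, c i * F i x + ∑ x, (∑ i ∈ I, c i * F i x) ^ 2 := by
    rw [Finset.mul_sum, ← Finset.sum_sub_distrib, ← Finset.sum_add_distrib]
    exact Finset.sum_congr rfl fun x _ => by ring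
  have e2 : ∑ x, Φ x * ∑ i ∈ I, c i * F i x = ∑ i ∈ I, c i ^ 2 := by
    simp only [Finset.mul_sum]
    rw [Finset.sum_comm]
    refine Finset.sum_congr rfl fun i _ => ?_
    calc ∑ x, Φ x * (c i * F i x) = c i * ∑ x, Φ x * F i x := by
          rw [Finset.mul_sum]; exact Finset.sum_congr rfl fun x _ => by ring
      _ = c i ^ 2 := by rw [sq]
  have e3 : ∑ x, (∑ i ∈ I, c i * F i x) ^ 2 = ∑ i ∈ I, c i ^ 2 := by
    have : ∀ x, (∑ i ∈ I, c i * F i x) ^ 2 = ∑ i ∈ I, ∑ j ∈ I, c i * c j * (F i x * F j x) := by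
      intro x
      rw [sq, Finset.sum_mul_sum]
      exact Finset.sum_congr rfl fun i _ => Finset.sum_congr rfl fun j _ => by ring
    simp only [this]
    rw [Finset.sum_comm]
    refine Finset.sum_congr rfl fun i hi => ?_
    rw [Finset.sum_comm]
    simp only [← Finset.mul_sum]
    rw [Finset.sum_eq_single i]
    · have : ∑ x, F i x * F i x = 1 := by rw [← h1 i hi]; exact Finset.sum_congr rfl fun x _ => by ring
      rw [this]; ring
    · intro j hj hij
      rw [h2 i hi j hj (Ne.symm hij), mul_zero]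
    · intro h; exact absurd hi h
  rw [e1, e2, e3] at h0
  linarith

/-- Occupation numbers of `N` particles. -/
noncomputable def occImg (V : Type*) [Fintype V] [DecidableEq V] (N : ℕ) : Finset (V → ℕ) :=
  (Finset.univ : Finset (Fin N → V)).image occ

theorem peierls_bosons {ι : Type*} (hS : Spec adj e lam) (hadj : ∀ x y, adj x y → adj y x)
    (I : Finset ι) (E : ι → ℝ) (ψ : ι → (V → ℕ) → ℝ) (h : ∀ i ∈ I, IsEig n adj N (E i) (ψ i))
    (horth : ∀ i ∈ I, ∀ j ∈ I, i ≠ j → ∑ ζ ∈ occBox V n, ψ i ζ * ψ j ζ = 0)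
    {d : ℝ} (hd : ∀ i ∈ I, kform n adj (ψ i) ≤ E i + d) {β : ℝ} (hβ : 0 ≤ β) :
    ∑ i ∈ I, Real.exp (-(β * E i)) ≤
      Real.exp (β * d) * ∑ m ∈ occImg V N, Real.exp (-(β * bosE n lam m)) := by
  classical
  set w : ι → (V → ℕ) → ℝ := fun i m =>
    ∑ k : Fin N → V, if occ k = m then four e (wf N (ψ i)) k ^ 2 else 0 with hw
  have hw0 : ∀ i m, 0 ≤ w i m := fun i m =>
    Finset.sum_nonneg fun k _ => by split_ifs <;> positivity
  have hfib : ∀ (i : ι) (g : (V → ℕ) → ℝ), ∑ m ∈ occImg V N, g m * w i m =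
      ∑ k : Fin N → V, g (occ k) * four e (wf N (ψ i)) k ^ 2 := by
    intro i g
    simp only [hw, Finset.mul_sum]
    rw [Finset.sum_comm]
    refine Finset.sum_congr rfl fun k _ => ?_
    rw [Finset.sum_eq_single (occ k)]
    · rw [if_pos rfl]
    · intro m _ hm
      rw [if_neg (Ne.symm hm), mul_zero]
    · intro hk
      exact absurd (Finset.mem_image_of_mem _ (Finset.mem_univ k)) hk
  have hone : ∀ i ∈ I, ∑ m ∈ occImg V N, w i m = 1 := by
    intro i hi
    have h1 := hfib i (fun _ => 1)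
    simp only [one_mul] at h1
    rw [h1, parseval hS]
    have h2 := wf_inner (ψ₂ := ψ i) (h i hi).supp (h i hi).sect
    have h3 : ∑ x, wf N (ψ i) x ^ 2 = ∑ x, wf N (ψ i) x * wf N (ψ i) x :=
      Finset.sum_congr rfl fun x _ => by ring
    rw [h3, h2, ← (h i hi).norm]
    exact Finset.sum_congr rfl fun x _ => by ring
  have hle : ∀ m ∈ occImg V N, ∑ i ∈ I, w i m ≤ 1 := by
    intro m hm
    obtain ⟨k0, _, hk0⟩ := Finset.mem_image.1 hm
    have hc : (0 : ℝ) < cnt N m := by rw [← hk0]; exact cnt_occ_pos k0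
    have hwm : ∀ i, w i m = cnt N m * four e (wf N (ψ i)) k0 ^ 2 := by
      intro i
      simp only [hw]
      rw [cnt_eq_sum]
      push_cast
      rw [Finset.sum_mul]
      refine Finset.sum_congr rfl fun k _ => ?_
      split_ifs with hk
      · rw [one_mul, four_occ hS _ (wf_perm (ψ i)) (hk.trans hk0.symm)]
      · rw [zero_mul]
    set Φ : (Fin N → V) → ℝ := fun x => ∑ k : Fin N → V, if occ k = m then tens e k x else 0 with hΦ
    have hΦF : ∀ i, ∑ x, Φ x * wf N (ψ i) x = cnt N m * four e (wf N (ψ i)) k0 := by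
      intro i
      simp only [hΦ, Finset.sum_mul]
      rw [Finset.sum_comm, cnt_eq_sum]
      push_cast
      rw [Finset.sum_mul]
      refine Finset.sum_congr rfl fun k _ => ?_
      by_cases hk : occ k = m
      · simp only [if_pos hk, one_mul]
        rw [four_occ hS _ (wf_perm (ψ i)) (hk0.trans hk.symm)]
        rfl
      · simp only [if_neg hk, zero_mul, Finset.sum_const_zero]
    have hΦ2 : ∑ x, Φ x ^ 2 = cnt N m := by
      have h1 : ∀ x, Φ x ^ 2 = ∑ k : Fin N → V, ∑ l : Fin N → V,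
          (if occ k = m then (1 : ℝ) else 0) * (if occ l = m then (1 : ℝ) else 0) *
            (tens e k x * tens e l x) := by
        intro x
        rw [sq]
        simp only [hΦ]
        rw [Finset.sum_mul_sum]
        refine Finset.sum_congr rfl fun k _ => Finset.sum_congr rfl fun l _ => ?_
        by_cases hk : occ k = m <;> by_cases hl : occ l = m <;> simp [hk, hl]
      simp only [h1]
      rw [Finset.sum_comm, cnt_eq_sum]
      push_cast
      refine Finset.sum_congr rfl fun k _ => ?_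
      rw [Finset.sum_comm]
      simp only [← Finset.mul_sum, tens_orth hS]
      rw [Finset.sum_eq_single k]
      · by_cases hk : occ k = m <;> simp [hk]
      · intro l _ hl
        rw [if_neg (Ne.symm hl), mul_zero]
      · simp
    have hb := bessel I (fun i => wf N (ψ i)) Φ
      (fun i hi => by
        have h2 := wf_inner (ψ₂ := ψ i) (h i hi).supp (h i hi).sect
        have h3 : ∑ x, wf N (ψ i) x ^ 2 = ∑ x, wf N (ψ i) x * wf N (ψ i) x :=
          Finset.sum_congr rfl fun x _ => by ring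
        rw [h3, h2, ← (h i hi).norm]
        exact Finset.sum_congr rfl fun x _ => by ring)
      (fun i hi j hj hij => by
        rw [wf_inner (h i hi).supp (h i hi).sect]
        exact horth i hi j hj hij)
    rw [hΦ2] at hb
    simp only [hΦF] at hb
    have h4 : ∑ i ∈ I, ((cnt N m : ℝ) * four e (wf N (ψ i)) k0) ^ 2 =
        cnt N m * ∑ i ∈ I, w i m := by
      rw [Finset.mul_sum]
      exact Finset.sum_congr rfl fun i _ => by rw [hwm]; ring
    rw [h4] at hb
    by_contra hcon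
    push Not at hcon
    have : (cnt N m : ℝ) * 1 < cnt N m * ∑ i ∈ I, w i m := mul_lt_mul_of_pos_left hcon hc
    linarith
  have hterm : ∀ i ∈ I, Real.exp (-(β * E i)) ≤
      Real.exp (β * d) * ∑ m ∈ occImg V N, w i m * Real.exp (-(β * bosE n lam m)) := by
    intro i hi
    have h1 : kform n adj (ψ i) = ∑ m ∈ occImg V N, bosE n lam m * w i m := by
      rw [hfib, kform_eq hS hadj (h i hi).supp (h i hi).sect]
    have h2 : Real.exp (∑ m ∈ occImg V N, w i m * (-(β * bosE n lam m))) ≤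
        ∑ m ∈ occImg V N, w i m * Real.exp (-(β * bosE n lam m)) := by
      have := convexOn_exp.map_sum_le (t := occImg V N) (w := w i)
        (p := fun m => -(β * bosE n lam m)) (fun m _ => hw0 i m) (hone i hi)
        (fun m _ => Set.mem_univ _)
      simpa [smul_eq_mul] using this
    have h3 : ∑ m ∈ occImg V N, w i m * (-(β * bosE n lam m)) = -(β * kform n adj (ψ i)) := by
      rw [h1, Finset.mul_sum, ← Finset.sum_neg_distrib]
      exact Finset.sum_congr rfl fun m _ => by ring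
    rw [h3] at h2
    calc Real.exp (-(β * E i)) ≤ Real.exp (β * d + -(β * kform n adj (ψ i))) := by
          apply Real.exp_le_exp.2
          have := mul_le_mul_of_nonneg_left (hd i hi) hβ
          linarith
      _ = Real.exp (β * d) * Real.exp (-(β * kform n adj (ψ i))) := Real.exp_add _ _
      _ ≤ _ := mul_le_mul_of_nonneg_left h2 (Real.exp_pos _).le
  calc ∑ i ∈ I, Real.exp (-(β * E i))
      ≤ ∑ i ∈ I, Real.exp (β * d) * ∑ m ∈ occImg V N, w i m * Real.exp (-(β * bosE n lam m)) :=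
        Finset.sum_le_sum hterm
    _ = Real.exp (β * d) * ∑ m ∈ occImg V N, (∑ i ∈ I, w i m) * Real.exp (-(β * bosE n lam m)) := by
        rw [← Finset.mul_sum, Finset.sum_comm]
        congr 1
        exact Finset.sum_congr rfl fun m _ => by rw [Finset.sum_mul]
    _ ≤ _ := by
        refine mul_le_mul_of_nonneg_left (Finset.sum_le_sum fun m hm => ?_) (Real.exp_pos _).le
        calc (∑ i ∈ I, w i m) * Real.exp (-(β * bosE n lam m))
            ≤ 1 * Real.exp (-(β * bosE n lam m)) :=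
              mul_le_mul_of_nonneg_right (hle m hm) (Real.exp_pos _).le
          _ = _ := one_mul _

/-- Low-energy, low-number part of the partition function. -/
theorem low_part {ι : Type*} (hn : 1 ≤ n) (hS : Spec adj e lam)
    (hadj : ∀ x y, adj x y → adj y x)
    (hirr : ∀ x, ¬ adj x x) {D : ℝ} (hD : ∀ x, ∑ y, (if adj x y then (1 : ℝ) else 0) ≤ D)
    (hD0 : 0 ≤ D)
    {b : V → ℝ} (hb : ∀ k x, e k x ^ 2 ≤ b k) (hb0 : ∀ k, 0 ≤ b k)
    {E1 : ℝ} (hE1 : 0 < E1) {N1 : ℕ} {β t : ℝ} (hβ : 0 ≤ β) (ht : 0 < t)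
    (hlam : ∀ k, 0 ≤ lam k)
    (I : Finset ι) (E : ι → ℝ) (Nn : ι → ℕ) (ψ : ι → (V → ℕ) → ℝ)
    (h : ∀ i ∈ I, IsEig n adj (Nn i) (E i) (ψ i)) (hE0 : ∀ i ∈ I, 0 ≤ E i)
    (hEE : ∀ i ∈ I, E i ≤ E1) (hNN : ∀ i ∈ I, Nn i ≤ N1)
    (horth : ∀ i ∈ I, ∀ j ∈ I, i ≠ j → ∑ ζ ∈ occBox V n, ψ i ζ * ψ j ζ = 0) :
    ∑ i ∈ I, Real.exp (-(β * E i + t * Nn i)) ≤
      Real.exp (β * (2 * D * Real.exp 2 * ((N1 : ℝ) ^ 2 * ∑ k, Real.exp (-(n * lam k / E1)) * b k))) *
      ∏ k, (1 - Real.exp (-(t + β * ((n : ℝ) / 2 * lam k))))⁻¹ := by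
  classical
  set d := 2 * D * Real.exp 2 * ((N1 : ℝ) ^ 2 * ∑ k, Real.exp (-(n * lam k / E1)) * b k) with hd
  have hP0 : 0 ≤ ∑ k, Real.exp (-(n * lam k / E1)) * b k :=
    Finset.sum_nonneg fun k _ => mul_nonneg (Real.exp_pos _).le (hb0 k)
  -- energy bound
  have hkf : ∀ i ∈ I, kform n adj (ψ i) ≤ E i + d := by
    intro i hi
    have h1 := (h i hi).kform_le hadj hirr
    have h2 := (h i hi).edge_sum_le hn (hE0 i hi) hadj hirr hS hD hb
      (s := 1 / (2 * E1)) (by positivity)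
    have e1 : ∀ k, -(2 * (1 / (2 * E1)) * n * lam k) = -(n * lam k / E1) := by
      intro k; field_simp
    simp only [e1] at h2
    have h3 : Real.exp (4 * E i * (1 / (2 * E1))) ≤ Real.exp 2 := by
      apply Real.exp_le_exp.2
      rw [mul_one_div, div_le_iff₀ (by positivity)]
      have := hEE i hi
      linarith
    have h4 : (Nn i : ℝ) ^ 2 ≤ (N1 : ℝ) ^ 2 := by
      have : (Nn i : ℝ) ≤ N1 := by exact_mod_cast hNN i hi
      exact pow_le_pow_left₀ (by positivity) this 2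
    have h5 : 2 * D * Real.exp (4 * E i * (1 / (2 * E1))) *
        ((Nn i : ℝ) ^ 2 * ∑ k, Real.exp (-(n * lam k / E1)) * b k) ≤ d := by
      rw [hd]
      have h6 : (Nn i : ℝ) ^ 2 * ∑ k, Real.exp (-(n * lam k / E1)) * b k ≤
          (N1 : ℝ) ^ 2 * ∑ k, Real.exp (-(n * lam k / E1)) * b k :=
        mul_le_mul_of_nonneg_right h4 hP0
      exact mul_le_mul (mul_le_mul_of_nonneg_left h3 (by positivity)) h6 (by positivity)
        (by positivity)
    linarith
  -- split by number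
  have hsplit : ∑ i ∈ I, Real.exp (-(β * E i + t * Nn i)) =
      ∑ N ∈ Finset.range (N1 + 1), Real.exp (-(t * N)) *
        ∑ i ∈ I.filter (fun i => Nn i = N), Real.exp (-(β * E i)) := by
    rw [← Finset.sum_fiberwise_of_maps_to (s := I) (t := Finset.range (N1 + 1)) (g := Nn)
      (fun i hi => Finset.mem_range.2 (Nat.lt_succ_of_le (hNN i hi)))]
    refine Finset.sum_congr rfl fun N _ => ?_
    rw [Finset.mul_sum]
    refine Finset.sum_congr rfl fun i hi => ?_
    rw [(Finset.mem_filter.1 hi).2, ← Real.exp_add]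
    congr 1; ring
  rw [hsplit]
  have hN : ∀ N, ∑ i ∈ I.filter (fun i => Nn i = N), Real.exp (-(β * E i)) ≤
      Real.exp (β * d) * ∑ m ∈ occImg V N, Real.exp (-(β * bosE n lam m)) := by
    intro N
    refine peierls_bosons hS hadj _ E ψ ?_ ?_ ?_ hβ
    · intro i hi
      have := h i (Finset.mem_filter.1 hi).1
      rwa [(Finset.mem_filter.1 hi).2] at this
    · intro i hi j hj hij
      exact horth i (Finset.mem_filter.1 hi).1 j (Finset.mem_filter.1 hj).1 hij
    · intro i hi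
      exact hkf i (Finset.mem_filter.1 hi).1
  have hstep : ∑ N ∈ Finset.range (N1 + 1), Real.exp (-(t * N)) *
        ∑ i ∈ I.filter (fun i => Nn i = N), Real.exp (-(β * E i)) ≤
      Real.exp (β * d) * ∑ N ∈ Finset.range (N1 + 1), ∑ m ∈ occImg V N,
        ∏ v, Real.exp (-(t + β * ((n : ℝ) / 2 * lam v))) ^ (m v) := by
    rw [Finset.mul_sum]
    refine Finset.sum_le_sum fun N _ => ?_
    calc Real.exp (-(t * N)) * ∑ i ∈ I.filter (fun i => Nn i = N), Real.exp (-(β * E i))
        ≤ Real.exp (-(t * N)) * (Real.exp (β * d) *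
          ∑ m ∈ occImg V N, Real.exp (-(β * bosE n lam m))) :=
          mul_le_mul_of_nonneg_left (hN N) (Real.exp_pos _).le
      _ = Real.exp (β * d) * ∑ m ∈ occImg V N, Real.exp (-(t * N)) *
          Real.exp (-(β * bosE n lam m)) := by
          rw [Finset.mul_sum, Finset.mul_sum, Finset.mul_sum]
          exact Finset.sum_congr rfl fun m _ => by ring
      _ = _ := by
          congr 1
          refine Finset.sum_congr rfl fun m hm => ?_
          obtain ⟨k, _, hk⟩ := Finset.mem_image.1 hm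
          have hsum : ∑ v, (m v : ℝ) = N := by rw [← hk]; exact_mod_cast sum_occ k
          rw [← Real.exp_add]
          have : ∏ v, Real.exp (-(t + β * ((n : ℝ) / 2 * lam v))) ^ (m v) =
              Real.exp (∑ v, (m v : ℝ) * (-(t + β * ((n : ℝ) / 2 * lam v)))) := by
            rw [Real.exp_sum]
            exact Finset.prod_congr rfl fun v _ => by rw [← Real.exp_nat_mul]
          rw [this, bosE, ← hsum]
          congr 1
          rw [Finset.mul_sum, Finset.mul_sum, Finset.mul_sum, ← Finset.sum_neg_distrib,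
            ← Finset.sum_neg_distrib, ← Finset.sum_add_distrib]
          exact Finset.sum_congr rfl fun v _ => by ring
  refine hstep.trans (mul_le_mul_of_nonneg_left ?_ (Real.exp_pos _).le)
  set q : V → ℝ := fun v => Real.exp (-(t + β * ((n : ℝ) / 2 * lam v))) with hq
  have hq0 : ∀ v, 0 ≤ q v := fun v => (Real.exp_pos _).le
  have hq1 : ∀ v, q v < 1 := by
    intro v
    simp only [hq]
    rw [Real.exp_lt_one_iff]
    have : 0 ≤ β * ((n : ℝ) / 2 * lam v) := mul_nonneg hβ (mul_nonneg (by positivity) (hlam v))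
    linarith
  have hdisj : ∀ a ∈ Finset.range (N1 + 1), ∀ c ∈ Finset.range (N1 + 1), a ≠ c →
      Disjoint (occImg V a) (occImg V c) := by
    intro a _ c _ hac
    rw [Finset.disjoint_left]
    intro m hma hmc
    obtain ⟨k, _, hk⟩ := Finset.mem_image.1 hma
    obtain ⟨l, _, hl⟩ := Finset.mem_image.1 hmc
    apply hac
    rw [← sum_occ k, ← sum_occ l, hk, hl]
  rw [← Finset.sum_biUnion hdisj]
  calc ∑ m ∈ (Finset.range (N1 + 1)).biUnion (fun N => occImg V N), ∏ v, q v ^ m v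
      ≤ ∑ m ∈ Fintype.piFinset (fun _ : V => Finset.range (N1 + 1)), ∏ v, q v ^ m v := by
        refine Finset.sum_le_sum_of_subset_of_nonneg ?_ fun m _ _ =>
          Finset.prod_nonneg fun v _ => pow_nonneg (hq0 v) _
        intro m hm
        obtain ⟨N, hN, hm2⟩ := Finset.mem_biUnion.1 hm
        obtain ⟨k, _, hk⟩ := Finset.mem_image.1 hm2
        rw [Fintype.mem_piFinset]
        intro v
        have h1 : m v ≤ ∑ w, m w := Finset.single_le_sum (fun _ _ => Nat.zero_le _) (Finset.mem_univ v)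
        have h2 : ∑ w, m w = N := by rw [← hk]; exact sum_occ k
        have h3 := Finset.mem_range.1 hN
        rw [Finset.mem_range]; omega
    _ = ∏ v, ∑ j ∈ Finset.range (N1 + 1), q v ^ j := by
        rw [Finset.prod_univ_sum]
    _ ≤ ∏ v, (1 - q v)⁻¹ := by
        refine Finset.prod_le_prod (fun v _ => Finset.sum_nonneg fun j _ => pow_nonneg (hq0 v) _)
          fun v _ => ?_
        rw [← tsum_geometric_of_lt_one (hq0 v) (hq1 v)]
        exact (summable_geometric_of_lt_one (hq0 v) (hq1 v)).sum_le_tsum _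
          fun j _ => pow_nonneg (hq0 v) _

end Vale.Agent.P361.B
end

section

/-!
Real matrices inside complex matrices: exponential, trace, Peierls–Bogoliubov and positivity for
real symmetric matrices.
-/

namespace Vale.Agent.P361.LRO

open Matrix Filter Topology Finset
open scoped ComplexOrder

section CMat

variable {ι : Type*}

/-- Complexification of a real matrix. -/
def cM (A : Matrix ι ι ℝ) : Matrix ι ι ℂ := A.map (fun r : ℝ => (r : ℂ))

theorem cM_apply (A : Matrix ι ι ℝ) (σ τ : ι) : cM A σ τ = (A σ τ : ℂ) := rfl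

theorem cM_zero : cM (0 : Matrix ι ι ℝ) = 0 := by
  ext i j; simp [cM_apply]

theorem cM_add (A B : Matrix ι ι ℝ) : cM (A + B) = cM A + cM B := by
  ext i j; simp [cM_apply]

theorem cM_sub (A B : Matrix ι ι ℝ) : cM (A - B) = cM A - cM B := by
  ext i j; simp [cM_apply]

theorem cM_neg (A : Matrix ι ι ℝ) : cM (-A) = -cM A := by
  ext i j; simp [cM_apply]

theorem cM_smul (c : ℝ) (A : Matrix ι ι ℝ) : cM (c • A) = (c : ℂ) • cM A := by
  ext i j; simp [cM_apply]

theorem cM_sum {κ : Type*} (s : Finset κ) (A : κ → Matrix ι ι ℝ) :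
    cM (∑ k ∈ s, A k) = ∑ k ∈ s, cM (A k) := by
  ext i j; simp [cM_apply, Matrix.sum_apply]

theorem cM_list_sum (l : List (Matrix ι ι ℝ)) : cM l.sum = (l.map cM).sum := by
  induction l with
  | nil => simp [cM_zero]
  | cons a l ih => rw [List.sum_cons, List.map_cons, List.sum_cons, cM_add, ih]

theorem cM_conjTranspose (A : Matrix ι ι ℝ) : (cM A)ᴴ = cM Aᵀ := by
  ext i j; simp [cM_apply, Matrix.conjTranspose_apply]

theorem cM_isHermitian {A : Matrix ι ι ℝ} (hA : A.IsSymm) : (cM A).IsHermitian := by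
  rw [Matrix.IsHermitian, cM_conjTranspose, hA]

theorem cM_injective : Function.Injective (cM (ι := ι)) := by
  intro A B h
  ext i j
  have := congrFun (congrFun h i) j
  rw [cM_apply, cM_apply] at this
  exact_mod_cast this

variable [Fintype ι]

theorem cM_mul (A B : Matrix ι ι ℝ) : cM (A * B) = cM A * cM B := by
  ext i j; simp [cM_apply, Matrix.mul_apply]

theorem trace_cM (A : Matrix ι ι ℝ) : trace (cM A) = (trace A : ℝ) := by
  simp [Matrix.trace, cM_apply]

theorem trace_cM_re (A : Matrix ι ι ℝ) : (trace (cM A)).re = trace A := by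
  rw [trace_cM, Complex.ofReal_re]

variable [DecidableEq ι]

omit [Fintype ι] in
theorem cM_one : cM (1 : Matrix ι ι ℝ) = 1 := by
  ext i j
  by_cases h : i = j
  · subst h; simp [cM_apply]
  · simp [cM_apply, h]

open scoped Matrix.Norms.Operator in
theorem exp_cM (A : Matrix ι ι ℝ) : NormedSpace.exp (cM A) = cM (NormedSpace.exp A) := by
  have hc : Continuous (Complex.ofRealHom.mapMatrix : Matrix ι ι ℝ →+* Matrix ι ι ℂ) := by
    refine continuous_matrix fun i j => ?_
    exact Complex.continuous_ofReal.comp (continuous_id.matrix_elem i j)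
  exact (NormedSpace.map_exp (Complex.ofRealHom.mapMatrix : Matrix ι ι ℝ →+* Matrix ι ι ℂ)
    hc A).symm

theorem cM_posSemidef {A : Matrix ι ι ℝ} (hA : A.PosSemidef) : (cM A).PosSemidef := by
  obtain ⟨B, rfl⟩ : ∃ B : Matrix ι ι ℝ, A = Bᴴ * B := by
    open scoped MatrixOrder in
    obtain ⟨b, hb⟩ := CStarAlgebra.nonneg_iff_eq_star_mul_self.mp hA.nonneg
    exact ⟨b, hb⟩
  have h1 : cM (Bᴴ * B) = (cM B)ᴴ * cM B := by
    rw [cM_mul, cM_conjTranspose]; rfl
  rw [h1]
  exact Matrix.posSemidef_conjTranspose_mul_self _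

theorem trace_exp_pos_real [Nonempty ι] {X : Matrix ι ι ℝ} (hX : X.IsSymm) :
    0 < trace (NormedSpace.exp X) := by
  have h := trace_exp_pos (cM_isHermitian hX)
  rwa [exp_cM, trace_cM_re] at h

theorem trace_exp_mul_nonneg_real {X Y : Matrix ι ι ℝ} (hX : X.IsSymm) (hY : Y.PosSemidef) :
    0 ≤ trace (NormedSpace.exp X * Y) := by
  have h := trace_exp_mul_nonneg (cM_isHermitian hX) (cM_posSemidef hY)
  rwa [exp_cM, ← cM_mul, trace_cM_re] at h

/-- Peierls–Bogoliubov for real symmetric matrices. -/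
theorem peierls_bogoliubov_real [Nonempty ι] {X Y : Matrix ι ι ℝ} (hX : X.IsSymm)
    (hY : Y.IsSymm) :
    Real.log (trace (NormedSpace.exp X)) +
      trace (NormedSpace.exp X * Y) / trace (NormedSpace.exp X) ≤
      Real.log (trace (NormedSpace.exp (X + Y))) := by
  have h := Vale.Agent.P361.peierls_bogoliubov (cM_isHermitian hX) (cM_isHermitian hY)
  rwa [← cM_add, exp_cM, exp_cM, ← cM_mul, trace_cM_re, trace_cM_re, trace_cM_re] at h

theorem trace_exp_mono_real [Nonempty ι] {X Y : Matrix ι ι ℝ} (hX : X.IsSymm) (hY : Y.IsSymm)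
    (hXY : (Y - X).PosSemidef) :
    trace (NormedSpace.exp X) ≤ trace (NormedSpace.exp Y) := by
  have h := trace_exp_mono (cM_isHermitian hX) (cM_isHermitian hY)
    (by rw [← cM_sub]; exact cM_posSemidef hXY)
  rwa [exp_cM, exp_cM, trace_cM_re, trace_cM_re] at h

end CMat

end Vale.Agent.P361.LRO
end

section

/-!
P361, low-temperature order of the Heisenberg ferromagnet: common definitions (note 9886).

Part A: charge laws of random permutations (charge network), `X` = set of space-time nodes.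
Part B: the physical circuit (Trotter number `N`, extra slice `T` = layer `0`).
Part C: the static Gibbs state, spin 1/2, real matrices in the `S³`-basis.
Part D: the torus and the family of field profiles.
-/

namespace Vale.Agent.P361.LRO

open Finset Matrix

noncomputable section

/-! ### Part A -/

section A

variable {X : Type} [Fintype X] [DecidableEq X]

/-- Law of the random permutation `σ₁ * σ₂ * ⋯ * σ_m * σ`, where `σ_i` is the transposition
`swap x y` with probability `p` and `1` with probability `1 - p`, `(x, y, p)` the `i`-th entry. -/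
def law : List (X × X × ℝ) → Equiv.Perm X → Equiv.Perm X → ℝ
  | [], σ => Pi.single σ 1
  | g :: l, σ => fun π =>
      (1 - g.2.2) * law l σ π + g.2.2 * law l σ (Equiv.swap g.1 g.2.1 * π)

/-- `μ` is the law of a product of independent random transpositions and one permutation. -/
def IsLaw (μ : Equiv.Perm X → ℝ) : Prop :=
  ∃ (l : List (X × X × ℝ)) (σ : Equiv.Perm X),
    (∀ g ∈ l, 0 ≤ g.2.2 ∧ g.2.2 ≤ 1 / 2) ∧ μ = law l σ

/-- Weight of the flips: the node `x` costs `θ x` if the spin jumps there. -/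
def wt (θ : X → ℝ) (π : Equiv.Perm X) (s : X → Fin 2) : ℝ :=
  ∏ x, if s x = s (π x) then 1 else θ x

/-- The charge (jump) at the node `x`, in `{-1, 0, 1}`. -/
def jj (π : Equiv.Perm X) (s : X → Fin 2) (x : X) : ℝ :=
  ((s x : ℕ) : ℝ) - ((s (π x) : ℕ) : ℝ)

/-- Partition function. -/
def ZZ (μ : Equiv.Perm X → ℝ) (θ : X → ℝ) : ℝ := ∑ π, ∑ s, μ π * wt θ π s

/-- Expectation. -/
def EE (μ : Equiv.Perm X → ℝ) (θ : X → ℝ) (f : Equiv.Perm X → (X → Fin 2) → ℝ) : ℝ :=
  (∑ π, ∑ s, μ π * wt θ π s * f π s) / ZZ μ θ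

/-- `K(a) = Var(∑ a_x j_x)`. -/
def KK (μ : Equiv.Perm X → ℝ) (θ : X → ℝ) (a : X → ℝ) : ℝ :=
  EE μ θ fun π s => (∑ x, a x * jj π s x) ^ 2

/-- Conductance `c_uv = - E j_u j_v` (meant for `u ≠ v`). -/
def cc (μ : Equiv.Perm X → ℝ) (θ : X → ℝ) (u v : X) : ℝ :=
  - EE μ θ fun π s => jj π s u * jj π s v

/-- `v_z = E j_z² = P(j_z ≠ 0)`. -/
def vv (μ : Equiv.Perm X → ℝ) (θ : X → ℝ) (z : X) : ℝ :=
  EE μ θ fun π s => jj π s z ^ 2

/-- The magnetization `M_z = <σ³_z>` at the node `z` (with the slice at `z` removed):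
`Z = B + θ_z A`, `M = A / B`. -/
def mag (μ : Equiv.Perm X → ℝ) (θ : X → ℝ) (z : X) : ℝ :=
  (∑ π, ∑ s, if s z = s (π z) then 0 else μ π * wt (Function.update θ z 1) π s) /
    (∑ π, ∑ s, if s z = s (π z) then μ π * wt θ π s else 0)

/-- Generating polynomial `E ∏ ζ_x^{1 + j_x}` (not normalised). -/
def gen (μ : Equiv.Perm X → ℝ) (θ : X → ℝ) (ζ : X → ℂ) : ℂ :=
  ∑ π, ∑ s, ((μ π * wt θ π s : ℝ) : ℂ) *
    ∏ x, (if s x = s (π x) then ζ x else if s x = 1 then ζ x ^ 2 else 1)

/-- Real stability. -/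
def Stable (μ : Equiv.Perm X → ℝ) (θ : X → ℝ) : Prop :=
  ∀ ζ : X → ℂ, (∀ x, 0 < (ζ x).im) → gen μ θ ζ ≠ 0

/-- Lower bound `c` for the effective conductance between the electrodes `E` (potential `1`)
and `G` (potential `0`). -/
def LB (μ : Equiv.Perm X → ℝ) (θ : X → ℝ) (E G : Finset X) (c : ℝ) : Prop :=
  ∀ a : X → ℝ, (∀ x ∈ E, a x = 1) → (∀ x ∈ G, a x = 0) → c ≤ KK μ θ a

/-- Upper bound `R` for the resistance between the electrode `E` and the unit charge
distribution `q`. -/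
def RB (μ : Equiv.Perm X → ℝ) (θ : X → ℝ) (E : Finset X) (q : X → ℝ) (R : ℝ) : Prop :=
  ∀ a : X → ℝ, (∀ x ∈ E, a x = 1) → (1 - ∑ x, q x * a x) ^ 2 ≤ R * KK μ θ a

end A

/-! ### Part B -/

section B

variable {V : Type} [Fintype V] [DecidableEq V]

/-- `(k, x) ↦ (k - 1, x)` (cyclic). -/
def base (N : ℕ) : Equiv.Perm (Fin (N + 1) × V) :=
  Equiv.prodCongr (Equiv.subRight 1) (Equiv.refl V)

/-- All gates: between the layers `k` and `k + 1`, `k < N`, one gate for each edge of `L`. There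
is no gate between the layer `N` and the layer `0`. -/
def gates (L : List (V × V)) (N : ℕ) (p : ℝ) :
    List ((Fin (N + 1) × V) × (Fin (N + 1) × V) × ℝ) :=
  (List.finRange N).flatMap fun k =>
    L.map fun e => ((k.castSucc, e.1), (k.castSucc, e.2), p)

/-- The law of the worldline permutation; gates `(1 - p) + p P_e`, `p = β / (2N)`. -/
def phys (L : List (V × V)) (β : ℝ) (N : ℕ) : Equiv.Perm (Fin (N + 1) × V) → ℝ :=
  law (gates L N (β / (2 * N))) (base N)

/-- Slice parameters: the layers `1, …, N` are physical (`θ = β h_x / (2N)`), the layer `0` is the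
extra slice `T`. -/
def th (β : ℝ) (N : ℕ) (h T : V → ℝ) : Fin (N + 1) × V → ℝ :=
  fun z => if z.1 = 0 then T z.2 else β * h z.2 / (2 * N)

/-- The extra slice `e^{K n_b}`, `n_b = S³_b / |b|`: `θ = tanh (K / (2|b|))` on `b`. -/
def blk (K : ℝ) (b : Finset V) : V → ℝ :=
  fun x => if x ∈ b then Real.tanh (K / (2 * b.card)) else 0

/-- The nodes of the extra slice in `b`. -/
def hatb (N : ℕ) (b : Finset V) : Finset (Fin (N + 1) × V) := {0} ×ˢ b

/-- `κ_b = Var (Q_b)`, `Q_b` = total charge of the extra slice in `b`. -/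
def kap (L : List (V × V)) (β : ℝ) (N : ℕ) (h : V → ℝ) (K : ℝ) (b : Finset V) : ℝ :=
  KK (phys L β N) (th β N h (blk K b)) fun z => if z ∈ hatb N b then 1 else 0

end B

/-! ### Part C -/

section C

variable {V : Type} [Fintype V] [DecidableEq V]

/-- The exchange of the spins at `x` and `y`. -/
def swapM (x y : V) : Matrix (V → Fin 2) (V → Fin 2) ℝ :=
  Matrix.of fun σ τ => if σ = τ ∘ Equiv.swap x y then 1 else 0

/-- `σ³_x` (`0` = up). -/
def szM (x : V) : Matrix (V → Fin 2) (V → Fin 2) ℝ :=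
  Matrix.diagonal fun σ => if σ x = 0 then 1 else -1

/-- `σ¹_x`. -/
def sxM (x : V) : Matrix (V → Fin 2) (V → Fin 2) ℝ :=
  Matrix.of fun σ τ => if σ = Function.update τ x (1 - τ x) then 1 else 0

/-- `h_xy = 1/4 - S_x · S_y = (1 - P_xy) / 2`. -/
def hM (x y : V) : Matrix (V → Fin 2) (V → Fin 2) ℝ := (1 / 2 : ℝ) • (1 - swapM x y)

/-- `H - ∑ h_x S³_x`, one term `h_xy` for each entry of the list `L` of edges. -/
def ham (L : List (V × V)) (h : V → ℝ) : Matrix (V → Fin 2) (V → Fin 2) ℝ :=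
  (L.map fun e => hM e.1 e.2).sum - ∑ x, (h x / 2) • szM x

/-- Gibbs expectation. -/
def gib (L : List (V × V)) (β : ℝ) (h : V → ℝ) (A : Matrix (V → Fin 2) (V → Fin 2) ℝ) : ℝ :=
  Matrix.trace (NormedSpace.exp (-β • ham L h) * A) /
    Matrix.trace (NormedSpace.exp (-β • ham L h))

/-- `ρ_x = <1/2 - S³_x>`. -/
def rho (L : List (V × V)) (β : ℝ) (h : V → ℝ) (x : V) : ℝ :=
  gib L β h ((1 / 2 : ℝ) • (1 - szM x))

end C

/-! ### Part D -/

/-- The torus of side `n`. -/
abbrev Tor (n : ℕ) : Type := Fin 3 → ZMod n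

/-- The nearest neighbour edges `(x, x + e_i)` of the torus (each edge once if `n ≥ 3`). -/
def edges (n : ℕ) [NeZero n] : List (Tor n × Tor n) :=
  ((Finset.univ : Finset (Tor n × Fin 3)).toList).map fun z => (z.1, z.1 + Pi.single z.2 1)

/-- The family of profiles: `h0 ≤ h ≤ 1`, `|log h_x - log h_y| ≤ lam` for nearest neighbours
(`lam = 1 / L₀`). -/
def Fam (n : ℕ) (h0 lam : ℝ) (h : Tor n → ℝ) : Prop :=
  (∀ x, h0 ≤ h x ∧ h x ≤ 1) ∧
    ∀ (x : Tor n) (i : Fin 3), h x ≤ Real.exp lam * h (x + Pi.single i 1) ∧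
      h (x + Pi.single i 1) ≤ Real.exp lam * h x

/-- The cube `x + [0, w)³`. -/
def cube (n : ℕ) (x : Tor n) (w : ℕ) : Finset (Tor n) :=
  (Finset.univ : Finset (Fin 3 → Fin w)).image fun y => x + fun i => ((y i : ℕ) : ZMod n)

end

end Vale.Agent.P361.LRO

/-- Realizes the equations of `law` (and of its matcher) in this file. -/
theorem Vale.Agent.P361.LRO.eqforce_law : True := by exact (fun _ => trivial) @Vale.Agent.P361.LRO.law.eq_1
end

section

/-!
P361 LRO: interface statements of the top-level blocks (note 9886), as `Prop`s.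
-/

namespace Vale.Agent.P361.LRO

open Finset Matrix Filter Topology

noncomputable section

/-- Bootstrap hypothesis `B(h0)`: all densities are at most `η` for all profiles of the family. -/
def BH (n : ℕ) [NeZero n] (β lam η h0 : ℝ) : Prop :=
  ∀ h : Tor n → ℝ, Fam n h0 lam h → ∀ x, rho (edges n) β h x ≤ η

/-- Deficit operator expectation `(4/|b|²) ∑_{x<y in b} h_xy` (as half of the sum over ordered
pairs). -/
def Db {V : Type} [Fintype V] [DecidableEq V] (L : List (V × V)) (β : ℝ) (h : V → ℝ)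
    (b : Finset V) : ℝ :=
  4 / (b.card : ℝ) ^ 2 * ((1 / 2) * ∑ x ∈ b, ∑ y ∈ b, gib L β h (hM x y))

/-- Block (6): stiffness of the `w`-blocks. `c3` is absolute, `A` is arbitrary. (`∃ᶠ`: any
convenient infinite set of Trotter numbers, e.g. multiples of the number of windows.) -/
def KappaStmt : Prop :=
  ∃ c3 : ℝ, 0 < c3 ∧ ∀ A : ℝ, 0 < A → ∃ β0 : ℝ, ∀ β : ℝ, β0 ≤ β → ∃ n0 : ℕ, ∀ (n : ℕ) [NeZero n],
    n0 ≤ n → Odd n → ∀ (a : ℕ), β ^ (7 / 20 : ℝ) ≤ (3 : ℝ) ^ a → (3 : ℝ) ^ a ≤ 3 * β ^ (7 / 20 : ℝ) →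
    ∀ h0 : ℝ, (n : ℝ) ^ (-(1 / 4) : ℝ) ≤ h0 → h0 ≤ 1 →
    BH n β (β ^ (-(9 / 10) : ℝ)) (β ^ (-(1 / 100) : ℝ)) h0 →
    ∀ h : Tor n → ℝ, Fam n h0 (β ^ (-(9 / 10) : ℝ)) h → ∀ x : Tor n,
      ∃ᶠ N : ℕ in atTop, c3 * (A * β ^ (1 / 100 : ℝ)) ≤
        kap (edges n) β N h (A * β ^ (1 / 100 : ℝ)) (cube n x (3 ^ a))

/-- Block (1): block twist (`∃ᶠ` is enough because `kap` converges as `N → ∞`). -/
def TwistStmt : Prop :=
  ∃ C : ℝ, 0 < C ∧ ∀ (V : Type) [Fintype V] [DecidableEq V] (L : List (V × V)) (β : ℝ) (h : V → ℝ) (K κ : ℝ)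
    (b : Finset V), 0 < β → (∀ x, 0 < h x) → 1 ≤ K → 0 < κ → b.Nonempty →
    (∃ᶠ N : ℕ in atTop, κ ≤ kap L β N h K b) →
    (∑ x ∈ b, rho L β h x) / b.card ≤ C * (1 + K) ^ 4 * Db L β h b + C / κ

/-- Block (7): energy. `Q = cube n x (w * m)` is tiled by the `m³` cubes
`x + w • y + [0, w)³`, `y ∈ [0, m)³`. -/
def EnergyStmt : Prop :=
  ∃ C : ℝ, ∀ (n : ℕ) [NeZero n] (β : ℝ) (h : Tor n → ℝ) (x : Tor n) (w m : ℕ), 0 < β →
    (∀ x, 0 < h x) → 1 ≤ w → 1 ≤ m → 3 * (w * m) ≤ n →
    (∑ y : Fin 3 → Fin m, Db (edges n) β h (cube n (x + fun i => ((w * (y i : ℕ) : ℕ) : ZMod n)) w))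
      / (m : ℝ) ^ 3 ≤ C * (w : ℝ) ^ 2 * (1 / β + 1 / ((w : ℝ) * m))

/-- Block (8): Lee-Yang regularity, `f = 1 / M - 1`, `M = 1 - 2 ρ`. -/
def RegStmt : Prop :=
  ∀ (V : Type) [Fintype V] [DecidableEq V] (L : List (V × V)) (β : ℝ) (h h' : V → ℝ) (s : ℝ),
    0 < β → (∀ x, 0 < h x) → (∀ x, 0 < h' x) → 0 ≤ s → 3 * s < Real.pi / 2 →
    (∀ x, |Real.log (h x) - Real.log (h' x)| ≤ s) → ∀ z,
    0 < 1 - 2 * rho L β h z ∧
    1 / (1 - 2 * rho L β h' z) - 1 ≤ 2 * (1 / (1 - 2 * rho L β h z) - 1) + 9 / 2 * s ^ 2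

/-- Continuity in the fields (finite volume). -/
def ContStmt : Prop :=
  ∀ (V : Type) [Fintype V] [DecidableEq V] (L : List (V × V)) (β : ℝ) (z : V),
    Continuous fun h : V → ℝ => rho L β h z

/-- The start of the bootstrap, `h ≡ 1`. -/
def StartStmt : Prop :=
  ∀ (n : ℕ) [NeZero n] (β : ℝ) (x : Tor n), 0 < β →
    rho (edges n) β (fun _ => 1) x ≤ Real.log 2 / β

/-- Translation covariance. -/
def TransStmt : Prop :=
  ∀ (n : ℕ) [NeZero n] (β : ℝ) (h : Tor n → ℝ) (x a : Tor n),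
    rho (edges n) β (fun y => h (y + a)) x = rho (edges n) β h (x + a)

/-- Output of the bootstrap. -/
def BootStmt : Prop :=
  ∃ β0 : ℝ, ∀ β : ℝ, β0 ≤ β → ∃ n0 : ℕ, ∀ (n : ℕ) [NeZero n], n0 ≤ n → Odd n →
    ∀ h : ℝ, (n : ℝ) ^ (-(1 / 4) : ℝ) ≤ h → h ≤ 1 →
      ∀ x : Tor n, rho (edges n) β (fun _ => h) x ≤ β ^ (-(1 / 100) : ℝ)

end

end Vale.Agent.P361.LRO
end

section

/-!
P361, low-temperature order: the statements of the blocks of note 9886 and the step of the bootstrap from them.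
-/

namespace Vale.Agent.P361.LRO

open Filter Finset Matrix

noncomputable section

/-- `D_b = (4 / |b|²) ∑_{pairs} <h_xy>` (here as a sum over ordered pairs) -/
def Dst {V : Type} [Fintype V] [DecidableEq V] (L : List (V × V)) (β : ℝ) (h : V → ℝ)
    (b : Finset V) : ℝ :=
  2 / (b.card : ℝ) ^ 2 * ∑ x ∈ b, ∑ y ∈ b, gib L β h (hM x y)

/-- `η = β ^ (-1/100)` -/
def etaB (β : ℝ) : ℝ := β ^ (-(1 / 100) : ℝ)

/-- **Block (1)**, the block twist. -/
def PTwist : Prop :=
  ∃ C : ℝ, 0 < C ∧ ∀ (V : Type) [Fintype V] [DecidableEq V] (L : List (V × V)),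
    (∀ e ∈ L, e.1 ≠ e.2) → ∀ β : ℝ, 0 < β → ∀ h : V → ℝ, (∀ x, 0 < h x ∧ h x ≤ 1) →
      ∀ (b : Finset V) (K κ : ℝ), b.Nonempty → 10 ≤ K → K ≤ b.card → 0 < κ →
        (∃ᶠ N : ℕ in atTop, κ ≤ kap L β N h K b) →
          (∑ x ∈ b, rho L β h x) / b.card ≤ C / κ + C * (1 + K) ^ 4 * Dst L β h b

/-- **Block (7)**, the energy. -/
def PEnergy (q : ℕ) : Prop :=
  ∃ C : ℝ, 0 < C ∧ ∀ β : ℝ, 1 ≤ β → ∀ (n : ℕ) [NeZero n] (w m : ℕ), 0 < w → 0 < m →
    3 * (w * m) ≤ n → ∀ h : Tor n → ℝ, (∀ x, 0 < h x ∧ h x ≤ 1) → ∀ x0 : Tor n,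
      ∑ y : Fin 3 → Fin m,
          Dst (edges n) β h (cube n (x0 + fun i => ((w * (y i : ℕ) : ℕ) : ZMod n)) w) ≤
        (m : ℝ) ^ 3 * (C * (w : ℝ) ^ q * (1 / β + 1 / ((w : ℝ) * m)))

/-- **Block (8)**, regularity (Lee-Yang and Harnack). -/
def PHarn : Prop :=
  ∀ (V : Type) [Fintype V] [DecidableEq V] (L : List (V × V)), (∀ e ∈ L, e.1 ≠ e.2) →
    ∀ β : ℝ, 0 < β → ∀ h h' : V → ℝ, (∀ x, 0 < h x) → (∀ x, 0 < h' x) → ∀ d : ℝ, 0 ≤ d →
      3 * d < Real.pi / 2 → (∀ x, |Real.log (h x) - Real.log (h' x)| ≤ d) → ∀ z,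
        0 < 1 - 2 * rho L β h z ∧
        1 / (1 - 2 * rho L β h' z) - 1 ≤ 2 * (1 / (1 - 2 * rho L β h z) - 1) + 9 / 2 * d ^ 2

/-- **Translations.** -/
def PTrans : Prop :=
  ∀ (n : ℕ) [NeZero n] (β : ℝ) (h : Tor n → ℝ) (v x : Tor n),
    rho (edges n) β (fun y => h (y + v)) x = rho (edges n) β h (x + v)

/-- **Blocks (2)-(6)**: the lower bound for `κ_b` in the bootstrap. -/
def PSix (w : ℝ → ℕ) (lam : ℝ → ℝ) : Prop :=
  ∃ c : ℝ, 0 < c ∧ ∀ A : ℝ, 0 < A → ∀ᶠ β : ℝ in atTop, ∀ᶠ n : ℕ in atTop, Odd n →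
    ∀ [NeZero n] (h0 : ℝ), (n : ℝ) ^ (-(1 / 4) : ℝ) ≤ h0 → h0 ≤ 1 →
      (∀ h, Fam n h0 (lam β) h → ∀ x, rho (edges n) β h x ≤ etaB β) →
      ∀ h, Fam n h0 (lam β) h → ∀ x, ∃ᶠ N : ℕ in atTop,
        c * (A / etaB β) ≤ kap (edges n) β N h (A / etaB β) (cube n x (w β))

/-- the conditions on the parameters: `w` side of the blocks, `w * m` side of the cubes,
`lam` = inverse of `L₀` -/
def Par (q : ℕ) (w m : ℝ → ℕ) (lam : ℝ → ℝ) : Prop :=
  ∀ A C : ℝ, 0 < A → 0 < C → ∀ᶠ β : ℝ in atTop, 0 < w β ∧ 0 < m β ∧ 0 ≤ lam β ∧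
    10 ≤ A / etaB β ∧ A / etaB β ≤ (w β : ℝ) ^ 3 ∧
    (1 + A / etaB β) ^ 4 * (C * (w β : ℝ) ^ q * (1 / β + 1 / ((w β : ℝ) * m β))) ≤
      etaB β / 32 ∧
    9 / 2 * (3 * (w β * m β) * lam β) ^ 2 ≤ etaB β / 7 ∧
    3 * (3 * (w β * m β) * lam β) < Real.pi / 2

/-- **The step of the bootstrap.** -/
def PStep (lam : ℝ → ℝ) : Prop :=
  ∀ᶠ β : ℝ in atTop, ∀ᶠ n : ℕ in atTop, Odd n → ∀ [NeZero n] (h0 : ℝ),
    (n : ℝ) ^ (-(1 / 4) : ℝ) ≤ h0 → h0 ≤ 1 →
      (∀ h, Fam n h0 (lam β) h → ∀ x, rho (edges n) β h x ≤ etaB β) →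
      ∀ h, Fam n h0 (lam β) h → ∀ x, rho (edges n) β h x ≤ etaB β / 2

end

end Vale.Agent.P361.LRO
end

section

/-! # The bootstrap: continuity in the field and descent to small fields. -/

namespace Vale.Agent.P361.LRO

open Finset Matrix Topology

/-! ### Matrix exponentials over `ℝ` -/

theorem continuous_exp_real {m : Type*} [Fintype m] [DecidableEq m] :
    Continuous (NormedSpace.exp : Matrix m m ℝ → Matrix m m ℝ) := by
  let _ : NormedRing (Matrix m m ℝ) := Matrix.linftyOpNormedRing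
  let _ : NormedAlgebra ℝ (Matrix m m ℝ) := Matrix.linftyOpNormedAlgebra
  let _ : NormedAlgebra ℚ (Matrix m m ℝ) := NormedAlgebra.restrictScalars ℚ ℝ _
  exact NormedSpace.exp_continuous

/-- The trace of the exponential of a real symmetric matrix is positive. -/
theorem trace_exp_real_pos {m : Type*} [Fintype m] [DecidableEq m] [Nonempty m]
    {X : Matrix m m ℝ} (hX : X.IsSymm) : 0 < Matrix.trace (NormedSpace.exp X) := by
  have h1 : NormedSpace.exp X = (NormedSpace.exp ((1 / 2 : ℝ) • X))ᵀ *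
      NormedSpace.exp ((1 / 2 : ℝ) • X) := by
    rw [← Matrix.exp_transpose, Matrix.transpose_smul, hX.eq,
      ← Matrix.exp_add_of_commute _ _ (Commute.refl _), ← add_smul]
    norm_num
  have h2 : IsUnit (NormedSpace.exp ((1 / 2 : ℝ) • X)) := Matrix.isUnit_exp _
  set Y := NormedSpace.exp ((1 / 2 : ℝ) • X) with hY
  rw [h1]
  have h3 : Matrix.trace (Yᵀ * Y) = ∑ i, ∑ j, Y j i ^ 2 := by
    simp only [Matrix.trace, Matrix.diag_apply, Matrix.mul_apply, Matrix.transpose_apply, pow_two]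
  rw [h3]
  have hne : Y ≠ 0 := by
    intro h0
    rw [h0] at h2
    exact not_isUnit_zero h2
  obtain ⟨i, j, hij⟩ : ∃ i j, Y i j ≠ 0 := by
    by_contra hcon
    push Not at hcon
    exact hne (by ext i j; exact hcon i j)
  refine lt_of_lt_of_le (show 0 < Y i j ^ 2 by positivity) ?_
  refine le_trans ?_ (Finset.single_le_sum (f := fun i => ∑ j, Y j i ^ 2)
    (fun _ _ => Finset.sum_nonneg fun _ _ => sq_nonneg _) (Finset.mem_univ j))
  exact Finset.single_le_sum (f := fun i => Y i j ^ 2) (fun _ _ => sq_nonneg _)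
    (Finset.mem_univ i)

section

variable {V : Type} [Fintype V] [DecidableEq V]

theorem swapM_transpose (x y : V) : (swapM x y)ᵀ = swapM x y := by
  ext σ τ
  simp only [swapM, Matrix.transpose_apply, Matrix.of_apply]
  have : τ = σ ∘ Equiv.swap x y ↔ σ = τ ∘ Equiv.swap x y := by
    constructor
    · rintro rfl
      ext v; simp
    · rintro rfl
      ext v; simp
  simp only [this]

theorem hM_isSymm (x y : V) : (hM x y).IsSymm := by
  rw [Matrix.IsSymm, hM, Matrix.transpose_smul, Matrix.transpose_sub, Matrix.transpose_one,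
    swapM_transpose]

omit [DecidableEq V] in
theorem szM_isSymm (x : V) : (szM x).IsSymm := by
  rw [Matrix.IsSymm, szM, Matrix.diagonal_transpose]

theorem ham_isSymm (L : List (V × V)) (h : V → ℝ) : (ham L h).IsSymm := by
  have h1 : ∀ l : List (V × V), ((l.map fun e => hM e.1 e.2).sum).IsSymm := by
    intro l
    induction l with
    | nil => simp [Matrix.IsSymm]
    | cons e l ih =>
      rw [List.map_cons, List.sum_cons]
      exact (hM_isSymm _ _).add ih
  rw [ham]
  refine (h1 L).sub ?_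
  rw [Matrix.IsSymm, Matrix.transpose_sum]
  refine Finset.sum_congr rfl fun x _ => ?_
  rw [Matrix.transpose_smul, szM_isSymm x]

theorem exponent_isSymm (L : List (V × V)) (β : ℝ) (h : V → ℝ) : (-β • ham L h).IsSymm := by
  rw [Matrix.IsSymm, Matrix.transpose_smul, ham_isSymm]

theorem Z_pos (L : List (V × V)) (β : ℝ) (h : V → ℝ) :
    0 < Matrix.trace (NormedSpace.exp (-β • ham L h)) :=
  trace_exp_real_pos (exponent_isSymm L β h)

theorem continuous_ham (L : List (V × V)) : Continuous fun h : V → ℝ => ham L h := by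
  unfold ham
  refine continuous_const.sub ?_
  refine continuous_finsetSum _ fun x _ => ?_
  exact ((continuous_apply x).div_const 2).smul continuous_const

theorem continuous_gib (L : List (V × V)) (β : ℝ) (A : Matrix (V → Fin 2) (V → Fin 2) ℝ) :
    Continuous fun h : V → ℝ => gib L β h A := by
  have h1 : Continuous fun h : V → ℝ => NormedSpace.exp (-β • ham L h) :=
    continuous_exp_real.comp ((continuous_ham L).const_smul (-β))
  unfold gib
  refine Continuous.div ?_ ?_ fun h => (Z_pos L β h).ne'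
  · exact (h1.matrix_mul continuous_const).matrix_trace
  · exact h1.matrix_trace

theorem continuous_rho (L : List (V × V)) (β : ℝ) (x : V) :
    Continuous fun h : V → ℝ => rho L β h x := continuous_gib L β _

end

/-! ### The abstract bootstrap -/

theorem bootstrap_abs {V : Type} [Fintype V] (R : (V → ℝ) → V → ℝ)
    (hR : ∀ x, Continuous fun h => R h x) (Reg : (V → ℝ) → Prop)
    (hmax : ∀ h c, 0 < c → Reg h → Reg fun x => max (h x) c) {a η : ℝ} (ha0 : 0 < a)
    (hη : 0 < η)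
    (h1 : ∀ x, R (fun _ => 1) x ≤ η)
    (hstep : ∀ h0, a ≤ h0 → h0 ≤ 1 →
      (∀ h, (∀ x, h0 ≤ h x ∧ h x ≤ 1) → Reg h → ∀ x, R h x ≤ η) →
      ∀ h, (∀ x, h0 ≤ h x ∧ h x ≤ 1) → Reg h → ∀ x, R h x ≤ η / 2) (ha1 : a ≤ 1) :
    ∀ h, (∀ x, a ≤ h x ∧ h x ≤ 1) → Reg h → ∀ x, R h x ≤ η / 2 := by
  -- uniform continuity on the compact box
  have hcomp : IsCompact (Set.Icc (fun _ : V => a) (fun _ => (1 : ℝ))) := isCompact_Icc
  have hcont : Continuous R := continuous_pi hR
  have huc := hcomp.uniformContinuousOn_of_continuous hcont.continuousOn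
  rw [Metric.uniformContinuousOn_iff] at huc
  obtain ⟨δ, hδ, huc⟩ := huc (η / 2) (by positivity)
  -- the property
  let P : ℝ → Prop := fun h0 => ∀ h, (∀ x, h0 ≤ h x ∧ h x ≤ 1) → Reg h → ∀ x, R h x ≤ η
  have hP1 : P 1 := by
    intro h hh _ x
    have : h = fun _ => 1 := by
      funext y
      exact le_antisymm (hh y).2 (hh y).1
    rw [this]
    exact h1 x
  have hPstep : ∀ t, a ≤ t → t ≤ 1 → P t → P (max a (t - δ / 2)) := by
    intro t hat ht1 hPt h hh hreg x
    have ht0 : 0 < t := lt_of_lt_of_le ha0 hat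
    have hah : ∀ y, a ≤ h y := fun y => (le_max_left _ _).trans (hh y).1
    let h' : V → ℝ := fun y => max (h y) t
    have hh' : ∀ y, t ≤ h' y ∧ h' y ≤ 1 := fun y => ⟨le_max_right _ _, max_le (hh y).2 ht1⟩
    have hb := hstep t hat ht1 hPt h' hh' (hmax h t ht0 hreg) x
    have hm : h ∈ Set.Icc (fun _ : V => a) (fun _ => (1 : ℝ)) :=
      ⟨fun y => hah y, fun y => (hh y).2⟩
    have hm' : h' ∈ Set.Icc (fun _ : V => a) (fun _ => (1 : ℝ)) :=
      ⟨fun y => hat.trans (hh' y).1, fun y => (hh' y).2⟩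
    have hd : dist h h' < δ := by
      refine lt_of_le_of_lt ((dist_pi_le_iff (by positivity : (0 : ℝ) ≤ δ / 2)).2 fun y => ?_)
        (half_lt_self hδ)
      have h2 : t - δ / 2 ≤ h y := (le_max_right _ _).trans (hh y).1
      rw [Real.dist_eq]
      change |h y - max (h y) t| ≤ δ / 2
      rcases le_total (h y) t with h3 | h3
      · rw [max_eq_right h3, abs_le]
        constructor <;> linarith
      · rw [max_eq_left h3, sub_self, abs_zero]
        positivity
    have h4 := huc h hm h' hm' hd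
    have h5 : dist (R h x) (R h' x) < η / 2 := lt_of_le_of_lt (dist_le_pi_dist _ _ x) h4
    rw [Real.dist_eq, abs_lt] at h5
    linarith [h5.2]
  have hPk : ∀ k : ℕ, P (max a (1 - k * (δ / 2))) := by
    intro k
    induction k with
    | zero =>
      have : max a (1 - ((0 : ℕ) : ℝ) * (δ / 2)) = 1 := by
        rw [Nat.cast_zero, zero_mul, sub_zero]
        exact max_eq_right ha1
      rw [this]
      exact hP1
    | succ k ih =>
      have h6 := hPstep (max a (1 - k * (δ / 2))) (le_max_left _ _)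
        (max_le ha1 (by nlinarith [hδ, (Nat.cast_nonneg k : (0 : ℝ) ≤ k)])) ih
      have h7 : max a (max a (1 - k * (δ / 2)) - δ / 2) = max a (1 - ((k + 1 : ℕ) : ℝ) * (δ / 2)) := by
        push_cast
        rcases le_total a (1 - k * (δ / 2)) with h8 | h8
        · rw [max_eq_right h8]
          congr 1
          ring
        · rw [max_eq_left h8, max_eq_left (by linarith), max_eq_left]
          nlinarith [hδ]
      rw [h7] at h6
      exact h6
  have hPa : P a := by
    obtain ⟨k, hk⟩ := exists_nat_gt ((1 - a) / (δ / 2))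
    have h8 := hPk k
    have h9 : max a (1 - k * (δ / 2)) = a := by
      rw [div_lt_iff₀ (by positivity)] at hk
      exact max_eq_left (by linarith)
    rwa [h9] at h8
  exact hstep a le_rfl ha1 hPa

/-- **The bootstrap** for the field profiles on the torus. -/
theorem boot (n : ℕ) [NeZero n] {β η lam a : ℝ} (hη : 0 < η) (hlam : 0 ≤ lam) (ha0 : 0 < a)
    (ha1 : a ≤ 1) (h1 : ∀ x, rho (edges n) β (fun _ => 1) x ≤ η)
    (hstep : ∀ h0, a ≤ h0 → h0 ≤ 1 →
      (∀ h, Fam n h0 lam h → ∀ x, rho (edges n) β h x ≤ η) →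
      ∀ h, Fam n h0 lam h → ∀ x, rho (edges n) β h x ≤ η / 2) :
    ∀ h, Fam n a lam h → ∀ x, rho (edges n) β h x ≤ η / 2 := by
  have hexp : 1 ≤ Real.exp lam := Real.one_le_exp hlam
  have key := bootstrap_abs (V := Tor n) (fun h x => rho (edges n) β h x)
    (fun x => continuous_rho _ _ x)
    (fun h => ∀ (x : Tor n) (i : Fin 3), h x ≤ Real.exp lam * h (x + Pi.single i 1) ∧
      h (x + Pi.single i 1) ≤ Real.exp lam * h x) ?_ ha0 hη h1 ?_ ha1
  · intro h hh x
    exact key h hh.1 hh.2 x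
  · intro h c hc hreg x i
    have hm : ∀ u v : ℝ, u ≤ Real.exp lam * v → max u c ≤ Real.exp lam * max v c := by
      intro u v huv
      refine max_le (huv.trans ?_) ?_
      · exact mul_le_mul_of_nonneg_left (le_max_left _ _) (Real.exp_pos _).le
      · calc c ≤ Real.exp lam * c := by nlinarith
          _ ≤ _ := mul_le_mul_of_nonneg_left (le_max_right _ _) (Real.exp_pos _).le
    exact ⟨hm _ _ (hreg x i).1, hm _ _ (hreg x i).2⟩
  · intro h0 h2 h3 h4 h h5 h6 x
    exact hstep h0 h2 h3 (fun h' hh' y => h4 h' hh'.1 hh'.2 y) h ⟨h5, h6⟩ x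

end Vale.Agent.P361.LRO
end

section

/-!
P361 LRO: translation covariance of the densities on the torus.
-/

namespace Vale.Agent.P361.LRO

open Finset Matrix

noncomputable section

namespace Trans

/-- The exponential commutes with a simultaneous permutation of rows and columns. -/
theorem exp_submatrix {ι : Type*} [Fintype ι] [DecidableEq ι] (E : ι ≃ ι) (M : Matrix ι ι ℝ) :
    NormedSpace.exp (M.submatrix E E) = (NormedSpace.exp M).submatrix E E := by
  let _ : NormedRing (Matrix ι ι ℝ) := Matrix.linftyOpNormedRing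
  let _ : NormedAlgebra ℝ (Matrix ι ι ℝ) := Matrix.linftyOpNormedAlgebra
  let _ : NormedAlgebra ℚ (Matrix ι ι ℝ) := NormedAlgebra.restrictScalars ℚ ℝ _
  have hc : Continuous (Matrix.reindexAlgEquiv ℝ ℝ E.symm) :=
    Continuous.matrix_reindex continuous_id _ _
  exact (NormedSpace.map_exp (Matrix.reindexAlgEquiv ℝ ℝ E.symm) hc M).symm

theorem trace_submatrix {ι : Type*} [Fintype ι] (E : ι ≃ ι) (M : Matrix ι ι ℝ) :
    (M.submatrix E E).trace = M.trace := by
  simp only [Matrix.trace, Matrix.diag_apply, Matrix.submatrix_apply]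
  exact Equiv.sum_comp E fun i => M i i

variable {V : Type} [Fintype V] [DecidableEq V]

/-- `σ ↦ σ ∘ e`. -/
def EE' (e : V ≃ V) : (V → Fin 2) ≃ (V → Fin 2) := e.symm.arrowCongr (Equiv.refl _)

omit [Fintype V] [DecidableEq V] in
theorem EE'_apply (e : V ≃ V) (σ : V → Fin 2) : EE' e σ = σ ∘ e := by
  funext v
  simp [EE']

theorem swapM_sub (e : V ≃ V) (x y : V) :
    (swapM x y).submatrix (EE' e) (EE' e) = swapM (e x) (e y) := by
  ext σ τ
  simp only [Matrix.submatrix_apply, swapM, Matrix.of_apply, EE'_apply]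
  have : σ ∘ e = (τ ∘ e) ∘ Equiv.swap x y ↔ σ = τ ∘ Equiv.swap (e x) (e y) := by
    constructor
    · intro h
      funext v
      have h1 := congrFun h (e.symm v)
      simp only [Function.comp_apply, Equiv.apply_symm_apply] at h1
      rw [h1, Function.comp_apply]
      congr 1
      rw [← e.injective.swap_apply, Equiv.apply_symm_apply]
    · rintro rfl
      funext v
      simp only [Function.comp_apply]
      rw [← e.injective.swap_apply]
  simp only [this]

omit [DecidableEq V] in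
theorem szM_sub (e : V ≃ V) (x : V) :
    (szM x).submatrix (EE' e) (EE' e) = szM (e x) := by
  ext σ τ
  simp only [Matrix.submatrix_apply, szM, Matrix.diagonal_apply, EmbeddingLike.apply_eq_iff_eq]
  simp only [EE'_apply, Function.comp_apply]

theorem hM_sub (e : V ≃ V) (x y : V) :
    (hM x y).submatrix (EE' e) (EE' e) = hM (e x) (e y) := by
  rw [hM, hM, ← swapM_sub e x y]
  ext σ τ
  simp [Matrix.submatrix_apply, Matrix.one_apply]

theorem ham_sub (e : V ≃ V) (L : List (V × V)) (h : V → ℝ)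
    (hL : (L.map fun z => hM (e z.1) (e z.2)).sum = (L.map fun z => hM z.1 z.2).sum) :
    (ham L (fun x => h (e x))).submatrix (EE' e) (EE' e) = ham L h := by
  have h1 : ∀ l : List (V × V), ((l.map fun z => hM z.1 z.2).sum).submatrix (EE' e) (EE' e)
      = (l.map fun z => hM (e z.1) (e z.2)).sum := by
    intro l
    induction l with
    | nil => rfl
    | cons z l ih =>
      rw [List.map_cons, List.sum_cons, List.map_cons, List.sum_cons, ← ih, ← hM_sub e]
      rfl
  have h2 : (∑ x, (h (e x) / 2) • szM x).submatrix (EE' e) (EE' e) = ∑ x, (h x / 2) • szM x := by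
    rw [← Equiv.sum_comp e (fun x => (h x / 2) • szM x)]
    ext σ τ
    simp only [Matrix.submatrix_apply, Matrix.sum_apply, Matrix.smul_apply]
    refine Finset.sum_congr rfl fun x _ => ?_
    rw [← szM_sub e x]
    rfl
  have h3 : ham L h = (L.map fun z => hM (e z.1) (e z.2)).sum - ∑ x, (h x / 2) • szM x := by
    rw [ham, hL]
  rw [h3, ← h1, ← h2]
  rfl

theorem rho_comp (e : V ≃ V) (L : List (V × V)) (β : ℝ) (h : V → ℝ) (x : V)
    (hL : (L.map fun z => hM (e z.1) (e z.2)).sum = (L.map fun z => hM z.1 z.2).sum) :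
    rho L β (fun y => h (e y)) x = rho L β h (e x) := by
  have hH := ham_sub e L h hL
  have hE : (NormedSpace.exp (-β • ham L (fun y => h (e y)))).submatrix (EE' e) (EE' e)
      = NormedSpace.exp (-β • ham L h) := by
    rw [← exp_submatrix, Matrix.submatrix_smul, Pi.smul_apply, Pi.smul_apply, hH]
  have hA : ((1 / 2 : ℝ) • (1 - szM x)).submatrix (EE' e) (EE' e)
      = (1 / 2 : ℝ) • (1 - szM (e x)) := by
    rw [← szM_sub e x]
    ext σ τ
    simp [Matrix.submatrix_apply, Matrix.one_apply]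
  rw [rho, rho, gib, gib]
  congr 1
  · rw [← trace_submatrix (EE' e), ← Matrix.submatrix_mul_equiv _ _ _ (EE' e) _, hE, hA]
  · rw [← trace_submatrix (EE' e), hE]

end Trans

theorem transStmt : TransStmt := by
  intro n _ β h x a
  refine Trans.rho_comp (Equiv.addRight a) (edges n) β h x ?_
  simp only [edges, List.map_map, Equiv.coe_addRight]
  rw [show ((fun z : Tor n × Tor n => hM (z.1 + a) (z.2 + a)) ∘
      fun z : Tor n × Fin 3 => (z.1, z.1 + Pi.single z.2 1))
      = fun z : Tor n × Fin 3 => hM (z.1 + a) (z.1 + Pi.single z.2 1 + a) from rfl,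
    show ((fun z : Tor n × Tor n => hM z.1 z.2) ∘
      fun z : Tor n × Fin 3 => (z.1, z.1 + Pi.single z.2 1))
      = fun z : Tor n × Fin 3 => hM z.1 (z.1 + Pi.single z.2 1) from rfl,
    Finset.sum_map_toList, Finset.sum_map_toList]
  refine Fintype.sum_equiv ((Equiv.addRight a).prodCongr (Equiv.refl (Fin 3))) _ _ fun z => ?_
  simp only [Equiv.prodCongr_apply, Prod.map, Equiv.coe_addRight, Equiv.refl_apply]
  rw [add_right_comm]

end

end Vale.Agent.P361.LRO
end

section

/-!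
Shared definitions for the operator part (spin 1/2 on a finite set of sites `V`).
-/

namespace Vale.Agent.P361.LRO.Energy

open Matrix Finset

noncomputable section

/-- Spin-1/2 configurations, `0` = up. -/
abbrev Cfg (V : Type*) := V → Fin 2

variable {V : Type*} [Fintype V] [DecidableEq V]

/-- The permutation operator `P_{xy}` on configurations. -/
def swapM (x y : V) : Matrix (Cfg V) (Cfg V) ℂ :=
  Matrix.of fun σ τ => if σ ∘ Equiv.swap x y = τ then 1 else 0

/-- The singlet projector `h_{xy} = (1 - P_{xy})/2`. -/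
def hM (x y : V) : Matrix (Cfg V) (Cfg V) ℂ := (1 / 2 : ℂ) • (1 - swapM x y)

/-- `S³_x`. -/
def szM (x : V) : Matrix (Cfg V) (Cfg V) ℂ :=
  Matrix.diagonal fun σ => if σ x = 0 then (1 / 2 : ℂ) else -(1 / 2)

/-- Gibbs expectation `tr (e^X A) / tr e^X`. -/
def ex {ι : Type*} [Fintype ι] [DecidableEq ι] (X A : Matrix ι ι ℂ) : ℝ :=
  (trace (NormedSpace.exp X * A)).re / (trace (NormedSpace.exp X)).re

end

end Vale.Agent.P361.LRO.Energy
end

section

/-! # P361 LRO, block (7): trace lemmas (helper348)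

`tr exp` of a principal submatrix; `tr exp (X ⊗ 1)`. -/

namespace Vale.Agent.P361.LRO.Energy

open Matrix Finset
open scoped ComplexOrder Kronecker

variable {ι κ : Type*} [Fintype ι] [DecidableEq ι] [Fintype κ] [DecidableEq κ]

/-- `tr exp` of a principal submatrix (block form) -/
theorem tr_exp_block_le {μ : Type*} [Fintype μ] [DecidableEq μ] {W : Matrix (κ ⊕ μ) (κ ⊕ μ) ℂ}
    (hW : W.IsHermitian) :
    (trace (NormedSpace.exp (W.submatrix Sum.inl Sum.inl))).re ≤ (trace (NormedSpace.exp W)).re := by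
  have hA : (W.submatrix (Sum.inl : κ → κ ⊕ μ) Sum.inl).IsHermitian := hW.submatrix _
  set A := W.submatrix (Sum.inl : κ → κ ⊕ μ) Sum.inl with hAdef
  set U := (hA.eigenvectorUnitary : Matrix κ κ ℂ) with hU
  have hUU : star U * U = 1 := Unitary.coe_star_mul_self _
  set V : Matrix (κ ⊕ μ) (κ ⊕ μ) ℂ := Matrix.fromBlocks U 0 0 1 with hV
  have hstar : star V = Matrix.fromBlocks (star U) 0 0 1 := by
    rw [hV, Matrix.star_eq_conjTranspose, Matrix.fromBlocks_conjTranspose]
    simp [Matrix.star_eq_conjTranspose]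
  have hVV : star V * V = 1 := by
    rw [hstar, hV, Matrix.fromBlocks_multiply]
    simp [hUU, Matrix.fromBlocks_one]
  have hWb : W = Matrix.fromBlocks A W.toBlocks₁₂ W.toBlocks₂₁ W.toBlocks₂₂ := by
    conv_lhs => rw [← Matrix.fromBlocks_toBlocks W]
    rfl
  have hP := peierls hW hVV
  refine le_trans ?_ hP
  rw [Fintype.sum_sum_type, trace_exp_re hA]
  have hx : ∀ i : κ, ((star V * W * V) (Sum.inl i) (Sum.inl i)).re = hA.eigenvalues i := by
    intro i
    have h2 : (star V * W * V) (Sum.inl i) (Sum.inl i) = (star U * A * U) i i := by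
      rw [hstar, hV, hWb, Matrix.fromBlocks_multiply, Matrix.fromBlocks_multiply,
        Matrix.fromBlocks_apply₁₁]
      simp
    rw [h2]
    have h1 : A = U * diagonal (RCLike.ofReal ∘ hA.eigenvalues) * star U := by
      have := hA.spectral_theorem
      rwa [Unitary.conjStarAlgAut_apply] at this
    have h3 : star U * A * U = diagonal (RCLike.ofReal ∘ hA.eigenvalues) := by
      calc star U * A * U = star U * (U * diagonal (RCLike.ofReal ∘ hA.eigenvalues) * star U) * U := by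
            rw [← h1]
        _ = (star U * U) * diagonal (RCLike.ofReal ∘ hA.eigenvalues) * (star U * U) := by
            simp only [Matrix.mul_assoc]
        _ = _ := by rw [hUU, Matrix.one_mul, Matrix.mul_one]
    rw [h3, Matrix.diagonal_apply_eq]
    simp
  simp only [hx]
  exact le_add_of_nonneg_right (Finset.sum_nonneg fun i _ => (Real.exp_pos _).le)

/-- `tr exp` of a principal submatrix -/
theorem tr_exp_submatrix_le {W : Matrix ι ι ℂ} (hW : W.IsHermitian) {f : κ → ι}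
    (hf : Function.Injective f) :
    (trace (NormedSpace.exp (W.submatrix f f))).re ≤ (trace (NormedSpace.exp W)).re := by
  classical
  let e : κ ⊕ ↥(Set.range f)ᶜ ≃ ι :=
    (Equiv.sumCongr (Equiv.ofInjective f hf) (Equiv.refl _)).trans (Equiv.Set.sumCompl (Set.range f))
  have he : ∀ k, e (Sum.inl k) = f k := by
    intro k
    simp [e]
  have h1 := tr_exp_block_le (hW.submatrix (e : κ ⊕ ↥(Set.range f)ᶜ → ι))
  rw [trace_exp_submatrix] at h1
  have h2 : (W.submatrix (e : κ ⊕ ↥(Set.range f)ᶜ → ι) e).submatrix (Sum.inl : κ → _) Sum.inl =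
      W.submatrix f f := by
    ext i j
    simp only [Matrix.submatrix_apply, he]
  rwa [h2] at h1

/-- `tr exp (X ⊗ 1)` -/
theorem tr_exp_kron_one {α β γ : Type*} [Fintype α] [DecidableEq α] [Fintype β] [DecidableEq β]
    [Fintype γ] [DecidableEq γ] (e : α × β ≃ γ) {X : Matrix α α ℂ} {Y : Matrix γ γ ℂ}
    (h : Y.submatrix e e = X ⊗ₖ (1 : Matrix β β ℂ)) :
    (trace (NormedSpace.exp Y)).re = Fintype.card β * (trace (NormedSpace.exp X)).re := by
  rw [← trace_exp_submatrix e, h]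
  have h1 : X ⊗ₖ (1 : Matrix β β ℂ) = Matrix.blockDiagonal fun _ : β => X := by
    ext ⟨i, k⟩ ⟨j, l⟩
    simp only [Matrix.kroneckerMap_apply, Matrix.blockDiagonal_apply, Matrix.one_apply]
    split_ifs <;> simp
  rw [h1, Matrix.exp_blockDiagonal, Matrix.trace_blockDiagonal]
  have h2 : ∀ k : β, (NormedSpace.exp fun _ : β => X) k = NormedSpace.exp X := by
    intro k
    open scoped Matrix.Norms.Operator in
    exact congrFun (Pi.exp_def (fun _ : β => X)) k
  simp only [h2, Finset.sum_const, Finset.card_univ, nsmul_eq_mul]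
  rw [← Complex.ofReal_natCast, Complex.re_ofReal_mul]

end Vale.Agent.P361.LRO.Energy
end

section

/-! # P361 LRO, block (7a): energy bound by Peierls–Bogoliubov (helper348)

`β ∑_{e touches Q} c_e ⟨h_e⟩ ≤ |Q| log 2 + β ∑_{e ∈ ∂Q} c_e` for any finite family of bonds `e = {a e, b e}` with weights `c e ≥ 0` and any
fields `h_x ≥ 0` on `Q` (arbitrary outside `Q`). -/

namespace Vale.Agent.P361.LRO.Energy

open Matrix Finset
open scoped ComplexOrder Kronecker

set_option linter.unusedSectionVars false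

noncomputable section

variable {V : Type*} [Fintype V] [DecidableEq V]

theorem comp_swap_swap (x y : V) (σ : Cfg V) : (σ ∘ Equiv.swap x y) ∘ Equiv.swap x y = σ := by
  ext z; simp

theorem swapM_isHermitian (x y : V) : (swapM x y).IsHermitian := by
  ext σ τ
  simp only [Matrix.conjTranspose_apply, swapM, Matrix.of_apply]
  have h : (τ ∘ Equiv.swap x y = σ) ↔ (σ ∘ Equiv.swap x y = τ) := by
    constructor
    · rintro rfl; exact comp_swap_swap x y τ
    · rintro rfl; exact comp_swap_swap x y σ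
  simp only [h]
  split_ifs <;> simp

theorem swapM_sq (x y : V) : swapM x y * swapM x y = 1 := by
  ext σ τ
  rw [Matrix.mul_apply]
  simp only [swapM, Matrix.of_apply]
  rw [Finset.sum_eq_single (σ ∘ Equiv.swap x y)]
  · rw [if_pos rfl, one_mul, comp_swap_swap, Matrix.one_apply]
  · intro ρ _ hρ
    rw [if_neg (fun h => hρ h.symm), zero_mul]
  · intro h; exact absurd (Finset.mem_univ _) h

theorem hM_isHermitian (x y : V) : (hM x y).IsHermitian := by
  unfold hM
  have h1 : ((1 : Matrix (Cfg V) (Cfg V) ℂ) - swapM x y).IsHermitian :=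
    Matrix.isHermitian_one.sub (swapM_isHermitian x y)
  ext σ τ
  have := congrFun (congrFun h1 σ) τ
  rw [Matrix.conjTranspose_apply] at this
  rw [Matrix.conjTranspose_apply, Matrix.smul_apply, Matrix.smul_apply, star_smul, this]
  simp

theorem hM_sq (x y : V) : hM x y * hM x y = hM x y := by
  unfold hM
  rw [Matrix.smul_mul, Matrix.mul_smul, Matrix.sub_mul, Matrix.mul_sub, Matrix.mul_sub, swapM_sq,
    Matrix.mul_one, Matrix.one_mul, Matrix.mul_one]
  module

theorem hM_posSemidef (x y : V) : (hM x y).PosSemidef := by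
  have h : hM x y = (hM x y)ᴴ * hM x y := by
    rw [(hM_isHermitian x y).eq, hM_sq]
  rw [h]
  exact Matrix.posSemidef_conjTranspose_mul_self _

theorem one_sub_hM_posSemidef (x y : V) : ((1 : Matrix (Cfg V) (Cfg V) ℂ) - hM x y).PosSemidef := by
  have h0 : ((1 : Matrix (Cfg V) (Cfg V) ℂ) - hM x y).IsHermitian :=
    Matrix.isHermitian_one.sub (hM_isHermitian x y)
  have h : (1 : Matrix (Cfg V) (Cfg V) ℂ) - hM x y =
      ((1 : Matrix (Cfg V) (Cfg V) ℂ) - hM x y)ᴴ * ((1 : Matrix (Cfg V) (Cfg V) ℂ) - hM x y) := by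
    rw [h0.eq, Matrix.sub_mul, Matrix.mul_sub, Matrix.mul_sub, hM_sq, Matrix.mul_one,
      Matrix.one_mul, Matrix.mul_one]
    abel
  rw [h]
  exact Matrix.posSemidef_conjTranspose_mul_self _

theorem szM_isHermitian (x : V) : (szM x).IsHermitian := by
  unfold szM
  rw [Matrix.isHermitian_diagonal_iff]
  intro σ
  split_ifs <;> simp [IsSelfAdjoint]

theorem half_sub_szM_posSemidef (x : V) :
    ((1 / 2 : ℂ) • (1 : Matrix (Cfg V) (Cfg V) ℂ) - szM x).PosSemidef := by
  have h : (1 / 2 : ℂ) • (1 : Matrix (Cfg V) (Cfg V) ℂ) - szM x =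
      Matrix.diagonal fun σ : Cfg V => if σ x = 0 then (0 : ℂ) else 1 := by
    ext σ τ
    by_cases hστ : σ = τ
    · subst hστ
      simp only [Matrix.sub_apply, Matrix.smul_apply, Matrix.one_apply_eq, szM,
        Matrix.diagonal_apply_eq, smul_eq_mul]
      split_ifs <;> norm_num
    · simp [szM, hστ]
  rw [h]
  refine Matrix.PosSemidef.diagonal fun σ => ?_
  simp only [Pi.zero_apply]
  split_ifs <;> simp

theorem smul_real_posSemidef {ι : Type*} [Fintype ι] [DecidableEq ι] {A : Matrix ι ι ℂ} (hA : A.PosSemidef)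
    {c : ℝ} (hc : 0 ≤ c) : ((c : ℂ) • A).PosSemidef :=
  Matrix.PosSemidef.smul hA (by simpa using hc)

theorem smul_real_isHermitian {ι : Type*} [Fintype ι] [DecidableEq ι] {A : Matrix ι ι ℂ} (hA : A.IsHermitian)
    (c : ℝ) : ((c : ℂ) • A).IsHermitian := by
  rw [Matrix.IsHermitian, Matrix.conjTranspose_smul, hA.eq]
  simp

theorem sum_isHermitian {ι κ : Type*} [Fintype ι] [DecidableEq ι] (s : Finset κ) {A : κ → Matrix ι ι ℂ}
    (hA : ∀ k ∈ s, (A k).IsHermitian) : (∑ k ∈ s, A k).IsHermitian := by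
  classical
  induction s using Finset.induction_on with
  | empty => simp
  | insert a s ha ih =>
    rw [Finset.sum_insert ha]
    exact (hA a (Finset.mem_insert_self _ _)).add (ih fun k hk => hA k (Finset.mem_insert_of_mem hk))

/-! ### Splitting off `Q` -/

variable (Q : Finset V)

/-- configurations outside / inside `Q` -/
def splitQ : ((({x // x ∉ Q}) → Fin 2) × (({x // ¬ x ∉ Q}) → Fin 2)) ≃ Cfg V :=
  (Equiv.piEquivPiSubtypeProd (fun x => x ∉ Q) (fun _ => Fin 2)).symm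

/-- extension by `up` -/
def extQ (s : ({x // x ∉ Q}) → Fin 2) : Cfg V := splitQ Q (s, 0)

variable {Q}

theorem splitQ_out (p : (({x // x ∉ Q}) → Fin 2) × (({x // ¬ x ∉ Q}) → Fin 2)) {x : V} (hx : x ∉ Q) :
    splitQ Q p x = p.1 ⟨x, hx⟩ := by
  simp [splitQ, Equiv.piEquivPiSubtypeProd, hx]

theorem splitQ_in (p : (({x // x ∉ Q}) → Fin 2) × (({x // ¬ x ∉ Q}) → Fin 2)) {x : V} (hx : ¬ x ∉ Q) :
    splitQ Q p x = p.2 ⟨x, hx⟩ := by
  simp only [splitQ, Equiv.piEquivPiSubtypeProd, Equiv.coe_fn_symm_mk]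
  rw [dif_neg hx]

theorem extQ_out (s : ({x // x ∉ Q}) → Fin 2) {x : V} (hx : x ∉ Q) : extQ Q s x = s ⟨x, hx⟩ :=
  splitQ_out (s, 0) hx

theorem extQ_injective : Function.Injective (extQ Q) := by
  intro s t h
  have := (splitQ Q).injective h
  exact (Prod.mk.inj this).1

/-- an operator which does not act on `Q` -/
def OffQ (Q : Finset V) (A : Matrix (Cfg V) (Cfg V) ℂ) : Prop :=
  ∀ s t q q', A (splitQ Q (s, q)) (splitQ Q (t, q')) = if q = q' then A (extQ Q s) (extQ Q t) else 0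

theorem offQ_add {A B : Matrix (Cfg V) (Cfg V) ℂ} (hA : OffQ Q A) (hB : OffQ Q B) : OffQ Q (A + B) := by
  intro s t q q'
  simp only [Matrix.add_apply, hA s t q q', hB s t q q']
  split_ifs <;> simp

theorem offQ_smul (c : ℂ) {A : Matrix (Cfg V) (Cfg V) ℂ} (hA : OffQ Q A) : OffQ Q (c • A) := by
  intro s t q q'
  simp only [Matrix.smul_apply, hA s t q q']
  split_ifs <;> simp

theorem offQ_sub {A B : Matrix (Cfg V) (Cfg V) ℂ} (hA : OffQ Q A) (hB : OffQ Q B) : OffQ Q (A - B) := by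
  intro s t q q'
  simp only [Matrix.sub_apply, hA s t q q', hB s t q q']
  split_ifs <;> simp

theorem offQ_sum {κ : Type*} (s : Finset κ) {A : κ → Matrix (Cfg V) (Cfg V) ℂ} (hA : ∀ k ∈ s, OffQ Q (A k)) :
    OffQ Q (∑ k ∈ s, A k) := by
  classical
  induction s using Finset.induction_on with
  | empty =>
    intro s t q q'
    simp
  | insert a s ha ih =>
    rw [Finset.sum_insert ha]
    exact offQ_add (hA a (Finset.mem_insert_self _ _)) (ih fun k hk => hA k (Finset.mem_insert_of_mem hk))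

theorem splitQ_eq_iff (s t : ({x // x ∉ Q}) → Fin 2) (q q' : ({x // ¬ x ∉ Q}) → Fin 2) :
    splitQ Q (s, q) = splitQ Q (t, q') ↔ q = q' ∧ extQ Q s = extQ Q t := by
  rw [(splitQ Q).injective.eq_iff, extQ_injective.eq_iff, Prod.mk.injEq]
  exact and_comm

theorem offQ_one : OffQ Q (1 : Matrix (Cfg V) (Cfg V) ℂ) := by
  intro s t q q'
  simp only [Matrix.one_apply, splitQ_eq_iff]
  split_ifs <;> simp_all

theorem offQ_szM {x : V} (hx : x ∉ Q) : OffQ Q (szM x) := by
  intro s t q q'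
  simp only [szM, Matrix.diagonal_apply, splitQ_eq_iff, extQ_out _ hx, splitQ_out _ hx]
  by_cases h1 : q = q'
  · simp [h1]
  · simp [h1]

theorem swap_comp_split {x y : V} (hx : x ∉ Q) (hy : y ∉ Q) (s : ({x // x ∉ Q}) → Fin 2)
    (q : ({x // ¬ x ∉ Q}) → Fin 2) : splitQ Q (s, q) ∘ Equiv.swap x y =
      splitQ Q (s ∘ Equiv.swap ⟨x, hx⟩ ⟨y, hy⟩, q) := by
  funext z
  by_cases hz : z ∉ Q
  · rw [splitQ_out _ hz, Function.comp_apply]
    have h1 : Equiv.swap x y z = ((Equiv.swap (⟨x, hx⟩ : {x // x ∉ Q}) ⟨y, hy⟩ ⟨z, hz⟩ : {x // x ∉ Q}) : V) := by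
      rw [Equiv.swap_apply_def, Equiv.swap_apply_def]
      simp only [Subtype.mk.injEq]
      split_ifs <;> rfl
    have h2 : Equiv.swap x y z ∉ Q := by
      rw [h1]
      exact (Equiv.swap (⟨x, hx⟩ : {x // x ∉ Q}) ⟨y, hy⟩ ⟨z, hz⟩).property
    rw [splitQ_out _ h2]
    simp only [Function.comp_apply]
    congr 1
    exact Subtype.ext h1
  · have h1 : z ≠ x := by rintro rfl; exact hz hx
    have h2 : z ≠ y := by rintro rfl; exact hz hy
    rw [splitQ_in _ hz, Function.comp_apply, Equiv.swap_apply_of_ne_of_ne h1 h2, splitQ_in _ hz]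

theorem offQ_swapM {x y : V} (hx : x ∉ Q) (hy : y ∉ Q) : OffQ Q (swapM x y) := by
  intro s t q q'
  have h0 : extQ Q s ∘ Equiv.swap x y = extQ Q (s ∘ Equiv.swap ⟨x, hx⟩ ⟨y, hy⟩) :=
    swap_comp_split hx hy s 0
  simp only [swapM, Matrix.of_apply, h0, swap_comp_split hx hy, splitQ_eq_iff]
  by_cases h1 : q = q'
  · simp [h1]
  · simp [h1]

theorem offQ_hM {x y : V} (hx : x ∉ Q) (hy : y ∉ Q) : OffQ Q (hM x y) :=
  offQ_smul _ (offQ_sub offQ_one (offQ_swapM hx hy))

theorem tr_exp_offQ {A : Matrix (Cfg V) (Cfg V) ℂ} (hA : OffQ Q A) :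
    (trace (NormedSpace.exp A)).re =
      (2 : ℝ) ^ Q.card * (trace (NormedSpace.exp (A.submatrix (extQ Q) (extQ Q)))).re := by
  have h : A.submatrix (splitQ Q) (splitQ Q) =
      (A.submatrix (extQ Q) (extQ Q)) ⊗ₖ (1 : Matrix (({x // ¬ x ∉ Q}) → Fin 2) (({x // ¬ x ∉ Q}) → Fin 2) ℂ) := by
    ext ⟨s, q⟩ ⟨t, q'⟩
    rw [Matrix.submatrix_apply, hA s t q q', Matrix.kroneckerMap_apply, Matrix.one_apply,
      Matrix.submatrix_apply]
    split_ifs <;> simp
  rw [tr_exp_kron_one (splitQ Q) h]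
  congr 1
  rw [Fintype.card_fun, Fintype.card_fin]
  have : Fintype.card {x // ¬ x ∉ Q} = Q.card := by
    rw [Fintype.card_subtype]
    congr 1
    ext x
    simp
  rw [this]
  push_cast
  rfl

/-- both ends in `Q`: no energy when `Q` is up -/
theorem hM_sub_in {x y : V} (hx : x ∈ Q) (hy : y ∈ Q) : (hM x y).submatrix (extQ Q) (extQ Q) = 0 := by
  ext s t
  have h1 : extQ Q s ∘ Equiv.swap x y = extQ Q s := by
    funext z
    simp only [Function.comp_apply, extQ]
    have h0 : ∀ {w : V}, w ∈ Q → splitQ Q (s, 0) w = 0 := by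
      intro w hw
      rw [splitQ_in _ (not_not.2 hw)]
      rfl
    rcases eq_or_ne z x with rfl | hzx
    · rw [Equiv.swap_apply_left, h0 hy, h0 hx]
    · rcases eq_or_ne z y with rfl | hzy
      · rw [Equiv.swap_apply_right, h0 hx, h0 hy]
      · rw [Equiv.swap_apply_of_ne_of_ne hzx hzy]
  simp only [Matrix.submatrix_apply, hM, Matrix.smul_apply, Matrix.sub_apply, swapM, Matrix.of_apply, h1,
    Matrix.one_apply, sub_self, smul_zero, Matrix.zero_apply]

theorem szM_sub_in {x : V} (hx : x ∈ Q) : (szM x).submatrix (extQ Q) (extQ Q) =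
    (1 / 2 : ℂ) • (1 : Matrix (({x // x ∉ Q}) → Fin 2) (({x // x ∉ Q}) → Fin 2) ℂ) := by
  ext s t
  have h0 : extQ Q s x = 0 := by
    rw [extQ, splitQ_in _ (not_not.2 hx)]
    rfl
  by_cases hst : s = t
  · subst hst
    simp [szM, h0]
  · have : extQ Q s ≠ extQ Q t := fun h => hst (extQ_injective h)
    simp [szM, this, hst]

variable {ι : Type*} [Fintype ι] [DecidableEq ι]

/-- exponent of the Gibbs state: `β (∑_x h_x S³_x - ∑_e c_e h_e)` -/
def gibX (β : ℝ) (h : V → ℝ) (a b : ι → V) (c : ι → ℝ) : Matrix (Cfg V) (Cfg V) ℂ :=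
  ∑ x, ((β * h x : ℝ) : ℂ) • szM x - ∑ e, ((β * c e : ℝ) : ℂ) • hM (a e) (b e)

theorem gibX_isHermitian (β : ℝ) (h : V → ℝ) (a b : ι → V) (c : ι → ℝ) : (gibX β h a b c).IsHermitian :=
  (sum_isHermitian _ fun _ _ => smul_real_isHermitian (szM_isHermitian _) _).sub
    (sum_isHermitian _ fun _ _ => smul_real_isHermitian (hM_isHermitian _ _) _)

theorem ex_add (X A B : Matrix (Cfg V) (Cfg V) ℂ) : ex X (A + B) = ex X A + ex X B := by
  unfold ex
  rw [Matrix.mul_add, Matrix.trace_add, Complex.add_re, add_div]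

theorem ex_smul (X : Matrix (Cfg V) (Cfg V) ℂ) (c : ℝ) (A : Matrix (Cfg V) (Cfg V) ℂ) :
    ex X ((c : ℂ) • A) = c * ex X A := by
  unfold ex
  rw [Matrix.mul_smul, Matrix.trace_smul, smul_eq_mul, Complex.re_ofReal_mul, mul_div_assoc]

theorem ex_zero (X : Matrix (Cfg V) (Cfg V) ℂ) : ex X 0 = 0 := by
  simp [ex]

theorem ex_sum {κ : Type*} (X : Matrix (Cfg V) (Cfg V) ℂ) (s : Finset κ) (A : κ → Matrix (Cfg V) (Cfg V) ℂ) :
    ex X (∑ k ∈ s, A k) = ∑ k ∈ s, ex X (A k) := by
  classical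
  induction s using Finset.induction_on with
  | empty => simp [ex_zero]
  | insert a s ha ih => rw [Finset.sum_insert ha, Finset.sum_insert ha, ex_add, ih]

/-- **(7a)** energy of the bonds touching `Q` -/
theorem energy_le {β : ℝ} (hβ : 0 ≤ β) (h : V → ℝ) (a b : ι → V) {c : ι → ℝ} (hc : ∀ e, 0 ≤ c e) (Q : Finset V)
    (hh : ∀ x ∈ Q, 0 ≤ h x) :
    β * ∑ e with (a e ∈ Q ∨ b e ∈ Q), c e * ex (gibX β h a b c) (hM (a e) (b e)) ≤
      Q.card * Real.log 2 + β * ∑ e with ((a e ∈ Q ∨ b e ∈ Q) ∧ ¬ (a e ∈ Q ∧ b e ∈ Q)), c e := by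
  classical
  set X := gibX β h a b c with hX
  have hXh : X.IsHermitian := gibX_isHermitian β h a b c
  -- the part of the Hamiltonian touching Q
  set T : Finset ι := Finset.univ.filter fun e => (a e ∈ Q ∨ b e ∈ Q) with hT
  set Y : Matrix (Cfg V) (Cfg V) ℂ := ∑ e ∈ T, ((β * c e : ℝ) : ℂ) • hM (a e) (b e) with hY
  have hYh : Y.IsHermitian := sum_isHermitian _ fun _ _ => smul_real_isHermitian (hM_isHermitian _ _) _
  have hPB := peierls_bogoliubov hXh hYh
  have hexY : (trace (NormedSpace.exp X * Y)).re / (trace (NormedSpace.exp X)).re =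
      β * ∑ e ∈ T, c e * ex X (hM (a e) (b e)) := by
    change ex X Y = _
    rw [hY, ex_sum, Finset.mul_sum]
    refine Finset.sum_congr rfl fun e _ => ?_
    rw [ex_smul]
    ring
  -- the operator off Q
  set A : Matrix (Cfg V) (Cfg V) ℂ := ∑ x with x ∉ Q, ((β * h x : ℝ) : ℂ) • szM x -
    ∑ e with ¬ (a e ∈ Q ∨ b e ∈ Q), ((β * c e : ℝ) : ℂ) • hM (a e) (b e) with hA
  have hAoff : OffQ Q A := by
    refine offQ_sub (offQ_sum _ fun x hx => offQ_smul _ (offQ_szM (Finset.mem_filter.1 hx).2))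
      (offQ_sum _ fun e he => offQ_smul _ ?_)
    have h2 := (Finset.mem_filter.1 he).2
    rw [not_or] at h2
    exact offQ_hM h2.1 h2.2
  have hAh : A.IsHermitian :=
    (sum_isHermitian _ fun _ _ => smul_real_isHermitian (szM_isHermitian _) _).sub
      (sum_isHermitian _ fun _ _ => smul_real_isHermitian (hM_isHermitian _ _) _)
  set D : Matrix (Cfg V) (Cfg V) ℂ := ∑ x ∈ Q, ((β * h x : ℝ) : ℂ) • szM x with hD
  have hXAD : X = A + D - Y := by
    rw [hX, hA, hD, hY, gibX, hT]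
    rw [← Finset.sum_filter_add_sum_filter_not Finset.univ (fun x => x ∉ Q)
      (fun x => ((β * h x : ℝ) : ℂ) • (szM x : Matrix (Cfg V) (Cfg V) ℂ)),
      ← Finset.sum_filter_add_sum_filter_not Finset.univ (fun e => a e ∈ Q ∨ b e ∈ Q)
      (fun e => ((β * c e : ℝ) : ℂ) • (hM (a e) (b e) : Matrix (Cfg V) (Cfg V) ℂ))]
    have h3 : (Finset.univ.filter fun x => ¬ x ∉ Q) = Q := by
      ext x; simp
    rw [h3]
    abel
  set H : ℝ := ∑ x ∈ Q, β * h x / 2 with hH
  -- upper bound of tr exp (X + Y)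
  have hup : (trace (NormedSpace.exp (X + Y))).re ≤ Real.exp H * (trace (NormedSpace.exp A)).re := by
    have h1 : X + Y = A + D := by rw [hXAD]; abel
    have hDh : D.IsHermitian := sum_isHermitian _ fun _ _ => smul_real_isHermitian (szM_isHermitian _) _
    rw [h1, ← trace_exp_add_smul_one]
    refine trace_exp_mono (hAh.add hDh) (hAh.add (smul_real_isHermitian Matrix.isHermitian_one H)) ?_
    have h2 : A + (H : ℂ) • (1 : Matrix (Cfg V) (Cfg V) ℂ) - (A + D) =
        ∑ x ∈ Q, ((β * h x : ℝ) : ℂ) • ((1 / 2 : ℂ) • (1 : Matrix (Cfg V) (Cfg V) ℂ) - szM x) := by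
      simp only [smul_sub, Finset.sum_sub_distrib, smul_smul, ← Finset.sum_smul]
      rw [hH, ← hD]
      push_cast
      have h4 : (∑ x ∈ Q, (β : ℂ) * (h x : ℂ) * (1 / 2)) = ∑ x ∈ Q, (β : ℂ) * (h x : ℂ) / 2 :=
        Finset.sum_congr rfl fun x _ => by ring
      rw [h4]
      abel
    rw [h2]
    exact Matrix.posSemidef_sum _ fun x hx =>
      smul_real_posSemidef (half_sub_szM_posSemidef x) (mul_nonneg hβ (hh x hx))
  -- lower bound of tr exp X
  set G : ℝ := β * ∑ e with ((a e ∈ Q ∨ b e ∈ Q) ∧ ¬ (a e ∈ Q ∧ b e ∈ Q)), c e with hG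
  have hAsub : (A.submatrix (extQ Q) (extQ Q)).IsHermitian := hAh.submatrix _
  have hlow : Real.exp (H - G) * (trace (NormedSpace.exp (A.submatrix (extQ Q) (extQ Q)))).re ≤
      (trace (NormedSpace.exp X)).re := by
    refine le_trans ?_ (tr_exp_submatrix_le hXh (extQ_injective (Q := Q)))
    rw [← trace_exp_add_smul_one]
    refine trace_exp_mono (hAsub.add (smul_real_isHermitian Matrix.isHermitian_one _)) (hXh.submatrix _) ?_
    have hDsub : D.submatrix (extQ Q) (extQ Q) =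
        (H : ℂ) • (1 : Matrix (({x // x ∉ Q}) → Fin 2) (({x // x ∉ Q}) → Fin 2) ℂ) := by
      rw [hD, submatrix_sum_eq, hH]
      push_cast
      rw [Finset.sum_smul]
      refine Finset.sum_congr rfl fun x hx => ?_
      rw [Matrix.submatrix_smul, Pi.smul_apply, Pi.smul_apply, szM_sub_in hx, smul_smul]
      congr 1
      ring
    have h2 : X.submatrix (extQ Q) (extQ Q) - (A.submatrix (extQ Q) (extQ Q) +
        ((H - G : ℝ) : ℂ) • (1 : Matrix (({x // x ∉ Q}) → Fin 2) (({x // x ∉ Q}) → Fin 2) ℂ)) =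
        ∑ e with ((a e ∈ Q ∨ b e ∈ Q) ∧ ¬ (a e ∈ Q ∧ b e ∈ Q)), ((β * c e : ℝ) : ℂ) •
          ((1 : Matrix (Cfg V) (Cfg V) ℂ) - hM (a e) (b e)).submatrix (extQ Q) (extQ Q) := by
      have hYsub : Y.submatrix (extQ Q) (extQ Q) =
          ∑ e with ((a e ∈ Q ∨ b e ∈ Q) ∧ ¬ (a e ∈ Q ∧ b e ∈ Q)), ((β * c e : ℝ) : ℂ) •
          (hM (a e) (b e)).submatrix (extQ Q) (extQ Q) := by
        rw [hY, submatrix_sum_eq, hT, ← Finset.filter_filter, eq_comm]
        refine Finset.sum_subset_zero_on_sdiff (Finset.filter_subset _ _) ?_ ?_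
        · intro e he
          rw [Finset.mem_sdiff] at he
          have h5 : a e ∈ Q ∧ b e ∈ Q := by
            by_contra h6
            exact he.2 (Finset.mem_filter.2 ⟨he.1, h6⟩)
          rw [Matrix.submatrix_smul, Pi.smul_apply, Pi.smul_apply, hM_sub_in h5.1 h5.2, smul_zero]
        · intro e _
          rfl
      have h1sub : (1 : Matrix (Cfg V) (Cfg V) ℂ).submatrix (extQ Q) (extQ Q) =
          (1 : Matrix (({x // x ∉ Q}) → Fin 2) (({x // x ∉ Q}) → Fin 2) ℂ) :=
        Matrix.submatrix_one (extQ Q) extQ_injective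
      have e1 : X.submatrix (extQ Q) (extQ Q) = A.submatrix (extQ Q) (extQ Q) +
          D.submatrix (extQ Q) (extQ Q) - Y.submatrix (extQ Q) (extQ Q) := by
        rw [hXAD]
        rfl
      rw [e1, hDsub, hYsub]
      simp only [Matrix.submatrix_sub, Pi.sub_apply, h1sub, smul_sub, Finset.sum_sub_distrib]
      have e2 : (∑ e with ((a e ∈ Q ∨ b e ∈ Q) ∧ ¬ (a e ∈ Q ∧ b e ∈ Q)), ((β * c e : ℝ) : ℂ) •
          (1 : Matrix (({x // x ∉ Q}) → Fin 2) (({x // x ∉ Q}) → Fin 2) ℂ)) =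
          (G : ℂ) • (1 : Matrix (({x // x ∉ Q}) → Fin 2) (({x // x ∉ Q}) → Fin 2) ℂ) := by
        rw [← Finset.sum_smul, hG]
        push_cast
        rw [Finset.mul_sum]
      rw [e2]
      push_cast
      module
    rw [h2]
    exact Matrix.posSemidef_sum _ fun e _ => smul_real_posSemidef
      ((one_sub_hM_posSemidef _ _).submatrix _) (mul_nonneg hβ (hc e))
  have htA := tr_exp_offQ hAoff
  have hp1 := trace_exp_pos hXh
  have hp2 : 0 < (trace (NormedSpace.exp (A.submatrix (extQ Q) (extQ Q)))).re := trace_exp_pos hAsub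
  rw [hexY] at hPB
  have hl1 : Real.log (trace (NormedSpace.exp (X + Y))).re ≤
      H + (Q.card * Real.log 2 + Real.log (trace (NormedSpace.exp (A.submatrix (extQ Q) (extQ Q)))).re) := by
    have h1 := Real.log_le_log (trace_exp_pos (hXh.add hYh)) hup
    rwa [htA, Real.log_mul (Real.exp_pos _).ne' (by positivity), Real.log_exp,
      Real.log_mul (by positivity) hp2.ne', Real.log_pow] at h1
  have hl2 : H - G + Real.log (trace (NormedSpace.exp (A.submatrix (extQ Q) (extQ Q)))).re ≤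
      Real.log (trace (NormedSpace.exp X)).re := by
    have h1 := Real.log_le_log (by positivity) hlow
    rwa [Real.log_mul (Real.exp_pos _).ne' hp2.ne', Real.log_exp] at h1
  linarith

end

end Vale.Agent.P361.LRO.Energy
end

section

/-! # P361 LRO, block (7): from the complex matrices of `Energy` to the common definitions (helper348) -/

namespace Vale.Agent.P361.LRO.Energy

open Matrix Finset
open scoped ComplexOrder

set_option linter.unusedSectionVars false

noncomputable section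

variable {ι : Type*} [Fintype ι] [DecidableEq ι]

/-- complexification -/
def cpx (A : Matrix ι ι ℝ) : Matrix ι ι ℂ := A.map Complex.ofReal

theorem cpx_exp (A : Matrix ι ι ℝ) : cpx (NormedSpace.exp A) = NormedSpace.exp (cpx A) := by
  have hc : Continuous (Complex.ofRealHom.mapMatrix : Matrix ι ι ℝ →+* Matrix ι ι ℂ) :=
    Continuous.matrix_map continuous_id Complex.continuous_ofReal
  open scoped Matrix.Norms.Operator in
  exact NormedSpace.map_exp (Complex.ofRealHom.mapMatrix : Matrix ι ι ℝ →+* Matrix ι ι ℂ) hc A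

theorem cpx_mul (A B : Matrix ι ι ℝ) : cpx (A * B) = cpx A * cpx B :=
  Matrix.map_mul (f := Complex.ofRealHom)

theorem cpx_trace (A : Matrix ι ι ℝ) : (trace (cpx A)).re = trace A := by
  simp [cpx, Matrix.trace, Complex.re_sum]

theorem cpx_add (A B : Matrix ι ι ℝ) : cpx (A + B) = cpx A + cpx B := by
  ext i j; simp [cpx]

theorem cpx_sub (A B : Matrix ι ι ℝ) : cpx (A - B) = cpx A - cpx B := by
  ext i j; simp [cpx]

theorem cpx_smul (c : ℝ) (A : Matrix ι ι ℝ) : cpx (c • A) = (c : ℂ) • cpx A := by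
  ext i j; simp [cpx]

theorem cpx_one : cpx (1 : Matrix ι ι ℝ) = 1 := by
  ext i j
  simp only [cpx, Matrix.map_apply, Matrix.one_apply]
  split_ifs <;> simp

theorem cpx_sum {κ : Type*} (s : Finset κ) (A : κ → Matrix ι ι ℝ) :
    cpx (∑ k ∈ s, A k) = ∑ k ∈ s, cpx (A k) := by
  ext i j; simp [cpx, Matrix.sum_apply]

theorem cpx_ex (X A : Matrix ι ι ℝ) :
    ex (cpx X) (cpx A) = trace (NormedSpace.exp X * A) / trace (NormedSpace.exp X) := by
  unfold ex
  rw [← cpx_exp, ← cpx_mul, cpx_trace, cpx_trace]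

variable {V : Type} [Fintype V] [DecidableEq V]

theorem cpx_swapM (x y : V) : cpx (LRO.swapM x y) = swapM x y := by
  ext σ τ
  simp only [cpx, LRO.swapM, swapM, Matrix.map_apply, Matrix.of_apply]
  have h : (σ = τ ∘ Equiv.swap x y) ↔ (σ ∘ Equiv.swap x y = τ) := by
    constructor
    · rintro rfl; exact comp_swap_swap x y τ
    · rintro rfl; exact (comp_swap_swap x y σ).symm
  simp only [h]
  split_ifs <;> simp

theorem cpx_hM (x y : V) : cpx (LRO.hM x y) = hM x y := by
  rw [LRO.hM, hM, cpx_smul, cpx_sub, cpx_one, cpx_swapM]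
  norm_num

theorem cpx_szM (x : V) : cpx (LRO.szM x) = (2 : ℂ) • szM x := by
  ext σ τ
  by_cases h : σ = τ
  · subst h
    simp only [cpx, LRO.szM, szM, Matrix.map_apply, Matrix.diagonal_apply_eq, Matrix.smul_apply, smul_eq_mul]
    split_ifs <;> simp
  · simp [cpx, LRO.szM, szM, h]

theorem gib_eq (L : List (V × V)) (β : ℝ) (h : V → ℝ) (A : Matrix (V → Fin 2) (V → Fin 2) ℝ) :
    gib L β h A = ex (cpx (-β • ham L h)) (cpx A) := by
  rw [cpx_ex]
  rfl

theorem cpx_ham (L : List (V × V)) (β : ℝ) (h : V → ℝ) : cpx (-β • ham L h) =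
    gibX β h (fun i : Fin L.length => (L.get i).1) (fun i => (L.get i).2) (fun _ => 1) := by
  rw [ham, gibX, ← Fin.sum_univ_fun_getElem L (fun e => LRO.hM e.1 e.2), smul_sub, cpx_sub, cpx_smul,
    cpx_smul, cpx_sum, cpx_sum]
  simp only [cpx_smul, cpx_szM, cpx_hM, Finset.smul_sum, smul_smul]
  rw [sub_eq_add_neg, add_comm, sub_eq_add_neg, ← Finset.sum_neg_distrib, ← Finset.sum_neg_distrib]
  congr 1
  · refine Finset.sum_congr rfl fun x _ => ?_
    rw [← neg_smul]
    congr 1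
    push_cast
    ring
  · refine Finset.sum_congr rfl fun x _ => ?_
    rw [← neg_smul]
    congr 1
    push_cast
    ring

theorem gib_hM (L : List (V × V)) (β : ℝ) (h : V → ℝ) (x y : V) : gib L β h (LRO.hM x y) =
    ex (gibX β h (fun i : Fin L.length => (L.get i).1) (fun i => (L.get i).2) (fun _ => 1)) (hM x y) := by
  rw [gib_eq, cpx_ham, cpx_hM]

/-- **(7a)** for `Defs.gib` -/
theorem energy_list {β : ℝ} (hβ : 0 ≤ β) (L : List (V × V)) {h : V → ℝ} (Q : Finset V) (hh : ∀ x ∈ Q, 0 ≤ h x) :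
    β * ∑ i : Fin L.length with ((L.get i).1 ∈ Q ∨ (L.get i).2 ∈ Q), gib L β h (LRO.hM (L.get i).1 (L.get i).2) ≤
      Q.card * Real.log 2 + β * ((Finset.univ.filter fun i : Fin L.length =>
        ((L.get i).1 ∈ Q ∨ (L.get i).2 ∈ Q) ∧ ¬ ((L.get i).1 ∈ Q ∧ (L.get i).2 ∈ Q)).card : ℝ) := by
  have h1 := energy_le hβ h (fun i : Fin L.length => (L.get i).1) (fun i => (L.get i).2)
    (c := fun _ => 1) (fun _ => zero_le_one) Q hh
  simp only [one_mul, Finset.sum_const, nsmul_eq_mul, mul_one] at h1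
  simpa only [gib_hM] using h1

end

end Vale.Agent.P361.LRO.Energy
end

section

/-! # P361 LRO, block (7): energy of a cube of the torus (helper348) -/

namespace Vale.Agent.P361.LRO.Energy

open Matrix Finset

set_option linter.unusedSectionVars false

noncomputable section

variable {n : ℕ} [NeZero n]

/-- second end of the edge `(x, x + e_i)` -/
def nxt (z : Tor n × Fin 3) : Tor n := z.1 + Pi.single z.2 1

theorem edges_map_sum (F : Tor n × Tor n → ℝ) :
    ((edges n).map F).sum = ∑ z : Tor n × Fin 3, F (z.1, nxt z) := by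
  rw [edges, List.map_map, ← Finset.sum_map_toList]
  rfl

theorem edges_sum (F : Tor n × Tor n → ℝ) :
    ∑ i : Fin (edges n).length, F ((edges n).get i) = ∑ z : Tor n × Fin 3, F (z.1, nxt z) := by
  rw [← edges_map_sum, ← Fin.sum_univ_fun_getElem]
  rfl

/-- bonds touching `Q` -/
def tch (Q : Finset (Tor n)) : Finset (Tor n × Fin 3) := Finset.univ.filter fun z => z.1 ∈ Q ∨ nxt z ∈ Q

/-- boundary bonds of `Q` -/
def bdy (Q : Finset (Tor n)) : Finset (Tor n × Fin 3) :=
  Finset.univ.filter fun z => (z.1 ∈ Q ∨ nxt z ∈ Q) ∧ ¬ (z.1 ∈ Q ∧ nxt z ∈ Q)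

/-- energy of a bond -/
def eb (n : ℕ) [NeZero n] (β : ℝ) (h : Tor n → ℝ) (z : Tor n × Fin 3) : ℝ :=
  gib (edges n) β h (LRO.hM z.1 (nxt z))

theorem energy_torus {β : ℝ} (hβ : 0 ≤ β) {h : Tor n → ℝ} (Q : Finset (Tor n)) (hh : ∀ x ∈ Q, 0 ≤ h x) :
    β * ∑ z ∈ tch Q, eb n β h z ≤ Q.card * Real.log 2 + β * ((bdy Q).card : ℝ) := by
  have h1 := energy_list hβ (edges n) Q hh
  have h2 : ∑ i : Fin (edges n).length with (((edges n).get i).1 ∈ Q ∨ ((edges n).get i).2 ∈ Q),
      gib (edges n) β h (LRO.hM ((edges n).get i).1 ((edges n).get i).2) = ∑ z ∈ tch Q, eb n β h z := by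
    rw [Finset.sum_filter, tch, Finset.sum_filter]
    exact edges_sum (fun e => if e.1 ∈ Q ∨ e.2 ∈ Q then gib (edges n) β h (LRO.hM e.1 e.2) else 0)
  have h3 : ((Finset.univ.filter fun i : Fin (edges n).length =>
        (((edges n).get i).1 ∈ Q ∨ ((edges n).get i).2 ∈ Q) ∧
          ¬ (((edges n).get i).1 ∈ Q ∧ ((edges n).get i).2 ∈ Q)).card : ℝ) = ((bdy Q).card : ℝ) := by
    rw [Finset.card_filter, bdy, Finset.card_filter]
    push_cast
    exact edges_sum (fun e => if (e.1 ∈ Q ∨ e.2 ∈ Q) ∧ ¬ (e.1 ∈ Q ∧ e.2 ∈ Q) then 1 else 0)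
  rw [h2, h3] at h1
  exact h1

theorem mem_cube {x y : Tor n} {l : ℕ} : y ∈ cube n x l ↔ ∃ a : Fin 3 → Fin l, y = x + fun i => ((a i : ℕ) : ZMod n) := by
  simp only [cube, Finset.mem_image, Finset.mem_univ, true_and]
  exact ⟨fun ⟨a, h⟩ => ⟨a, h.symm⟩, fun ⟨a, h⟩ => ⟨a, h.symm⟩⟩

theorem card_cube_le (x : Tor n) (l : ℕ) : (cube n x l).card ≤ l ^ 3 := by
  refine (Finset.card_image_le).trans ?_
  rw [Finset.card_univ, Fintype.card_fun, Fintype.card_fin, Fintype.card_fin]

/-- a face: the `i`-th coordinate is fixed -/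
def face (n : ℕ) [NeZero n] (x : Tor n) (l : ℕ) (i : Fin 3) (c : Fin l) : Finset (Tor n) :=
  (Finset.univ : Finset ({j : Fin 3 // j ≠ i} → Fin l)).image fun a =>
    x + fun j => (((if h : j ≠ i then a ⟨j, h⟩ else c : Fin l) : ℕ) : ZMod n)

theorem card_face_le (x : Tor n) (l : ℕ) (i : Fin 3) (c : Fin l) : (face n x l i c).card ≤ l ^ 2 := by
  refine (Finset.card_image_le).trans ?_
  rw [Finset.card_univ, Fintype.card_fun, Fintype.card_fin]
  have : Fintype.card {j : Fin 3 // j ≠ i} = 2 := by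
    rw [Fintype.card_subtype_compl, Fintype.card_fin, Fintype.card_unique]
  rw [this]

theorem mem_face {x : Tor n} {l : ℕ} {i : Fin 3} {c : Fin l} {a : Fin 3 → Fin l} (h : a i = c) :
    (x + fun j => ((a j : ℕ) : ZMod n)) ∈ face n x l i c := by
  rw [face, Finset.mem_image]
  refine ⟨fun j => a j.1, Finset.mem_univ _, ?_⟩
  congr 1
  funext j
  by_cases hj : j ≠ i
  · rw [dif_pos hj]
  · rw [dif_neg hj]
    rw [not_not] at hj
    rw [hj, h]

theorem card_bdy_le (x : Tor n) {l : ℕ} (hl : 0 < l) : (bdy (cube n x l)).card ≤ 6 * l ^ 2 := by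
  classical
  have hsub : bdy (cube n x l) ⊆
      (Finset.univ : Finset (Fin 3)).biUnion fun i =>
        ((face n x l i ⟨l - 1, by omega⟩).image fun y => (y, i)) ∪
          ((face n x l i ⟨0, hl⟩).image fun y => (y - Pi.single i 1, i)) := by
    rintro ⟨y, i⟩ hz
    rw [bdy, Finset.mem_filter] at hz
    obtain ⟨-, hor, hnot⟩ := hz
    rw [Finset.mem_biUnion]
    refine ⟨i, Finset.mem_univ _, ?_⟩
    rw [Finset.mem_union, Finset.mem_image, Finset.mem_image]
    rcases hor with h1 | h1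
    · left
      have h2 : nxt (y, i) ∉ cube n x l := fun h => hnot ⟨h1, h⟩
      obtain ⟨a, ha⟩ := mem_cube.1 h1
      have h3 : (a i : ℕ) = l - 1 := by
        by_contra hne
        have hlt : (a i : ℕ) + 1 < l := by have := (a i).2; omega
        refine h2 (mem_cube.2 ⟨Function.update a i ⟨(a i : ℕ) + 1, hlt⟩, ?_⟩)
        simp only [nxt]
        have ha' : y = x + fun i => ((a i : ℕ) : ZMod n) := ha
        rw [ha', add_assoc]
        congr 1
        funext j
        by_cases hj : j = i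
        · subst hj
          simp
        · simp [hj]
      refine ⟨y, ?_, rfl⟩
      have ha' : y = x + fun i => ((a i : ℕ) : ZMod n) := ha
      rw [ha']
      exact mem_face (Fin.ext h3)
    · right
      have h2 : y ∉ cube n x l := fun h => hnot ⟨h, h1⟩
      obtain ⟨a, ha⟩ := mem_cube.1 h1
      have ha' : y + Pi.single i 1 = x + fun i => ((a i : ℕ) : ZMod n) := ha
      have h3 : (a i : ℕ) = 0 := by
        by_contra hne
        have hlt : (a i : ℕ) - 1 < l := by have := (a i).2; omega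
        refine h2 (mem_cube.2 ⟨Function.update a i ⟨(a i : ℕ) - 1, hlt⟩, ?_⟩)
        have h4 : y = (x + fun i => ((a i : ℕ) : ZMod n)) - Pi.single i 1 := by rw [← ha']; abel
        rw [h4, add_sub_assoc]
        congr 1
        funext j
        by_cases hj : j = i
        · subst hj
          simp only [Pi.sub_apply, Pi.single_eq_same, Function.update_self]
          rw [Nat.cast_sub (by omega)]
          simp
        · simp [hj]
      refine ⟨y + Pi.single i 1, ?_, by simp⟩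
      rw [ha']
      exact mem_face (Fin.ext h3)
  refine (Finset.card_le_card hsub).trans ?_
  refine (Finset.card_biUnion_le).trans ?_
  have h1 : ∀ i : Fin 3, (((face n x l i ⟨l - 1, by omega⟩).image fun y => (y, i)) ∪
          ((face n x l i ⟨0, hl⟩).image fun y => (y - Pi.single i 1, i))).card ≤ 2 * l ^ 2 := by
    intro i
    refine (Finset.card_union_le _ _).trans ?_
    have h1 := (Finset.card_image_le (s := face n x l i ⟨l - 1, by omega⟩) (f := fun y => (y, i))).trans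
      (card_face_le x l i _)
    have h2 := (Finset.card_image_le (s := face n x l i ⟨0, hl⟩)
      (f := fun y => (y - (Pi.single i 1 : Tor n), i))).trans (card_face_le x l i _)
    omega
  refine (Finset.sum_le_sum fun i _ => h1 i).trans ?_
  simp
  omega

/-- energy of a cube -/
theorem energy_cube {β : ℝ} (hβ : 0 ≤ β) {h : Tor n → ℝ} (hh : ∀ x, 0 ≤ h x) (x : Tor n) {l : ℕ} (hl : 0 < l) :
    β * ∑ z ∈ tch (cube n x l), eb n β h z ≤ (l : ℝ) ^ 3 + 6 * β * (l : ℝ) ^ 2 := by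
  have h1 := energy_torus hβ (cube n x l) (fun y _ => hh y)
  have h2 : ((cube n x l).card : ℝ) ≤ (l : ℝ) ^ 3 := by exact_mod_cast card_cube_le x l
  have h3 : ((bdy (cube n x l)).card : ℝ) ≤ 6 * (l : ℝ) ^ 2 := by exact_mod_cast card_bdy_le x hl
  have h4 : Real.log 2 ≤ 1 := by
    have := Real.log_two_lt_d9
    linarith
  have h5 : 0 ≤ Real.log 2 := Real.log_nonneg (by norm_num)
  have h6 : ((cube n x l).card : ℝ) * Real.log 2 ≤ (l : ℝ) ^ 3 * 1 :=
    mul_le_mul h2 h4 h5 (by positivity)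
  have h7 := mul_le_mul_of_nonneg_left h3 hβ
  linarith

end

end Vale.Agent.P361.LRO.Energy
end

section

/-! # P361 LRO, block (7): the final form (helper348) -/

namespace Vale.Agent.P361.LRO.Energy

open Matrix Finset
open scoped ComplexOrder

set_option linter.unusedSectionVars false

noncomputable section

theorem gib_hM_nonneg {V : Type} [Fintype V] [DecidableEq V] (L : List (V × V)) (β : ℝ) (h : V → ℝ) (x y : V) :
    0 ≤ gib L β h (LRO.hM x y) := by
  rw [gib_hM]
  exact div_nonneg (trace_exp_mul_nonneg (gibX_isHermitian _ _ _ _ _) (hM_posSemidef x y))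
    (trace_exp_pos (gibX_isHermitian _ _ _ _ _)).le

variable {n : ℕ} [NeZero n]

theorem sum_edges_le (β : ℝ) (h : Tor n → ℝ) (Q : Finset (Tor n)) :
    ∑ e ∈ (edges n).toFinset with (e.1 ∈ Q ∧ e.2 ∈ Q), gib (edges n) β h (LRO.hM e.1 e.2) ≤
      ∑ z ∈ tch Q, eb n β h z := by
  classical
  have h1 : ((edges n).toFinset.filter fun e => e.1 ∈ Q ∧ e.2 ∈ Q) ⊆
      (tch Q).image fun z => (z.1, nxt z) := by
    intro e he
    rw [Finset.mem_filter, List.mem_toFinset, edges, List.mem_map] at he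
    obtain ⟨⟨z, -, hz⟩, h2⟩ := he
    rw [Finset.mem_image]
    refine ⟨z, ?_, hz⟩
    rw [tch, Finset.mem_filter]
    refine ⟨Finset.mem_univ _, Or.inl ?_⟩
    rw [← hz] at h2
    exact h2.1
  refine (Finset.sum_le_sum_of_subset_of_nonneg h1 fun e _ _ => gib_hM_nonneg _ _ _ _ _).trans ?_
  exact Finset.sum_image_le_of_nonneg fun z _ => gib_hM_nonneg _ _ _ _ _

/-- the tiling statement (helper351) -/
def TileStmt (C : ℝ) : Prop := ∀ (n : ℕ) [NeZero n] (β : ℝ) (h : Tor n → ℝ) (x0 : Tor n) (w m : ℕ), 0 < w → 0 < m →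
  w * m ≤ n → 3 ≤ n →
  ∑ y : Fin 3 → Fin m, ∑ x ∈ cube n (x0 + fun i => ((w * (y i : ℕ) : ℕ) : ZMod n)) w,
      ∑ x' ∈ cube n (x0 + fun i => ((w * (y i : ℕ) : ℕ) : ZMod n)) w, gib (edges n) β h (LRO.hM x x') ≤
    C * (w : ℝ) ^ 5 * ∑ e ∈ (edges n).toFinset with (e.1 ∈ cube n x0 (w * m) ∧ e.2 ∈ cube n x0 (w * m)),
      gib (edges n) β h (LRO.hM e.1 e.2)

theorem energy_of_tile {C : ℝ} (hC : 0 ≤ C) (hT : TileStmt C) (hcard : ∀ (n : ℕ) [NeZero n] (x : Tor n) (w : ℕ), w ≤ n →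
    (cube n x w).card = w ^ 3) (n : ℕ) [NeZero n] {β : ℝ} (hβ : 0 < β) (w m : ℕ) (hw : 0 < w) (hm : 0 < m)
    (hwm : w * m ≤ n) (hn : 3 ≤ n) (h : Tor n → ℝ) (hh : ∀ x, 0 ≤ h x) (x0 : Tor n) :
    ∑ y : Fin 3 → Fin m, Dst (edges n) β h (cube n (x0 + fun i => ((w * (y i : ℕ) : ℕ) : ZMod n)) w) ≤
      (m : ℝ) ^ 3 * (12 * C * (w : ℝ) ^ 2 * (1 / β + 1 / ((w : ℝ) * m))) := by
  have hw' : (0 : ℝ) < w := by exact_mod_cast hw
  have hm' : (0 : ℝ) < m := by exact_mod_cast hm
  have hwn : w ≤ n := le_trans (Nat.le_mul_of_pos_right w hm) hwm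
  have h1 := hT n β h x0 w m hw hm hwm hn
  have h2 := sum_edges_le β h (cube n x0 (w * m))
  have h3 := energy_cube hβ.le hh x0 (l := w * m) (Nat.mul_pos hw hm)
  have h4 : ∑ z ∈ tch (cube n x0 (w * m)), eb n β h z ≤
      (((w * m : ℕ) : ℝ) ^ 3 + 6 * β * ((w * m : ℕ) : ℝ) ^ 2) / β := by
    rw [le_div_iff₀ hβ, mul_comm]
    exact h3
  have h5 : ∀ y : Fin 3 → Fin m, Dst (edges n) β h (cube n (x0 + fun i => ((w * (y i : ℕ) : ℕ) : ZMod n)) w) =
      2 / (w : ℝ) ^ 6 * ∑ x ∈ cube n (x0 + fun i => ((w * (y i : ℕ) : ℕ) : ZMod n)) w,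
        ∑ x' ∈ cube n (x0 + fun i => ((w * (y i : ℕ) : ℕ) : ZMod n)) w, gib (edges n) β h (LRO.hM x x') := by
    intro y
    rw [Dst, hcard n _ w hwn]
    congr 2
    push_cast
    ring
  simp only [h5]
  rw [← Finset.mul_sum]
  have h6 : C * (w : ℝ) ^ 5 * ∑ e ∈ (edges n).toFinset with (e.1 ∈ cube n x0 (w * m) ∧ e.2 ∈ cube n x0 (w * m)),
      gib (edges n) β h (LRO.hM e.1 e.2) ≤
      C * (w : ℝ) ^ 5 * ((((w * m : ℕ) : ℝ) ^ 3 + 6 * β * ((w * m : ℕ) : ℝ) ^ 2) / β) :=
    mul_le_mul_of_nonneg_left (h2.trans h4) (by positivity)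
  calc 2 / (w : ℝ) ^ 6 * _ ≤ 2 / (w : ℝ) ^ 6 *
        (C * (w : ℝ) ^ 5 * ((((w * m : ℕ) : ℝ) ^ 3 + 6 * β * ((w * m : ℕ) : ℝ) ^ 2) / β)) :=
        mul_le_mul_of_nonneg_left (h1.trans h6) (by positivity)
    _ = (m : ℝ) ^ 3 * (2 * C * (w : ℝ) ^ 2 * (1 / β + 6 / ((w : ℝ) * m))) := by
        push_cast
        field_simp
    _ ≤ _ := by
        refine mul_le_mul_of_nonneg_left ?_ (by positivity)
        have h7 : (0 : ℝ) < 1 / β := by positivity
        have h8 : (0 : ℝ) < 1 / ((w : ℝ) * m) := by positivity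
        have h9 : 6 / ((w : ℝ) * m) = 6 * (1 / ((w : ℝ) * m)) := by ring
        rw [h9]
        have h10 : 0 ≤ C * (w : ℝ) ^ 2 := by positivity
        nlinarith [mul_nonneg h10 h7.le, mul_nonneg h10 h8.le]

end

end Vale.Agent.P361.LRO.Energy
end

section

/-! # P361 LRO, block (7): `PEnergy 2` and `EnergyStmt` from the tiling statement (helper348) -/

namespace Vale.Agent.P361.LRO.Energy

open Matrix Finset

noncomputable section

theorem pEnergy_of_tile {C : ℝ} (hC : 0 < C) (hT : TileStmt C)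
    (hcard : ∀ (n : ℕ) [NeZero n] (x : Tor n) (w : ℕ), w ≤ n → (cube n x w).card = w ^ 3) :
    PEnergy 2 := by
  refine ⟨12 * C, by positivity, ?_⟩
  intro β hβ n _ w m hw hm hwm h hh x0
  have h3 : 3 ≤ n := by nlinarith [Nat.mul_le_mul hw hm]
  exact energy_of_tile hC.le hT hcard n (by linarith) w m hw hm (by omega) h3 h
    (fun x => (hh x).1.le) x0

theorem Db_eq_Dst {V : Type} [Fintype V] [DecidableEq V] (L : List (V × V)) (β : ℝ) (h : V → ℝ)
    (b : Finset V) : Db L β h b = Dst L β h b := by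
  rw [Db, Dst]; ring

theorem energyStmt_of_tile {C : ℝ} (hC : 0 < C) (hT : TileStmt C)
    (hcard : ∀ (n : ℕ) [NeZero n] (x : Tor n) (w : ℕ), w ≤ n → (cube n x w).card = w ^ 3) :
    EnergyStmt := by
  refine ⟨12 * C, ?_⟩
  intro n _ β h x w m hβ hh hw hm hwm
  have hm' : (0 : ℝ) < m := by exact_mod_cast hm
  have h3 : 3 ≤ n := by nlinarith [Nat.mul_le_mul hw hm]
  have h1 := energy_of_tile hC.le hT hcard n hβ w m hw hm (by omega) h3 h (fun x => (hh x).le) x
  simp only [Db_eq_Dst]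
  rw [div_le_iff₀ (by positivity)]
  linarith

end

end Vale.Agent.P361.LRO.Energy
end

section

/-!
Swap operators on spin-1/2 configurations (real matrices), and the path inequality
`√<h_{xz}> ≤ √<h_{xy}> + 2 √<h_{yz}>` as an inequality of quadratic forms.
-/

namespace Vale.Agent.P361.LRO.EnR

open Matrix Finset

noncomputable section

variable {V : Type} [Fintype V] [DecidableEq V]

/-- `nrm π ψ = ‖ψ - ψ ∘ π‖₂`. -/
def nrm (π : Equiv.Perm V) (ψ : (V → Fin 2) → ℝ) : ℝ :=
  ‖WithLp.toLp 2 (fun σ : V → Fin 2 => ψ σ - ψ (σ ∘ π))‖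

theorem nrm_nonneg (π : Equiv.Perm V) (ψ : (V → Fin 2) → ℝ) : 0 ≤ nrm π ψ := norm_nonneg _

theorem nrm_sq (π : Equiv.Perm V) (ψ : (V → Fin 2) → ℝ) :
    nrm π ψ ^ 2 = ∑ σ : V → Fin 2, (ψ σ - ψ (σ ∘ π)) ^ 2 := by
  rw [nrm, EuclideanSpace.norm_sq_eq]
  refine Finset.sum_congr rfl fun σ _ => ?_
  rw [Real.norm_eq_abs, sq_abs]

/-- Configurations transported by a permutation of the sites. -/
def cfgPerm (π : Equiv.Perm V) : (V → Fin 2) ≃ (V → Fin 2) where
  toFun σ := σ ∘ π
  invFun σ := σ ∘ π.symm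
  left_inv σ := by ext x; simp
  right_inv σ := by ext x; simp

theorem nrm_mul_le (π ρ : Equiv.Perm V) (ψ : (V → Fin 2) → ℝ) :
    nrm (π * ρ) ψ ≤ nrm π ψ + nrm ρ ψ := by
  have h1 : nrm ρ ψ = ‖WithLp.toLp 2 (fun σ : V → Fin 2 => ψ (σ ∘ π) - ψ ((σ ∘ π) ∘ ρ))‖ := by
    unfold nrm
    rw [EuclideanSpace.norm_eq, EuclideanSpace.norm_eq]
    congr 1
    exact ((cfgPerm π).sum_comp (fun σ => ‖ψ σ - ψ (σ ∘ ρ)‖ ^ 2)).symm
  rw [h1]
  have h2 : WithLp.toLp 2 (fun σ : V → Fin 2 => ψ σ - ψ (σ ∘ (π * ρ : Equiv.Perm V))) =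
      WithLp.toLp 2 (fun σ : V → Fin 2 => ψ σ - ψ (σ ∘ π)) +
      WithLp.toLp 2 (fun σ : V → Fin 2 => ψ (σ ∘ π) - ψ ((σ ∘ π) ∘ ρ)) := by
    ext σ
    simp [Function.comp_assoc, Equiv.Perm.coe_mul]
  unfold nrm
  rw [h2]
  exact norm_add_le _ _

theorem nrm_one (ψ : (V → Fin 2) → ℝ) : nrm (1 : Equiv.Perm V) ψ = 0 := by
  have : nrm (1 : Equiv.Perm V) ψ ^ 2 = 0 := by
    rw [nrm_sq]; simp
  exact pow_eq_zero_iff (two_ne_zero) |>.mp this

theorem nrm_swap_step (x y z : V) (ψ : (V → Fin 2) → ℝ) :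
    nrm (Equiv.swap x z) ψ ≤ nrm (Equiv.swap x y) ψ + 2 * nrm (Equiv.swap y z) ψ := by
  by_cases hxz : x = z
  · subst hxz
    rw [Equiv.swap_self]
    have := nrm_one (V := V) ψ
    have h0 : nrm (Equiv.refl V) ψ = 0 := this
    rw [h0]
    have := nrm_nonneg (Equiv.swap x y) ψ
    have := nrm_nonneg (Equiv.swap y x) ψ
    linarith
  by_cases hxy : x = y
  · subst hxy
    have := nrm_nonneg (Equiv.swap x x) ψ
    have := nrm_nonneg (Equiv.swap x z) ψ
    linarith
  have h := Equiv.swap_mul_swap_mul_swap (x := x) (y := y) (z := z) hxy hxz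
  have h1 : Equiv.swap x z = Equiv.swap y z * Equiv.swap x y * Equiv.swap y z := by
    rw [h, Equiv.swap_comm]
  rw [h1]
  have h2 := nrm_mul_le (Equiv.swap y z * Equiv.swap x y) (Equiv.swap y z) ψ
  have h3 := nrm_mul_le (Equiv.swap y z) (Equiv.swap x y) ψ
  linarith

theorem nrm_swap_comm (x y : V) (ψ : (V → Fin 2) → ℝ) :
    nrm (Equiv.swap x y) ψ = nrm (Equiv.swap y x) ψ := by rw [Equiv.swap_comm]

/-- Moving one end along a sequence of sites, forward. -/
theorem nrm_seg_up (x : V) (q : ℕ → V) (ψ : (V → Fin 2) → ℝ) (a k : ℕ) :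
    nrm (Equiv.swap x (q (a + k))) ψ ≤ nrm (Equiv.swap x (q a)) ψ +
      2 * ∑ i ∈ Finset.range k, nrm (Equiv.swap (q (a + i)) (q (a + i + 1))) ψ := by
  induction k with
  | zero => simp
  | succ k ih =>
    rw [Finset.sum_range_succ]
    have := nrm_swap_step x (q (a + k)) (q (a + k + 1)) ψ
    have e : a + (k + 1) = a + k + 1 := by ring
    rw [e]
    linarith

theorem nrm_seg_down (x : V) (q : ℕ → V) (ψ : (V → Fin 2) → ℝ) (a k : ℕ) :
    nrm (Equiv.swap x (q a)) ψ ≤ nrm (Equiv.swap x (q (a + k))) ψ +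
      2 * ∑ i ∈ Finset.range k, nrm (Equiv.swap (q (a + i)) (q (a + i + 1))) ψ := by
  induction k with
  | zero => simp
  | succ k ih =>
    rw [Finset.sum_range_succ]
    have := nrm_swap_step x (q (a + k + 1)) (q (a + k)) ψ
    rw [nrm_swap_comm (q (a + k + 1))] at this
    have e : a + (k + 1) = a + k + 1 := by ring
    rw [e]
    linarith

/-- Moving one end along a sequence of sites, inside `[0, m]`. -/
theorem nrm_seg (x : V) (q : ℕ → V) (ψ : (V → Fin 2) → ℝ) {a b m : ℕ} (ha : a ≤ m)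
    (hb : b ≤ m) :
    nrm (Equiv.swap x (q b)) ψ ≤ nrm (Equiv.swap x (q a)) ψ +
      2 * ∑ i ∈ Finset.range m, nrm (Equiv.swap (q i) (q (i + 1))) ψ := by
  have key : ∀ c k : ℕ, c + k ≤ m →
      ∑ i ∈ Finset.range k, nrm (Equiv.swap (q (c + i)) (q (c + i + 1))) ψ ≤
      ∑ i ∈ Finset.range m, nrm (Equiv.swap (q i) (q (i + 1))) ψ := by
    intro c k hck
    rw [← Finset.sum_image (s := Finset.range k) (g := fun i => c + i)
      (f := fun i => nrm (Equiv.swap (q i) (q (i + 1))) ψ) (by intro a _ b _ h; simpa using h)]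
    apply Finset.sum_le_sum_of_subset_of_nonneg
    · intro i hi
      simp only [Finset.mem_image, Finset.mem_range] at hi ⊢
      obtain ⟨j, hj, rfl⟩ := hi
      omega
    · intro i _ _
      exact nrm_nonneg _ _
  rcases le_total a b with h | h
  · obtain ⟨k, rfl⟩ := Nat.exists_eq_add_of_le h
    have h1 := nrm_seg_up x q ψ a k
    have h2 := key a k hb
    linarith
  · obtain ⟨k, rfl⟩ := Nat.exists_eq_add_of_le h
    have h1 := nrm_seg_down x q ψ b k
    have h2 := key b k ha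
    linarith

theorem swapM_mulVec (x y : V) (ψ : (V → Fin 2) → ℝ) (σ : V → Fin 2) :
    (swapM x y *ᵥ ψ) σ = ψ (σ ∘ Equiv.swap x y) := by
  have h1 : ∀ τ : V → Fin 2, (σ = τ ∘ Equiv.swap x y) ↔ (σ ∘ Equiv.swap x y = τ) := by
    intro τ
    constructor
    · rintro rfl; ext z; simp
    · rintro rfl; ext z; simp
  simp [swapM, Matrix.mulVec, dotProduct, h1]

/-- The quadratic form of `h_{xy}`. -/
theorem form_hM (x y : V) (ψ : (V → Fin 2) → ℝ) :
    ψ ⬝ᵥ (hM x y *ᵥ ψ) = (1 / 4) * nrm (Equiv.swap x y) ψ ^ 2 := by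
  rw [nrm_sq]
  have h1 : ψ ⬝ᵥ (hM x y *ᵥ ψ) =
      (1 / 2) * ∑ σ, ψ σ * (ψ σ - ψ (σ ∘ Equiv.swap x y)) := by
    rw [hM, Matrix.smul_mulVec, Matrix.sub_mulVec, Matrix.one_mulVec, dotProduct_smul, smul_eq_mul,
      dotProduct]
    congr 1
    refine Finset.sum_congr rfl fun σ _ => ?_
    rw [Pi.sub_apply, swapM_mulVec]
  have hinv : ∀ f : (V → Fin 2) → ℝ, ∑ σ, f (σ ∘ Equiv.swap x y) = ∑ σ, f σ := fun f =>
    (cfgPerm (Equiv.swap x y)).sum_comp f
  have hss : ∀ σ : V → Fin 2, (σ ∘ Equiv.swap x y) ∘ Equiv.swap x y = σ := by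
    intro σ; ext z; simp
  have h2 : ∑ σ, ψ σ * (ψ σ - ψ (σ ∘ Equiv.swap x y)) =
      ∑ σ, ψ (σ ∘ Equiv.swap x y) * (ψ (σ ∘ Equiv.swap x y) - ψ σ) := by
    rw [← hinv (fun σ => ψ σ * (ψ σ - ψ (σ ∘ Equiv.swap x y)))]
    refine Finset.sum_congr rfl fun σ _ => ?_
    rw [hss]
  have h3 : 2 * ∑ σ, ψ σ * (ψ σ - ψ (σ ∘ Equiv.swap x y)) =
      ∑ σ, (ψ σ - ψ (σ ∘ Equiv.swap x y)) ^ 2 := by
    rw [two_mul]
    nth_rewrite 2 [h2]
    rw [← Finset.sum_add_distrib]
    refine Finset.sum_congr rfl fun σ _ => ?_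
    ring
  rw [h1, ← h3]
  ring

/-- Inequalities of quadratic forms pass to `tr (M ·)` for `M = Cᵀ C`. -/
theorem trace_le_of_form_le {ι : Type*} [Fintype ι] [DecidableEq ι] {A B : Matrix ι ι ℝ}
    (C : Matrix ι ι ℝ)
    (h : ∀ ψ : ι → ℝ, ψ ⬝ᵥ (A *ᵥ ψ) ≤ ψ ⬝ᵥ (B *ᵥ ψ)) :
    trace (Cᵀ * C * A) ≤ trace (Cᵀ * C * B) := by
  have key : ∀ X : Matrix ι ι ℝ, trace (Cᵀ * C * X) =
      ∑ i, (C i) ⬝ᵥ (X *ᵥ (C i)) := by
    intro X
    rw [Matrix.mul_assoc, Matrix.trace_mul_comm, Matrix.trace]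
    refine Finset.sum_congr rfl fun i _ => ?_
    rw [Matrix.diag_apply, Matrix.mul_assoc, Matrix.mul_apply, dotProduct]
    refine Finset.sum_congr rfl fun j _ => ?_
    rw [Matrix.mul_apply, Matrix.mulVec, dotProduct]
    rfl
  rw [key A, key B]
  exact Finset.sum_le_sum fun i _ => h _

theorem swapM_transpose (x y : V) : (swapM x y)ᵀ = swapM x y := by
  ext σ τ
  have h1 : (τ = σ ∘ Equiv.swap x y) ↔ (σ = τ ∘ Equiv.swap x y) := by
    constructor
    · rintro rfl; ext z; simp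
    · rintro rfl; ext z; simp
  simp [swapM, h1]

theorem hM_transpose (x y : V) : (hM x y)ᵀ = hM x y := by
  rw [hM, transpose_smul, transpose_sub, transpose_one, swapM_transpose]

theorem ham_transpose (L : List (V × V)) (h : V → ℝ) : (ham L h)ᵀ = ham L h := by
  have h1 : ∀ L : List (V × V), ((L.map fun e => hM e.1 e.2).sum)ᵀ =
      (L.map fun e => hM e.1 e.2).sum := by
    intro L
    induction L with
    | nil => simp
    | cons e L ih => rw [List.map_cons, List.sum_cons, transpose_add, ih, hM_transpose]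
  rw [ham, transpose_sub, h1, transpose_sum]
  congr 1
  refine Finset.sum_congr rfl fun x _ => ?_
  rw [transpose_smul, szM, diagonal_transpose]

/-- The Gibbs weight is `Cᵀ C`. -/
theorem exp_ham_factor (L : List (V × V)) (β : ℝ) (h : V → ℝ) :
    ∃ C : Matrix (V → Fin 2) (V → Fin 2) ℝ, NormedSpace.exp (-β • ham L h) = Cᵀ * C := by
  refine ⟨NormedSpace.exp (-(β / 2) • ham L h), ?_⟩
  rw [← Matrix.exp_transpose, transpose_smul, ham_transpose, ← Matrix.exp_add_of_commute _ _ rfl,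
    ← add_smul]
  congr 2
  ring

theorem gib_le_of_form_le (L : List (V × V)) (β : ℝ) (h : V → ℝ)
    {A B : Matrix (V → Fin 2) (V → Fin 2) ℝ}
    (hAB : ∀ ψ : (V → Fin 2) → ℝ, ψ ⬝ᵥ (A *ᵥ ψ) ≤ ψ ⬝ᵥ (B *ᵥ ψ)) :
    gib L β h A ≤ gib L β h B := by
  obtain ⟨C, hC⟩ := exp_ham_factor L β h
  rw [gib, gib, hC]
  refine div_le_div_of_nonneg_right (trace_le_of_form_le C hAB) ?_
  rw [Matrix.trace]
  refine Finset.sum_nonneg fun i _ => ?_
  rw [Matrix.diag_apply, Matrix.mul_apply]
  exact Finset.sum_nonneg fun j _ => mul_self_nonneg _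

theorem gib_add (L : List (V × V)) (β : ℝ) (h : V → ℝ)
    (A B : Matrix (V → Fin 2) (V → Fin 2) ℝ) :
    gib L β h (A + B) = gib L β h A + gib L β h B := by
  rw [gib, gib, gib, Matrix.mul_add, Matrix.trace_add, add_div]

theorem gib_smul (L : List (V × V)) (β : ℝ) (h : V → ℝ) (c : ℝ)
    (A : Matrix (V → Fin 2) (V → Fin 2) ℝ) :
    gib L β h (c • A) = c * gib L β h A := by
  rw [gib, gib, Matrix.mul_smul, Matrix.trace_smul, smul_eq_mul, mul_div_assoc]

theorem gib_sum (L : List (V × V)) (β : ℝ) (h : V → ℝ) {ι : Type*} (s : Finset ι)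
    (A : ι → Matrix (V → Fin 2) (V → Fin 2) ℝ) :
    gib L β h (∑ i ∈ s, A i) = ∑ i ∈ s, gib L β h (A i) := by
  rw [gib, Matrix.mul_sum, Matrix.trace_sum, Finset.sum_div]
  rfl

end

end Vale.Agent.P361.LRO.EnR
end

section

/-! (copy of the P367 file) the bounded Lie-Trotter product formula. -/

namespace Vale.Agent.P361TrotB

open Filter Topology NormedSpace

section powers

variable {𝔸 : Type*} [NormedRing 𝔸]

/-- telescoping estimate for powers -/
theorem norm_pow_sub_pow_le' {a b : 𝔸} {M : ℝ} (hM : 1 ≤ M) (ha : ‖a‖ ≤ M) (hb : ‖b‖ ≤ M) (m : ℕ)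
    (h1 : ‖(1 : 𝔸)‖ ≤ 1) : ‖a ^ m - b ^ m‖ ≤ m * M ^ m * ‖a - b‖ := by
  have hpa : ∀ k : ℕ, ‖a ^ k‖ ≤ M ^ k := by
    intro k
    induction k with
    | zero => simpa using h1
    | succ k ih =>
      rw [pow_succ, pow_succ]
      refine (norm_mul_le _ _).trans ?_
      gcongr
  induction m with
  | zero => simp
  | succ m ih =>
    have e : a ^ (m + 1) - b ^ (m + 1) = a ^ m * (a - b) + (a ^ m - b ^ m) * b := by
      rw [pow_succ, pow_succ]; noncomm_ring
    rw [e]
    have h2 : ‖a ^ m * (a - b)‖ ≤ M ^ m * ‖a - b‖ := by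
      refine (norm_mul_le _ _).trans ?_
      gcongr
      exact hpa m
    have h3 : ‖(a ^ m - b ^ m) * b‖ ≤ (m * M ^ m * ‖a - b‖) * M := by
      refine (norm_mul_le _ _).trans ?_
      gcongr
    have hM0 : 0 ≤ M := zero_le_one.trans hM
    calc ‖a ^ m * (a - b) + (a ^ m - b ^ m) * b‖
        ≤ M ^ m * ‖a - b‖ + (m * M ^ m * ‖a - b‖) * M := (norm_add_le _ _).trans (add_le_add h2 h3)
      _ ≤ (M ^ m * M) * ‖a - b‖ + (m * M ^ m * ‖a - b‖) * M := by
          gcongr
          exact le_mul_of_one_le_right (by positivity) hM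
      _ = ((m + 1 : ℕ) : ℝ) * M ^ (m + 1) * ‖a - b‖ := by
          push_cast
          ring

end powers

variable {𝔸 : Type*} [NormedRing 𝔸] [NormedAlgebra ℂ 𝔸] [CompleteSpace 𝔸]

omit [CompleteSpace 𝔸] in
/-- norm of the exponential -/
theorem norm_exp_le' (h1 : ‖(1 : 𝔸)‖ ≤ 1) (x : 𝔸) : ‖exp x‖ ≤ Real.exp ‖x‖ := by
  have h2 : ∀ n : ℕ, ‖((n.factorial : ℂ)⁻¹) • x ^ n‖ ≤ ‖x‖ ^ n / n.factorial := by
    intro n
    rw [norm_smul, norm_inv, Complex.norm_natCast, div_eq_inv_mul]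
    gcongr
    rcases Nat.eq_zero_or_pos n with hn | hn
    · subst hn; simpa using h1
    · exact norm_pow_le' x hn
  have hs : Summable fun n : ℕ => ‖x‖ ^ n / (n.factorial : ℝ) := Real.summable_pow_div_factorial _
  rw [exp_eq_tsum ℂ, Real.exp_eq_exp_ℝ, exp_eq_tsum_div]
  exact tsum_of_norm_bounded hs.hasSum h2

/-- first order remainder of the exponential -/
theorem norm_exp_sub_one_sub_le (_h1 : ‖(1 : 𝔸)‖ ≤ 1) (x : 𝔸) :
    ‖exp x - 1 - x‖ ≤ ‖x‖ ^ 2 * Real.exp ‖x‖ := by
  have h2 : ∀ n : ℕ, ‖(((n + 2).factorial : ℂ)⁻¹) • x ^ (n + 2)‖ ≤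
      ‖x‖ ^ 2 * (‖x‖ ^ n / n.factorial) := by
    intro n
    rw [norm_smul, norm_inv, Complex.norm_natCast]
    have h3 : ‖x ^ (n + 2)‖ ≤ ‖x‖ ^ (n + 2) := norm_pow_le' x (by omega)
    have h4 : ((n + 2).factorial : ℝ)⁻¹ ≤ (n.factorial : ℝ)⁻¹ := by
      apply inv_anti₀ (by positivity)
      exact_mod_cast Nat.factorial_le (by omega)
    calc ((n + 2).factorial : ℝ)⁻¹ * ‖x ^ (n + 2)‖ ≤ (n.factorial : ℝ)⁻¹ * ‖x‖ ^ (n + 2) := by
          gcongr
      _ = _ := by rw [pow_add]; ring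
  have hs : Summable fun n : ℕ => ‖x‖ ^ n / (n.factorial : ℝ) := Real.summable_pow_div_factorial _
  have hx : Summable fun n : ℕ => ((n.factorial : ℂ)⁻¹) • x ^ n := expSeries_summable' (𝕂 := ℂ) x
  have e : exp x - 1 - x = ∑' n : ℕ, (((n + 2).factorial : ℂ)⁻¹) • x ^ (n + 2) := by
    rw [exp_eq_tsum ℂ]
    have h5 := hx.sum_add_tsum_nat_add 2
    simp only [Finset.sum_range_succ, Finset.range_zero, Finset.sum_empty, zero_add,
      Nat.factorial_zero, Nat.cast_one, inv_one, pow_zero, one_smul, Nat.factorial_one,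
      pow_one] at h5
    show (∑' n : ℕ, ((n.factorial : ℂ)⁻¹) • x ^ n) - 1 - x = _
    rw [← h5]
    abel
  rw [e]
  have h6 : HasSum (fun n : ℕ => ‖x‖ ^ 2 * (‖x‖ ^ n / (n.factorial : ℝ))) (‖x‖ ^ 2 * Real.exp ‖x‖) := by
    have h7 := hs.hasSum.mul_left (‖x‖ ^ 2)
    rw [Real.exp_eq_exp_ℝ, exp_eq_tsum_div]
    exact h7
  exact tsum_of_norm_bounded h6 h2

/-- a product formula with second order defect -/
theorem trotter_of_defect (h1 : ‖(1 : 𝔸)‖ ≤ 1) {f : ℕ → 𝔸} {C : 𝔸} {c K : ℝ} (hc : 0 ≤ c)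
    (hC : ‖C‖ ≤ c) (hf : ∀ m : ℕ, 1 ≤ m → ‖f m‖ ≤ Real.exp (c / m))
    (hd : ∀ m : ℕ, 1 ≤ m → ‖f m - exp (((m : ℂ)⁻¹) • C)‖ ≤ K / (m : ℝ) ^ 2) :
    Tendsto (fun m : ℕ => f m ^ m) atTop (𝓝 (exp C)) := by
  rw [tendsto_iff_norm_sub_tendsto_zero]
  have hlim : Tendsto (fun m : ℕ => Real.exp c * K * (m : ℝ)⁻¹) atTop (𝓝 0) := by
    have := (tendsto_inv_atTop_nhds_zero_nat (𝕜 := ℝ)).const_mul (Real.exp c * K)
    simpa using this
  refine squeeze_zero' (Eventually.of_forall fun _ => norm_nonneg _) ?_ hlim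
  filter_upwards [eventually_ge_atTop 1] with m hm
  have hm0 : (m : ℝ) ≠ 0 := by positivity
  have hmc : (m : ℂ) ≠ 0 := by exact_mod_cast (by omega : m ≠ 0)
  have e1 : exp C = exp (((m : ℂ)⁻¹) • C) ^ m := by
    let _ : NormedAlgebra ℚ 𝔸 := NormedAlgebra.restrictScalars ℚ ℂ 𝔸
    rw [← exp_nsmul, ← Nat.cast_smul_eq_nsmul ℂ, smul_smul, mul_inv_cancel₀ hmc, one_smul]
  have hb : ‖exp (((m : ℂ)⁻¹) • C)‖ ≤ Real.exp (c / m) := by
    refine (norm_exp_le' h1 _).trans ?_
    rw [norm_smul, norm_inv, Complex.norm_natCast]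
    apply Real.exp_le_exp.2
    rw [div_eq_inv_mul]
    gcongr
  have hM : 1 ≤ Real.exp (c / m) := Real.one_le_exp (by positivity)
  rw [e1]
  refine (norm_pow_sub_pow_le' hM (hf m hm) hb m h1).trans ?_
  have e2 : Real.exp (c / m) ^ m = Real.exp c := by
    rw [← Real.exp_nat_mul]
    congr 1
    field_simp
  rw [e2]
  calc (m : ℝ) * Real.exp c * ‖f m - exp (((m : ℂ)⁻¹) • C)‖
      ≤ (m : ℝ) * Real.exp c * (K / (m : ℝ) ^ 2) := by
        gcongr
        exact hd m hm
    _ = Real.exp c * K * (m : ℝ)⁻¹ := by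
        field_simp

/-- products of exponentials, first order expansion -/
theorem prod_exp_expand (h1 : ‖(1 : 𝔸)‖ ≤ 1) (l : List 𝔸) :
    ∃ K : ℝ, 0 ≤ K ∧ ∀ t : ℝ, 0 ≤ t → t ≤ 1 →
      ‖(l.map fun A => exp ((t : ℂ) • A)).prod - 1 - (t : ℂ) • l.sum‖ ≤ K * t ^ 2 ∧
      ‖(l.map fun A => exp ((t : ℂ) • A)).prod‖ ≤ Real.exp (t * (l.map fun A => ‖A‖).sum) := by
  induction l with
  | nil =>
    refine ⟨0, le_rfl, fun t _ _ => ?_⟩
    simp [h1]
  | cons A l ih =>
    obtain ⟨K, hK, ih⟩ := ih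
    refine ⟨‖A‖ ^ 2 * Real.exp ‖A‖ * Real.exp ((l.map fun A => ‖A‖).sum) + K +
      ‖A‖ * (‖l.sum‖ + K), ?_, fun t ht0 ht1 => ?_⟩
    · positivity
    obtain ⟨h2, h3⟩ := ih t ht0 ht1
    set P := (l.map fun A => exp ((t : ℂ) • A)).prod with hP
    have htn : ‖(t : ℂ) • A‖ = t * ‖A‖ := by
      rw [norm_smul, Complex.norm_real, Real.norm_eq_abs, abs_of_nonneg ht0]
    have hSn : 0 ≤ (l.map fun A => ‖A‖).sum := List.sum_nonneg (by
      intro x hx
      obtain ⟨a, _, rfl⟩ := List.mem_map.1 hx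
      exact norm_nonneg _)
    have hE := norm_exp_sub_one_sub_le h1 ((t : ℂ) • A)
    rw [htn] at hE
    have hP1 : ‖P‖ ≤ Real.exp ((l.map fun A => ‖A‖).sum) := by
      refine h3.trans (Real.exp_le_exp.2 ?_)
      nlinarith
    have hPm : ‖P - 1‖ ≤ t * (‖l.sum‖ + K) := by
      have e : P - 1 = (P - 1 - (t : ℂ) • l.sum) + (t : ℂ) • l.sum := by abel
      rw [e]
      refine (norm_add_le _ _).trans ?_
      rw [norm_smul, Complex.norm_real, Real.norm_eq_abs, abs_of_nonneg ht0]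
      nlinarith [norm_nonneg l.sum, mul_nonneg hK (sq_nonneg t), mul_le_mul_of_nonneg_left ht1 (mul_nonneg hK ht0)]
    constructor
    · rw [List.map_cons, List.prod_cons, List.sum_cons, ← hP]
      have e : exp ((t : ℂ) • A) * P - 1 - (t : ℂ) • (A + l.sum)
          = (exp ((t : ℂ) • A) - 1 - (t : ℂ) • A) * P + (P - 1 - (t : ℂ) • l.sum)
            + ((t : ℂ) • A) * (P - 1) := by
        rw [smul_add]
        noncomm_ring
      rw [e]
      have n1 : ‖(exp ((t : ℂ) • A) - 1 - (t : ℂ) • A) * P‖ ≤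
          ‖A‖ ^ 2 * Real.exp ‖A‖ * Real.exp ((l.map fun A => ‖A‖).sum) * t ^ 2 := by
        refine (norm_mul_le _ _).trans ?_
        have h4 : (t * ‖A‖) ^ 2 * Real.exp (t * ‖A‖) ≤ ‖A‖ ^ 2 * Real.exp ‖A‖ * t ^ 2 := by
          have : Real.exp (t * ‖A‖) ≤ Real.exp ‖A‖ := Real.exp_le_exp.2 (by nlinarith [norm_nonneg A])
          calc (t * ‖A‖) ^ 2 * Real.exp (t * ‖A‖) ≤ (t * ‖A‖) ^ 2 * Real.exp ‖A‖ := by gcongr
            _ = _ := by ring
        calc _ ≤ (‖A‖ ^ 2 * Real.exp ‖A‖ * t ^ 2) * Real.exp ((l.map fun A => ‖A‖).sum) :=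
              mul_le_mul (hE.trans h4) hP1 (norm_nonneg _) (by positivity)
          _ = _ := by ring
      have n2 : ‖((t : ℂ) • A) * (P - 1)‖ ≤ ‖A‖ * (‖l.sum‖ + K) * t ^ 2 := by
        refine (norm_mul_le _ _).trans ?_
        rw [htn]
        calc t * ‖A‖ * ‖P - 1‖ ≤ t * ‖A‖ * (t * (‖l.sum‖ + K)) := by gcongr
          _ = _ := by ring
      calc _ ≤ ‖(exp ((t : ℂ) • A) - 1 - (t : ℂ) • A) * P‖ + ‖P - 1 - (t : ℂ) • l.sum‖
            + ‖((t : ℂ) • A) * (P - 1)‖ := norm_add₃_le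
        _ ≤ _ := by linarith
    · rw [List.map_cons, List.prod_cons, List.map_cons, List.sum_cons, ← hP]
      refine (norm_mul_le _ _).trans ?_
      rw [mul_add, Real.exp_add]
      have h5 := norm_exp_le' h1 ((t : ℂ) • A)
      rw [htn] at h5
      exact mul_le_mul h5 h3 (norm_nonneg _) (Real.exp_pos _).le

omit [NormedAlgebra ℂ 𝔸] [CompleteSpace 𝔸] in
theorem norm_list_sum_le' (l : List 𝔸) : ‖l.sum‖ ≤ (l.map fun A => ‖A‖).sum := by
  induction l with
  | nil => simp
  | cons A l ih =>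
    rw [List.sum_cons, List.map_cons, List.sum_cons]
    exact (norm_add_le _ _).trans (add_le_add le_rfl ih)

/-- Lie-Trotter product formula for a finite product -/
theorem lie_trotter_list (h1 : ‖(1 : 𝔸)‖ ≤ 1) (l : List 𝔸) :
    Tendsto (fun m : ℕ => ((l.map fun A => exp (((m : ℂ)⁻¹) • A)).prod) ^ m) atTop
      (𝓝 (exp l.sum)) := by
  obtain ⟨K, hK, h⟩ := prod_exp_expand h1 l
  have hS : ‖l.sum‖ ≤ (l.map fun A => ‖A‖).sum := norm_list_sum_le' l
  have hSn : 0 ≤ (l.map fun A => ‖A‖).sum := (norm_nonneg _).trans hS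
  refine trotter_of_defect h1 (c := (l.map fun A => ‖A‖).sum)
    (K := K + ‖l.sum‖ ^ 2 * Real.exp ‖l.sum‖) hSn hS ?_ ?_
  · intro m hm
    have hm1 : ((m : ℝ)⁻¹) ≤ 1 := inv_le_one_of_one_le₀ (by exact_mod_cast hm)
    have h2 := (h ((m : ℝ)⁻¹) (by positivity) hm1).2
    rw [Complex.ofReal_inv, Complex.ofReal_natCast] at h2
    rwa [div_eq_inv_mul]
  · intro m hm
    have hm1 : ((m : ℝ)⁻¹) ≤ 1 := inv_le_one_of_one_le₀ (by exact_mod_cast hm)
    have h2 := (h ((m : ℝ)⁻¹) (by positivity) hm1).1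
    rw [Complex.ofReal_inv, Complex.ofReal_natCast] at h2
    have h3 := norm_exp_sub_one_sub_le h1 (((m : ℂ)⁻¹) • l.sum)
    have h4 : ‖((m : ℂ)⁻¹) • l.sum‖ = (m : ℝ)⁻¹ * ‖l.sum‖ := by
      rw [norm_smul, norm_inv, Complex.norm_natCast]
    rw [h4] at h3
    have h5 : Real.exp ((m : ℝ)⁻¹ * ‖l.sum‖) ≤ Real.exp ‖l.sum‖ :=
      Real.exp_le_exp.2 (by nlinarith [norm_nonneg l.sum])
    have e : (l.map fun A => exp (((m : ℂ)⁻¹) • A)).prod - exp (((m : ℂ)⁻¹) • l.sum)
        = ((l.map fun A => exp (((m : ℂ)⁻¹) • A)).prod - 1 - ((m : ℂ)⁻¹) • l.sum)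
          - (exp (((m : ℂ)⁻¹) • l.sum) - 1 - ((m : ℂ)⁻¹) • l.sum) := by abel
    rw [e]
    refine (norm_sub_le _ _).trans ?_
    have h6 : ((m : ℝ)⁻¹ * ‖l.sum‖) ^ 2 * Real.exp ((m : ℝ)⁻¹ * ‖l.sum‖)
        ≤ ‖l.sum‖ ^ 2 * Real.exp ‖l.sum‖ * ((m : ℝ)⁻¹) ^ 2 := by
      calc ((m : ℝ)⁻¹ * ‖l.sum‖) ^ 2 * Real.exp ((m : ℝ)⁻¹ * ‖l.sum‖)
          ≤ ((m : ℝ)⁻¹ * ‖l.sum‖) ^ 2 * Real.exp ‖l.sum‖ := by gcongr
        _ = _ := by ring
    have e2 : (K + ‖l.sum‖ ^ 2 * Real.exp ‖l.sum‖) / (m : ℝ) ^ 2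
        = K * ((m : ℝ)⁻¹) ^ 2 + ‖l.sum‖ ^ 2 * Real.exp ‖l.sum‖ * ((m : ℝ)⁻¹) ^ 2 := by
      rw [div_eq_mul_inv, inv_pow]; ring
    rw [e2]
    linarith

/-- Lie-Trotter product formula for two bounded operators -/
theorem lie_trotter (h1 : ‖(1 : 𝔸)‖ ≤ 1) (A B : 𝔸) :
    Tendsto (fun m : ℕ => (exp (((m : ℂ)⁻¹) • A) * exp (((m : ℂ)⁻¹) • B)) ^ m) atTop
      (𝓝 (exp (A + B))) := by
  have h := lie_trotter_list h1 [A, B]
  simpa using h

end Vale.Agent.P361TrotB
end

section

/-!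
P361, block (8): Lie-Trotter for the static Gibbs state, complex matrices.
-/

namespace Vale.Agent.P361.LRO.LY

open Finset Matrix Filter Topology

noncomputable section

variable {V : Type} [Fintype V] [DecidableEq V]

/-- Complexification of a real matrix. -/
def cM {m : Type} (A : Matrix m m ℝ) : Matrix m m ℂ := A.map (fun t : ℝ => (t : ℂ))

/-- The exchange, complex. -/
def swapC (x y : V) : Matrix (V → Fin 2) (V → Fin 2) ℂ :=
  Matrix.of fun σ τ => if σ = τ ∘ Equiv.swap x y then 1 else 0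

/-- Gate. -/
def gateC (x y : V) (p : ℝ) : Matrix (V → Fin 2) (V → Fin 2) ℂ :=
  ((1 - p : ℝ) : ℂ) • (1 : Matrix (V → Fin 2) (V → Fin 2) ℂ) + ((p : ℝ) : ℂ) • swapC x y

/-- Slice `∏_x exp (b_x σ³_x / 2)`. -/
def sliceC (b : V → ℝ) : Matrix (V → Fin 2) (V → Fin 2) ℂ :=
  Matrix.diagonal fun σ => ∏ x, Complex.exp (if σ x = 0 then (b x / 2 : ℝ) else (-(b x / 2) : ℝ))

/-- One Trotter step. -/
def stepC (L : List (V × V)) (β : ℝ) (h : V → ℝ) (N : ℕ) :
    Matrix (V → Fin 2) (V → Fin 2) ℂ :=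
  sliceC (fun x => β * h x / N) * (L.map fun e => gateC e.1 e.2 ((1 - Real.exp (-(β / N))) / 2)).prod

theorem cM_mul {m : Type} [Fintype m] (A B : Matrix m m ℝ) : cM (A * B) = cM A * cM B := by
  unfold cM
  ext i j
  simp [Matrix.mul_apply, Matrix.map_apply]

theorem cM_trace {m : Type} [Fintype m] (A : Matrix m m ℝ) :
    (cM A).trace = ((A.trace : ℝ) : ℂ) := by
  unfold cM
  simp [Matrix.trace]

theorem swapC_eq (x y : V) : swapC x y = cM (swapM x y) := by
  ext σ τ
  simp only [swapC, cM, swapM, Matrix.of_apply, Matrix.map_apply]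
  split_ifs <;> simp

theorem swapC_sq (x y : V) : swapC x y * swapC x y = (1 : Matrix (V → Fin 2) (V → Fin 2) ℂ) := by
  ext σ τ
  rw [Matrix.mul_apply, Finset.sum_eq_single (τ ∘ Equiv.swap x y)]
  · have h1 : (swapC x y : Matrix (V → Fin 2) (V → Fin 2) ℂ) (τ ∘ Equiv.swap x y) τ = 1 := by
      simp [swapC]
    have h2 : (τ ∘ Equiv.swap x y) ∘ Equiv.swap x y = τ := by
      funext z
      simp
    rw [h1, mul_one]
    simp only [swapC, Matrix.of_apply, h2, Matrix.one_apply]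
  · intro ρ _ hρ
    have h1 : (swapC x y : Matrix (V → Fin 2) (V → Fin 2) ℂ) ρ τ = 0 := by
      simp [swapC, hρ]
    rw [h1, mul_zero]
  · intro h
    exact absurd (Finset.mem_univ _) h

/-! ### Exponentials -/

section Exp

open scoped Matrix.Norms.Operator Nat

variable {m : Type} [Fintype m] [DecidableEq m]

theorem norm_one_le : ‖(1 : Matrix m m ℂ)‖ ≤ 1 := by
  rcases isEmpty_or_nonempty m with h | h
  · have : (1 : Matrix m m ℂ) = 0 := Subsingleton.elim _ _
    rw [this, norm_zero]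
    exact zero_le_one
  · rw [norm_one]

/-- Exponential of a multiple of an idempotent. -/
theorem exp_idem {Q : Matrix m m ℂ} (hQ : Q * Q = Q) (a : ℂ) :
    NormedSpace.exp (a • Q) = (1 - Q) + Complex.exp a • Q := by
  have h1 := NormedSpace.exp_series_hasSum_exp' (𝕂 := ℂ) (a • Q)
  have h2 := NormedSpace.exp_series_hasSum_exp' (𝕂 := ℂ) a
  have h3 : HasSum (fun n : ℕ => ((n !⁻¹ : ℂ) • a ^ n) • Q) (NormedSpace.exp a • Q) :=
    h2.smul_const Q
  have h4 : HasSum (fun n : ℕ => if n = 0 then (1 - Q) else 0) (1 - Q) := by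
    have := hasSum_ite_eq (0 : ℕ) (1 - Q)
    exact this
  have h5 := h4.add h3
  have h6 : (fun n : ℕ => (n !⁻¹ : ℂ) • (a • Q) ^ n) =
      fun n : ℕ => (if n = 0 then (1 - Q) else 0) + ((n !⁻¹ : ℂ) • a ^ n) • Q := by
    funext n
    have hp : ∀ k : ℕ, Q ^ (k + 1) = Q := by
      intro k
      induction k with
      | zero => rw [zero_add, pow_one]
      | succ k ih => rw [pow_succ, ih, hQ]
    rcases n with _ | n
    · simp
    · rw [if_neg (Nat.succ_ne_zero n), zero_add, smul_pow, hp n, smul_smul, smul_eq_mul]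
  rw [h6] at h1
  have h7 := h1.unique h5
  rw [← Complex.exp_eq_exp_ℂ] at h7
  exact h7

theorem hM_idem (x y : V) : cM (hM x y) * cM (hM x y) = cM (hM x y) := by
  have h1 : cM (hM x y) = (1 / 2 : ℂ) • ((1 : Matrix (V → Fin 2) (V → Fin 2) ℂ) - swapC x y) := by
    rw [swapC_eq]
    ext σ τ
    simp only [cM, hM, Matrix.map_apply, Matrix.smul_apply, Matrix.sub_apply, smul_eq_mul,
      Matrix.one_apply]
    push_cast
    split_ifs <;> simp
  rw [h1, smul_mul_smul_comm, sub_mul, mul_sub, mul_sub, swapC_sq, one_mul, mul_one, one_mul]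
  have : ((1 : Matrix (V → Fin 2) (V → Fin 2) ℂ) - swapC x y - (swapC x y - 1)) =
      (2 : ℂ) • ((1 : Matrix (V → Fin 2) (V → Fin 2) ℂ) - swapC x y) := by
    rw [two_smul]
    abel
  rw [this, smul_smul]
  norm_num

theorem gate_exp (x y : V) (t : ℝ) :
    NormedSpace.exp (((-t : ℝ) : ℂ) • cM (hM x y)) = gateC x y ((1 - Real.exp (-t)) / 2) := by
  rw [exp_idem (hM_idem x y)]
  have h1 : cM (hM x y) = (1 / 2 : ℂ) • ((1 : Matrix (V → Fin 2) (V → Fin 2) ℂ) - swapC x y) := by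
    rw [swapC_eq]
    ext σ τ
    simp only [cM, hM, Matrix.map_apply, Matrix.smul_apply, Matrix.sub_apply, smul_eq_mul,
      Matrix.one_apply]
    push_cast
    split_ifs <;> simp
  rw [h1, gateC]
  ext σ τ
  simp only [Matrix.add_apply, Matrix.sub_apply, Matrix.smul_apply, smul_eq_mul]
  push_cast
  ring

theorem slice_exp (b : V → ℝ) :
    NormedSpace.exp (cM (∑ x, (b x / 2) • szM x)) = sliceC b := by
  have h1 : cM (∑ x, (b x / 2) • szM x) = Matrix.diagonal fun σ : V → Fin 2 =>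
      ∑ x, ((if σ x = 0 then (b x / 2 : ℝ) else (-(b x / 2) : ℝ) : ℝ) : ℂ) := by
    ext σ τ
    simp only [cM, Matrix.map_apply, Matrix.sum_apply, Matrix.smul_apply, szM, smul_eq_mul,
      Matrix.diagonal_apply]
    by_cases h : σ = τ
    · subst h
      simp only [if_true]
      push_cast
      refine Finset.sum_congr rfl fun x _ => ?_
      split_ifs <;> push_cast <;> ring
    · simp [h]
  rw [h1, Matrix.exp_diagonal, sliceC]
  congr 1
  funext σ
  rw [Pi.coe_exp, ← Complex.exp_eq_exp_ℂ, Complex.exp_sum]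
  refine Finset.prod_congr rfl fun x _ => ?_
  congr 1
  split_ifs <;> rfl

theorem cM_exp (A : Matrix m m ℝ) : cM (NormedSpace.exp A) = NormedSpace.exp (cM A) := by
  have h := NormedSpace.map_exp (𝔸 := Matrix m m ℝ) (𝔹 := Matrix m m ℂ)
    (RingHom.mapMatrix (m := m) Complex.ofRealHom) ?_ A
  · exact h
  · exact Continuous.matrix_map continuous_id Complex.continuous_ofReal

theorem smul_list_sum (c : ℝ) (L : List (V × V)) :
    (L.map fun e => ((c : ℝ) : ℂ) • cM (hM e.1 e.2)).sum =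
      ((c : ℝ) : ℂ) • cM (L.map fun e => hM e.1 e.2).sum := by
  induction L with
  | nil =>
    ext σ τ
    simp [cM]
  | cons e L ih =>
    rw [List.map_cons, List.sum_cons, ih, List.map_cons, List.sum_cons]
    ext σ τ
    simp only [cM, Matrix.add_apply, Matrix.smul_apply, Matrix.map_apply, smul_eq_mul]
    push_cast
    ring

theorem step_tendsto (L : List (V × V)) (β : ℝ) (h : V → ℝ) :
    Tendsto (fun N : ℕ => stepC L β h N ^ N) atTop
      (𝓝 (cM (NormedSpace.exp (-β • ham L h)))) := by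
  have h1 := Vale.Agent.P361TrotB.lie_trotter_list (𝔸 := Matrix (V → Fin 2) (V → Fin 2) ℂ)
    norm_one_le (cM (∑ x, (β * h x / 2) • szM x) ::
      L.map fun e => ((-β : ℝ) : ℂ) • cM (hM e.1 e.2))
  have hsum : (cM (∑ x, (β * h x / 2) • szM x) ::
      L.map fun e => ((-β : ℝ) : ℂ) • cM (hM e.1 e.2)).sum = cM (-β • ham L h) := by
    rw [List.sum_cons]
    rw [smul_list_sum]
    ext σ τ
    simp only [cM, ham, Matrix.add_apply, Matrix.smul_apply, Matrix.map_apply, Matrix.sub_apply,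
      smul_eq_mul, Matrix.sum_apply]
    rw [mul_sub, Finset.mul_sum]
    push_cast
    rw [sub_eq_add_neg, ← Finset.sum_neg_distrib, add_comm]
    congr 1
    refine Finset.sum_congr rfl fun x _ => ?_
    ring
  rw [hsum] at h1
  rw [cM_exp]
  refine Tendsto.congr (fun N => ?_) h1
  congr 1
  rw [List.map_cons, List.prod_cons, List.map_map, stepC]
  congr 1
  · rw [← slice_exp]
    congr 1
    ext σ τ
    simp only [cM, Matrix.smul_apply, Matrix.map_apply, smul_eq_mul, Matrix.sum_apply]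
    push_cast
    rw [Finset.mul_sum]
    refine Finset.sum_congr rfl fun x _ => ?_
    ring
  · congr 1
    refine List.map_congr_left fun e _ => ?_
    rw [Function.comp_apply, smul_smul, ← gate_exp]
    congr 2
    push_cast
    ring

theorem trace_tendsto (L : List (V × V)) (β : ℝ) (h : V → ℝ)
    (A : Matrix (V → Fin 2) (V → Fin 2) ℝ) :
    Tendsto (fun N : ℕ => (stepC L β h N ^ N * cM A).trace) atTop
      (𝓝 (((NormedSpace.exp (-β • ham L h) * A).trace : ℝ) : ℂ)) := by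
  have h1 := step_tendsto L β h
  have h2 : Continuous fun X : Matrix (V → Fin 2) (V → Fin 2) ℂ => (X * cM A).trace :=
    Continuous.matrix_trace (continuous_id.mul continuous_const)
  have h3 := (h2.tendsto _).comp h1
  rw [← cM_mul, cM_trace] at h3
  exact h3

end Exp

end

end Vale.Agent.P361.LRO.LY
end

section

/-!
P361, block (8): from the finite Trotter number (`FinReg`) to the Gibbs state (`RegStmt`).
-/

namespace Vale.Agent.P361.LRO.LY

open Finset Matrix Filter Topology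

noncomputable section

/-- The regularity at finite Trotter number. -/
def FinReg : Prop :=
  ∀ (V : Type) [Fintype V] [DecidableEq V] (L : List (V × V)) (β : ℝ) (h h' : V → ℝ) (s : ℝ)
    (N : ℕ) (z : V), 0 < β → (∀ x, 0 < h x) → (∀ x, 0 < h' x) → 0 ≤ s → 3 * s < Real.pi / 2 →
    (∀ x, |Real.log (h x) - Real.log (h' x)| ≤ s) → 2 ≤ N →
    0 < (stepC L β h N ^ N).trace.re → 0 < (stepC L β h' N ^ N).trace.re →
    0 < (stepC L β h N ^ N * cM (szM z)).trace.re ∧
    0 < (stepC L β h' N ^ N * cM (szM z)).trace.re ∧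
    (stepC L β h' N ^ N).trace.re / (stepC L β h' N ^ N * cM (szM z)).trace.re - 1 ≤
      2 * ((stepC L β h N ^ N).trace.re / (stepC L β h N ^ N * cM (szM z)).trace.re - 1) +
        9 / 2 * s ^ 2

section Limit

variable {V : Type} [Fintype V] [DecidableEq V] (L : List (V × V)) (β : ℝ) (h : V → ℝ) (z : V)

/-- Partition function. -/
def ZS : ℝ := Matrix.trace (NormedSpace.exp (-β • ham L h))

/-- The numerator of the magnetization. -/
def AS : ℝ := Matrix.trace (NormedSpace.exp (-β • ham L h) * szM z)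

theorem ZS_pos : 0 < ZS L β h := Z_pos L β h

theorem one_sub_two_rho : 1 - 2 * rho L β h z = AS L β h z / ZS L β h := by
  have hZ := (ZS_pos L β h).ne'
  unfold rho gib
  rw [Matrix.mul_smul, Matrix.trace_smul, Matrix.mul_sub, Matrix.mul_one, Matrix.trace_sub,
    smul_eq_mul]
  change 1 - 2 * (1 / 2 * (ZS L β h - AS L β h z) / ZS L β h) = _
  field_simp
  ring

theorem ZS_tendsto : Tendsto (fun N : ℕ => (stepC L β h N ^ N).trace.re) atTop
    (𝓝 (ZS L β h)) := by
  have h1 := trace_tendsto L β h 1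
  have h2 : (cM (1 : Matrix (V → Fin 2) (V → Fin 2) ℝ)) = 1 := by
    ext i j
    by_cases hij : i = j
    · subst hij; simp [cM]
    · simp [cM, hij]
  simp only [h2, Matrix.mul_one] at h1
  have h3 := (Complex.continuous_re.tendsto _).comp h1
  rw [Complex.ofReal_re] at h3
  exact h3

theorem AS_tendsto : Tendsto (fun N : ℕ => (stepC L β h N ^ N * cM (szM z)).trace.re) atTop
    (𝓝 (AS L β h z)) := by
  have h1 := trace_tendsto L β h (szM z)
  have h3 := (Complex.continuous_re.tendsto _).comp h1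
  rw [Complex.ofReal_re] at h3
  exact h3

end Limit

section Lim2

variable {V : Type} [Fintype V] [DecidableEq V] (L : List (V × V)) {β : ℝ} {h h' : V → ℝ} {s : ℝ}

/-- The limit of the inequality. -/
theorem lim_ineq (H : FinReg) (hβ : 0 < β) (hh : ∀ x, 0 < h x) (hh' : ∀ x, 0 < h' x) (hs : 0 ≤ s)
    (hs' : 3 * s < Real.pi / 2) (hd : ∀ x, |Real.log (h x) - Real.log (h' x)| ≤ s) (z : V) :
    0 ≤ AS L β h z ∧ 0 ≤ AS L β h' z ∧
    (ZS L β h' - AS L β h' z) * AS L β h z ≤
      2 * (ZS L β h - AS L β h z) * AS L β h' z + 9 / 2 * s ^ 2 * (AS L β h z * AS L β h' z) := by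
  have hF : ∀ᶠ N : ℕ in atTop, 2 ≤ N ∧ 0 < (stepC L β h N ^ N).trace.re ∧
      0 < (stepC L β h' N ^ N).trace.re :=
    (eventually_ge_atTop 2).and
      (((ZS_tendsto L β h).eventually (lt_mem_nhds (ZS_pos L β h))).and
        ((ZS_tendsto L β h').eventually (lt_mem_nhds (ZS_pos L β h'))))
  refine ⟨?_, ?_, ?_⟩
  · refine ge_of_tendsto (AS_tendsto L β h z) ?_
    filter_upwards [hF] with N hN
    exact (H V L β h h' s N z hβ hh hh' hs hs' hd hN.1 hN.2.1 hN.2.2).1.le
  · refine ge_of_tendsto (AS_tendsto L β h' z) ?_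
    filter_upwards [hF] with N hN
    exact (H V L β h h' s N z hβ hh hh' hs hs' hd hN.1 hN.2.1 hN.2.2).2.1.le
  · have t1 := ((ZS_tendsto L β h').sub (AS_tendsto L β h' z)).mul (AS_tendsto L β h z)
    have t2 := ((((ZS_tendsto L β h).sub (AS_tendsto L β h z)).const_mul 2).mul
      (AS_tendsto L β h' z)).add
      (((AS_tendsto L β h z).mul (AS_tendsto L β h' z)).const_mul (9 / 2 * s ^ 2))
    refine le_of_tendsto_of_tendsto t1 t2 ?_
    filter_upwards [hF] with N hN
    obtain ⟨hA, hA', hI⟩ := H V L β h h' s N z hβ hh hh' hs hs' hd hN.1 hN.2.1 hN.2.2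
    set Z := (stepC L β h N ^ N).trace.re
    set A := (stepC L β h N ^ N * cM (szM z)).trace.re
    set Z' := (stepC L β h' N ^ N).trace.re
    set A' := (stepC L β h' N ^ N * cM (szM z)).trace.re
    have e1 : (Z' - A') * A = (Z' / A' - 1) * (A * A') := by
      field_simp
    have e2 : 2 * (Z - A) * A' + 9 / 2 * s ^ 2 * (A * A') =
        (2 * (Z / A - 1) + 9 / 2 * s ^ 2) * (A * A') := by
      field_simp
    calc (Z' - A') * A = (Z' / A' - 1) * (A * A') := e1
      _ ≤ (2 * (Z / A - 1) + 9 / 2 * s ^ 2) * (A * A') :=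
          mul_le_mul_of_nonneg_right hI (mul_pos hA hA').le
      _ = 2 * (Z - A) * A' + 9 / 2 * s ^ 2 * (A * A') := e2.symm

/-- Positivity propagates. -/
theorem pos_step (H : FinReg) (hβ : 0 < β) (hh : ∀ x, 0 < h x) (hh' : ∀ x, 0 < h' x) (hs : 0 ≤ s)
    (hs' : 3 * s < Real.pi / 2) (hd : ∀ x, |Real.log (h x) - Real.log (h' x)| ≤ s) {z : V}
    (hp : 0 < AS L β h z) : 0 < AS L β h' z := by
  obtain ⟨_, h2, h3⟩ := lim_ineq L H hβ hh hh' hs hs' hd z
  rcases h2.lt_or_eq with h2 | h2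
  · exact h2
  · exfalso
    rw [← h2, mul_zero, mul_zero, mul_zero, sub_zero, add_zero] at h3
    exact absurd (mul_pos (ZS_pos L β h') hp) (not_lt.mpr h3)

end Lim2

section Large

variable {V : Type} [Fintype V] [DecidableEq V] (L : List (V × V)) {β : ℝ} {h : V → ℝ}

theorem swapM_up (x y : V) : (swapM x y : Matrix (V → Fin 2) (V → Fin 2) ℝ) 0 0 = 1 := by
  unfold swapM
  rw [Matrix.of_apply, if_pos]
  rfl

theorem hM_up (x y : V) : (hM x y : Matrix (V → Fin 2) (V → Fin 2) ℝ) 0 0 = 0 := by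
  unfold hM
  rw [Matrix.smul_apply, Matrix.sub_apply, swapM_up, Matrix.one_apply_eq]
  simp

theorem ham_up (h : V → ℝ) : (ham L h) 0 0 = -∑ x, h x / 2 := by
  unfold ham
  have h1 : ∀ l : List (V × V), ((l.map fun e => hM e.1 e.2).sum :
      Matrix (V → Fin 2) (V → Fin 2) ℝ) 0 0 = 0 := by
    intro l
    induction l with
    | nil => simp
    | cons e l ih => rw [List.map_cons, List.sum_cons, Matrix.add_apply, ih, hM_up, add_zero]
  rw [Matrix.sub_apply, h1, Matrix.sum_apply, zero_sub]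
  congr 1
  refine Finset.sum_congr rfl fun x _ => ?_
  simp [szM]

theorem exp_le_ZS (h : V → ℝ) : Real.exp (β * ∑ x, h x / 2) ≤ ZS L β h := by
  have hs := exponent_isSymm L β h
  have hH := LRO.cM_isHermitian hs
  have h1 := Vale.Agent.P361.peierls hH (V := 1) (by simp)
  rw [exp_cM, trace_cM_re] at h1
  refine le_trans ?_ h1
  have h2 : ∀ i : V → Fin 2,
      (star (1 : Matrix (V → Fin 2) (V → Fin 2) ℂ) * LRO.cM (-β • ham L h) *
        (1 : Matrix (V → Fin 2) (V → Fin 2) ℂ)) i i = (((-β • ham L h) i i : ℝ) : ℂ) := by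
    intro i
    rw [star_one, Matrix.one_mul, Matrix.mul_one, LRO.cM_apply]
  have h3 : Real.exp (β * ∑ x, h x / 2) = Real.exp ((((-β • ham L h) 0 0 : ℝ) : ℂ).re) := by
    congr 1
    rw [Complex.ofReal_re, Matrix.smul_apply, ham_up, smul_eq_mul]
    ring
  simp only [h2]
  rw [h3]
  exact Finset.single_le_sum (f := fun i : V → Fin 2 => Real.exp
    ((((-β • ham L h) i i : ℝ) : ℂ).re))
    (fun i _ => (Real.exp_pos _).le) (Finset.mem_univ (0 : V → Fin 2))

theorem ham_update (h : V → ℝ) (z : V) (t : ℝ) :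
    ham L (Function.update h z (h z + t)) = ham L h - (t / 2) • szM z := by
  unfold ham
  rw [sub_sub]
  congr 1
  have h1 : ∀ x, (Function.update h z (h z + t) x / 2) • szM x =
      (h x / 2) • szM x + (if x = z then (t / 2) • szM z else 0) := by
    intro x
    by_cases hx : x = z
    · subst hx
      rw [Function.update_self, if_pos rfl, ← add_smul]
      congr 1
      ring
    · rw [Function.update_of_ne hx, if_neg hx, add_zero]
  simp only [h1, Finset.sum_add_distrib, Finset.sum_ite_eq', Finset.mem_univ, if_true]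

/-- Some large field makes the magnetization positive. -/
theorem exists_pos (hβ : 0 < β) (hh : ∀ x, 0 < h x) (z : V) :
    ∃ t : ℝ, 0 < t ∧ 0 < AS L β (Function.update h z (h z + t)) z := by
  set S := |Real.log (ZS L β h)| + 1 with hS
  have hS0 : 0 < S := by positivity
  refine ⟨2 * S / β, by positivity, ?_⟩
  set t := 2 * S / β with ht
  set h' := Function.update h z (h z + t) with hh'
  have hX := exponent_isSymm L β h'
  have hY : ((-(β * t / 2)) • szM z : Matrix (V → Fin 2) (V → Fin 2) ℝ).IsSymm := by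
    rw [Matrix.IsSymm, Matrix.transpose_smul, szM_isSymm]
  have hXY : (-β • ham L h') + (-(β * t / 2)) • szM z = -β • ham L h := by
    rw [hh', ham_update, smul_sub, smul_smul, sub_eq_add_neg, add_assoc, ← neg_smul, ← add_smul]
    have : (-(-β * (t / 2)) + -(β * t / 2)) = 0 := by ring
    rw [this, zero_smul, add_zero]
  have h1 := peierls_bogoliubov_real hX hY
  rw [hXY, Matrix.mul_smul, Matrix.trace_smul, smul_eq_mul] at h1
  change Real.log (ZS L β h') + -(β * t / 2) * AS L β h' z / ZS L β h' ≤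
    Real.log (ZS L β h) at h1
  have h2 : β * ∑ x, h' x / 2 ≤ Real.log (ZS L β h') := by
    rw [Real.le_log_iff_exp_le (ZS_pos L β h')]
    exact exp_le_ZS L h'
  have h3 : β * t / 2 ≤ β * ∑ x, h' x / 2 := by
    have h4 : t / 2 ≤ ∑ x, h' x / 2 := by
      have h5 : h' z / 2 ≤ ∑ x, h' x / 2 := by
        refine Finset.single_le_sum (f := fun x => h' x / 2) (fun x _ => ?_) (Finset.mem_univ z)
        have : 0 < h' x := by
          rw [hh']
          by_cases hx : x = z
          · subst hx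
            rw [Function.update_self]
            have := hh x
            positivity
          · rw [Function.update_of_ne hx]
            exact hh x
        positivity
      have h6 : t ≤ h' z := by
        rw [hh', Function.update_self]
        have := hh z
        linarith
      linarith
    calc β * t / 2 = β * (t / 2) := by ring
      _ ≤ _ := mul_le_mul_of_nonneg_left h4 hβ.le
  have h7 : β * t / 2 = S := by
    rw [ht]; field_simp
  have h8 : Real.log (ZS L β h) < S := by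
    rw [hS]
    have := le_abs_self (Real.log (ZS L β h))
    linarith
  by_contra hc
  rw [not_lt] at hc
  have h9 : 0 ≤ -(β * t / 2) * AS L β h' z / ZS L β h' := by
    refine div_nonneg ?_ (ZS_pos L β h').le
    rw [neg_mul]
    have : 0 ≤ β * t / 2 := by rw [h7]; exact hS0.le
    nlinarith
  linarith

end Large

section Final

variable {V : Type} [Fintype V] [DecidableEq V] (L : List (V × V)) {β : ℝ}

omit [Fintype V] in
theorem update_exp_pos {h : V → ℝ} (hh : ∀ x, 0 < h x) (z : V) (u : ℝ) (x : V) :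
    0 < Function.update h z (Real.exp u) x := by
  by_cases hx : x = z
  · subst hx
    rw [Function.update_self]
    exact Real.exp_pos u
  · rw [Function.update_of_ne hx]
    exact hh x

omit [Fintype V] in
theorem log_update {h : V → ℝ} (z : V) (u v : ℝ) (x : V) :
    |Real.log (Function.update h z (Real.exp u) x) -
      Real.log (Function.update h z (Real.exp v) x)| ≤ |u - v| := by
  by_cases hx : x = z
  · subst hx
    rw [Function.update_self, Function.update_self, Real.log_exp, Real.log_exp]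
  · rw [Function.update_of_ne hx, Function.update_of_ne hx, sub_self, abs_zero]
    exact abs_nonneg _

theorem AS_pos_chain (H : FinReg) (hβ : 0 < β) {h : V → ℝ} (hh : ∀ x, 0 < h x) (z : V) :
    ∀ (n : ℕ) (u v : ℝ), |u - v| ≤ n / 2 →
      0 < AS L β (Function.update h z (Real.exp u)) z →
      0 < AS L β (Function.update h z (Real.exp v)) z := by
  have h0 : ∀ u v : ℝ, |u - v| ≤ 1 / 2 → 0 < AS L β (Function.update h z (Real.exp u)) z →
      0 < AS L β (Function.update h z (Real.exp v)) z := by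
    intro u v huv hp
    refine pos_step L H hβ (update_exp_pos hh z u) (update_exp_pos hh z v) (s := 1 / 2)
      (by norm_num) (by have := Real.pi_gt_three; linarith)
      (fun x => (log_update z u v x).trans huv) hp
  intro n
  induction n with
  | zero =>
    intro u v huv hp
    rw [Nat.cast_zero, zero_div] at huv
    have : u = v := by
      have := abs_nonneg (u - v)
      have h1 : |u - v| = 0 := le_antisymm huv this
      exact sub_eq_zero.mp (abs_eq_zero.mp h1)
    rwa [← this]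
  | succ n ih =>
    intro u v huv hp
    push_cast at huv
    rcases le_or_gt |u - v| (1 / 2) with hle | hgt
    · exact h0 u v hle hp
    · rcases abs_cases (u - v) with ⟨ha, hb⟩ | ⟨ha, hb⟩
      · refine ih (u - 1 / 2) v ?_ (h0 u (u - 1 / 2) ?_ hp)
        · rw [abs_le]; constructor <;> linarith
        · rw [abs_le]; constructor <;> linarith
      · refine ih (u + 1 / 2) v ?_ (h0 u (u + 1 / 2) ?_ hp)
        · rw [abs_le]; constructor <;> linarith
        · rw [abs_le]; constructor <;> linarith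

theorem AS_pos (H : FinReg) (hβ : 0 < β) {h : V → ℝ} (hh : ∀ x, 0 < h x) (z : V) :
    0 < AS L β h z := by
  obtain ⟨t, ht, hp⟩ := exists_pos L hβ hh z
  have hz := hh z
  have e1 : Function.update h z (h z + t) = Function.update h z (Real.exp (Real.log (h z + t))) := by
    rw [Real.exp_log (by linarith)]
  have e2 : h = Function.update h z (Real.exp (Real.log (h z))) := by
    rw [Real.exp_log hz, Function.update_eq_self]
  rw [e1] at hp
  obtain ⟨n, hn⟩ := exists_nat_ge (2 * |Real.log (h z + t) - Real.log (h z)|)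
  rw [e2]
  exact AS_pos_chain L H hβ hh z n _ _ (by linarith) hp

end Final

/-- `RegStmt` from the regularity at finite Trotter number. -/
theorem regStmt_of (H : FinReg) : RegStmt := by
  intro V _ _ L β h h' s hβ hh hh' hs hs' hd z
  have hA := AS_pos L H hβ hh z
  have hA' := AS_pos L H hβ hh' z
  have hZ := ZS_pos L β h
  have hZ' := ZS_pos L β h'
  obtain ⟨_, _, h3⟩ := lim_ineq L H hβ hh hh' hs hs' hd z
  rw [one_sub_two_rho, one_sub_two_rho, one_div_div, one_div_div]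
  refine ⟨div_pos hA hZ, ?_⟩
  have e1 : ZS L β h' / AS L β h' z - 1 =
      ((ZS L β h' - AS L β h' z) * AS L β h z) / (AS L β h z * AS L β h' z) := by
    field_simp
  have e2 : 2 * (ZS L β h / AS L β h z - 1) + 9 / 2 * s ^ 2 =
      (2 * (ZS L β h - AS L β h z) * AS L β h' z + 9 / 2 * s ^ 2 * (AS L β h z * AS L β h' z)) /
        (AS L β h z * AS L β h' z) := by
    field_simp
  rw [e1, e2]
  exact div_le_div_of_nonneg_right h3 (mul_pos hA hA').le

end

end Vale.Agent.P361.LRO.LY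
end

section

/-!
Hermitian forms of hemispheres on `ℂ²` and the two-site lemmas (P361, step (8)).
-/

namespace Vale.Agent.P361.LRO

open Complex

noncomputable section

/-- The Hermitian form of the hemisphere centred at the angle `g` in the (1,3) plane. -/
def Q (g : ℝ) (u : Fin 2 → ℂ) : ℝ :=
  Real.cos g * (normSq (u 0) - normSq (u 1)) +
    2 * Real.sin g * ((u 0).re * (u 1).re + (u 0).im * (u 1).im)

/-- The bilinear pairing on `ℂ²`. -/
def dot (u v : Fin 2 → ℂ) : ℂ := u 0 * v 0 + u 1 * v 1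

/-- The symplectic rotation `(v₁, -v₀)`. -/
def eps (v : Fin 2 → ℂ) : Fin 2 → ℂ := ![v 1, -v 0]

@[simp] lemma eps_zero (v : Fin 2 → ℂ) : eps v 0 = v 1 := rfl
@[simp] lemma eps_one (v : Fin 2 → ℂ) : eps v 1 = -v 0 := rfl

lemma Q_eps (g : ℝ) (v : Fin 2 → ℂ) : Q g (eps v) = -Q g v := by
  simp only [Q, eps_zero, eps_one, normSq_neg, neg_re, neg_im]; ring

lemma Q_smul (g : ℝ) (k : ℂ) (v : Fin 2 → ℂ) : Q g (k • v) = normSq k * Q g v := by
  simp only [Q, Pi.smul_apply, smul_eq_mul, normSq_mul, mul_re, mul_im]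
  rw [normSq_apply k]; ring

lemma Q_zero (g : ℝ) : Q g 0 = 0 := by simp [Q]

lemma ne_zero_of_Q_pos {g : ℝ} {v : Fin 2 → ℂ} (h : 0 < Q g v) : v ≠ 0 := by
  rintro rfl; rw [Q_zero] at h; exact lt_irrefl _ h

lemma eps_ne_zero {v : Fin 2 → ℂ} (h : v ≠ 0) : eps v ≠ 0 := by
  intro h0
  apply h
  funext i
  have h1 := congrFun h0 0
  have h2 := congrFun h0 1
  simp only [eps_zero, eps_one, Pi.zero_apply, neg_eq_zero] at h1 h2
  fin_cases i <;> simp [h1, h2]

lemma dot_eps (v : Fin 2 → ℂ) : dot (eps v) v = 0 := by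
  simp only [dot, eps_zero, eps_one]; ring

/-- Quadratic form identity. -/
lemma Q_comb (g a b : ℝ) (p q : Fin 2 → ℂ) :
    Q g ((a : ℂ) • p + (b : ℂ) • q) =
      a * (a + b) * Q g p + b * (a + b) * Q g q - a * b * Q g (p - q) := by
  simp only [Q, Pi.add_apply, Pi.sub_apply, Pi.smul_apply, smul_eq_mul, normSq_apply, add_re,
    add_im, sub_re, sub_im, mul_re, mul_im, ofReal_re, ofReal_im]
  ring

lemma dot_ne_zero {g : ℝ} {u w : Fin 2 → ℂ} (hu : 0 < Q g u) (hw : 0 ≤ Q g w) (hw0 : w ≠ 0) :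
    dot u w ≠ 0 := by
  intro h
  have hk : ∃ k : ℂ, w = k • eps u := by
    by_cases h0 : u 0 = 0
    · have h1 : u 1 ≠ 0 := by
        intro h1
        apply ne_zero_of_Q_pos hu
        funext i; fin_cases i <;> simp [h0, h1]
      have hw1 : w 1 = 0 := by
        have : u 1 * w 1 = 0 := by simpa [dot, h0] using h
        exact (mul_eq_zero.mp this).resolve_left h1
      refine ⟨w 0 / u 1, ?_⟩
      funext i
      fin_cases i
      · simp [h1]
      · simp [hw1, h0]
    · refine ⟨-(w 1) / u 0, ?_⟩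
      have e0 : w 0 = -(u 1 * w 1) / u 0 := by
        rw [eq_div_iff h0]
        have : u 0 * w 0 + u 1 * w 1 = 0 := h
        linear_combination this
      funext i
      fin_cases i
      · simp only [Fin.zero_eta, Pi.smul_apply, eps_zero, smul_eq_mul]
        rw [e0]; ring
      · simp only [Fin.mk_one, Pi.smul_apply, eps_one, smul_eq_mul]
        field_simp
  obtain ⟨k, rfl⟩ := hk
  have hk0 : k ≠ 0 := by
    rintro rfl; exact hw0 (zero_smul _ _)
  rw [Q_smul, Q_eps] at hw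
  have := normSq_pos.mpr hk0
  nlinarith [mul_pos this hu]

lemma dot_comm_cone (u w : Fin 2 → ℂ) : dot u w = dot w u := by simp only [dot]; ring

lemma dot_ne_zero' {g : ℝ} {u w : Fin 2 → ℂ} (hu : 0 ≤ Q g u) (hu0 : u ≠ 0) (hw : 0 < Q g w) :
    dot u w ≠ 0 := by
  rw [dot_comm_cone]; exact dot_ne_zero hw hu hu0

/-- `w` pairs nontrivially with the open cone: `w` is in the closed cone. -/
lemma mem_of_dot_open {g : ℝ} {w : Fin 2 → ℂ} (h : ∀ u, 0 < Q g u → dot u w ≠ 0)
    (hne : ∃ u, 0 < Q g u) : w ≠ 0 ∧ 0 ≤ Q g w := by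
  constructor
  · rintro rfl
    obtain ⟨u, hu⟩ := hne
    exact h u hu (by simp [dot])
  · by_contra hc
    rw [not_le] at hc
    exact h (eps w) (by rw [Q_eps]; linarith) (dot_eps w)

/-- `w` pairs nontrivially with the closed cone: `w` is in the open cone. -/
lemma mem_of_dot_closed {g : ℝ} {w : Fin 2 → ℂ} (h : ∀ u, u ≠ 0 → 0 ≤ Q g u → dot u w ≠ 0)
    (hne : ∃ u : Fin 2 → ℂ, u ≠ 0 ∧ 0 ≤ Q g u) : 0 < Q g w := by
  have hw0 : w ≠ 0 := by
    rintro rfl
    obtain ⟨u, hu0, hu⟩ := hne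
    exact h u hu0 hu (by simp [dot])
  by_contra hc
  rw [not_lt] at hc
  exact h (eps w) (eps_ne_zero hw0) (by rw [Q_eps]; linarith) (dot_eps w)

/-- A boundary vector of every cone. -/
def bd : Fin 2 → ℂ := ![1, I]

lemma bd_ne_zero : bd ≠ 0 := by
  intro h
  have := congrFun h 0
  simp [bd] at this

lemma Q_bd (g : ℝ) : Q g bd = 0 := by simp [Q, bd]

/-- Bilinear form of a `2 × 2` matrix. -/
def bil (M : Fin 2 → Fin 2 → ℂ) (u v : Fin 2 → ℂ) : ℂ :=
  ∑ s, ∑ t, M s t * u s * v t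

/-- `M v` and `Mᵀ v`. -/
def app (M : Fin 2 → Fin 2 → ℂ) (v : Fin 2 → ℂ) : Fin 2 → ℂ := fun s => M s 0 * v 0 + M s 1 * v 1

lemma bil_eq (M : Fin 2 → Fin 2 → ℂ) (u v : Fin 2 → ℂ) : bil M u v = dot u (app M v) := by
  simp only [bil, dot, app, Fin.sum_univ_two]; ring

lemma bil_swap (M : Fin 2 → Fin 2 → ℂ) (u v : Fin 2 → ℂ) :
    bil M v u = dot u (app (fun s t => M t s) v) := by
  simp only [bil, dot, app, Fin.sum_univ_two]; ring

lemma app_sub (M : Fin 2 → Fin 2 → ℂ) (v : Fin 2 → ℂ) :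
    app M v - app (fun s t => M t s) v = (M 0 1 - M 1 0) • eps v := by
  funext i
  fin_cases i
  · simp [app]; ring
  · simp [app]; ring

/-- The swap-gate lemma, open cones. -/
lemma swap_open {g : ℝ} {M : Fin 2 → Fin 2 → ℂ} {a b : ℝ} (ha : 0 ≤ a) (hb : 0 ≤ b)
    (hab : 0 < a + b) (h : ∀ u v, 0 < Q g u → 0 < Q g v → bil M u v ≠ 0)
    {u v : Fin 2 → ℂ} (hu : 0 < Q g u) (hv : 0 < Q g v) :
    (a : ℂ) * bil M u v + (b : ℂ) * bil M v u ≠ 0 := by
  set p := app M v with hp
  set q := app (fun s t => M t s) v with hq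
  have hP : p ≠ 0 ∧ 0 ≤ Q g p := mem_of_dot_open
    (fun w hw => by rw [hp, ← bil_eq]; exact h w v hw hv) ⟨u, hu⟩
  have hQ : q ≠ 0 ∧ 0 ≤ Q g q := mem_of_dot_open
    (fun w hw => by rw [hq, ← bil_swap]; exact h v w hv hw) ⟨u, hu⟩
  have key : (a : ℂ) * bil M u v + (b : ℂ) * bil M v u =
      dot u ((a : ℂ) • p + (b : ℂ) • q) := by
    rw [bil_eq, bil_swap]
    simp only [dot, Pi.add_apply, Pi.smul_apply, smul_eq_mul, hp, hq]; ring
  have hsub : p - q = (M 0 1 - M 1 0) • eps v := by rw [hp, hq]; exact app_sub M v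
  have hQc := Q_comb g a b p q
  rw [hsub, Q_smul, Q_eps] at hQc
  rw [key]
  by_cases hc : M 0 1 - M 1 0 = 0
  · have hpq : p = q := by
      have := hsub; rw [hc, zero_smul] at this; exact sub_eq_zero.mp this
    rw [← hpq, ← add_smul, show dot u (((a : ℂ) + b) • p) = ((a : ℂ) + b) * dot u p by
      simp only [dot, Pi.smul_apply, smul_eq_mul]; ring]
    refine mul_ne_zero ?_ (dot_ne_zero hu hP.2 hP.1)
    intro h0
    have : ((a + b : ℝ) : ℂ) = 0 := by push_cast; exact h0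
    rw [ofReal_eq_zero] at this
    linarith
  · rcases ha.eq_or_lt with ha0 | ha0
    · have : ((a : ℂ) • p + (b : ℂ) • q) = (b : ℂ) • q := by rw [← ha0]; simp
      rw [this, show dot u ((b : ℂ) • q) = (b : ℂ) * dot u q by
        simp only [dot, Pi.smul_apply, smul_eq_mul]; ring]
      refine mul_ne_zero ?_ (dot_ne_zero hu hQ.2 hQ.1)
      intro h0
      rw [ofReal_eq_zero] at h0
      linarith
    · rcases hb.eq_or_lt with hb0 | hb0
      · have : ((a : ℂ) • p + (b : ℂ) • q) = (a : ℂ) • p := by rw [← hb0]; simp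
        rw [this, show dot u ((a : ℂ) • p) = (a : ℂ) * dot u p by
          simp only [dot, Pi.smul_apply, smul_eq_mul]; ring]
        refine mul_ne_zero ?_ (dot_ne_zero hu hP.2 hP.1)
        intro h0
        rw [ofReal_eq_zero] at h0
        linarith
      · have hcp := normSq_pos.mpr hc
        have : 0 < Q g ((a : ℂ) • p + (b : ℂ) • q) := by
          rw [hQc]
          have h1 := mul_nonneg (mul_nonneg ha hab.le) hP.2
          have h2 := mul_nonneg (mul_nonneg hb hab.le) hQ.2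
          have h3 : 0 < a * b * (normSq (M 0 1 - M 1 0) * Q g v) := by positivity
          linarith
        exact dot_ne_zero hu this.le (ne_zero_of_Q_pos this)

/-- The swap-gate lemma, closed cones. -/
lemma swap_closed {g : ℝ} {M : Fin 2 → Fin 2 → ℂ} {a b : ℝ} (ha : 0 ≤ a) (hb : 0 ≤ b)
    (hab : 0 < a + b)
    (h : ∀ u v, u ≠ 0 → 0 ≤ Q g u → v ≠ 0 → 0 ≤ Q g v → bil M u v ≠ 0)
    {u v : Fin 2 → ℂ} (hu0 : u ≠ 0) (hu : 0 ≤ Q g u) (hv0 : v ≠ 0) (hv : 0 ≤ Q g v) :
    (a : ℂ) * bil M u v + (b : ℂ) * bil M v u ≠ 0 := by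
  set p := app M v with hp
  set q := app (fun s t => M t s) v with hq
  have hP : 0 < Q g p := mem_of_dot_closed
    (fun w hw0 hw => by rw [hp, ← bil_eq]; exact h w v hw0 hw hv0 hv) ⟨u, hu0, hu⟩
  have hQ : 0 < Q g q := mem_of_dot_closed
    (fun w hw0 hw => by rw [hq, ← bil_swap]; exact h v w hv0 hv hw0 hw) ⟨u, hu0, hu⟩
  have key : (a : ℂ) * bil M u v + (b : ℂ) * bil M v u =
      dot u ((a : ℂ) • p + (b : ℂ) • q) := by
    rw [bil_eq, bil_swap]
    simp only [dot, Pi.add_apply, Pi.smul_apply, smul_eq_mul, hp, hq]; ring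
  have hsub : p - q = (M 0 1 - M 1 0) • eps v := by rw [hp, hq]; exact app_sub M v
  have hQc := Q_comb g a b p q
  rw [hsub, Q_smul, Q_eps] at hQc
  rw [key]
  have : 0 < Q g ((a : ℂ) • p + (b : ℂ) • q) := by
    rw [hQc]
    have h3 : 0 ≤ a * b * (normSq (M 0 1 - M 1 0) * Q g v) :=
      mul_nonneg (mul_nonneg ha hb) (mul_nonneg (normSq_nonneg _) hv)
    rcases ha.eq_or_lt with ha0 | ha0
    · have hb0 : 0 < b := by linarith
      have h2 := mul_pos (mul_pos hb0 hab) hQ
      have h1 := mul_nonneg (mul_nonneg ha hab.le) hP.le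
      linarith
    · have h1 := mul_pos (mul_pos ha0 hab) hP
      have h2 := mul_nonneg (mul_nonneg hb hab.le) hQ.le
      linarith
  exact dot_ne_zero' hu hu0 this

/-- A matrix which is nonvanishing on closed cone × closed cone has nonzero trace. -/
lemma trace_ne_zero {g : ℝ} {M : Fin 2 → Fin 2 → ℂ}
    (h : ∀ u v, u ≠ 0 → 0 ≤ Q g u → v ≠ 0 → 0 ≤ Q g v → bil M u v ≠ 0) :
    M 0 0 + M 1 1 ≠ 0 := by
  intro htr
  have hmap : ∀ v : Fin 2 → ℂ, v ≠ 0 → 0 ≤ Q g v → 0 < Q g (app M v) := fun v hv0 hv =>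
    mem_of_dot_closed (fun w hw0 hw => by rw [← bil_eq]; exact h w v hw0 hw hv0 hv)
      ⟨v, hv0, hv⟩
  have h1 := hmap bd bd_ne_zero (Q_bd g).ge
  have h2 := hmap (app M bd) (ne_zero_of_Q_pos h1) h1.le
  have h3 : app M (app M bd) = (M 0 1 * M 1 0 - M 0 0 * M 1 1) • bd := by
    have e : M 1 1 = -M 0 0 := by linear_combination htr
    funext i
    fin_cases i
    · simp only [app, Fin.zero_eta, Pi.smul_apply, smul_eq_mul, e]; ring
    · simp only [app, Fin.mk_one, Pi.smul_apply, smul_eq_mul, e]; ring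
  rw [h3, Q_smul, Q_bd, mul_zero] at h2
  exact lt_irrefl _ h2

end

end Vale.Agent.P361.LRO
end

section

/-!
Stability of states on `V → Fin 2` with respect to a hemisphere, gates, nonvanishing trace
(P361, step (8)).
-/

namespace Vale.Agent.P361.LRO

open Complex Matrix

noncomputable section

variable {V : Type*} [Fintype V] [DecidableEq V]

/-- The multilinear form with coefficients `ψ`. -/
def L {ι : Type*} [Fintype ι] (ψ : (V → ι) → ℂ) (k : V → ι → ℂ) : ℂ :=
  ∑ σ : V → ι, ψ σ * ∏ x, k x (σ x)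

lemma prod_update_eq {ι : Type*} (k : V → ι → ℂ) (x : V) (m : ι → ℂ) (σ : V → ι) :
    ∏ y, (Function.update k x m) y (σ y) = m (σ x) * ∏ y ∈ Finset.univ.erase x, k y (σ y) := by
  rw [← Finset.mul_prod_erase Finset.univ _ (Finset.mem_univ x)]
  simp only [Function.update_self]
  congr 1
  refine Finset.prod_congr rfl fun y hy => ?_
  rw [Function.update_of_ne (Finset.ne_of_mem_erase hy)]

lemma L_update {ι : Type*} [Fintype ι] [DecidableEq ι] (ψ : (V → ι) → ℂ) (k : V → ι → ℂ) (x : V)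
    (m : ι → ℂ) :
    L ψ (Function.update k x m) = ∑ i, m i * L ψ (Function.update k x (Pi.single i 1)) := by
  simp only [L, prod_update_eq, Finset.mul_sum]
  rw [Finset.sum_comm]
  refine Finset.sum_congr rfl fun σ _ => ?_
  rw [Finset.sum_eq_single (σ x)]
  · simp only [Pi.single_eq_same]; ring
  · intro i _ hi
    rw [Pi.single_eq_of_ne (Ne.symm hi)]; ring
  · intro h; exact absurd (Finset.mem_univ _) h

/-- Open stability. -/
def OSt (g : ℝ) (ψ : (V → Fin 2) → ℂ) : Prop :=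
  ∀ z : V → Fin 2 → ℂ, (∀ x, 0 < Q g (z x)) → L ψ z ≠ 0

/-- Closed stability. -/
def SSt (g : ℝ) (ψ : (V → Fin 2) → ℂ) : Prop :=
  ∀ z : V → Fin 2 → ℂ, (∀ x, z x ≠ 0 ∧ 0 ≤ Q g (z x)) → L ψ z ≠ 0

lemma SSt.o {g : ℝ} {ψ : (V → Fin 2) → ℂ} (h : SSt g ψ) : OSt g ψ := fun z hz =>
  h z fun x => ⟨ne_zero_of_Q_pos (hz x), (hz x).le⟩

/-- Operators which preserve both stabilities. -/
structure Good (g : ℝ) (A : Matrix (V → Fin 2) (V → Fin 2) ℂ) : Prop where
  o : ∀ ψ, OSt g ψ → OSt g (A *ᵥ ψ)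
  s : ∀ ψ, SSt g ψ → SSt g (A *ᵥ ψ)

/-- Operators which improve the stability. -/
def Strict (g : ℝ) (A : Matrix (V → Fin 2) (V → Fin 2) ℂ) : Prop :=
  ∀ ψ, OSt g ψ → SSt g (A *ᵥ ψ)

/-- Operators which may spoil the stability. -/
def Weak (g : ℝ) (A : Matrix (V → Fin 2) (V → Fin 2) ℂ) : Prop :=
  ∀ ψ, SSt g ψ → OSt g (A *ᵥ ψ)

lemma Strict.good {g : ℝ} {A : Matrix (V → Fin 2) (V → Fin 2) ℂ} (h : Strict g A) : Good g A :=
  ⟨fun ψ hψ => (h ψ hψ).o, fun ψ hψ => h ψ hψ.o⟩

lemma Good.one {g : ℝ} : Good g (1 : Matrix (V → Fin 2) (V → Fin 2) ℂ) :=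
  ⟨fun ψ h => by rwa [one_mulVec], fun ψ h => by rwa [one_mulVec]⟩

lemma Good.mul {g : ℝ} {A B : Matrix (V → Fin 2) (V → Fin 2) ℂ} (hA : Good g A) (hB : Good g B) :
    Good g (A * B) :=
  ⟨fun ψ h => by rw [← mulVec_mulVec]; exact hA.o _ (hB.o _ h),
    fun ψ h => by rw [← mulVec_mulVec]; exact hA.s _ (hB.s _ h)⟩

lemma Good.pow {g : ℝ} {A : Matrix (V → Fin 2) (V → Fin 2) ℂ} (hA : Good g A) (n : ℕ) :
    Good g (A ^ n) := by
  induction n with
  | zero => rw [pow_zero]; exact Good.one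
  | succ n ih => rw [pow_succ]; exact ih.mul hA

lemma Good.list {g : ℝ} {l : List (Matrix (V → Fin 2) (V → Fin 2) ℂ)}
    (h : ∀ A ∈ l, Good g A) : Good g l.prod := by
  induction l with
  | nil => rw [List.prod_nil]; exact Good.one
  | cons a l ih =>
    rw [List.prod_cons]
    exact (h a (by simp)).mul (ih fun A hA => h A (by simp [hA]))

lemma Strict.mul_right {g : ℝ} {A B : Matrix (V → Fin 2) (V → Fin 2) ℂ} (hA : Strict g A)
    (hB : Good g B) : Strict g (A * B) := fun ψ h => by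
  rw [← mulVec_mulVec]; exact hA _ (hB.o _ h)

lemma Strict.mul_left {g : ℝ} {A B : Matrix (V → Fin 2) (V → Fin 2) ℂ} (hA : Good g A)
    (hB : Strict g B) : Strict g (A * B) := fun ψ h => by
  rw [← mulVec_mulVec]; exact hA.s _ (hB _ h)

lemma Strict.weak_strict {g : ℝ} {A R B : Matrix (V → Fin 2) (V → Fin 2) ℂ} (hA : Strict g A)
    (hR : Weak g R) (hB : Strict g B) : Strict g (A * R * B) := fun ψ h => by
  rw [← mulVec_mulVec, ← mulVec_mulVec]; exact hA _ (hR _ (hB _ h))

/-- Product operators. -/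
def prodMat (R : V → Matrix (Fin 2) (Fin 2) ℂ) : Matrix (V → Fin 2) (V → Fin 2) ℂ :=
  Matrix.of fun σ τ => ∏ y, R y (σ y) (τ y)

lemma L_prodMat (R : V → Matrix (Fin 2) (Fin 2) ℂ) (ψ : (V → Fin 2) → ℂ) (z : V → Fin 2 → ℂ) :
    L (prodMat R *ᵥ ψ) z = L ψ (fun y t => ∑ s, z y s * R y s t) := by
  have h1 : ∀ τ : V → Fin 2, ∏ x, ∑ s, z x s * R x s (τ x) =
      ∑ σ : V → Fin 2, ∏ x, z x (σ x) * R x (σ x) (τ x) := by
    intro τ
    rw [Finset.prod_univ_sum, Fintype.piFinset_univ]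
  simp only [L]
  simp_rw [h1, mulVec, dotProduct, prodMat, Matrix.of_apply, Finset.sum_mul, Finset.mul_sum]
  rw [Finset.sum_comm]
  refine Finset.sum_congr rfl fun τ _ => Finset.sum_congr rfl fun σ _ => ?_
  rw [Finset.prod_mul_distrib]; ring

/-- A product operator with all factors mapping the closed cone into the open cone. -/
lemma strict_prodMat {g : ℝ} {R : V → Matrix (Fin 2) (Fin 2) ℂ}
    (h : ∀ y (u : Fin 2 → ℂ), u ≠ 0 → 0 ≤ Q g u → 0 < Q g (fun t => ∑ s, u s * R y s t)) :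
    Strict g (prodMat R) := by
  intro ψ hψ z hz
  rw [L_prodMat]
  exact hψ _ fun x => h x (z x) (hz x).1 (hz x).2

/-- The swap of the spins at `x` and `y`. -/
def swapMat (x y : V) : Matrix (V → Fin 2) (V → Fin 2) ℂ :=
  Matrix.of fun σ τ => if τ = σ ∘ Equiv.swap x y then 1 else 0

lemma swapMat_mulVec (x y : V) (ψ : (V → Fin 2) → ℂ) :
    swapMat x y *ᵥ ψ = fun σ => ψ (σ ∘ Equiv.swap x y) := by
  funext σ
  simp only [mulVec, dotProduct, swapMat, Matrix.of_apply, ite_mul, one_mul, zero_mul,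
    Finset.sum_ite_eq', Finset.mem_univ, if_true]

lemma L_swap (x y : V) (ψ : (V → Fin 2) → ℂ) (z : V → Fin 2 → ℂ) :
    L (fun σ => ψ (σ ∘ Equiv.swap x y)) z = L ψ (z ∘ Equiv.swap x y) := by
  simp only [L]
  refine Fintype.sum_equiv (Equiv.arrowCongr (Equiv.swap x y) (Equiv.refl (Fin 2))) _ _ fun σ => ?_
  have e : (Equiv.arrowCongr (Equiv.swap x y) (Equiv.refl (Fin 2))) σ = σ ∘ Equiv.swap x y := by
    funext w; simp [Equiv.arrowCongr]
  rw [e]
  congr 1
  rw [← Equiv.prod_comp (Equiv.swap x y)]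
  rfl

omit [Fintype V] in
lemma comp_swap_eq {x y : V} (hxy : x ≠ y) (z : V → Fin 2 → ℂ) :
    z ∘ Equiv.swap x y = Function.update (Function.update z x (z y)) y (z x) := by
  funext w
  by_cases hy : w = y
  · subst hy; simp
  · rw [Function.update_of_ne hy]
    by_cases hx : w = x
    · subst hx; simp
    · rw [Function.update_of_ne hx]
      simp [Equiv.swap_apply_of_ne_of_ne hx hy]

lemma L_two {x y : V} (hxy : x ≠ y) (ψ : (V → Fin 2) → ℂ) (z : V → Fin 2 → ℂ)
    (u v : Fin 2 → ℂ) :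
    L ψ (Function.update (Function.update z x u) y v) =
      bil (fun s t => L ψ (Function.update (Function.update z x (Pi.single s 1)) y
        (Pi.single t 1))) u v := by
  rw [L_update]
  simp only [Function.update_comm hxy]
  simp only [L_update (m := u)]
  simp only [bil, Fin.sum_univ_two]
  ring

/-- The swap gate. -/
def gate (a b : ℝ) (x y : V) : Matrix (V → Fin 2) (V → Fin 2) ℂ :=
  (a : ℂ) • (1 : Matrix (V → Fin 2) (V → Fin 2) ℂ) + (b : ℂ) • swapMat x y

lemma L_gate (a b : ℝ) (x y : V) (ψ : (V → Fin 2) → ℂ) (z : V → Fin 2 → ℂ) :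
    L (gate a b x y *ᵥ ψ) z = (a : ℂ) * L ψ z + (b : ℂ) * L ψ (z ∘ Equiv.swap x y) := by
  rw [← L_swap]
  simp only [gate, add_mulVec, smul_mulVec, one_mulVec, swapMat_mulVec, L, Pi.add_apply,
    Pi.smul_apply, smul_eq_mul, Finset.mul_sum, ← Finset.sum_add_distrib]
  refine Finset.sum_congr rfl fun σ _ => ?_
  ring

lemma good_gate {g : ℝ} {a b : ℝ} (ha : 0 ≤ a) (hb : 0 ≤ b) (hab : 0 < a + b) (x y : V) :
    Good g (gate a b x y) := by
  by_cases hxy : x = y
  · subst hxy
    have e : gate a b x x = ((a + b : ℝ) : ℂ) • (1 : Matrix (V → Fin 2) (V → Fin 2) ℂ) := by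
      have : swapMat x x = (1 : Matrix (V → Fin 2) (V → Fin 2) ℂ) := by
        ext σ τ
        simp only [swapMat, Equiv.swap_self, Matrix.of_apply, Matrix.one_apply, Equiv.coe_refl,
          Function.comp_id, eq_comm]
      rw [gate, this, ← add_smul]; push_cast; rfl
    have h0 : (((a + b : ℝ) : ℂ)) ≠ 0 := by
      rw [Ne, ofReal_eq_zero]; exact hab.ne'
    have hL : ∀ (ψ : (V → Fin 2) → ℂ) (z : V → Fin 2 → ℂ),
        L (gate a b x x *ᵥ ψ) z = ((a + b : ℝ) : ℂ) * L ψ z := by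
      intro ψ z
      rw [e]
      simp only [smul_mulVec, one_mulVec, L, Pi.smul_apply, smul_eq_mul, Finset.mul_sum, mul_assoc]
    exact ⟨fun ψ hψ z hz => by rw [hL]; exact mul_ne_zero h0 (hψ z hz),
      fun ψ hψ z hz => by rw [hL]; exact mul_ne_zero h0 (hψ z hz)⟩
  · have hself : ∀ z : V → Fin 2 → ℂ, z = Function.update (Function.update z x (z x)) y (z y) := by
      intro z; simp
    constructor
    · intro ψ hψ z hz
      rw [L_gate, comp_swap_eq hxy, L_two hxy]
      nth_rewrite 1 [hself z]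
      rw [L_two hxy]
      refine swap_open ha hb hab (fun u v hu hv => ?_) (hz x) (hz y)
      rw [← L_two hxy]
      refine hψ _ fun w => ?_
      by_cases hy : w = y
      · subst hy; simpa using hv
      · rw [Function.update_of_ne hy]
        by_cases hx : w = x
        · subst hx; simpa using hu
        · rw [Function.update_of_ne hx]; exact hz w
    · intro ψ hψ z hz
      rw [L_gate, comp_swap_eq hxy, L_two hxy]
      nth_rewrite 1 [hself z]
      rw [L_two hxy]
      refine swap_closed ha hb hab (fun u v hu0 hu hv0 hv => ?_) (hz x).1 (hz x).2 (hz y).1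
        (hz y).2
      rw [← L_two hxy]
      refine hψ _ fun w => ?_
      by_cases hy : w = y
      · subst hy; simpa using ⟨hv0, hv⟩
      · rw [Function.update_of_ne hy]
        by_cases hx : w = x
        · subst hx; simpa using ⟨hu0, hu⟩
        · rw [Function.update_of_ne hx]; exact hz w

/-- Product states of the closed cone are open stable. -/
lemma oSt_prod {g : ℝ} {w : V → Fin 2 → ℂ} (hw : ∀ x, w x ≠ 0 ∧ 0 ≤ Q g (w x)) :
    OSt g (fun τ => ∏ x, w x (τ x)) := by
  intro z hz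
  have : L (fun τ => ∏ x, w x (τ x)) z = ∏ x, dot (z x) (w x) := by
    simp only [L, dot]
    have h2 : ∀ x, z x 0 * w x 0 + z x 1 * w x 1 = ∑ s, z x s * w x s := fun x => by
      rw [Fin.sum_univ_two]
    simp_rw [h2]
    rw [Finset.prod_univ_sum, Fintype.piFinset_univ]
    refine Finset.sum_congr rfl fun σ _ => ?_
    rw [Finset.prod_mul_distrib]; ring
  rw [this]
  exact Finset.prod_ne_zero_iff.mpr fun x _ => dot_ne_zero (hz x) (hw x).2 (hw x).1

lemma sum_arrow (F : (V → Fin 2) → (V → Fin 2) → ℂ) :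
    ∑ ρ : V → Fin 2 × Fin 2, F (fun x => (ρ x).1) (fun x => (ρ x).2) = ∑ σ, ∑ τ, F σ τ := by
  rw [← Fintype.sum_prod_type']
  exact Fintype.sum_equiv (Equiv.arrowProdEquivProdArrow V (fun _ => Fin 2) (fun _ => Fin 2)) _ _
    fun ρ => rfl

/-- A strict operator has nonzero trace. -/
theorem Strict.trace_ne_zero {g : ℝ} {A : Matrix (V → Fin 2) (V → Fin 2) ℂ} (hA : Strict g A) :
    A.trace ≠ 0 := by
  set φ : (V → Fin 2 × Fin 2) → ℂ := fun ρ => A (fun x => (ρ x).1) (fun x => (ρ x).2) with hφ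
  -- the kernel with the sites of `T` contracted
  let K : Finset V → (V → Fin 2 → ℂ) → (V → Fin 2 → ℂ) → V → Fin 2 × Fin 2 → ℂ :=
    fun T z w x i => if x ∈ T then (if i.1 = i.2 then 1 else 0) else z x i.1 * w x i.2
  have key : ∀ T : Finset V, ∀ z w : V → Fin 2 → ℂ, (∀ x, z x ≠ 0 ∧ 0 ≤ Q g (z x)) →
      (∀ x, w x ≠ 0 ∧ 0 ≤ Q g (w x)) → L φ (K T z w) ≠ 0 := by
    intro T
    induction T using Finset.induction_on with
    | empty =>
      intro z w hz hw
      have e : L φ (K ∅ z w) = L (A *ᵥ fun τ => ∏ x, w x (τ x)) z := by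
        have h1 : L φ (K ∅ z w) = ∑ σ, ∑ τ, A σ τ * ∏ x, (z x (σ x) * w x (τ x)) := by
          rw [← sum_arrow (fun σ τ => A σ τ * ∏ x, (z x (σ x) * w x (τ x)))]
          simp only [L, K, Finset.notMem_empty, if_false, hφ]
        rw [h1]
        simp only [L, mulVec, dotProduct, Finset.sum_mul]
        refine Finset.sum_congr rfl fun σ _ => Finset.sum_congr rfl fun τ _ => ?_
        rw [Finset.prod_mul_distrib]
        ring
      rw [e]
      exact hA _ (oSt_prod hw) z hz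
    | insert x T hx ih =>
      intro z w hz hw
      have hupd : ∀ u v : Fin 2 → ℂ, K T (Function.update z x u) (Function.update w x v) =
          Function.update (K T z w) x (fun i => u i.1 * v i.2) := by
        intro u v
        funext y i
        by_cases hy : y = x
        · subst hy; simp [K, hx]
        · simp [K, Function.update_of_ne hy]
      have hins : K (insert x T) z w =
          Function.update (K T z w) x (fun i => if i.1 = i.2 then 1 else 0) := by
        funext y i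
        by_cases hy : y = x
        · subst hy; simp [K]
        · simp [K, hy]
      set M : Fin 2 → Fin 2 → ℂ := fun s t =>
        L φ (Function.update (K T z w) x (Pi.single (s, t) 1)) with hM
      have hb : ∀ u v : Fin 2 → ℂ,
          L φ (K T (Function.update z x u) (Function.update w x v)) = bil M u v := by
        intro u v
        rw [hupd, L_update, Fintype.sum_prod_type]
        simp only [bil, hM]
        refine Finset.sum_congr rfl fun s _ => Finset.sum_congr rfl fun t _ => ?_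
        ring
      have ht : L φ (K (insert x T) z w) = M 0 0 + M 1 1 := by
        rw [hins, L_update, Fintype.sum_prod_type]
        simp [Fin.sum_univ_two, hM]
      rw [ht]
      refine LRO.trace_ne_zero (g := g) fun u v hu0 hu hv0 hv => ?_
      rw [← hb]
      refine ih _ _ (fun y => ?_) (fun y => ?_)
      · by_cases hy : y = x
        · subst hy; simpa using ⟨hu0, hu⟩
        · rw [Function.update_of_ne hy]; exact hz y
      · by_cases hy : y = x
        · subst hy; simpa using ⟨hv0, hv⟩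
        · rw [Function.update_of_ne hy]; exact hw y
  have hfin := key Finset.univ (fun _ => bd) (fun _ => bd)
    (fun _ => ⟨bd_ne_zero, (Q_bd g).ge⟩) (fun _ => ⟨bd_ne_zero, (Q_bd g).ge⟩)
  have e : L φ (K Finset.univ (fun _ => bd) (fun _ => bd)) = A.trace := by
    have h1 : L φ (K Finset.univ (fun _ => bd) (fun _ => bd)) =
        ∑ σ, ∑ τ, A σ τ * ∏ x, (if σ x = τ x then 1 else 0) := by
      rw [← sum_arrow (fun σ τ => A σ τ * ∏ x, (if σ x = τ x then 1 else 0))]
      simp only [L, K, Finset.mem_univ, if_true, hφ]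
    rw [h1]
    simp only [Matrix.trace, Matrix.diag_apply]
    refine Finset.sum_congr rfl fun σ _ => ?_
    rw [Finset.sum_eq_single σ]
    · simp
    · intro τ _ hτ
      have : ∃ x, σ x ≠ τ x := by
        by_contra hc
        exact hτ (funext fun x => (not_not.mp fun hx => hc ⟨x, hx⟩).symm)
      obtain ⟨x, hx⟩ := this
      rw [Finset.prod_eq_zero (Finset.mem_univ x) (if_neg hx), mul_zero]
    · intro h; exact absurd (Finset.mem_univ _) h
  rwa [e] at hfin

end

end Vale.Agent.P361.LRO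
end

section

/-!
Field layers, insertions, parity, and the zero-free region (P361, step (8)).
-/

namespace Vale.Agent.P361.LRO

open Complex Matrix

noncomputable section

variable {V : Type*} [Fintype V] [DecidableEq V]

lemma Q_eq (g : ℝ) (u : Fin 2 → ℂ) :
    Q g u = Real.cos g * (normSq (u 0) - normSq (u 1)) +
      2 * Real.sin g * ((starRingEnd ℂ) (u 0) * u 1).re := by
  simp only [Q, mul_re, conj_re, conj_im]; ring

lemma osc_bound {b n0 n1 cr ci r : ℝ} (hr0 : 0 ≤ r) (hr2 : r ^ 2 = n0 * n1)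
    (hc : n0 * n1 = cr ^ 2 + ci ^ 2) :
    |cr * (Real.cos (2 * b) - 1) + ci * Real.sin (2 * b)| ≤ 2 * |b| * r := by
  refine abs_le_of_sq_le_sq ?_ (by positivity)
  have hs : Real.sin b ^ 2 ≤ b ^ 2 := by
    have := Real.abs_sin_le_abs (x := b)
    exact sq_le_sq.mpr this
  have h1 : (Real.cos (2 * b) - 1) ^ 2 + Real.sin (2 * b) ^ 2 = 4 * Real.sin b ^ 2 := by
    rw [Real.cos_two_mul, Real.sin_two_mul]
    have := Real.sin_sq_add_cos_sq b
    have hcb : Real.cos b ^ 2 = 1 - Real.sin b ^ 2 := by linarith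
    have : (2 * Real.cos b ^ 2 - 1 - 1) ^ 2 + (2 * Real.sin b * Real.cos b) ^ 2 =
        (2 * Real.cos b ^ 2 - 2) ^ 2 + 4 * Real.sin b ^ 2 * Real.cos b ^ 2 := by ring
    rw [this, hcb]; ring
  set C := Real.cos (2 * b) - 1
  set S := Real.sin (2 * b)
  have h2 : (cr * C + ci * S) ^ 2 ≤ (cr ^ 2 + ci ^ 2) * (C ^ 2 + S ^ 2) := by
    nlinarith [sq_nonneg (cr * S - ci * C)]
  calc (cr * C + ci * S) ^ 2
      ≤ (cr ^ 2 + ci ^ 2) * (4 * Real.sin b ^ 2) := by rw [← h1]; exact h2
    _ ≤ (cr ^ 2 + ci ^ 2) * (4 * b ^ 2) := by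
        refine mul_le_mul_of_nonneg_left (by linarith) (by positivity)
    _ = (2 * |b| * r) ^ 2 := by rw [← hc, ← hr2, mul_pow, mul_pow, sq_abs]; ring

lemma field_aux {cg sg a b r X E Q0 : ℝ} (ha : 0 < a) (hab : |b| * |sg| < a * cg)
    (hXr : 4 * a * r ≤ X) (hX0 : 0 < X) (hE : |E| ≤ 2 * |b| * r) (hQ : 0 ≤ Q0) :
    0 < Q0 + (cg * X + 2 * sg * E) := by
  have h1 : |2 * sg * E| ≤ |b| * |sg| * (4 * r) := by
    calc |2 * sg * E| = 2 * |sg| * |E| := by rw [abs_mul, abs_mul, abs_two]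
      _ ≤ 2 * |sg| * (2 * |b| * r) := mul_le_mul_of_nonneg_left hE (by positivity)
      _ = |b| * |sg| * (4 * r) := by ring
  have h2 := neg_le_of_abs_le h1
  have h3 : |b| * |sg| * (4 * a * r) ≤ |b| * |sg| * X :=
    mul_le_mul_of_nonneg_left hXr (by positivity)
  have h4 : |b| * |sg| * X < a * cg * X := mul_lt_mul_of_pos_right hab hX0
  have h5 : 0 < a * (cg * X - |b| * |sg| * (4 * r)) := by
    have : a * (cg * X - |b| * |sg| * (4 * r)) = a * cg * X - |b| * |sg| * (4 * a * r) := by ring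
    rw [this]; linarith
  have h6 : 0 < cg * X - |b| * |sg| * (4 * r) := (mul_pos_iff_of_pos_left ha).mp h5
  linarith

lemma field_real {cg sg a b n0 n1 cr ci : ℝ} (hcg : 0 < cg) (hab : |b| * |sg| < a * cg)
    (hn0 : 0 ≤ n0) (hn1 : 0 ≤ n1) (hn : 0 < n0 + n1) (hc : n0 * n1 = cr ^ 2 + ci ^ 2)
    (hQ : 0 ≤ cg * (n0 - n1) + 2 * sg * cr) :
    0 < cg * (Real.exp (2 * a) * n0 - Real.exp (-(2 * a)) * n1) +
      2 * sg * (cr * Real.cos (2 * b) + ci * Real.sin (2 * b)) := by
  have ha : 0 < a := by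
    by_contra h
    rw [not_lt] at h
    have h1 : a * cg ≤ 0 := mul_nonpos_of_nonpos_of_nonneg h hcg.le
    have h2 : 0 ≤ |b| * |sg| := by positivity
    linarith
  obtain ⟨p, q, hp, hq⟩ : ∃ p q : ℝ, p = Real.exp a ∧ q = Real.exp (-a) := ⟨_, _, rfl, rfl⟩
  have hpq : p * q = 1 := by rw [hp, hq, ← Real.exp_add]; simp
  have hp2 : Real.exp (2 * a) = p ^ 2 := by rw [hp, ← Real.exp_nat_mul]; norm_num
  have hq2 : Real.exp (-(2 * a)) = q ^ 2 := by
    rw [hq, ← Real.exp_nat_mul]; congr 1; push_cast; ring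
  have hp0 : 0 < p := hp ▸ Real.exp_pos _
  have hq0 : 0 < q := hq ▸ Real.exp_pos _
  have hsinh : 2 * a ≤ p - q := by
    have := Real.self_le_sinh_iff.mpr ha.le
    rw [Real.sinh_eq, ← hp, ← hq] at this
    linarith
  obtain ⟨r, hr⟩ : ∃ r : ℝ, r = Real.sqrt (n0 * n1) := ⟨_, rfl⟩
  have hr0 : 0 ≤ r := hr ▸ Real.sqrt_nonneg _
  have hr2 : r ^ 2 = n0 * n1 := by rw [hr]; exact Real.sq_sqrt (mul_nonneg hn0 hn1)
  obtain ⟨X, hX⟩ : ∃ X : ℝ, X = (p ^ 2 - 1) * n0 + (1 - q ^ 2) * n1 := ⟨_, rfl⟩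
  have hX' : X = (p - q) * (p * n0 + q * n1) := by
    rw [hX]; linear_combination (n0 - n1) * hpq
  have hamgm : 2 * r ≤ p * n0 + q * n1 := by
    refine (abs_le_of_sq_le_sq' ?_ (by positivity)).2
    have : (2 * r) ^ 2 = 4 * (p * n0) * (q * n1) := by
      rw [mul_pow, hr2]; linear_combination (-(4 * n0 * n1)) * hpq
    rw [this]
    nlinarith [sq_nonneg (p * n0 - q * n1)]
  have hXr : 4 * a * r ≤ X := by
    rw [hX']
    calc 4 * a * r = (2 * a) * (2 * r) := by ring
      _ ≤ (p - q) * (p * n0 + q * n1) := mul_le_mul hsinh hamgm (by positivity) (by linarith)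
  have hX0 : 0 < X := by
    rw [hX']
    refine mul_pos (by linarith) ?_
    rcases hn0.eq_or_lt with h | h
    · have h1 : 0 < n1 := by linarith
      have h2 := mul_pos hq0 h1
      rw [← h]; linarith
    · have h1 := mul_pos hp0 h
      have h2 := mul_nonneg hq0.le hn1
      linarith
  have hosc := osc_bound (b := b) hr0 hr2 hc
  have := field_aux ha hab hXr hX0 hosc hQ
  rw [hp2, hq2]
  convert this using 1
  rw [hX]; ring

/-- The factor of a field layer. -/
def fieldFac (s : ℂ) : Matrix (Fin 2) (Fin 2) ℂ := !![exp s, 0; 0, exp (-s)]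

/-- The field layer `∏_x exp(s_x σ³_x)`. -/
def fieldMat (s : V → ℂ) : Matrix (V → Fin 2) (V → Fin 2) ℂ := prodMat fun y => fieldFac (s y)

lemma Q_field {g : ℝ} (hg : 0 < Real.cos g) {s : ℂ} (hs : |s.im| * |Real.sin g| < s.re * Real.cos g)
    {u : Fin 2 → ℂ} (hu0 : u ≠ 0) (hu : 0 ≤ Q g u) :
    0 < Q g (fun t => ∑ i, u i * fieldFac s i t) := by
  have e0 : ∑ i, u i * fieldFac s i 0 = u 0 * exp s := by
    simp [fieldFac, Fin.sum_univ_two]
  have e1 : ∑ i, u i * fieldFac s i 1 = u 1 * exp (-s) := by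
    simp [fieldFac, Fin.sum_univ_two]
  simp only [Q_eq, e0, e1]
  have hn : 0 < normSq (u 0) + normSq (u 1) := by
    have h0 := normSq_nonneg (u 0)
    have h1 := normSq_nonneg (u 1)
    rcases h0.eq_or_lt with h | h
    · rcases h1.eq_or_lt with h' | h'
      · exfalso; apply hu0; funext i
        fin_cases i
        · exact normSq_eq_zero.mp h.symm
        · exact normSq_eq_zero.mp h'.symm
      · linarith
    · linarith
  have hc : normSq (u 0) * normSq (u 1) =
      ((starRingEnd ℂ) (u 0) * u 1).re ^ 2 + ((starRingEnd ℂ) (u 0) * u 1).im ^ 2 := by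
    simp only [mul_re, mul_im, conj_re, conj_im, normSq_apply]; ring
  have key := field_real (ci := ((starRingEnd ℂ) (u 0) * u 1).im) hg hs (normSq_nonneg _)
    (normSq_nonneg _) hn hc (by rw [← Q_eq]; exact hu)
  have n0 : normSq (u 0 * exp s) = Real.exp (2 * s.re) * normSq (u 0) := by
    rw [normSq_mul, normSq_eq_norm_sq (exp s), norm_exp, ← Real.exp_nat_mul, mul_comm]
    norm_num
  have n1 : normSq (u 1 * exp (-s)) = Real.exp (-(2 * s.re)) * normSq (u 1) := by
    rw [normSq_mul, normSq_eq_norm_sq (exp (-s)), norm_exp, ← Real.exp_nat_mul, mul_comm, neg_re]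
    congr 2; push_cast; ring
  have nc : ((starRingEnd ℂ) (u 0 * exp s) * (u 1 * exp (-s))).re =
      ((starRingEnd ℂ) (u 0) * u 1).re * Real.cos (2 * s.im) +
        ((starRingEnd ℂ) (u 0) * u 1).im * Real.sin (2 * s.im) := by
    have e2 : (starRingEnd ℂ) (u 0 * exp s) * (u 1 * exp (-s)) =
        ((starRingEnd ℂ) (u 0) * u 1) * exp ((-(2 * s.im) : ℝ) * I) := by
      rw [map_mul, ← exp_conj]
      have : exp ((starRingEnd ℂ) s) * exp (-s) = exp ((-(2 * s.im) : ℝ) * I) := by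
        rw [← exp_add]
        congr 1
        apply Complex.ext
        · simp
        · simp; ring
      linear_combination ((starRingEnd ℂ) (u 0) * u 1) * this
    rw [e2, mul_re, exp_ofReal_mul_I_re, exp_ofReal_mul_I_im, Real.cos_neg, Real.sin_neg]
    ring
  rw [n0, n1, nc]
  exact key

lemma strict_field {g : ℝ} (hg : 0 < Real.cos g) {s : V → ℂ}
    (hs : ∀ x, |(s x).im| * |Real.sin g| < (s x).re * Real.cos g) :
    Strict g (fieldMat s) :=
  strict_prodMat fun y _ hu0 hu => Q_field hg (hs y) hu0 hu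

/-- Insertion of a one-site matrix. -/
def ins (x : V) (R : Matrix (Fin 2) (Fin 2) ℂ) : Matrix (V → Fin 2) (V → Fin 2) ℂ :=
  prodMat fun y => if y = x then R else 1

lemma L_smul_update (ψ : (V → Fin 2) → ℂ) (z : V → Fin 2 → ℂ) (x : V) (k : ℂ) (m : Fin 2 → ℂ) :
    L ψ (Function.update z x (k • m)) = k * L ψ (Function.update z x m) := by
  rw [L_update, L_update (m := m), Finset.mul_sum]
  refine Finset.sum_congr rfl fun i _ => ?_
  simp only [Pi.smul_apply, smul_eq_mul]; ring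

lemma L_ins_rank_one (x : V) (k : ℂ) (u : Fin 2 → ℂ) (ψ : (V → Fin 2) → ℂ) (z : V → Fin 2 → ℂ) :
    L (ins x (Matrix.of fun s t => k * (u s * u t)) *ᵥ ψ) z =
      (k * dot (z x) u) * L ψ (Function.update z x u) := by
  rw [ins, L_prodMat, ← L_smul_update]
  congr 1
  funext y t
  by_cases hy : y = x
  · subst hy
    simp only [if_true, Function.update_self, Pi.smul_apply, smul_eq_mul, Matrix.of_apply, dot,
      Fin.sum_univ_two]
    ring
  · rw [Function.update_of_ne hy]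
    simp [hy, Matrix.one_apply]

lemma good_ins {g : ℝ} (x : V) {k : ℂ} (hk : k ≠ 0) {u : Fin 2 → ℂ} (hu : 0 < Q g u) :
    Good g (ins x (Matrix.of fun s t => k * (u s * u t))) := by
  constructor
  · intro ψ hψ z hz
    rw [L_ins_rank_one]
    refine mul_ne_zero (mul_ne_zero hk (dot_ne_zero (hz x) hu.le (ne_zero_of_Q_pos hu))) ?_
    refine hψ _ fun y => ?_
    by_cases hy : y = x
    · subst hy; simpa using hu
    · rw [Function.update_of_ne hy]; exact hz y
  · intro ψ hψ z hz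
    rw [L_ins_rank_one]
    refine mul_ne_zero (mul_ne_zero hk (dot_ne_zero' (hz x).2 (hz x).1 hu)) ?_
    refine hψ _ fun y => ?_
    by_cases hy : y = x
    · subst hy; simpa using ⟨ne_zero_of_Q_pos hu, hu.le⟩
    · rw [Function.update_of_ne hy]; exact hz y

lemma weak_ins {g : ℝ} (x : V) {k : ℂ} (hk : k ≠ 0) {u : Fin 2 → ℂ} (hu0 : u ≠ 0)
    (hu : 0 ≤ Q g u) :
    Weak g (ins x (Matrix.of fun s t => k * (u s * u t))) := by
  intro ψ hψ z hz
  rw [L_ins_rank_one]
  refine mul_ne_zero (mul_ne_zero hk (dot_ne_zero (hz x) hu hu0)) ?_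
  refine hψ _ fun y => ?_
  by_cases hy : y = x
  · subst hy; simpa using ⟨hu0, hu⟩
  · rw [Function.update_of_ne hy]; exact ⟨ne_zero_of_Q_pos (hz y), (hz y).le⟩

/-- Pauli matrices. -/
def s1 : Matrix (Fin 2) (Fin 2) ℂ := !![0, 1; 1, 0]
def s3 : Matrix (Fin 2) (Fin 2) ℂ := !![1, 0; 0, -1]

lemma ins_apply (x : V) (R : Matrix (Fin 2) (Fin 2) ℂ) (σ τ : V → Fin 2) :
    ins x R σ τ = R (σ x) (τ x) *
      ∏ y ∈ Finset.univ.erase x, (1 : Matrix (Fin 2) (Fin 2) ℂ) (σ y) (τ y) := by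
  rw [ins, prodMat, Matrix.of_apply, ← Finset.mul_prod_erase Finset.univ _ (Finset.mem_univ x),
    if_pos rfl]
  congr 1
  refine Finset.prod_congr rfl fun y hy => ?_
  rw [if_neg (Finset.ne_of_mem_erase hy)]

lemma ins_one (x : V) : ins x (1 : Matrix (Fin 2) (Fin 2) ℂ) = 1 := by
  ext σ τ
  simp only [ins, prodMat, Matrix.of_apply, ite_self, Matrix.one_apply]
  by_cases h : σ = τ
  · subst h; simp
  · rw [if_neg h]
    obtain ⟨y, hy⟩ := Function.ne_iff.mp h
    exact Finset.prod_eq_zero (Finset.mem_univ y) (if_neg hy)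

lemma ins_comb (x : V) (a b c : ℂ) (R1 R2 R3 : Matrix (Fin 2) (Fin 2) ℂ) :
    ins x (a • R1 + b • R2 + c • R3) = a • ins x R1 + b • ins x R2 + c • ins x R3 := by
  ext σ τ
  simp only [Matrix.add_apply, Matrix.smul_apply, smul_eq_mul, ins_apply]
  ring

/-- Parity. -/
def par : Matrix (V → Fin 2) (V → Fin 2) ℂ :=
  Matrix.diagonal fun σ => ∏ x, (if σ x = 0 then (1 : ℂ) else -1)

lemma par_sq : (par : Matrix (V → Fin 2) (V → Fin 2) ℂ) * par = 1 := by
  rw [par, Matrix.diagonal_mul_diagonal, ← Matrix.diagonal_one]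
  congr 1
  funext σ
  rw [← Finset.prod_mul_distrib]
  refine Finset.prod_eq_one fun x _ => ?_
  split_ifs <;> norm_num

lemma par_swap (x y : V) : par * swapMat x y = swapMat x y * par := by
  ext σ τ
  rw [par, Matrix.diagonal_mul, Matrix.mul_diagonal, swapMat, Matrix.of_apply]
  by_cases h : τ = σ ∘ Equiv.swap x y
  · rw [if_pos h, mul_one, one_mul, h]
    rw [← Equiv.prod_comp (Equiv.swap x y)]
    rfl
  · rw [if_neg h]; ring

omit [DecidableEq V] in
lemma fieldMat_eq_diagonal [DecidableEq V] (s : V → ℂ) :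
    fieldMat s = Matrix.diagonal fun σ => ∏ y, fieldFac (s y) (σ y) (σ y) := by
  ext σ τ
  rw [Matrix.diagonal_apply, fieldMat, prodMat, Matrix.of_apply]
  by_cases h : σ = τ
  · subst h; simp
  · rw [if_neg h]
    obtain ⟨y, hy⟩ := Function.ne_iff.mp h
    refine Finset.prod_eq_zero (Finset.mem_univ y) ?_
    have : ∀ i j : Fin 2, i ≠ j → fieldFac (s y) i j = 0 := by
      intro i j hij
      fin_cases i <;> fin_cases j <;> simp_all [fieldFac]
    exact this _ _ hy

lemma par_field (s : V → ℂ) : par * fieldMat s = fieldMat s * par := by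
  rw [fieldMat_eq_diagonal, par, Matrix.diagonal_mul_diagonal, Matrix.diagonal_mul_diagonal]
  congr 1
  funext σ
  ring

lemma par_gate (a b : ℝ) (x y : V) : par * gate a b x y = gate a b x y * par := by
  rw [gate, Matrix.mul_add, Matrix.add_mul, Matrix.mul_smul, Matrix.smul_mul, Matrix.mul_smul,
    Matrix.smul_mul, par_swap, Matrix.mul_one, Matrix.one_mul]

lemma par_s1 (x : V) : par * ins x s1 = -(ins x s1 * par) := by
  ext σ τ
  rw [Matrix.neg_apply, par, Matrix.diagonal_mul, Matrix.mul_diagonal, ins_apply]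
  by_cases h : ∀ y ∈ Finset.univ.erase x, σ y = τ y
  · rw [← Finset.mul_prod_erase Finset.univ (fun y => if σ y = 0 then (1 : ℂ) else -1)
      (Finset.mem_univ x),
      ← Finset.mul_prod_erase Finset.univ (fun y => if τ y = 0 then (1 : ℂ) else -1)
      (Finset.mem_univ x)]
    have e : ∏ y ∈ Finset.univ.erase x, (if σ y = 0 then (1 : ℂ) else -1) =
        ∏ y ∈ Finset.univ.erase x, (if τ y = 0 then (1 : ℂ) else -1) :=
      Finset.prod_congr rfl fun y hy => by rw [h y hy]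
    rw [e]
    have k : ∀ i j : Fin 2, (if i = 0 then (1 : ℂ) else -1) * s1 i j =
        -(s1 i j * (if j = 0 then (1 : ℂ) else -1)) := by
      intro i j
      fin_cases i <;> fin_cases j <;> simp [s1]
    linear_combination ((∏ y ∈ Finset.univ.erase x, (if τ y = 0 then (1 : ℂ) else -1)) *
      ∏ y ∈ Finset.univ.erase x, (1 : Matrix (Fin 2) (Fin 2) ℂ) (σ y) (τ y)) * k (σ x) (τ x)
  · simp only [not_forall] at h
    obtain ⟨y, hy, hne⟩ := h
    have : ∏ y ∈ Finset.univ.erase x, (1 : Matrix (Fin 2) (Fin 2) ℂ) (σ y) (τ y) = 0 :=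
      Finset.prod_eq_zero hy (Matrix.one_apply_ne hne)
    rw [this]; ring

lemma trace_s1 (x : V) {A : Matrix (V → Fin 2) (V → Fin 2) ℂ} (hA : par * A = A * par) :
    (ins x s1 * A).trace = 0 := by
  have h1 : (ins x s1 * A).trace = -(ins x s1 * A).trace := by
    calc (ins x s1 * A).trace = (par * par * (ins x s1 * A)).trace := by
          rw [par_sq, Matrix.one_mul]
      _ = (par * (ins x s1 * A) * par).trace := by
          rw [Matrix.mul_assoc par par, Matrix.trace_mul_comm]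
      _ = -(ins x s1 * A).trace := by
          rw [← Matrix.mul_assoc, par_s1, Matrix.neg_mul, Matrix.neg_mul, Matrix.trace_neg]
          congr 1
          rw [Matrix.mul_assoc (ins x s1), hA, ← Matrix.mul_assoc, Matrix.mul_assoc _ par par,
            par_sq, Matrix.mul_one]
  have h2 : (2 : ℂ) * (ins x s1 * A).trace = 0 := by linear_combination h1
  simpa using h2

/-- The vector of the insertion `1 + sin t σ¹ + cos t σ³`. -/
def uvec (t : ℂ) : Fin 2 → ℂ := ![cos (t / 2), sin (t / 2)]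

lemma Q_uvec (g : ℝ) (t : ℂ) : Q g (uvec t) = Real.cos (t.re - g) := by
  have hc : cos (t / 2) = (Real.cos (t.re / 2) * Real.cosh (t.im / 2) : ℝ) -
      (Real.sin (t.re / 2) * Real.sinh (t.im / 2) : ℝ) * I := by
    rw [cos_eq]
    have h1 : (t / 2).re = t.re / 2 := by simp
    have h2 : (t / 2).im = t.im / 2 := by simp
    rw [h1, h2]; push_cast; ring
  have hs : sin (t / 2) = (Real.sin (t.re / 2) * Real.cosh (t.im / 2) : ℝ) +
      (Real.cos (t.re / 2) * Real.sinh (t.im / 2) : ℝ) * I := by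
    rw [sin_eq]
    have h1 : (t / 2).re = t.re / 2 := by simp
    have h2 : (t / 2).im = t.im / 2 := by simp
    rw [h1, h2]; push_cast; ring
  have c0 : (uvec t 0) = cos (t / 2) := rfl
  have c1 : (uvec t 1) = sin (t / 2) := rfl
  have cre : (cos (t / 2)).re = Real.cos (t.re / 2) * Real.cosh (t.im / 2) := by
    rw [hc]; simp [-ofReal_mul, -ofReal_cos, -ofReal_cosh, -ofReal_sin, -ofReal_sinh]
  have cim : (cos (t / 2)).im = -(Real.sin (t.re / 2) * Real.sinh (t.im / 2)) := by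
    rw [hc]; simp [-ofReal_mul, -ofReal_cos, -ofReal_cosh, -ofReal_sin, -ofReal_sinh]
  have sre : (sin (t / 2)).re = Real.sin (t.re / 2) * Real.cosh (t.im / 2) := by
    rw [hs]; simp [-ofReal_mul, -ofReal_cos, -ofReal_cosh, -ofReal_sin, -ofReal_sinh]
  have sim : (sin (t / 2)).im = Real.cos (t.re / 2) * Real.sinh (t.im / 2) := by
    rw [hs]; simp [-ofReal_mul, -ofReal_cos, -ofReal_cosh, -ofReal_sin, -ofReal_sinh]
  simp only [Q, c0, c1, normSq_apply, cre, cim, sre, sim]
  have hh := Real.cosh_sq (t.im / 2)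
  have h2 : t.re = 2 * (t.re / 2) := by ring
  rw [Real.cos_sub, h2, Real.cos_two_mul', Real.sin_two_mul]
  have h3 : 2 * (t.re / 2) / 2 = t.re / 2 := by ring
  rw [h3]
  linear_combination (Real.cos g * (Real.cos (t.re / 2) ^ 2 - Real.sin (t.re / 2) ^ 2) +
    2 * Real.sin g * (Real.sin (t.re / 2) * Real.cos (t.re / 2))) * hh

lemma R_eq (t : ℂ) :
    (Matrix.of fun i j => (2 : ℂ) * (uvec t i * uvec t j)) =
      (1 : ℂ) • (1 : Matrix (Fin 2) (Fin 2) ℂ) + sin t • s1 + cos t • s3 := by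
  have h2 : t = 2 * (t / 2) := by ring
  have hc : cos t = cos (t / 2) ^ 2 - sin (t / 2) ^ 2 := by
    conv_lhs => rw [h2, cos_two_mul']
  have hs : sin t = 2 * sin (t / 2) * cos (t / 2) := by
    conv_lhs => rw [h2, sin_two_mul]
  have h1 := sin_sq_add_cos_sq (t / 2)
  rw [hc, hs]
  ext i j
  fin_cases i <;> fin_cases j
  · simp [uvec, s1, s3]; linear_combination h1
  · simp [uvec, s1, s3]; ring
  · simp [uvec, s1, s3]; ring
  · simp [uvec, s1, s3]; linear_combination h1

/-- Nonvanishing with an insertion. -/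
theorem trace_ins_ne_zero {g : ℝ} (x : V) {t : ℂ} (ht : 0 < Real.cos (t.re - g))
    {A : Matrix (V → Fin 2) (V → Fin 2) ℂ} (hA : Strict g A) (hp : par * A = A * par) :
    A.trace + cos t * (ins x s3 * A).trace ≠ 0 := by
  have h1 : Strict g (ins x (Matrix.of fun i j => (2 : ℂ) * (uvec t i * uvec t j)) * A) :=
    Strict.mul_left (good_ins x two_ne_zero (by rw [Q_uvec]; exact ht)) hA
  have h2 := h1.trace_ne_zero
  rw [R_eq, ins_comb, ins_one, Matrix.add_mul, Matrix.add_mul, Matrix.trace_add,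
    Matrix.trace_add, Matrix.smul_mul, Matrix.smul_mul, Matrix.smul_mul, Matrix.trace_smul,
    Matrix.trace_smul, Matrix.trace_smul, trace_s1 x hp, Matrix.one_mul] at h2
  simpa using h2

/-- The magnetization does not vanish. -/
theorem trace_s3_ne_zero {g : ℝ} (x : V) {A B : Matrix (V → Fin 2) (V → Fin 2) ℂ}
    (hA : Strict g A) (hB : Strict g B) (hp : par * (B * A) = (B * A) * par) :
    (ins x s3 * (B * A)).trace ≠ 0 := by
  have hw : Weak g (ins x (Matrix.of fun i j => (1 : ℂ) * (![1, -I] i * ![1, -I] j))) :=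
    weak_ins x one_ne_zero (by
      intro h; have := congrFun h 0; simp at this) (by simp [Q])
  have h1 := (Strict.weak_strict hA hw hB).trace_ne_zero
  have e : (Matrix.of fun i j => (1 : ℂ) * (![1, -I] i * ![1, -I] j)) =
      (0 : ℂ) • (1 : Matrix (Fin 2) (Fin 2) ℂ) + (-I) • s1 + (1 : ℂ) • s3 := by
    ext i j
    fin_cases i <;> fin_cases j <;> simp [s1, s3]
  rw [Matrix.mul_assoc, Matrix.trace_mul_comm, Matrix.mul_assoc, e, ins_comb, Matrix.add_mul,
    Matrix.add_mul, Matrix.trace_add, Matrix.trace_add, Matrix.smul_mul, Matrix.smul_mul,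
    Matrix.smul_mul, Matrix.trace_smul, Matrix.trace_smul, Matrix.trace_smul,
    trace_s1 x hp] at h1
  simpa using h1

/-- The region: from the zero-free strip to the half plane. -/
theorem region {Z W : ℂ} {al : ℝ} (hal0 : 0 ≤ al) (hal : al < Real.pi / 2) (hW : W ≠ 0)
    (h : ∀ t : ℂ, |t.re| < Real.pi - al → Z + cos t * W ≠ 0) :
    Real.cos al ≤ (Z / W).re := by
  by_contra hc
  rw [not_le] at hc
  obtain ⟨t0, ht0⟩ := cos_surjective (-(Z / W))
  set n : ℤ := round (t0.re / (2 * Real.pi)) with hn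
  set t : ℂ := t0 - n * (2 * Real.pi) with ht
  have hct : cos t = -(Z / W) := by rw [ht, cos_sub_int_mul_two_pi, ht0]
  have hre : t.re = t0.re - n * (2 * Real.pi) := by rw [ht]; simp
  have hpi := Real.pi_pos
  have hle : |t.re| ≤ Real.pi := by
    have h1 := abs_sub_round (t0.re / (2 * Real.pi))
    have h2 : t.re = 2 * Real.pi * (t0.re / (2 * Real.pi) - n) := by
      rw [hre]; field_simp
    rw [h2, abs_mul, abs_of_pos (by positivity : 0 < 2 * Real.pi)]
    calc 2 * Real.pi * |t0.re / (2 * Real.pi) - n| ≤ 2 * Real.pi * (1 / 2) :=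
          mul_le_mul_of_nonneg_left h1 (by positivity)
      _ = Real.pi := by ring
  have hz : Z + cos t * W = 0 := by rw [hct]; field_simp; ring
  have hlt : |t.re| < Real.pi - al := by
    by_contra hge
    rw [not_lt] at hge
    have hcos : Real.cos t.re ≤ -Real.cos al := by
      rw [← Real.cos_abs, ← Real.cos_pi_sub]
      exact Real.cos_le_cos_of_nonneg_of_le_pi (by linarith) hle hge
    have hcal : 0 < Real.cos al := Real.cos_pos_of_mem_Ioo ⟨by linarith, hal⟩
    have hre2 : (cos t).re = Real.cos t.re * Real.cosh t.im := by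
      rw [cos_eq]
      have : cos (t.re : ℂ) * cosh (t.im : ℂ) - sin (t.re : ℂ) * sinh (t.im : ℂ) * I =
          (Real.cos t.re * Real.cosh t.im : ℝ) - (Real.sin t.re * Real.sinh t.im : ℝ) * I := by
        push_cast; ring
      rw [this]; simp [-ofReal_mul, -ofReal_cos, -ofReal_cosh, -ofReal_sin, -ofReal_sinh]
    have h1 : (cos t).re = -(Z / W).re := by rw [hct, neg_re]
    have h2 := Real.one_le_cosh t.im
    rw [hre2] at h1
    nlinarith [mul_nonneg (sub_nonneg.mpr h2) hcal.le]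
  exact h t hlt hz

end

end Vale.Agent.P361.LRO
end

section

/-! P361, LRO: the Harnack step of block (8).  `F = 1/M` is analytic in the strip `|Im z| < π/2`
with `Re F ≥ cos (Im z)`; then `f = F - 1` satisfies `f y ≤ 2 f x + (9/2) (y-x)^2`. -/

namespace Vale.Agent.P361.LRO

open Complex Metric Set

theorem norm_sub_le_norm_add {w g : ℂ} (hw : 0 ≤ w.re) (hg : 0 ≤ g.re) (hgi : g.im = 0) :
    ‖w - g‖ ≤ ‖w + g‖ := by
  rw [Complex.norm_def, Complex.norm_def]
  apply Real.sqrt_le_sqrt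
  simp only [Complex.normSq_apply, Complex.sub_re, Complex.sub_im, Complex.add_re,
    Complex.add_im, hgi]
  nlinarith [mul_nonneg hw hg]

/-- Harnack inequality with radius three times the distance, at real values. -/
theorem harnack_ball (G : ℂ → ℂ) (c z : ℂ) {r : ℝ} (hr : 0 < r)
    (hG : DifferentiableOn ℂ G (ball c r)) (hre : ∀ w ∈ ball c r, 0 ≤ (G w).re)
    (hz : 3 * dist z c ≤ r) (hc : (G c).im = 0) (hzi : (G z).im = 0) :
    (G z).re ≤ 2 * (G c).re := by
  have hzb : z ∈ ball c r := by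
    rw [mem_ball]
    have := dist_nonneg (x := z) (y := c)
    rcases this.eq_or_lt with h | h
    · rw [← h]; exact hr
    · linarith
  have hcb : c ∈ ball c r := mem_ball_self hr
  refine le_of_forall_pos_le_add fun δ hδ => ?_
  set g : ℂ := (((G c).re + δ : ℝ) : ℂ) with hg
  have hgpos : 0 < (G c).re + δ := by have := hre c hcb; linarith
  have hden : ∀ w ∈ ball c r, (G w + (δ : ℂ)) + g ≠ 0 := by
    intro w hw h0
    have := congrArg Complex.re h0
    simp only [hg, Complex.add_re, Complex.ofReal_re, Complex.zero_re] at this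
    have h1 := hre w hw
    linarith
  have hGc : G c + (δ : ℂ) = g := by
    apply Complex.ext
    · simp [hg]
    · simp [hg, hc]
  let φ : ℂ → ℂ := fun w => ((G w + (δ : ℂ)) - g) / ((G w + (δ : ℂ)) + g)
  have hφd : DifferentiableOn ℂ φ (ball c r) := by
    refine DifferentiableOn.div ?_ ?_ hden
    · exact (hG.add_const _).sub_const _
    · exact (hG.add_const _).add_const _
  have hφc : φ c = 0 := by simp [φ, hGc]
  have hmaps : MapsTo φ (ball c r) (closedBall (φ c) 1) := by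
    intro w hw
    rw [hφc, mem_closedBall, dist_zero_right, norm_div]
    refine div_le_one_of_le₀ ?_ (norm_nonneg _)
    refine norm_sub_le_norm_add ?_ ?_ ?_
    · have := hre w hw
      simp only [Complex.add_re, Complex.ofReal_re]; linarith
    · simp only [hg, Complex.ofReal_re]; linarith
    · simp [hg]
  have hs := dist_le_div_mul_dist_of_mapsTo_ball hφd hmaps hzb
  rw [hφc, dist_zero_right, norm_div] at hs
  have h13 : 1 / r * dist z c ≤ 1 / 3 := by
    rw [one_div_mul_eq_div, div_le_div_iff₀ hr (by norm_num)]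
    linarith
  have hs' := hs.trans h13
  have hnp : 0 < ‖(G z + (δ : ℂ)) + g‖ := norm_pos_iff.mpr (hden z hzb)
  rw [div_le_iff₀ hnp] at hs'
  have e1 : (G z + (δ : ℂ)) - g = (((G z).re + δ - ((G c).re + δ) : ℝ) : ℂ) := by
    apply Complex.ext <;> simp [hg, hzi]
  have e2 : (G z + (δ : ℂ)) + g = (((G z).re + δ + ((G c).re + δ) : ℝ) : ℂ) := by
    apply Complex.ext <;> simp [hg, hzi]
  rw [e1, e2, Complex.norm_real, Complex.norm_real, Real.norm_eq_abs, Real.norm_eq_abs,
    abs_of_pos (by have := hre z hzb; linarith : 0 < (G z).re + δ + ((G c).re + δ))] at hs'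
  have := (le_abs_self _).trans hs'
  linarith

/-- The Harnack step: `f = F - 1` with `Re F ≥ cos (Im z)` in the strip `|Im z| < π/2`. -/
theorem harnack_strip (F : ℂ → ℂ)
    (hF : DifferentiableOn ℂ F {z | |z.im| < Real.pi / 2})
    (hre : ∀ z : ℂ, |z.im| < Real.pi / 2 → Real.cos z.im ≤ (F z).re)
    (x y : ℝ) (hx : (F x).im = 0) (hy : (F y).im = 0) (hd : 3 * |y - x| < Real.pi / 2) :
    (F y).re - 1 ≤ 2 * ((F x).re - 1) + (9 / 2) * (y - x) ^ 2 := by
  have hx1 : 1 ≤ (F x).re := by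
    have := hre x (by simp [Real.pi_pos])
    simpa using this
  rcases eq_or_ne x y with rfl | hne
  · simp; linarith
  set d := |y - x| with hdd
  have hdpos : 0 < d := abs_pos.mpr (sub_ne_zero.mpr hne.symm)
  have him : ∀ w ∈ ball (x : ℂ) (3 * d), |w.im| < 3 * d := by
    intro w hw
    rw [mem_ball, Complex.dist_eq] at hw
    have h1 := Complex.abs_im_le_norm (w - x)
    simp only [Complex.sub_im, Complex.ofReal_im, sub_zero] at h1
    linarith
  have h := harnack_ball (fun w => F w + (((3 * d) ^ 2 / 2 - 1 : ℝ) : ℂ)) x y (r := 3 * d)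
    (by positivity) ?_ ?_ ?_ ?_ ?_
  · simp only [Complex.add_re, Complex.ofReal_re] at h
    have hd2 : d ^ 2 = (y - x) ^ 2 := by rw [hdd, sq_abs]
    nlinarith [h, hd2]
  · refine (hF.mono ?_).add_const _
    intro w hw
    exact (him w hw).trans hd
  · intro w hw
    have h1 := him w hw
    have h2 := hre w (h1.trans hd)
    have h3 := Real.one_sub_sq_div_two_le_cos (x := w.im)
    have h4 : w.im ^ 2 ≤ (3 * d) ^ 2 := by
      rw [← sq_abs w.im]
      exact pow_le_pow_left₀ (abs_nonneg _) h1.le 2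
    simp only [Complex.add_re, Complex.ofReal_re]
    linarith
  · rw [Complex.dist_eq, ← Complex.ofReal_sub, Complex.norm_real, Real.norm_eq_abs]
  · rw [Complex.add_im, Complex.ofReal_im, hx, add_zero]
  · rw [Complex.add_im, Complex.ofReal_im, hy, add_zero]

end Vale.Agent.P361.LRO
end

section

/-!
P361, step (8) at finite Trotter number: zero-free strip and the Harnack inequality for the
magnetization.
-/

namespace Vale.Agent.P361.LRO

open Complex Matrix

noncomputable section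

variable {V : Type*} [Fintype V] [DecidableEq V]

/-- All gates of one step. -/
def gprod (l : List (V × V)) (a b : ℝ) : Matrix (V → Fin 2) (V → Fin 2) ℂ :=
  (l.map fun e => gate a b e.1 e.2).prod

lemma good_gprod {g : ℝ} (l : List (V × V)) {a b : ℝ} (ha : 0 ≤ a) (hb : 0 ≤ b)
    (hab : 0 < a + b) : Good g (gprod l a b) := by
  refine Good.list fun A hA => ?_
  obtain ⟨e, _, rfl⟩ := List.mem_map.mp hA
  exact good_gate ha hb hab _ _

lemma par_gprod (l : List (V × V)) (a b : ℝ) : par * gprod l a b = gprod l a b * par := by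
  induction l with
  | nil => simp [gprod]
  | cons e l ih =>
    have : gprod (e :: l) a b = gate a b e.1 e.2 * gprod l a b := by simp [gprod]
    rw [this, ← Matrix.mul_assoc, par_gate, Matrix.mul_assoc, ih, Matrix.mul_assoc]

/-- One Trotter step. -/
def step (l : List (V × V)) (a b : ℝ) (s : V → ℂ) : Matrix (V → Fin 2) (V → Fin 2) ℂ :=
  gprod l a b * fieldMat s

lemma strict_step {g : ℝ} (hg : 0 < Real.cos g) (l : List (V × V)) {a b : ℝ} (ha : 0 ≤ a)
    (hb : 0 ≤ b) (hab : 0 < a + b) {s : V → ℂ}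
    (hs : ∀ x, |(s x).im| * |Real.sin g| < (s x).re * Real.cos g) :
    Strict g (step l a b s) :=
  Strict.mul_left (good_gprod l ha hb hab) (strict_field hg hs)

lemma strict_pow {g : ℝ} {A : Matrix (V → Fin 2) (V → Fin 2) ℂ} (h : Strict g A) (n : ℕ) :
    Strict g (A ^ (n + 1)) := by
  rw [pow_succ]
  exact Strict.mul_left (h.good.pow n) h

lemma par_step (l : List (V × V)) (a b : ℝ) (s : V → ℂ) :
    par * step l a b s = step l a b s * par := by
  rw [step, ← Matrix.mul_assoc, par_gprod, Matrix.mul_assoc, par_field, Matrix.mul_assoc]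

lemma par_pow {A : Matrix (V → Fin 2) (V → Fin 2) ℂ} (h : par * A = A * par) (n : ℕ) :
    par * A ^ n = A ^ n * par := by
  have : Commute par A := h
  exact (this.pow_right n).eq

/-- Partition function of the Trotter word. -/
def ZW (l : List (V × V)) (a b : ℝ) (N : ℕ) (s : V → ℂ) : ℂ := (step l a b s ^ N).trace

/-- The same with `σ³_x` inserted. -/
def WW (l : List (V × V)) (a b : ℝ) (N : ℕ) (x : V) (s : V → ℂ) : ℂ :=
  (ins x s3 * step l a b s ^ N).trace

lemma WW_ne_zero (l : List (V × V)) {a b : ℝ} (ha : 0 ≤ a) (hb : 0 ≤ b) (hab : 0 < a + b)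
    {N : ℕ} (hN : 2 ≤ N) (x : V) {s : V → ℂ} (hs : ∀ x, 0 < (s x).re) :
    WW l a b N x s ≠ 0 := by
  obtain ⟨n, rfl⟩ : ∃ n, N = n + 1 + 1 := ⟨N - 2, by omega⟩
  have h0 : Strict 0 (step l a b s) := strict_step (by simp) l ha hb hab (by simpa using hs)
  have e : step l a b s ^ (n + 1 + 1) = step l a b s ^ (n + 1) * step l a b s := pow_succ _ _
  rw [WW, e]
  exact trace_s3_ne_zero x h0 (strict_pow h0 n) (by rw [← e]; exact par_pow (par_step l a b s) _)

/-- The half plane bound at finite Trotter number. -/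
lemma re_ZW_div {l : List (V × V)} {a b : ℝ} (ha : 0 ≤ a) (hb : 0 ≤ b) (hab : 0 < a + b)
    {N : ℕ} (hN : 2 ≤ N) (x : V) {al : ℝ} (hal0 : 0 ≤ al) (hal : al < Real.pi / 2) {s : V → ℂ}
    (hs : ∀ g : ℝ, |g| < Real.pi / 2 - al →
      ∀ x, |(s x).im| * |Real.sin g| < (s x).re * Real.cos g) :
    Real.cos al ≤ (ZW l a b N s / WW l a b N x s).re := by
  have hpi := Real.pi_pos
  have hs0 : ∀ x, 0 < (s x).re := fun y => by
    have := hs 0 (by rw [abs_zero]; linarith) y
    simpa using this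
  refine region hal0 hal (WW_ne_zero l ha hb hab hN x hs0) fun t ht => ?_
  obtain ⟨n, rfl⟩ : ∃ n, N = n + 1 := ⟨N - 1, by omega⟩
  set c : ℝ := (Real.pi / 2 - al) / (Real.pi - al) with hc
  have hd : 0 < Real.pi - al := by linarith
  have hc0 : 0 < c := div_pos (by linarith) hd
  have hg1 : |t.re * c| < Real.pi / 2 - al := by
    rw [abs_mul, abs_of_pos hc0]
    calc |t.re| * c < (Real.pi - al) * c := mul_lt_mul_of_pos_right ht hc0
      _ = Real.pi / 2 - al := by rw [hc]; field_simp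
  have hg2 : |t.re - t.re * c| < Real.pi / 2 := by
    have e : t.re - t.re * c = t.re * (1 - c) := by ring
    have h1c : 1 - c = (Real.pi / 2) / (Real.pi - al) := by
      rw [hc]; field_simp; ring
    have h1c0 : 0 < 1 - c := by rw [h1c]; positivity
    rw [e, abs_mul, abs_of_pos h1c0]
    calc |t.re| * (1 - c) < (Real.pi - al) * (1 - c) := mul_lt_mul_of_pos_right ht h1c0
      _ = Real.pi / 2 := by rw [h1c]; field_simp
  have hcg : 0 < Real.cos (t.re * c) := by
    rw [← Real.cos_abs]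
    exact Real.cos_pos_of_mem_Ioo ⟨by have := abs_nonneg (t.re * c); linarith, by linarith⟩
  have hct : 0 < Real.cos (t.re - t.re * c) := by
    rw [← Real.cos_abs]
    exact Real.cos_pos_of_mem_Ioo ⟨by have := abs_nonneg (t.re - t.re * c); linarith, hg2⟩
  exact trace_ins_ne_zero x hct (strict_pow (strict_step hcg l ha hb hab (hs _ hg1)) n)
    (par_pow (par_step l a b s) _)

/-! ### Differentiability -/

/-- Entrywise differentiability. -/
def MD (A : ℂ → Matrix (V → Fin 2) (V → Fin 2) ℂ) : Prop :=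
  ∀ σ τ, Differentiable ℂ fun ζ => A ζ σ τ

omit [Fintype V] [DecidableEq V] in
lemma MD.const (A : Matrix (V → Fin 2) (V → Fin 2) ℂ) : MD fun _ => A := fun _ _ =>
  differentiable_const _

lemma MD.mul {A B : ℂ → Matrix (V → Fin 2) (V → Fin 2) ℂ} (hA : MD A) (hB : MD B) :
    MD fun ζ => A ζ * B ζ := fun σ τ => by
  simp only [Matrix.mul_apply]
  exact Differentiable.fun_sum fun i _ => (hA σ i).mul (hB i τ)

lemma MD.pow {A : ℂ → Matrix (V → Fin 2) (V → Fin 2) ℂ} (hA : MD A) (n : ℕ) :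
    MD fun ζ => A ζ ^ n := by
  induction n with
  | zero => simp only [pow_zero]; exact MD.const 1
  | succ n ih => simp only [pow_succ]; exact ih.mul hA

lemma MD.trace {A : ℂ → Matrix (V → Fin 2) (V → Fin 2) ℂ} (hA : MD A) :
    Differentiable ℂ fun ζ => (A ζ).trace := by
  simp only [Matrix.trace, Matrix.diag_apply]
  exact Differentiable.fun_sum fun i _ => hA i i

omit [DecidableEq V] in
lemma MD.field {s : ℂ → V → ℂ} (hs : ∀ x, Differentiable ℂ fun ζ => s ζ x) :
    MD fun ζ => fieldMat (s ζ) := fun σ τ => by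
  simp only [fieldMat, prodMat, Matrix.of_apply]
  refine Differentiable.fun_finsetProd fun y _ => ?_
  generalize σ y = i
  generalize τ y = j
  fin_cases i <;> fin_cases j <;> simp [fieldFac]
  · exact (hs y).cexp
  · exact (hs y).neg.cexp

lemma MD.step {s : ℂ → V → ℂ} (l : List (V × V)) (a b : ℝ)
    (hs : ∀ x, Differentiable ℂ fun ζ => s ζ x) : MD fun ζ => step l a b (s ζ) :=
  (MD.const _).mul (MD.field hs)

/-! ### Real words -/

/-- Real matrices. -/
def RM (A : Matrix (V → Fin 2) (V → Fin 2) ℂ) : Prop := ∀ σ τ, (A σ τ).im = 0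

lemma RM.mul {A B : Matrix (V → Fin 2) (V → Fin 2) ℂ} (hA : RM A) (hB : RM B) : RM (A * B) :=
  fun σ τ => by
    rw [Matrix.mul_apply, im_sum]
    exact Finset.sum_eq_zero fun i _ => by rw [mul_im, hA, hB]; ring

lemma RM.one : RM (1 : Matrix (V → Fin 2) (V → Fin 2) ℂ) := fun σ τ => by
  rw [Matrix.one_apply]; split <;> simp

lemma RM.pow {A : Matrix (V → Fin 2) (V → Fin 2) ℂ} (hA : RM A) (n : ℕ) : RM (A ^ n) := by
  induction n with
  | zero => rw [pow_zero]; exact RM.one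
  | succ n ih => rw [pow_succ]; exact ih.mul hA

lemma RM.trace {A : Matrix (V → Fin 2) (V → Fin 2) ℂ} (hA : RM A) : (A.trace).im = 0 := by
  rw [Matrix.trace, im_sum]
  exact Finset.sum_eq_zero fun i _ => hA i i

lemma RM.gate (a b : ℝ) (x y : V) : RM (gate a b x y) := fun σ τ => by
  simp only [Vale.Agent.P361.LRO.gate, swapMat, Matrix.add_apply, Matrix.smul_apply, smul_eq_mul,
    Matrix.of_apply, Matrix.one_apply]
  split <;> split <;> simp

lemma RM.gprod (l : List (V × V)) (a b : ℝ) : RM (gprod l a b) := by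
  induction l with
  | nil => simp only [Vale.Agent.P361.LRO.gprod, List.map_nil, List.prod_nil]; exact RM.one
  | cons e l ih =>
    simp only [Vale.Agent.P361.LRO.gprod, List.map_cons, List.prod_cons]
    exact (RM.gate _ _ _ _).mul ih

lemma RM.prodMat {R : V → Matrix (Fin 2) (Fin 2) ℂ} (h : ∀ y i j, (R y i j).im = 0) :
    RM (prodMat R) := fun σ τ => by
  rw [Vale.Agent.P361.LRO.prodMat, Matrix.of_apply]
  have : ∀ s : Finset V, (∏ y ∈ s, R y (σ y) (τ y)).im = 0 := fun s => by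
    induction s using Finset.induction_on with
    | empty => simp
    | insert y s hy ih => rw [Finset.prod_insert hy, mul_im, ih, h]; ring
  exact this _

lemma RM.fieldMat {s : V → ℂ} (hs : ∀ x, (s x).im = 0) : RM (fieldMat s) := by
  refine RM.prodMat fun y i j => ?_
  have e : s y = ((s y).re : ℂ) := by apply Complex.ext <;> simp [hs y]
  rw [e]
  fin_cases i <;> fin_cases j <;> simp [fieldFac, exp_im]

lemma RM.ins (x : V) : RM (ins x s3) := by
  refine RM.prodMat fun y i j => ?_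
  split
  · fin_cases i <;> fin_cases j <;> simp [s3]
  · rw [Matrix.one_apply]; split <;> simp

lemma ZW_im {l : List (V × V)} {a b : ℝ} {N : ℕ} {s : V → ℂ} (hs : ∀ x, (s x).im = 0) :
    (ZW l a b N s).im = 0 :=
  (((RM.gprod l a b).mul (RM.fieldMat hs)).pow N).trace

lemma WW_im {l : List (V × V)} {a b : ℝ} {N : ℕ} {x : V} {s : V → ℂ}
    (hs : ∀ x, (s x).im = 0) : (WW l a b N x s).im = 0 :=
  ((RM.ins x).mul (((RM.gprod l a b).mul (RM.fieldMat hs)).pow N)).trace

/-- Step (8) at finite Trotter number. -/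
theorem finite_harnack (l : List (V × V)) {a b : ℝ} (ha : 0 ≤ a) (hb : 0 ≤ b) (hab : 0 < a + b)
    {N : ℕ} (hN : 2 ≤ N) (x : V) {c c' : V → ℝ} (hc : ∀ y, 0 < c y) (hc' : ∀ y, 0 < c' y) {s : ℝ}
    (hs : 3 * s < Real.pi / 2) (hcc : ∀ y, |Real.log (c' y) - Real.log (c y)| ≤ s) :
    (ZW l a b N (fun y => (c' y : ℂ)) / WW l a b N x (fun y => (c' y : ℂ))).re - 1 ≤
      2 * ((ZW l a b N (fun y => (c y : ℂ)) / WW l a b N x (fun y => (c y : ℂ))).re - 1) +
        (9 / 2) * s ^ 2 := by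
  have hs0 : 0 ≤ s := (abs_nonneg _).trans (hcc x)
  set u : V → ℝ := fun y => (Real.log (c' y) - Real.log (c y)) / s with hu
  have hu1 : ∀ y, |u y| ≤ 1 := fun y => by
    rw [hu]; simp only
    rw [abs_div, abs_of_nonneg hs0]
    exact div_le_one_of_le₀ (hcc y) hs0
  set p : ℂ → V → ℂ := fun ζ y => (c y : ℂ) * exp (ζ * u y) with hp
  set F : ℂ → ℂ := fun ζ => ZW l a b N (p ζ) / WW l a b N x (p ζ) with hF
  have hpre : ∀ ζ y, (p ζ y).re = c y * Real.exp (ζ.re * u y) * Real.cos (ζ.im * u y) := by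
    intro ζ y
    simp only [hp, mul_re, exp_re, exp_im, ofReal_re, ofReal_im, mul_im, mul_zero, sub_zero,
      zero_mul, zero_add]
    ring
  have hpim : ∀ ζ y, (p ζ y).im = c y * Real.exp (ζ.re * u y) * Real.sin (ζ.im * u y) := by
    intro ζ y
    simp only [hp, mul_re, exp_re, exp_im, ofReal_re, ofReal_im, mul_im, mul_zero, sub_zero,
      zero_mul, zero_add, add_zero]
    ring
  have hpi := Real.pi_pos
  have key : ∀ ζ : ℂ, |ζ.im| < Real.pi / 2 → ∀ g : ℝ, |g| < Real.pi / 2 - |ζ.im| →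
      ∀ y, |(p ζ y).im| * |Real.sin g| < (p ζ y).re * Real.cos g := by
    intro ζ hζ g hg y
    rw [hpre, hpim, abs_mul, abs_of_pos (mul_pos (hc y) (Real.exp_pos _))]
    have h1 : |ζ.im * u y| ≤ |ζ.im| := by
      rw [abs_mul]
      calc |ζ.im| * |u y| ≤ |ζ.im| * 1 := mul_le_mul_of_nonneg_left (hu1 y) (abs_nonneg _)
        _ = _ := mul_one _
    have h2 : |Real.sin (ζ.im * u y)| * |Real.sin g| <
        Real.cos (ζ.im * u y) * Real.cos g := by
      have e1 : |Real.sin (ζ.im * u y)| = Real.sin |ζ.im * u y| :=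
        Real.abs_sin_eq_sin_abs_of_abs_le_pi (by linarith)
      have e2 : |Real.sin g| = Real.sin |g| :=
        Real.abs_sin_eq_sin_abs_of_abs_le_pi (by have := abs_nonneg ζ.im; linarith)
      rw [e1, e2, ← Real.cos_abs (ζ.im * u y), ← Real.cos_abs g]
      have h3 : 0 < Real.cos (|ζ.im * u y| + |g|) :=
        Real.cos_pos_of_mem_Ioo ⟨by
          have := abs_nonneg g; have := abs_nonneg (ζ.im * u y); linarith, by linarith⟩
      rw [Real.cos_add] at h3
      linarith
    calc c y * Real.exp (ζ.re * u y) * |Real.sin (ζ.im * u y)| * |Real.sin g|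
        = (c y * Real.exp (ζ.re * u y)) * (|Real.sin (ζ.im * u y)| * |Real.sin g|) := by ring
      _ < (c y * Real.exp (ζ.re * u y)) * (Real.cos (ζ.im * u y) * Real.cos g) :=
          mul_lt_mul_of_pos_left h2 (mul_pos (hc y) (Real.exp_pos _))
      _ = _ := by ring
  have hp0 : ∀ ζ : ℂ, |ζ.im| < Real.pi / 2 → ∀ y, 0 < (p ζ y).re := fun ζ hζ y => by
    have := key ζ hζ 0 (by rw [abs_zero]; linarith) y
    simpa using this
  have hpd : ∀ y, Differentiable ℂ fun ζ => p ζ y := fun y => by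
    simp only [hp]
    fun_prop
  have hFd : DifferentiableOn ℂ F {z | |z.im| < Real.pi / 2} := by
    refine DifferentiableOn.div ?_ ?_ fun z hz => WW_ne_zero l ha hb hab hN x (hp0 z hz)
    · exact (((MD.step l a b hpd).pow N).trace).differentiableOn
    · exact (((MD.const _).mul ((MD.step l a b hpd).pow N)).trace).differentiableOn
  have hFre : ∀ z : ℂ, |z.im| < Real.pi / 2 → Real.cos z.im ≤ (F z).re := fun z hz => by
    rw [← Real.cos_abs]
    exact re_ZW_div ha hb hab hN x (abs_nonneg _) hz (key z hz)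
  have hp_real : ∀ (t : ℝ) y, (p t y).im = 0 := fun t y => by
    rw [hpim]; simp
  have hFim : ∀ t : ℝ, (F t).im = 0 := fun t => by
    simp only [hF]
    have h1 := ZW_im (l := l) (a := a) (b := b) (N := N) (hp_real t)
    have h2 := WW_im (l := l) (a := a) (b := b) (N := N) (x := x) (hp_real t)
    rw [div_im, h1, h2]; simp
  have h := harnack_strip F hFd hFre 0 s (hFim 0) (hFim s)
    (by rw [sub_zero, abs_of_nonneg hs0]; exact hs)
  have e0 : p ((0 : ℝ) : ℂ) = fun y => (c y : ℂ) := by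
    funext y; simp [hp]
  have e1 : p ((s : ℝ) : ℂ) = fun y => (c' y : ℂ) := by
    funext y
    have h1 : s * u y = Real.log (c' y) - Real.log (c y) := by
      rcases eq_or_ne s 0 with h0 | h0
      · have := hcc y
        rw [h0] at this
        have := abs_nonpos_iff.mp this
        rw [h0, this, zero_mul]
      · rw [hu]; simp only; field_simp
    have h2 : c' y = c y * Real.exp (s * u y) := by
      rw [h1, Real.exp_sub, Real.exp_log (hc' y), Real.exp_log (hc y)]
      field_simp [(hc y).ne']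
    simp only [hp]
    rw [h2]; push_cast; rfl
  simp only [hF] at h
  rw [e0, e1, sub_zero] at h
  exact h

end

end Vale.Agent.P361.LRO
end

section

/-!
P361, block (1): the rotated slice `rotT` on a block (`Dst` is in `Top.lean`).
-/

namespace Vale.Agent.P361.LRO

open Finset Matrix

noncomputable section

/-- `1 + θ (cos φ σ³ + sin φ σ¹)`. -/
def rotM (θ φ : ℝ) : Matrix (Fin 2) (Fin 2) ℝ :=
  !![1 + θ * Real.cos φ, θ * Real.sin φ; θ * Real.sin φ, 1 - θ * Real.cos φ]

variable {V : Type} [Fintype V] [DecidableEq V]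

/-- The product of `rotM θ φ` over the sites of `b`. -/
def rotT (b : Finset V) (θ φ : ℝ) : Matrix (V → Fin 2) (V → Fin 2) ℝ :=
  Matrix.of fun σ τ => ∏ x, if x ∈ b then rotM θ φ (σ x) (τ x) else if σ x = τ x then 1 else 0

/-- One time step: all gates, then all slices; `p = β / (2N)`. -/
def stepM (L : List (V × V)) (β : ℝ) (h : V → ℝ) (N : ℕ) : Matrix (V → Fin 2) (V → Fin 2) ℝ :=
  (L.map fun e => (1 - β / (2 * N)) • (1 : Matrix (V → Fin 2) (V → Fin 2) ℝ) +
    (β / (2 * N)) • swapM e.1 e.2).prod *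
  Matrix.diagonal fun σ : V → Fin 2 => ∏ x, (1 + β * h x / (2 * N) * if σ x = 0 then 1 else -1)

end

end Vale.Agent.P361.LRO
end

section

/-! P361 LRO: uniform (quantitative) Lie-Trotter. -/

namespace Vale.Agent.P361.LRO.Trot

open Filter Topology NormedSpace

section powers

variable {𝔸 : Type*} [NormedRing 𝔸]

/-- telescoping estimate for powers -/
theorem norm_pow_sub_pow_le {a b : 𝔸} {M : ℝ} (hM : 1 ≤ M) (ha : ‖a‖ ≤ M) (hb : ‖b‖ ≤ M) (m : ℕ)
    (h1 : ‖(1 : 𝔸)‖ ≤ 1) : ‖a ^ m - b ^ m‖ ≤ m * M ^ m * ‖a - b‖ := by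
  have hpa : ∀ k : ℕ, ‖a ^ k‖ ≤ M ^ k := by
    intro k
    induction k with
    | zero => simpa using h1
    | succ k ih =>
      rw [pow_succ, pow_succ]
      refine (norm_mul_le _ _).trans ?_
      gcongr
  induction m with
  | zero => simp
  | succ m ih =>
    have e : a ^ (m + 1) - b ^ (m + 1) = a ^ m * (a - b) + (a ^ m - b ^ m) * b := by
      rw [pow_succ, pow_succ]; noncomm_ring
    rw [e]
    have h2 : ‖a ^ m * (a - b)‖ ≤ M ^ m * ‖a - b‖ := by
      refine (norm_mul_le _ _).trans ?_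
      gcongr
      exact hpa m
    have h3 : ‖(a ^ m - b ^ m) * b‖ ≤ (m * M ^ m * ‖a - b‖) * M := by
      refine (norm_mul_le _ _).trans ?_
      gcongr
    have hM0 : 0 ≤ M := zero_le_one.trans hM
    calc ‖a ^ m * (a - b) + (a ^ m - b ^ m) * b‖
        ≤ M ^ m * ‖a - b‖ + (m * M ^ m * ‖a - b‖) * M := (norm_add_le _ _).trans (add_le_add h2 h3)
      _ ≤ (M ^ m * M) * ‖a - b‖ + (m * M ^ m * ‖a - b‖) * M := by
          gcongr
          exact le_mul_of_one_le_right (by positivity) hM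
      _ = ((m + 1 : ℕ) : ℝ) * M ^ (m + 1) * ‖a - b‖ := by
          push_cast
          ring

end powers

variable {𝔸 : Type*} [NormedRing 𝔸] [NormedAlgebra ℝ 𝔸] [CompleteSpace 𝔸]

omit [CompleteSpace 𝔸] in
/-- norm of the exponential -/
theorem norm_exp_le (h1 : ‖(1 : 𝔸)‖ ≤ 1) (x : 𝔸) : ‖exp x‖ ≤ Real.exp ‖x‖ := by
  have h2 : ∀ n : ℕ, ‖((n.factorial : ℝ)⁻¹) • x ^ n‖ ≤ ‖x‖ ^ n / n.factorial := by
    intro n
    rw [norm_smul, norm_inv, Real.norm_natCast, div_eq_inv_mul]
    gcongr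
    rcases Nat.eq_zero_or_pos n with hn | hn
    · subst hn; simpa using h1
    · exact norm_pow_le' x hn
  have hs : Summable fun n : ℕ => ‖x‖ ^ n / (n.factorial : ℝ) := Real.summable_pow_div_factorial _
  rw [exp_eq_tsum ℝ, Real.exp_eq_exp_ℝ, exp_eq_tsum_div]
  exact tsum_of_norm_bounded hs.hasSum h2

/-- first order remainder of the exponential -/
theorem norm_exp_sub_one_sub_le (x : 𝔸) :
    ‖exp x - 1 - x‖ ≤ Real.exp ‖x‖ - 1 - ‖x‖ := by
  have h2 : ∀ n : ℕ, ‖(((n + 2).factorial : ℝ)⁻¹) • x ^ (n + 2)‖ ≤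
      ‖x‖ ^ (n + 2) / (n + 2).factorial := by
    intro n
    rw [norm_smul, norm_inv, Real.norm_natCast, div_eq_inv_mul]
    gcongr
    exact norm_pow_le' x (by omega)
  have hs : Summable fun n : ℕ => ‖x‖ ^ n / (n.factorial : ℝ) := Real.summable_pow_div_factorial _
  have hx : Summable fun n : ℕ => ((n.factorial : ℝ)⁻¹) • x ^ n := expSeries_summable' (𝕂 := ℝ) x
  have e : exp x - 1 - x = ∑' n : ℕ, (((n + 2).factorial : ℝ)⁻¹) • x ^ (n + 2) := by
    rw [exp_eq_tsum ℝ]
    have h5 := hx.sum_add_tsum_nat_add 2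
    simp only [Finset.sum_range_succ, Finset.range_zero, Finset.sum_empty, zero_add,
      Nat.factorial_zero, Nat.cast_one, inv_one, pow_zero, one_smul, Nat.factorial_one,
      pow_one] at h5
    show (∑' n : ℕ, ((n.factorial : ℝ)⁻¹) • x ^ n) - 1 - x = _
    rw [← h5]
    abel
  have e' : Real.exp ‖x‖ - 1 - ‖x‖ = ∑' n : ℕ, ‖x‖ ^ (n + 2) / ((n + 2).factorial : ℝ) := by
    rw [Real.exp_eq_exp_ℝ, exp_eq_tsum_div]
    have h5 := hs.sum_add_tsum_nat_add 2
    simp only [Finset.sum_range_succ, Finset.range_zero, Finset.sum_empty, zero_add,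
      Nat.factorial_zero, Nat.cast_one, div_one, pow_zero, Nat.factorial_one,
      pow_one] at h5
    show (∑' n : ℕ, ‖x‖ ^ n / (n.factorial : ℝ)) - 1 - ‖x‖ = _
    rw [← h5]
    ring
  rw [e, e']
  exact tsum_of_norm_bounded ((summable_nat_add_iff 2).2 hs).hasSum h2

/-- zeroth order remainder of the exponential -/
theorem norm_exp_sub_one_le (x : 𝔸) : ‖exp x - 1‖ ≤ Real.exp ‖x‖ - 1 := by
  have h := norm_exp_sub_one_sub_le x
  have e : exp x - 1 = (exp x - 1 - x) + x := by abel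
  rw [e]
  linarith [norm_add_le (exp x - 1 - x) x]

/-- (UT1) products of exponentials -/
theorem prod_exp_bounds (h1 : ‖(1 : 𝔸)‖ ≤ 1) (l : List 𝔸) :
    ‖(l.map exp).prod‖ ≤ Real.exp (l.map norm).sum ∧
    ‖(l.map exp).prod - 1‖ ≤ Real.exp (l.map norm).sum - 1 ∧
    ‖(l.map exp).prod - 1 - l.sum‖ ≤ Real.exp (l.map norm).sum - 1 - (l.map norm).sum := by
  induction l with
  | nil => simp [h1]
  | cons A l ih =>
    obtain ⟨i1, i2, i3⟩ := ih
    set P := (l.map exp).prod with hP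
    set s := (l.map norm).sum with hs
    have hs0 : 0 ≤ s := List.sum_nonneg (by
      intro x hx
      obtain ⟨a, _, rfl⟩ := List.mem_map.1 hx
      exact norm_nonneg _)
    simp only [List.map_cons, List.prod_cons, List.sum_cons, ← hP, ← hs]
    have j1 := norm_exp_le h1 A
    have j2 := norm_exp_sub_one_le A
    have j3 := norm_exp_sub_one_sub_le A
    have hA0 : 0 ≤ Real.exp ‖A‖ - 1 := (norm_nonneg _).trans j2
    have hE0 : 0 ≤ Real.exp s - 1 := (norm_nonneg _).trans i2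
    have k : ‖(exp A - 1) * (P - 1)‖ ≤ (Real.exp ‖A‖ - 1) * (Real.exp s - 1) :=
      (norm_mul_le _ _).trans (mul_le_mul j2 i2 (norm_nonneg _) hA0)
    refine ⟨?_, ?_, ?_⟩
    · rw [Real.exp_add]
      exact (norm_mul_le _ _).trans (mul_le_mul j1 i1 (norm_nonneg _) (Real.exp_pos _).le)
    · have e : exp A * P - 1 = (exp A - 1) * (P - 1) + (exp A - 1) + (P - 1) := by noncomm_ring
      rw [e, Real.exp_add]
      refine norm_add₃_le.trans ?_
      nlinarith
    · have e : exp A * P - 1 - (A + l.sum)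
          = (exp A - 1) * (P - 1) + (exp A - 1 - A) + (P - 1 - l.sum) := by noncomm_ring
      rw [e, Real.exp_add]
      refine norm_add₃_le.trans ?_
      nlinarith

/-- `e^x - 1 - x ≤ x² e^x`. -/
theorem exp_rem_le {x : ℝ} (hx : 0 ≤ x) : Real.exp x - 1 - x ≤ x ^ 2 * Real.exp x := by
  have h0 : 1 - x ≤ Real.exp (-x) := by
    have := Real.add_one_le_exp (-x)
    linarith
  have h1 : Real.exp x - 1 ≤ x * Real.exp x := by
    have h2 : (1 - x) * Real.exp x ≤ Real.exp (-x) * Real.exp x :=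
      mul_le_mul_of_nonneg_right h0 (Real.exp_pos _).le
    rw [← Real.exp_add, neg_add_cancel, Real.exp_zero] at h2
    linarith
  have h3 : x * (Real.exp x - 1) ≤ x * (x * Real.exp x) := mul_le_mul_of_nonneg_left h1 hx
  nlinarith

omit [CompleteSpace 𝔸] [NormedAlgebra ℝ 𝔸] in
theorem norm_list_sum_le (l : List 𝔸) : ‖l.sum‖ ≤ (l.map norm).sum := by
  induction l with
  | nil => simp
  | cons A l ih =>
    rw [List.sum_cons, List.map_cons, List.sum_cons]
    exact (norm_add_le _ _).trans (add_le_add le_rfl ih)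

/-- one step: the product of exponentials against the exponential of the sum -/
theorem prod_exp_sub_exp_sum_le (h1 : ‖(1 : 𝔸)‖ ≤ 1) (l : List 𝔸) {s : ℝ}
    (hs : (l.map norm).sum ≤ s) :
    ‖(l.map exp).prod - exp l.sum‖ ≤ 2 * (s ^ 2 * Real.exp s) := by
  obtain ⟨-, -, i3⟩ := prod_exp_bounds h1 l
  have j3 := norm_exp_sub_one_sub_le l.sum
  have h0 : 0 ≤ (l.map norm).sum := List.sum_nonneg (by
      intro x hx
      obtain ⟨a, _, rfl⟩ := List.mem_map.1 hx
      exact norm_nonneg _)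
  have mono : ∀ x : ℝ, 0 ≤ x → x ≤ s → Real.exp x - 1 - x ≤ s ^ 2 * Real.exp s := by
    intro x hx hxs
    refine (exp_rem_le hx).trans ?_
    gcongr
  have e : (l.map exp).prod - exp l.sum
      = ((l.map exp).prod - 1 - l.sum) - (exp l.sum - 1 - l.sum) := by abel
  rw [e]
  refine (norm_sub_le _ _).trans ?_
  have k1 := mono _ h0 hs
  have k2 := mono _ (norm_nonneg l.sum) ((norm_list_sum_le l).trans hs)
  linarith

/-- (UT2) uniform Lie-Trotter at every intermediate slice -/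
theorem trotter_uniform (h1 : ‖(1 : 𝔸)‖ ≤ 1) (l : List 𝔸) {c : ℝ}
    (hc : (l.map norm).sum ≤ c) {N k : ℕ} (hN : 1 ≤ N) (hk : k ≤ N) :
    ‖((l.map fun A => exp ((N : ℝ)⁻¹ • A)).prod) ^ k - exp (((k : ℝ) / N) • l.sum)‖
      ≤ 2 * c ^ 2 * Real.exp (2 * c) / N := by
  have hN0 : (0 : ℝ) < N := by exact_mod_cast hN
  have h0 : 0 ≤ (l.map norm).sum := List.sum_nonneg (by
      intro x hx
      obtain ⟨a, _, rfl⟩ := List.mem_map.1 hx
      exact norm_nonneg _)
  have hc0 : 0 ≤ c := h0.trans hc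
  set l' := l.map fun A => (N : ℝ)⁻¹ • A with hl'
  have hsum : l'.sum = (N : ℝ)⁻¹ • l.sum := by
    rw [hl', ← List.smul_sum]
  have hnorm : (l'.map norm).sum ≤ c / N := by
    have e : (l'.map norm) = (l.map norm).map (fun x => (N : ℝ)⁻¹ * x) := by
      rw [hl', List.map_map, List.map_map]
      apply List.map_congr_left
      intro A _
      simp [norm_smul]
    rw [e, List.sum_map_mul_left, List.map_id', div_eq_inv_mul]
    gcongr
  have hmap : (l.map fun A => exp ((N : ℝ)⁻¹ • A)) = l'.map exp := by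
    rw [hl', List.map_map]; rfl
  rw [hmap]
  have hstep := prod_exp_sub_exp_sum_le h1 l' hnorm
  obtain ⟨i1, -, -⟩ := prod_exp_bounds h1 l'
  have hw : ‖(l'.map exp).prod‖ ≤ Real.exp (c / N) := i1.trans (Real.exp_le_exp.2 hnorm)
  have ha : ‖exp l'.sum‖ ≤ Real.exp (c / N) :=
    (norm_exp_le h1 _).trans (Real.exp_le_exp.2 ((norm_list_sum_le l').trans hnorm))
  have hM : 1 ≤ Real.exp (c / N) := Real.one_le_exp (by positivity)
  have epow : exp (((k : ℝ) / N) • l.sum) = exp l'.sum ^ k := by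
    let _ : NormedAlgebra ℚ 𝔸 := NormedAlgebra.restrictScalars ℚ ℝ 𝔸
    rw [← exp_nsmul, ← Nat.cast_smul_eq_nsmul ℝ, hsum, smul_smul, div_eq_mul_inv]
  rw [epow]
  refine (norm_pow_sub_pow_le hM hw ha k h1).trans ?_
  have e2 : Real.exp (c / N) ^ k ≤ Real.exp c := by
    rw [← Real.exp_nat_mul]
    apply Real.exp_le_exp.2
    rw [mul_div_assoc', div_le_iff₀ hN0, mul_comm c]
    gcongr
  have e3 : Real.exp (c / N) ≤ Real.exp c := by
    apply Real.exp_le_exp.2
    exact div_le_self hc0 (by exact_mod_cast hN)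
  calc (k : ℝ) * Real.exp (c / N) ^ k * ‖(l'.map exp).prod - exp l'.sum‖
      ≤ (N : ℝ) * Real.exp c * (2 * ((c / N) ^ 2 * Real.exp c)) := by
        gcongr
        refine hstep.trans ?_
        gcongr
    _ = 2 * c ^ 2 * Real.exp (2 * c) / N := by
        rw [two_mul c, Real.exp_add]
        field_simp

end Vale.Agent.P361.LRO.Trot
end

section

/-!
P361, block (1): `(A_N)^N → exp X` if `N (A_N - 1) → X`, and products.
-/

namespace Vale.Agent.P361.LRO.Trot

open Filter Topology NormedSpace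

/-- first order of a product -/
theorem first_mul {R : Type*} [NormedRing R] [NormedAlgebra ℝ R] {a b : ℕ → R} {x y : R}
    (ha : Tendsto (fun N : ℕ => (N : ℝ) • (a N - 1)) atTop (𝓝 x))
    (hb : Tendsto (fun N : ℕ => (N : ℝ) • (b N - 1)) atTop (𝓝 y)) :
    Tendsto (fun N : ℕ => (N : ℝ) • (a N * b N - 1)) atTop (𝓝 (x + y)) := by
  have hb1 : Tendsto b atTop (𝓝 1) := by
    have h1 : Tendsto (fun N : ℕ => (N : ℝ)⁻¹ • ((N : ℝ) • (b N - 1))) atTop (𝓝 ((0 : ℝ) • y)) :=
      (tendsto_inv_atTop_nhds_zero_nat (𝕜 := ℝ)).smul hb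
    rw [zero_smul] at h1
    have h2 : Tendsto (fun N : ℕ => (N : ℝ)⁻¹ • ((N : ℝ) • (b N - 1)) + 1) atTop (𝓝 (0 + 1)) :=
      h1.add tendsto_const_nhds
    rw [zero_add] at h2
    refine h2.congr' ?_
    filter_upwards [eventually_gt_atTop 0] with N hN
    have hN' : (N : ℝ) ≠ 0 := by exact_mod_cast hN.ne'
    rw [smul_smul, inv_mul_cancel₀ hN', one_smul]
    abel
  have h3 := (ha.mul hb1).add hb
  rw [mul_one] at h3
  refine h3.congr fun N => ?_
  rw [smul_mul_assoc, ← smul_add]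
  congr 1
  noncomm_ring

theorem first_one {R : Type*} [NormedRing R] [NormedAlgebra ℝ R] :
    Tendsto (fun N : ℕ => (N : ℝ) • ((1 : R) - 1)) atTop (𝓝 0) := by
  simp

/-- first order of a product over a list -/
theorem first_list {R : Type*} [NormedRing R] [NormedAlgebra ℝ R] {ι : Type*} (L : List ι)
    (a : ι → ℕ → R) (x : ι → R)
    (ha : ∀ i ∈ L, Tendsto (fun N : ℕ => (N : ℝ) • (a i N - 1)) atTop (𝓝 (x i))) :
    Tendsto (fun N : ℕ => (N : ℝ) • ((L.map fun i => a i N).prod - 1)) atTop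
      (𝓝 (L.map x).sum) := by
  induction L with
  | nil => simp
  | cons i L ih =>
    simp only [List.map_cons, List.prod_cons, List.sum_cons]
    exact first_mul (ha i (by simp)) (ih fun j hj => ha j (by simp [hj]))

/-- first order of a product over a finite set (commutative) -/
theorem first_prod {R : Type*} [NormedCommRing R] [NormedAlgebra ℝ R] {ι : Type*}
    (s : Finset ι) (a : ι → ℕ → R) (x : ι → R)
    (ha : ∀ i ∈ s, Tendsto (fun N : ℕ => (N : ℝ) • (a i N - 1)) atTop (𝓝 (x i))) :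
    Tendsto (fun N : ℕ => (N : ℝ) • ((∏ i ∈ s, a i N) - 1)) atTop (𝓝 (∑ i ∈ s, x i)) := by
  classical
  induction s using Finset.induction_on with
  | empty => simp
  | insert i s hi ih =>
    simp only [Finset.prod_insert hi, Finset.sum_insert hi]
    exact first_mul (ha i (by simp)) (ih fun j hj => ha j (by simp [hj]))

/-- **The limit of powers.** -/
theorem pow_tendsto_exp {𝔸 : Type*} [NormedRing 𝔸] [NormedAlgebra ℝ 𝔸] [CompleteSpace 𝔸]
    (h1 : ‖(1 : 𝔸)‖ ≤ 1) {a : ℕ → 𝔸} {x : 𝔸}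
    (ha : Tendsto (fun N : ℕ => (N : ℝ) • (a N - 1)) atTop (𝓝 x)) :
    Tendsto (fun N : ℕ => a N ^ N) atTop (𝓝 (exp x)) := by
  set c : ℝ := ‖x‖ + 1 with hc
  have hc0 : 0 < c := by positivity
  -- norms of `a N`
  have hn : ∀ᶠ N : ℕ in atTop, ‖a N‖ ≤ Real.exp (c / N) := by
    have h2 : ∀ᶠ N : ℕ in atTop, ‖(N : ℝ) • (a N - 1)‖ < c :=
      (ha.norm).eventually_lt_const (by rw [hc]; linarith)
    filter_upwards [h2, eventually_gt_atTop 0] with N hN hN0
    have hN' : (0 : ℝ) < N := by exact_mod_cast hN0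
    rw [norm_smul, Real.norm_natCast] at hN
    have h3 : ‖a N - 1‖ ≤ c / N := by
      rw [le_div_iff₀ hN', mul_comm]
      exact hN.le
    calc ‖a N‖ = ‖(a N - 1) + 1‖ := by rw [sub_add_cancel]
      _ ≤ ‖a N - 1‖ + ‖(1 : 𝔸)‖ := norm_add_le _ _
      _ ≤ c / N + 1 := add_le_add h3 h1
      _ ≤ Real.exp (c / N) := Real.add_one_le_exp _
  have he : ∀ᶠ N : ℕ in atTop, ‖exp ((N : ℝ)⁻¹ • x)‖ ≤ Real.exp (c / N) := by
    filter_upwards [eventually_gt_atTop 0] with N hN0
    have hN' : (0 : ℝ) < N := by exact_mod_cast hN0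
    refine (norm_exp_le h1 _).trans (Real.exp_le_exp.2 ?_)
    rw [norm_smul, norm_inv, Real.norm_natCast, div_eq_inv_mul]
    gcongr
    rw [hc]
    linarith
  -- `N (exp (x/N) - 1) → x`
  have hx : Tendsto (fun N : ℕ => (N : ℝ) • (exp ((N : ℝ)⁻¹ • x) - 1)) atTop (𝓝 x) := by
    rw [tendsto_iff_norm_sub_tendsto_zero]
    have hb : ∀ᶠ N : ℕ in atTop, ‖(N : ℝ) • (exp ((N : ℝ)⁻¹ • x) - 1) - x‖ ≤
        (‖x‖ ^ 2 * Real.exp ‖x‖) * (N : ℝ)⁻¹ := by
      filter_upwards [eventually_gt_atTop 0] with N hN0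
      have hN' : (0 : ℝ) < N := by exact_mod_cast hN0
      have hN1 : (1 : ℝ) ≤ N := by exact_mod_cast hN0
      have e : (N : ℝ) • (exp ((N : ℝ)⁻¹ • x) - 1) - x =
          (N : ℝ) • (exp ((N : ℝ)⁻¹ • x) - 1 - (N : ℝ)⁻¹ • x) := by
        rw [smul_sub (N : ℝ) (exp ((N : ℝ)⁻¹ • x) - 1), smul_smul, mul_inv_cancel₀ hN'.ne',
          one_smul]
      rw [e, norm_smul, Real.norm_natCast]
      have h3 := norm_exp_sub_one_sub_le ((N : ℝ)⁻¹ • x)
      have h4 : ‖(N : ℝ)⁻¹ • x‖ = (N : ℝ)⁻¹ * ‖x‖ := by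
        rw [norm_smul, norm_inv, Real.norm_natCast]
      rw [h4] at h3
      have h5 := exp_rem_le (x := (N : ℝ)⁻¹ * ‖x‖) (by positivity)
      have h6 : Real.exp ((N : ℝ)⁻¹ * ‖x‖) ≤ Real.exp ‖x‖ := by
        apply Real.exp_le_exp.2
        have : (N : ℝ)⁻¹ ≤ 1 := inv_le_one_of_one_le₀ hN1
        nlinarith [norm_nonneg x]
      calc (N : ℝ) * ‖exp ((N : ℝ)⁻¹ • x) - 1 - (N : ℝ)⁻¹ • x‖
          ≤ (N : ℝ) * (((N : ℝ)⁻¹ * ‖x‖) ^ 2 * Real.exp ‖x‖) := by
            gcongr
            exact h3.trans (h5.trans (by gcongr))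
        _ = (‖x‖ ^ 2 * Real.exp ‖x‖) * (N : ℝ)⁻¹ := by
            field_simp
    have h0 : Tendsto (fun N : ℕ => (‖x‖ ^ 2 * Real.exp ‖x‖) * (N : ℝ)⁻¹) atTop (𝓝 0) := by
      have := (tendsto_inv_atTop_nhds_zero_nat (𝕜 := ℝ)).const_mul (‖x‖ ^ 2 * Real.exp ‖x‖)
      rwa [mul_zero] at this
    exact squeeze_zero' (Eventually.of_forall fun N => norm_nonneg _) hb h0
  have hd : Tendsto (fun N : ℕ => (N : ℝ) * ‖a N - exp ((N : ℝ)⁻¹ • x)‖) atTop (𝓝 0) := by
    have h2 := (ha.sub hx).norm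
    rw [sub_self, norm_zero] at h2
    refine h2.congr fun N => ?_
    rw [← smul_sub, norm_smul, Real.norm_natCast]
    congr 2
    abel
  rw [tendsto_iff_norm_sub_tendsto_zero]
  have hfin : ∀ᶠ N : ℕ in atTop, ‖a N ^ N - exp x‖ ≤
      Real.exp c * ((N : ℝ) * ‖a N - exp ((N : ℝ)⁻¹ • x)‖) := by
    filter_upwards [hn, he, eventually_gt_atTop 0] with N hN1 hN2 hN0
    have hN' : (0 : ℝ) < N := by exact_mod_cast hN0
    have h2 : exp x = exp ((N : ℝ)⁻¹ • x) ^ N := by
      let _ : NormedAlgebra ℚ 𝔸 := NormedAlgebra.restrictScalars ℚ ℝ 𝔸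
      rw [← NormedSpace.exp_nsmul, ← Nat.cast_smul_eq_nsmul ℝ, smul_smul,
        mul_inv_cancel₀ hN'.ne', one_smul]
    rw [h2]
    refine (norm_pow_sub_pow_le (Real.one_le_exp (by positivity)) hN1 hN2 N h1).trans
      (le_of_eq ?_)
    rw [← Real.exp_nat_mul]
    have : (N : ℝ) * (c / N) = c := by field_simp
    rw [this]
    ring
  have h0 := hd.const_mul (Real.exp c)
  rw [mul_zero] at h0
  exact squeeze_zero' (Eventually.of_forall fun N => norm_nonneg _) hfin h0

end Vale.Agent.P361.LRO.Trot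
end

section

/-! P361 LRO, dictionary: permutation network <-> products of matrices, definitions. -/

namespace Vale.Agent.P361.LRO.Dict

open Finset Matrix

noncomputable section

variable {R : Type*} [CommRing R] [Algebra ℝ R]

section A

variable {X : Type} [Fintype X] [DecidableEq X]

/-- Loop sum of a random permutation with a general `2 × 2` matrix at every node. -/
def NZ (μ : Equiv.Perm X → ℝ) (A : X → Matrix (Fin 2) (Fin 2) R) : R :=
  ∑ π, μ π • ∑ s : X → Fin 2, ∏ z, A z (s z) (s (π z))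

end A

section B

variable {V : Type} [Fintype V] [DecidableEq V]

/-- tensor product of one-site matrices -/
def layM (A : V → Matrix (Fin 2) (Fin 2) R) : Matrix (V → Fin 2) (V → Fin 2) R :=
  Matrix.of fun σ τ => ∏ x, A x (σ x) (τ x)

/-- the swap, with entries in `R` (`= swapM` for `R = ℝ`) -/
def swapR (x y : V) : Matrix (V → Fin 2) (V → Fin 2) R :=
  Matrix.of fun σ τ => if σ = τ ∘ Equiv.swap x y then 1 else 0

theorem swapR_real (x y : V) : (swapR x y : Matrix (V → Fin 2) (V → Fin 2) ℝ) = swapM x y := rfl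

/-- one gate -/
def gatR (x y : V) (p : ℝ) : Matrix (V → Fin 2) (V → Fin 2) R :=
  (1 - p) • (1 : Matrix (V → Fin 2) (V → Fin 2) R) + p • swapR x y

/-- all gates between two layers -/
def gatM (L : List (V × V)) (p : ℝ) : Matrix (V → Fin 2) (V → Fin 2) R :=
  (L.reverse.map fun e => gatR e.1 e.2 p).prod

/-- `down f n = f n * f (n-1) * ⋯ * f 1`. -/
def down {M : Type*} [Monoid M] (f : ℕ → M) : ℕ → M
  | 0 => 1
  | n + 1 => f (n + 1) * down f n

end B

end

end Vale.Agent.P361.LRO.Dict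
end

section

/-!
P361, bridge between the charge networks and words of matrices: tensor products, permutation
matrices, the sum over the random permutation.
-/

namespace Vale.Agent.P361.LRO.Br

open Finset Matrix

noncomputable section

section tens

set_option linter.unusedSectionVars false

variable {X : Type} [Fintype X] [DecidableEq X] {R : Type*} [CommRing R]

/-- Tensor product of the matrices `A x`. -/
def tens (A : X → Matrix (Fin 2) (Fin 2) R) : Matrix (X → Fin 2) (X → Fin 2) R :=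
  Matrix.of fun s t => ∏ x, A x (s x) (t x)

theorem tens_apply (A : X → Matrix (Fin 2) (Fin 2) R) (s t : X → Fin 2) :
    tens A s t = ∏ x, A x (s x) (t x) := rfl

theorem tens_mul (A B : X → Matrix (Fin 2) (Fin 2) R) :
    tens A * tens B = tens fun x => A x * B x := by
  ext s t
  rw [Matrix.mul_apply, tens_apply]
  simp only [tens_apply, Matrix.mul_apply]
  rw [Finset.prod_univ_sum, Fintype.piFinset_univ]
  exact Finset.sum_congr rfl fun u _ => (Finset.prod_mul_distrib).symm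

theorem tens_one : tens (fun _ : X => (1 : Matrix (Fin 2) (Fin 2) R)) = 1 := by
  ext s t
  rw [tens_apply]
  by_cases h : s = t
  · subst h
    simp
  · rw [Matrix.one_apply_ne h]
    obtain ⟨x, hx⟩ := Function.ne_iff.1 h
    exact Finset.prod_eq_zero (Finset.mem_univ x) (Matrix.one_apply_ne hx)

/-- Permutation matrix. -/
def permM (σ : Equiv.Perm X) : Matrix (X → Fin 2) (X → Fin 2) R :=
  Matrix.of fun s t => if s = t ∘ σ then 1 else 0

theorem permM_apply (σ : Equiv.Perm X) (s t : X → Fin 2) :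
    (permM σ : Matrix (X → Fin 2) (X → Fin 2) R) s t = if s = t ∘ σ then 1 else 0 := rfl

theorem mul_permM (M : Matrix (X → Fin 2) (X → Fin 2) R) (σ : Equiv.Perm X) (s t : X → Fin 2) :
    (M * (permM σ : Matrix (X → Fin 2) (X → Fin 2) R)) s t = M s (t ∘ σ) := by
  rw [Matrix.mul_apply]
  simp only [permM_apply, mul_ite, mul_one, mul_zero]
  rw [Finset.sum_ite_eq' Finset.univ (t ∘ σ) (fun u => M s u), if_pos (Finset.mem_univ _)]

theorem permM_mul_apply (M : Matrix (X → Fin 2) (X → Fin 2) R) (σ : Equiv.Perm X)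
    (s t : X → Fin 2) : ((permM σ : Matrix (X → Fin 2) (X → Fin 2) R) * M) s t =
      M (s ∘ (σ⁻¹ : Equiv.Perm X)) t := by
  rw [Matrix.mul_apply]
  simp only [permM_apply, ite_mul, one_mul, zero_mul]
  have h : ∀ u : X → Fin 2, s = u ∘ σ ↔ u = s ∘ (σ⁻¹ : Equiv.Perm X) := by
    intro u
    constructor
    · rintro rfl
      funext x
      simp
    · rintro rfl
      funext x
      simp
  simp only [h]
  rw [Finset.sum_ite_eq' Finset.univ (s ∘ ⇑σ⁻¹) (fun u => M u t), if_pos (Finset.mem_univ _)]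

theorem permM_mul (σ τ : Equiv.Perm X) :
    (permM σ * permM τ : Matrix (X → Fin 2) (X → Fin 2) R) = permM (τ * σ) := by
  ext s t
  rw [mul_permM, permM_apply, permM_apply]
  rfl

theorem permM_one : (permM 1 : Matrix (X → Fin 2) (X → Fin 2) R) = 1 := by
  ext s t
  rw [permM_apply, Matrix.one_apply]
  rfl

/-- Permutations move the factors. -/
theorem permM_tens (σ : Equiv.Perm X) (A : X → Matrix (Fin 2) (Fin 2) R) :
    (permM σ : Matrix (X → Fin 2) (X → Fin 2) R) * tens A =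
      tens (fun x => A (σ x)) * permM σ := by
  ext s t
  rw [permM_mul_apply, mul_permM, tens_apply, tens_apply]
  refine (Fintype.prod_equiv σ _ _ fun x => ?_).symm
  simp

/-- All nodes in the same basis. -/
theorem permM_comm (σ : Equiv.Perm X) (U : Matrix (Fin 2) (Fin 2) R) :
    (permM σ : Matrix (X → Fin 2) (X → Fin 2) R) * tens (fun _ => U) =
      tens (fun _ => U) * permM σ := permM_tens σ _

theorem trace_perm (A : X → Matrix (Fin 2) (Fin 2) R) (π : Equiv.Perm X) :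
    Matrix.trace (tens A * permM π) = ∑ s : X → Fin 2, ∏ z, A z (s z) (s (π z)) := by
  rw [Matrix.trace]
  refine Finset.sum_congr rfl fun s _ => ?_
  rw [Matrix.diag_apply, mul_permM, tens_apply]
  rfl

variable [Algebra ℝ R]

/-- The partition function with the node matrices `A`. -/
def NZ (μ : Equiv.Perm X → ℝ) (A : X → Matrix (Fin 2) (Fin 2) R) : R :=
  ∑ π, μ π • ∑ s : X → Fin 2, ∏ z, A z (s z) (s (π z))

/-- The average of the permutation matrices. -/
def avM (μ : Equiv.Perm X → ℝ) : Matrix (X → Fin 2) (X → Fin 2) R := ∑ π, μ π • permM π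

theorem NZ_eq (μ : Equiv.Perm X → ℝ) (A : X → Matrix (Fin 2) (Fin 2) R) :
    NZ μ A = Matrix.trace (tens A * avM μ) := by
  unfold NZ avM
  rw [Matrix.mul_sum, Matrix.trace_sum]
  refine Finset.sum_congr rfl fun π _ => ?_
  rw [Matrix.mul_smul, Matrix.trace_smul, trace_perm]

theorem avM_comm (μ : Equiv.Perm X → ℝ) (U : Matrix (Fin 2) (Fin 2) R) :
    avM μ * tens (fun _ : X => U) = tens (fun _ => U) * avM μ := by
  unfold avM
  rw [Matrix.sum_mul, Matrix.mul_sum]
  refine Finset.sum_congr rfl fun π _ => ?_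
  rw [Matrix.smul_mul, Matrix.mul_smul, permM_comm]

/-- **Change of basis.** -/
theorem NZ_conj (μ : Equiv.Perm X → ℝ) (A : X → Matrix (Fin 2) (Fin 2) R)
    {U W : Matrix (Fin 2) (Fin 2) R} (h : W * U = 1) :
    NZ μ (fun x => U * A x * W) = NZ μ A := by
  rw [NZ_eq, NZ_eq, ← tens_mul, ← tens_mul, Matrix.mul_assoc, ← avM_comm, ← Matrix.mul_assoc,
    Matrix.trace_mul_comm, ← Matrix.mul_assoc, ← Matrix.mul_assoc, tens_mul]
  simp only [h]
  rw [tens_one, Matrix.one_mul]

/-- A gate. -/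
def gM (g : X × X × ℝ) : Matrix (X → Fin 2) (X → Fin 2) R :=
  (1 - g.2.2) • (1 : Matrix (X → Fin 2) (X → Fin 2) R) +
    g.2.2 • (permM (Equiv.swap g.1 g.2.1) : Matrix (X → Fin 2) (X → Fin 2) R)

theorem avM_law (l : List (X × X × ℝ)) (σ : Equiv.Perm X) :
    (avM (law l σ) : Matrix (X → Fin 2) (X → Fin 2) R) =
      permM σ * ((l.map fun g => (gM g : Matrix (X → Fin 2) (X → Fin 2) R)).reverse).prod := by
  induction l with
  | nil =>
    unfold avM law
    rw [Finset.sum_eq_single σ]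
    · simp
    · intro π _ h
      simp [h]
    · intro h
      exact absurd (Finset.mem_univ σ) h
  | cons g l ih =>
    have h1 : (avM (law (g :: l) σ) : Matrix (X → Fin 2) (X → Fin 2) R) =
        avM (law l σ) * gM g := by
      unfold avM gM
      rw [Matrix.mul_add, Matrix.mul_smul, Matrix.mul_smul, Matrix.mul_one, Matrix.sum_mul,
        Finset.smul_sum, Finset.smul_sum]
      have h2 : ∀ π : Equiv.Perm X, law (g :: l) σ π =
          (1 - g.2.2) * law l σ π + g.2.2 * law l σ (Equiv.swap g.1 g.2.1 * π) := fun π => rfl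
      simp only [h2, add_smul, mul_smul]
      rw [Finset.sum_add_distrib]
      congr 1
      refine Fintype.sum_equiv (Equiv.mulLeft (Equiv.swap g.1 g.2.1)) _ _ fun π => ?_
      rw [Equiv.coe_mulLeft, Matrix.smul_mul, permM_mul, ← mul_assoc, Equiv.swap_mul_self, one_mul]
    rw [h1, ih, List.map_cons, List.reverse_cons, List.prod_append, List.prod_singleton,
      Matrix.mul_assoc]

/-- **Traces of words on the large space.** -/
theorem NZ_law (l : List (X × X × ℝ)) (σ : Equiv.Perm X) (A : X → Matrix (Fin 2) (Fin 2) R) :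
    NZ (law l σ) A = Matrix.trace (tens A * permM σ *
      ((l.map fun g => (gM g : Matrix (X → Fin 2) (X → Fin 2) R)).reverse).prod) := by
  rw [NZ_eq, avM_law, Matrix.mul_assoc]

end tens

end

end Vale.Agent.P361.LRO.Br
end

section

/-! P361 LRO, dictionary: permutation network <-> products of matrices. -/

namespace Vale.Agent.P361.LRO.Dict

open Finset Matrix

variable {R : Type*} [CommRing R] [Algebra ℝ R]

section A

variable {X : Type} [Fintype X] [DecidableEq X]

/-- a gate acting on a kernel -/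
def gateOp (g : X × X × ℝ) (T : (X → Fin 2) → (X → Fin 2) → R) :
    (X → Fin 2) → (X → Fin 2) → R :=
  fun s t => (1 - g.2.2) • T s t + g.2.2 • T (s ∘ Equiv.swap g.1 g.2.1) t

/-- all gates of a list, the first one acts first -/
def actL (l : List (X × X × ℝ)) (T : (X → Fin 2) → (X → Fin 2) → R) :
    (X → Fin 2) → (X → Fin 2) → R :=
  l.foldl (fun T g => gateOp g T) T

theorem law_sum (l : List (X × X × ℝ)) (σ : Equiv.Perm X)
    (T : (X → Fin 2) → (X → Fin 2) → R) :
    ∑ π, law l σ π • ∑ s : X → Fin 2, T s (s ∘ π) = ∑ s : X → Fin 2, actL l T s (s ∘ σ) := by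
  induction l generalizing T with
  | nil =>
    simp only [law, actL, List.foldl_nil]
    rw [Finset.sum_eq_single σ]
    · simp
    · intro π _ hπ
      rw [Pi.single_eq_of_ne hπ, zero_smul]
    · simp
  | cons g l ih =>
    have h1 : actL (g :: l) T = actL l (gateOp g T) := rfl
    rw [h1, ← ih]
    simp only [law, add_smul, Finset.sum_add_distrib, gateOp, smul_add]
    congr 1
    · refine Finset.sum_congr rfl fun π _ => ?_
      rw [← Finset.smul_sum, smul_smul, mul_comm]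
    · rw [← Equiv.sum_comp (Equiv.mulLeft (Equiv.swap g.1 g.2.1))]
      refine Finset.sum_congr rfl fun π _ => ?_
      simp only [Equiv.coe_mulLeft]
      rw [← mul_assoc, Equiv.swap_mul_self, one_mul, mul_comm, mul_smul]
      rw [← Finset.smul_sum]
      congr 2
      rw [← Equiv.sum_comp (Equiv.arrowCongr (Equiv.swap g.1 g.2.1) (Equiv.refl (Fin 2)))]
      refine Finset.sum_congr rfl fun s _ => ?_
      have e1 : (Equiv.arrowCongr (Equiv.swap g.1 g.2.1) (Equiv.refl (Fin 2))) s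
          = s ∘ Equiv.swap g.1 g.2.1 := by
        funext x; simp [Equiv.arrowCongr]
      rw [e1]
      congr 1
      funext x
      simp
  
end A

end Vale.Agent.P361.LRO.Dict
end

section

/-! P361 LRO, dictionary: layers and the trace formula. -/

namespace Vale.Agent.P361.LRO.Dict

open Finset Matrix

noncomputable section

variable {R : Type*} [CommRing R] [Algebra ℝ R]

section B

variable {V : Type} [Fintype V] [DecidableEq V] {N : ℕ}

/-- tensor product over the layers -/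
def tens (A : Fin (N + 1) → Matrix (V → Fin 2) (V → Fin 2) R)
    (s t : Fin (N + 1) × V → Fin 2) : R :=
  ∏ k, A k (fun x => s (k, x)) (fun x => t (k, x))

omit [Algebra ℝ R] in
theorem swapR_mul_apply (x y : V) (A : Matrix (V → Fin 2) (V → Fin 2) R) (σ τ : V → Fin 2) :
    (swapR x y * A : Matrix (V → Fin 2) (V → Fin 2) R) σ τ = A (σ ∘ Equiv.swap x y) τ := by
  rw [Matrix.mul_apply, Finset.sum_eq_single (σ ∘ Equiv.swap x y)]
  · have : σ = (σ ∘ Equiv.swap x y) ∘ Equiv.swap x y := by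
      funext z; simp
    rw [swapR, Matrix.of_apply, if_pos this, one_mul]
  · intro ρ _ hρ
    rw [swapR, Matrix.of_apply, if_neg, zero_mul]
    intro h
    apply hρ
    rw [h]; funext z; simp
  · simp

theorem gateOp_tens (k : Fin (N + 1)) (x y : V) (p : ℝ)
    (A : Fin (N + 1) → Matrix (V → Fin 2) (V → Fin 2) R) :
    gateOp ((k, x), (k, y), p) (tens A) = tens (Function.update A k (gatR x y p * A k)) := by
  funext s t
  have hprod : ∀ (B : Fin (N + 1) → Matrix (V → Fin 2) (V → Fin 2) R)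
      (s : Fin (N + 1) × V → Fin 2), tens B s t
      = B k (fun x => s (k, x)) (fun x => t (k, x)) *
        ∏ j ∈ Finset.univ.erase k, B j (fun x => s (j, x)) (fun x => t (j, x)) := by
    intro B s
    exact (Finset.mul_prod_erase Finset.univ
      (fun j => B j (fun x => s (j, x)) (fun x => t (j, x))) (Finset.mem_univ k)).symm
  have h1 : (fun z => (s ∘ Equiv.swap (k, x) (k, y)) (k, z))
      = (fun z => s (k, z)) ∘ Equiv.swap x y := by
    funext z
    simp only [Function.comp_apply]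
    congr 1
    rcases eq_or_ne z x with rfl | hx
    · simp
    · rcases eq_or_ne z y with rfl | hy
      · simp
      · rw [Equiv.swap_apply_of_ne_of_ne hx hy, Equiv.swap_apply_of_ne_of_ne]
        · simpa using hx
        · simpa using hy
  have h2 : ∀ j ∈ Finset.univ.erase k, (fun z => (s ∘ Equiv.swap (k, x) (k, y)) (j, z))
      = (fun z => s (j, z)) := by
    intro j hj
    have hjk : j ≠ k := Finset.ne_of_mem_erase hj
    funext z
    simp only [Function.comp_apply]
    rw [Equiv.swap_apply_of_ne_of_ne]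
    · simp [hjk]
    · simp [hjk]
  have e2 : ∏ j ∈ Finset.univ.erase k, A j (fun x_1 => (s ∘ Equiv.swap (k, x) (k, y)) (j, x_1))
        (fun x => t (j, x)) = ∏ j ∈ Finset.univ.erase k, A j (fun x => s (j, x)) (fun x => t (j, x)) :=
    Finset.prod_congr rfl fun j hj => by rw [h2 j hj]
  have e3 : ∏ j ∈ Finset.univ.erase k, (Function.update A k (gatR x y p * A k)) j
      (fun x => s (j, x)) (fun x => t (j, x))
      = ∏ j ∈ Finset.univ.erase k, A j (fun x => s (j, x)) (fun x => t (j, x)) :=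
    Finset.prod_congr rfl fun j hj => by rw [Function.update_of_ne (Finset.ne_of_mem_erase hj)]
  simp only [gateOp]
  rw [hprod A s, hprod A (s ∘ _), hprod (Function.update A k _) s, h1, e2, e3,
    Function.update_self, gatR, Matrix.add_mul, Matrix.add_apply, Matrix.smul_mul, Matrix.smul_mul,
    Matrix.smul_apply, Matrix.smul_apply, one_mul, swapR_mul_apply, add_mul, smul_mul_assoc,
    smul_mul_assoc]

/-- the gates of the layer `k` -/
theorem actL_layer (k : Fin (N + 1)) (L : List (V × V)) (p : ℝ)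
    (A : Fin (N + 1) → Matrix (V → Fin 2) (V → Fin 2) R) :
    actL (L.map fun e => ((k, e.1), (k, e.2), p)) (tens A)
      = tens (Function.update A k (gatM L p * A k)) := by
  induction L generalizing A with
  | nil =>
    have : gatM (R := R) ([] : List (V × V)) p = 1 := rfl
    rw [this, one_mul, Function.update_eq_self]
    rfl
  | cons e L ih =>
    have h1 : actL ((e :: L).map fun e => ((k, e.1), (k, e.2), p)) (tens A)
        = actL (L.map fun e => ((k, e.1), (k, e.2), p))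
          (gateOp ((k, e.1), (k, e.2), p) (tens A)) := rfl
    have h2 : gatM (R := R) (e :: L) p = gatM L p * gatR e.1 e.2 p := by
      simp [gatM, List.reverse_cons, List.map_append, List.prod_append]
    rw [h1, gateOp_tens, ih, Function.update_self, Function.update_idem, h2, mul_assoc]

theorem actL_append {X : Type} [Fintype X] [DecidableEq X] (l₁ l₂ : List (X × X × ℝ))
    (T : (X → Fin 2) → (X → Fin 2) → R) : actL (l₁ ++ l₂) T = actL l₂ (actL l₁ T) := by
  simp [actL, List.foldl_append]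

theorem actL_layers (ks : List (Fin (N + 1))) (hks : ks.Nodup) (L : List (V × V)) (p : ℝ)
    (A : Fin (N + 1) → Matrix (V → Fin 2) (V → Fin 2) R) :
    actL (ks.flatMap fun k => L.map fun e => ((k, e.1), (k, e.2), p)) (tens A)
      = tens (fun k => if k ∈ ks then gatM L p * A k else A k) := by
  induction ks generalizing A with
  | nil => simp [actL]
  | cons k ks ih =>
    rw [List.flatMap_cons, actL_append, actL_layer, ih (List.nodup_cons.1 hks).2]
    congr 1
    funext j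
    have hk := (List.nodup_cons.1 hks).1
    by_cases hj : j = k
    · subst hj
      simp [hk]
    · simp [hj, Function.update_of_ne hj]

theorem actL_gates (L : List (V × V)) (p : ℝ)
    (A : Fin (N + 1) → Matrix (V → Fin 2) (V → Fin 2) R) :
    actL (gates L N p) (tens A)
      = tens (fun k => if k = Fin.last N then A k else gatM L p * A k) := by
  have h1 : gates L N p = ((List.finRange N).map Fin.castSucc).flatMap
      fun k => L.map fun e => ((k, e.1), (k, e.2), p) := by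
    rw [gates, List.flatMap_map]
  rw [h1, actL_layers _ ((List.nodup_finRange N).map (Fin.castSucc_injective N))]
  congr 1
  funext k
  by_cases hk : k = Fin.last N
  · subst hk
    simp [Fin.castSucc_ne_last]
  · obtain ⟨j, rfl⟩ := Fin.exists_castSucc_eq.2 hk
    simp [hk, List.mem_finRange]

end B

end

end Vale.Agent.P361.LRO.Dict
end

section

/-!
P361, LRO: basic facts on the charge network of `Defs.lean`, part A (helper169).

`SA μ θ z f`, `SB μ θ z f`: unnormalised sums over the configurations with / without a jump at the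
node `z`, the slice weight at `z` removed.
-/

namespace Vale.Agent.P361.LRO

open Finset

noncomputable section

variable {X : Type} [Fintype X] [DecidableEq X]

/-! ### The law -/

theorem law_nonneg (l : List (X × X × ℝ)) (hl : ∀ g ∈ l, 0 ≤ g.2.2 ∧ g.2.2 ≤ 1)
    (σ π : Equiv.Perm X) : 0 ≤ law l σ π := by
  induction l generalizing π with
  | nil =>
    simp only [law]
    by_cases h : π = σ
    · subst h; simp
    · simp [Pi.single_eq_of_ne h]
  | cons g l ih =>
    simp only [law]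
    have hg := hl g (by simp)
    have ih' := fun π => ih (fun g' hg' => hl g' (by simp [hg'])) π
    have h1 := mul_nonneg (sub_nonneg.mpr hg.2) (ih' π)
    have h2 := mul_nonneg hg.1 (ih' (Equiv.swap g.1 g.2.1 * π))
    linarith

theorem law_sum (l : List (X × X × ℝ)) (σ : Equiv.Perm X) : ∑ π, law l σ π = 1 := by
  induction l with
  | nil =>
    simp only [law]
    rw [Finset.sum_eq_single σ]
    · simp
    · intro π _ h; simp [Pi.single_eq_of_ne h]
    · intro h; exact absurd (Finset.mem_univ σ) h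
  | cons g l ih =>
    simp only [law]
    rw [Finset.sum_add_distrib, ← Finset.mul_sum, ← Finset.mul_sum, ih]
    have h : ∑ π, law l σ (Equiv.swap g.1 g.2.1 * π) = ∑ π, law l σ π :=
      Equiv.sum_comp (Equiv.mulLeft (Equiv.swap g.1 g.2.1)) (fun π => law l σ π)
    rw [h, ih]; ring

theorem IsLaw.nonneg {μ : Equiv.Perm X → ℝ} (h : IsLaw μ) (π : Equiv.Perm X) : 0 ≤ μ π := by
  obtain ⟨l, σ, hl, rfl⟩ := h
  exact law_nonneg l (fun g hg => ⟨(hl g hg).1, (hl g hg).2.trans (by norm_num)⟩) σ π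

theorem IsLaw.sum {μ : Equiv.Perm X → ℝ} (h : IsLaw μ) : ∑ π, μ π = 1 := by
  obtain ⟨l, σ, _, rfl⟩ := h
  exact law_sum l σ

/-! ### Weights -/

omit [DecidableEq X] in
theorem wt_nonneg {θ : X → ℝ} (hθ : ∀ x, 0 ≤ θ x) (π : Equiv.Perm X) (s : X → Fin 2) :
    0 ≤ wt θ π s :=
  Finset.prod_nonneg fun x _ => by split_ifs <;> simp [hθ x]

omit [DecidableEq X] in
theorem wt_const (θ : X → ℝ) (π : Equiv.Perm X) (i : Fin 2) : wt θ π (fun _ => i) = 1 := by
  simp [wt]

theorem wt_eq_mul_erase (θ : X → ℝ) (π : Equiv.Perm X) (s : X → Fin 2) (z : X) :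
    wt θ π s = (if s z = s (π z) then 1 else θ z) *
      ∏ x ∈ univ.erase z, (if s x = s (π x) then 1 else θ x) := by
  unfold wt
  exact (Finset.mul_prod_erase univ (fun x => if s x = s (π x) then (1:ℝ) else θ x)
    (Finset.mem_univ z)).symm

theorem wt_update_of_eq (θ : X → ℝ) {π : Equiv.Perm X} {s : X → Fin 2} {z : X}
    (h : s z = s (π z)) (t : ℝ) : wt (Function.update θ z t) π s = wt θ π s := by
  rw [wt_eq_mul_erase _ _ _ z, wt_eq_mul_erase θ _ _ z, if_pos h, if_pos h]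
  congr 1
  refine Finset.prod_congr rfl fun x hx => ?_
  rw [Function.update_of_ne (Finset.ne_of_mem_erase hx)]

theorem wt_of_ne (θ : X → ℝ) {π : Equiv.Perm X} {s : X → Fin 2} {z : X}
    (h : s z ≠ s (π z)) : wt θ π s = θ z * wt (Function.update θ z 1) π s := by
  rw [wt_eq_mul_erase _ _ _ z, wt_eq_mul_erase (Function.update θ z 1) _ _ z, if_neg h, if_neg h,
    Function.update_self, one_mul]
  congr 1
  refine Finset.prod_congr rfl fun x hx => ?_
  rw [Function.update_of_ne (Finset.ne_of_mem_erase hx)]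

/-! ### Charges -/

omit [DecidableEq X] in
theorem sum_jj (π : Equiv.Perm X) (s : X → Fin 2) : ∑ x, jj π s x = 0 := by
  unfold jj
  rw [Finset.sum_sub_distrib, sub_eq_zero]
  exact (Equiv.sum_comp π (fun x => ((s x : ℕ) : ℝ))).symm

omit [Fintype X] [DecidableEq X] in
theorem jj_sq (π : Equiv.Perm X) (s : X → Fin 2) (x : X) :
    jj π s x ^ 2 = if s x = s (π x) then 0 else 1 := by
  unfold jj
  generalize s x = a
  generalize s (π x) = b
  fin_cases a <;> fin_cases b <;> simp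

omit [Fintype X] [DecidableEq X] in
theorem jj_eq_zero {π : Equiv.Perm X} {s : X → Fin 2} {x : X} (h : s x = s (π x)) :
    jj π s x = 0 := by
  unfold jj; rw [h]; ring

omit [Fintype X] [DecidableEq X] in
theorem jj_abs_le (π : Equiv.Perm X) (s : X → Fin 2) (x : X) : |jj π s x| ≤ 1 := by
  rw [← sq_le_one_iff_abs_le_one, jj_sq]
  split_ifs <;> norm_num

/-! ### Unnormalised sums -/

/-- `∑ μ wt f`. -/
def SS (μ : Equiv.Perm X → ℝ) (θ : X → ℝ) (f : Equiv.Perm X → (X → Fin 2) → ℝ) : ℝ :=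
  ∑ π, ∑ s, μ π * wt θ π s * f π s

/-- Jump at `z`, slice weight of `z` removed. -/
def SA (μ : Equiv.Perm X → ℝ) (θ : X → ℝ) (z : X)
    (f : Equiv.Perm X → (X → Fin 2) → ℝ) : ℝ :=
  ∑ π, ∑ s, if s z = s (π z) then 0 else μ π * wt (Function.update θ z 1) π s * f π s

/-- No jump at `z`. -/
def SB (μ : Equiv.Perm X → ℝ) (θ : X → ℝ) (z : X)
    (f : Equiv.Perm X → (X → Fin 2) → ℝ) : ℝ :=
  ∑ π, ∑ s, if s z = s (π z) then μ π * wt θ π s * f π s else 0

/-- the constant function `1` -/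
def one' : Equiv.Perm X → (X → Fin 2) → ℝ := fun _ _ => 1

theorem SS_split (μ : Equiv.Perm X → ℝ) (θ : X → ℝ) (z : X)
    (f : Equiv.Perm X → (X → Fin 2) → ℝ) : SS μ θ f = SB μ θ z f + θ z * SA μ θ z f := by
  unfold SS SA SB
  rw [Finset.mul_sum, ← Finset.sum_add_distrib]
  refine Finset.sum_congr rfl fun π _ => ?_
  rw [Finset.mul_sum, ← Finset.sum_add_distrib]
  refine Finset.sum_congr rfl fun s _ => ?_
  by_cases h : s z = s (π z)
  · simp [h]
  · rw [if_neg h, if_neg h, wt_of_ne θ h]; ring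

theorem SA_update (μ : Equiv.Perm X → ℝ) (θ : X → ℝ) (z : X) (t : ℝ)
    (f : Equiv.Perm X → (X → Fin 2) → ℝ) : SA μ (Function.update θ z t) z f = SA μ θ z f := by
  unfold SA; simp only [Function.update_idem]

theorem SB_update (μ : Equiv.Perm X → ℝ) (θ : X → ℝ) (z : X) (t : ℝ)
    (f : Equiv.Perm X → (X → Fin 2) → ℝ) : SB μ (Function.update θ z t) z f = SB μ θ z f := by
  unfold SB
  refine Finset.sum_congr rfl fun π _ => Finset.sum_congr rfl fun s _ => ?_
  split_ifs with h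
  · rw [wt_update_of_eq θ h]
  · rfl

theorem ZZ_eq (μ : Equiv.Perm X → ℝ) (θ : X → ℝ) : ZZ μ θ = SS μ θ one' := by
  simp [ZZ, SS, one']

theorem EE_eq (μ : Equiv.Perm X → ℝ) (θ : X → ℝ) (f : Equiv.Perm X → (X → Fin 2) → ℝ) :
    EE μ θ f = SS μ θ f / SS μ θ one' := by
  rw [EE, ZZ_eq]; rfl

theorem mag_eq (μ : Equiv.Perm X → ℝ) (θ : X → ℝ) (z : X) :
    mag μ θ z = SA μ θ z one' / SB μ θ z one' := by
  simp [mag, SA, SB, one']

theorem SS_add (μ : Equiv.Perm X → ℝ) (θ : X → ℝ) (f g : Equiv.Perm X → (X → Fin 2) → ℝ) :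
    SS μ θ (fun π s => f π s + g π s) = SS μ θ f + SS μ θ g := by
  unfold SS
  rw [← Finset.sum_add_distrib]
  refine Finset.sum_congr rfl fun π _ => ?_
  rw [← Finset.sum_add_distrib]
  exact Finset.sum_congr rfl fun s _ => by ring

theorem SS_sub (μ : Equiv.Perm X → ℝ) (θ : X → ℝ) (f g : Equiv.Perm X → (X → Fin 2) → ℝ) :
    SS μ θ (fun π s => f π s - g π s) = SS μ θ f - SS μ θ g := by
  unfold SS
  rw [← Finset.sum_sub_distrib]
  refine Finset.sum_congr rfl fun π _ => ?_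
  rw [← Finset.sum_sub_distrib]
  exact Finset.sum_congr rfl fun s _ => by ring

theorem SS_mul (μ : Equiv.Perm X → ℝ) (θ : X → ℝ) (c : ℝ)
    (f : Equiv.Perm X → (X → Fin 2) → ℝ) :
    SS μ θ (fun π s => c * f π s) = c * SS μ θ f := by
  unfold SS
  rw [Finset.mul_sum]
  refine Finset.sum_congr rfl fun π _ => ?_
  rw [Finset.mul_sum]
  exact Finset.sum_congr rfl fun s _ => by ring

theorem SS_neg (μ : Equiv.Perm X → ℝ) (θ : X → ℝ) (f : Equiv.Perm X → (X → Fin 2) → ℝ) :
    SS μ θ (fun π s => - f π s) = - SS μ θ f := by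
  have := SS_mul μ θ (-1) f
  simpa using this

theorem SS_sum {ι : Type*} (μ : Equiv.Perm X → ℝ) (θ : X → ℝ) (t : Finset ι)
    (f : ι → Equiv.Perm X → (X → Fin 2) → ℝ) :
    SS μ θ (fun π s => ∑ i ∈ t, f i π s) = ∑ i ∈ t, SS μ θ (f i) := by
  unfold SS
  simp only [Finset.mul_sum]
  have h : ∀ π : Equiv.Perm X, ∑ s : X → Fin 2, ∑ i ∈ t, μ π * wt θ π s * f i π s =
      ∑ i ∈ t, ∑ s : X → Fin 2, μ π * wt θ π s * f i π s := fun π => Finset.sum_comm
  rw [Finset.sum_congr rfl fun π _ => h π, Finset.sum_comm]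

theorem SS_nonneg {μ : Equiv.Perm X → ℝ} (hμ : ∀ π, 0 ≤ μ π) {θ : X → ℝ} (hθ : ∀ x, 0 ≤ θ x)
    {f : Equiv.Perm X → (X → Fin 2) → ℝ} (hf : ∀ π s, 0 ≤ f π s) : 0 ≤ SS μ θ f :=
  Finset.sum_nonneg fun π _ => Finset.sum_nonneg fun s _ =>
    mul_nonneg (mul_nonneg (hμ π) (wt_nonneg hθ π s)) (hf π s)

theorem SS_mono {μ : Equiv.Perm X → ℝ} (hμ : ∀ π, 0 ≤ μ π) {θ : X → ℝ} (hθ : ∀ x, 0 ≤ θ x)
    {f g : Equiv.Perm X → (X → Fin 2) → ℝ} (hf : ∀ π s, f π s ≤ g π s) :
    SS μ θ f ≤ SS μ θ g :=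
  Finset.sum_le_sum fun π _ => Finset.sum_le_sum fun s _ =>
    mul_le_mul_of_nonneg_left (hf π s) (mul_nonneg (hμ π) (wt_nonneg hθ π s))

theorem SA_nonneg {μ : Equiv.Perm X → ℝ} (hμ : ∀ π, 0 ≤ μ π) {θ : X → ℝ} (hθ : ∀ x, 0 ≤ θ x)
    (z : X) {f : Equiv.Perm X → (X → Fin 2) → ℝ} (hf : ∀ π s, 0 ≤ f π s) :
    0 ≤ SA μ θ z f :=
  Finset.sum_nonneg fun π _ => Finset.sum_nonneg fun s _ => by
    split_ifs
    · exact le_rfl
    · refine mul_nonneg (mul_nonneg (hμ π) (wt_nonneg (fun x => ?_) π s)) (hf π s)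
      by_cases hx : x = z
      · subst hx; simp
      · rw [Function.update_of_ne hx]; exact hθ x

theorem SB_pos {μ : Equiv.Perm X → ℝ} (hμ : ∀ π, 0 ≤ μ π) (hμ1 : ∑ π, μ π = 1) {θ : X → ℝ}
    (hθ : ∀ x, 0 ≤ θ x) (z : X) : 1 ≤ SB μ θ z one' := by
  rw [← hμ1]
  unfold SB one'
  refine Finset.sum_le_sum fun π _ => ?_
  have h : (if (fun _ : X => (0 : Fin 2)) z = (fun _ : X => (0 : Fin 2)) (π z) then
      μ π * wt θ π (fun _ => 0) * 1 else 0) = μ π := by
    simp [wt_const]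
  calc μ π = _ := h.symm
    _ ≤ _ := Finset.single_le_sum (f := fun s : X → Fin 2 =>
        if s z = s (π z) then μ π * wt θ π s * 1 else 0) (fun s _ => by
          split_ifs
          · exact mul_nonneg (mul_nonneg (hμ π) (wt_nonneg hθ π s)) zero_le_one
          · exact le_rfl) (Finset.mem_univ (fun _ : X => (0 : Fin 2)))

theorem SS_one_pos {μ : Equiv.Perm X → ℝ} (hμ : ∀ π, 0 ≤ μ π) (hμ1 : ∑ π, μ π = 1) {θ : X → ℝ}
    (hθ : ∀ x, 0 ≤ θ x) : 1 ≤ SS μ θ one' := by
  rw [← hμ1]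
  unfold SS one'
  refine Finset.sum_le_sum fun π _ => ?_
  have h : μ π * wt θ π (fun _ => 0) * 1 = μ π := by
    simp [wt_const]
  calc μ π = _ := h.symm
    _ ≤ _ := Finset.single_le_sum (f := fun s : X → Fin 2 => μ π * wt θ π s * 1) (fun s _ =>
          mul_nonneg (mul_nonneg (hμ π) (wt_nonneg hθ π s)) zero_le_one) (Finset.mem_univ _)

theorem ZZ_pos {μ : Equiv.Perm X → ℝ} (h : IsLaw μ) {θ : X → ℝ} (hθ : ∀ x, 0 ≤ θ x) :
    0 < ZZ μ θ := by
  rw [ZZ_eq]
  exact lt_of_lt_of_le one_pos (SS_one_pos h.nonneg h.sum hθ)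

theorem EE_split (μ : Equiv.Perm X → ℝ) (θ : X → ℝ) (z : X)
    (f : Equiv.Perm X → (X → Fin 2) → ℝ) :
    EE μ θ f = (SB μ θ z f + θ z * SA μ θ z f) / (SB μ θ z one' + θ z * SA μ θ z one') := by
  rw [EE_eq, SS_split μ θ z f, SS_split μ θ z one']

theorem SB_mul_jj (μ : Equiv.Perm X → ℝ) (θ : X → ℝ) (z : X)
    (f : Equiv.Perm X → (X → Fin 2) → ℝ) : SB μ θ z (fun π s => jj π s z * f π s) = 0 := by
  unfold SB
  refine Finset.sum_eq_zero fun π _ => Finset.sum_eq_zero fun s _ => ?_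
  split_ifs with h
  · simp only [jj_eq_zero h]; ring
  · rfl

theorem SA_mul_jj_sq (μ : Equiv.Perm X → ℝ) (θ : X → ℝ) (z : X)
    (f : Equiv.Perm X → (X → Fin 2) → ℝ) :
    SA μ θ z (fun π s => jj π s z ^ 2 * f π s) = SA μ θ z f := by
  unfold SA
  refine Finset.sum_congr rfl fun π _ => Finset.sum_congr rfl fun s _ => ?_
  split_ifs with h
  · rfl
  · simp only [jj_sq, if_neg h]; ring

theorem SB_mul_jj_sq (μ : Equiv.Perm X → ℝ) (θ : X → ℝ) (z : X)
    (f : Equiv.Perm X → (X → Fin 2) → ℝ) :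
    SB μ θ z (fun π s => jj π s z ^ 2 * f π s) = 0 := by
  unfold SB
  refine Finset.sum_eq_zero fun π _ => Finset.sum_eq_zero fun s _ => ?_
  split_ifs with h
  · simp only [jj_eq_zero h]; ring
  · rfl

theorem SS_mul_jj_sq (μ : Equiv.Perm X → ℝ) (θ : X → ℝ) (z : X)
    (f : Equiv.Perm X → (X → Fin 2) → ℝ) :
    SS μ θ (fun π s => jj π s z ^ 2 * f π s) = θ z * SA μ θ z f := by
  rw [SS_split μ θ z, SB_mul_jj_sq, SA_mul_jj_sq, zero_add]

theorem SS_mul_jj (μ : Equiv.Perm X → ℝ) (θ : X → ℝ) (z : X)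
    (f : Equiv.Perm X → (X → Fin 2) → ℝ) :
    SS μ θ (fun π s => jj π s z * f π s) = θ z * SA μ θ z (fun π s => jj π s z * f π s) := by
  rw [SS_split μ θ z, SB_mul_jj, zero_add]

/-- `v_z = θ_z A / Z`. -/
theorem vv_eq (μ : Equiv.Perm X → ℝ) (θ : X → ℝ) (z : X) :
    vv μ θ z = θ z * SA μ θ z one' / SS μ θ one' := by
  rw [vv, EE_eq]
  congr 1
  have := SS_mul_jj_sq μ θ z one'
  simpa [one'] using this

/-- `v_z = θ_z M_z / (1 + θ_z M_z)`. -/
theorem vv_eq_mag {μ : Equiv.Perm X → ℝ} (h : IsLaw μ) {θ : X → ℝ} (hθ : ∀ x, 0 ≤ θ x) (z : X) :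
    vv μ θ z = θ z * mag μ θ z / (1 + θ z * mag μ θ z) := by
  have hB : 0 < SB μ θ z one' := lt_of_lt_of_le one_pos (SB_pos h.nonneg h.sum hθ z)
  have hA : 0 ≤ SA μ θ z one' := SA_nonneg h.nonneg hθ z fun _ _ => zero_le_one
  have hZ : 0 < SB μ θ z one' + θ z * SA μ θ z one' := by
    have := mul_nonneg (hθ z) hA; linarith
  rw [vv_eq, SS_split μ θ z, mag_eq]
  have h1 : 1 + θ z * (SA μ θ z one' / SB μ θ z one') =
      (SB μ θ z one' + θ z * SA μ θ z one') / SB μ θ z one' := by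
    field_simp
  rw [h1]
  field_simp

theorem mag_nonneg {μ : Equiv.Perm X → ℝ} (h : IsLaw μ) {θ : X → ℝ} (hθ : ∀ x, 0 ≤ θ x) (z : X) :
    0 ≤ mag μ θ z := by
  rw [mag_eq]
  exact div_nonneg (SA_nonneg h.nonneg hθ z fun _ _ => zero_le_one)
    (le_trans zero_le_one (SB_pos h.nonneg h.sum hθ z))

theorem vv_nonneg {μ : Equiv.Perm X → ℝ} (h : IsLaw μ) {θ : X → ℝ} (hθ : ∀ x, 0 ≤ θ x) (z : X) :
    0 ≤ vv μ θ z := by
  rw [vv_eq_mag h hθ]
  have h1 := mul_nonneg (hθ z) (mag_nonneg h hθ z)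
  exact div_nonneg h1 (by linarith)

theorem vv_le_mul_mag {μ : Equiv.Perm X → ℝ} (h : IsLaw μ) {θ : X → ℝ} (hθ : ∀ x, 0 ≤ θ x)
    (z : X) : vv μ θ z ≤ θ z * mag μ θ z := by
  rw [vv_eq_mag h hθ]
  have h1 := mul_nonneg (hθ z) (mag_nonneg h hθ z)
  exact div_le_self h1 (by linarith)

theorem mag_update (μ : Equiv.Perm X → ℝ) (θ : X → ℝ) (z : X) (t : ℝ) :
    mag μ (Function.update θ z t) z = mag μ θ z := by
  rw [mag_eq, mag_eq, SA_update, SB_update]

/-! ### The quadratic form -/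

/-- With weight `g`: `E (a·j)² g = (1/2) ∑ ∑ (- E j_u j_v g) (a_u - a_v)²`. -/
theorem SS_quad (μ : Equiv.Perm X → ℝ) (θ : X → ℝ) (g : Equiv.Perm X → (X → Fin 2) → ℝ)
    (a : X → ℝ) :
    SS μ θ (fun π s => (∑ x, a x * jj π s x) ^ 2 * g π s) =
      (1 / 2) * ∑ u, ∑ v, (- SS μ θ (fun π s => jj π s u * jj π s v * g π s)) *
        (a u - a v) ^ 2 := by
  have hpt : ∀ (π : Equiv.Perm X) (s : X → Fin 2), (∑ x, a x * jj π s x) ^ 2 * g π s =
      ∑ u, ∑ v, (-(1 / 2) * (a u - a v) ^ 2) * (jj π s u * jj π s v * g π s) := by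
    intro π s
    have h0 := sum_jj π s
    have e1 : ∑ u, ∑ v, (-(1 / 2) * (a u - a v) ^ 2) * (jj π s u * jj π s v * g π s) =
        g π s * ((∑ u, a u * jj π s u) * (∑ v, a v * jj π s v)
          - (1 / 2) * ((∑ u, a u ^ 2 * jj π s u) * (∑ v, jj π s v))
          - (1 / 2) * ((∑ u, jj π s u) * (∑ v, a v ^ 2 * jj π s v))) := by
      rw [Finset.sum_mul_sum, Finset.sum_mul_sum, Finset.sum_mul_sum]
      simp only [Finset.mul_sum, ← Finset.sum_sub_distrib]
      refine Finset.sum_congr rfl fun u _ => Finset.sum_congr rfl fun v _ => ?_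
      ring
    rw [e1, h0]; ring
  have h2 : (fun (π : Equiv.Perm X) (s : X → Fin 2) => (∑ x, a x * jj π s x) ^ 2 * g π s) =
      fun π s => ∑ u, ∑ v, (-(1 / 2) * (a u - a v) ^ 2) * (jj π s u * jj π s v * g π s) := by
    funext π s; exact hpt π s
  rw [h2, SS_sum, Finset.mul_sum]
  refine Finset.sum_congr rfl fun u _ => ?_
  rw [SS_sum, Finset.mul_sum]
  refine Finset.sum_congr rfl fun v _ => ?_
  rw [SS_mul]; ring

/-- `K(a) = (1/2) ∑ ∑ c_uv (a_u - a_v)²`. -/
theorem KK_eq_sum (μ : Equiv.Perm X → ℝ) (θ : X → ℝ) (a : X → ℝ) :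
    KK μ θ a = (1 / 2) * ∑ u, ∑ v, cc μ θ u v * (a u - a v) ^ 2 := by
  have h := SS_quad μ θ one' a
  simp only [one', mul_one] at h
  have h' : (1 : Equiv.Perm X → (X → Fin 2) → ℝ) = one' := rfl
  rw [KK, EE_eq, h, mul_div_assoc]
  congr 1
  rw [Finset.sum_div]
  refine Finset.sum_congr rfl fun u _ => ?_
  rw [Finset.sum_div]
  refine Finset.sum_congr rfl fun v _ => ?_
  rw [cc, EE_eq, neg_mul, neg_div, mul_div_right_comm, neg_mul]

theorem cc_symm (μ : Equiv.Perm X → ℝ) (θ : X → ℝ) (u v : X) : cc μ θ u v = cc μ θ v u := by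
  unfold cc
  congr 2
  funext π s
  ring

theorem cc_self (μ : Equiv.Perm X → ℝ) (θ : X → ℝ) (u : X) : cc μ θ u u = - vv μ θ u := by
  unfold cc vv
  congr 2
  funext π s
  ring

theorem sum_cc (μ : Equiv.Perm X → ℝ) (θ : X → ℝ) (u : X) : ∑ v, cc μ θ u v = 0 := by
  have h : ∑ v, SS μ θ (fun π s => jj π s u * jj π s v) = 0 := by
    rw [← SS_sum]
    have : (fun (π : Equiv.Perm X) (s : X → Fin 2) => ∑ i, jj π s u * jj π s i) =
        fun _ _ => 0 := by
      funext π s
      rw [← Finset.mul_sum, sum_jj, mul_zero]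
    rw [this]
    simp [SS]
  unfold cc
  simp only [EE_eq]
  rw [Finset.sum_neg_distrib, ← Finset.sum_div, h, zero_div, neg_zero]

/-- `v_z = ∑_{x ≠ z} c_zx`. -/
theorem vv_eq_sum_cc (μ : Equiv.Perm X → ℝ) (θ : X → ℝ) (z : X) :
    vv μ θ z = ∑ x ∈ univ.erase z, cc μ θ z x := by
  have h1 := sum_cc μ θ z
  rw [← Finset.add_sum_erase _ _ (Finset.mem_univ z), cc_self] at h1
  linarith

theorem KK_nonneg {μ : Equiv.Perm X → ℝ} (hμ : ∀ π, 0 ≤ μ π) {θ : X → ℝ} (hθ : ∀ x, 0 ≤ θ x)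
    (a : X → ℝ) : 0 ≤ KK μ θ a := by
  rw [KK, EE_eq]
  exact div_nonneg (SS_nonneg hμ hθ fun _ _ => sq_nonneg _)
    (SS_nonneg hμ hθ fun _ _ => zero_le_one)

end

end Vale.Agent.P361.LRO
end

section

/-!
Elementary toolbox for Part A of `Defs.lean` (charge networks).
-/

namespace Vale.Agent.P361.LRO

open Finset Matrix

set_option linter.unusedSectionVars false

section BaseA

variable {X : Type} [Fintype X] [DecidableEq X]

/-! ### The law of the permutation -/

theorem IsLaw.sum_eq {μ : Equiv.Perm X → ℝ} (h : IsLaw μ) : ∑ π, μ π = 1 := by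
  obtain ⟨l, σ, hl, rfl⟩ := h
  exact law_sum l σ

/-! ### Weights and charges -/

theorem fin2_cast (a : Fin 2) : ((a : ℕ) : ℝ) = 0 ∨ ((a : ℕ) : ℝ) = 1 := by
  fin_cases a <;> simp

theorem fin2_cast_inj {a b : Fin 2} : ((a : ℕ) : ℝ) = ((b : ℕ) : ℝ) ↔ a = b := by
  constructor
  · intro h; exact Fin.ext (by exact_mod_cast h)
  · rintro rfl; rfl

theorem jj_eq_zero_iff (π : Equiv.Perm X) (s : X → Fin 2) (x : X) :
    jj π s x = 0 ↔ s x = s (π x) := by
  unfold jj
  rw [sub_eq_zero, fin2_cast_inj]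

theorem abs_jj_le (π : Equiv.Perm X) (s : X → Fin 2) (x : X) : |jj π s x| ≤ 1 := by
  unfold jj
  rcases fin2_cast (s x) with h2 | h2 <;> rcases fin2_cast (s (π x)) with h3 | h3 <;>
    rw [h2, h3] <;> norm_num

theorem ZZ_ge_two {μ : Equiv.Perm X → ℝ} (hμ : ∀ π, 0 ≤ μ π) (hs : ∑ π, μ π = 1) {θ : X → ℝ}
    (hθ : ∀ x, 0 ≤ θ x) : 1 ≤ ZZ μ θ := by
  unfold ZZ
  rw [← hs]
  apply Finset.sum_le_sum
  intro π _
  rw [← Finset.mul_sum]
  have h : (1 : ℝ) ≤ ∑ s, wt θ π s := by
    calc (1 : ℝ) = wt θ π (fun _ => 0) := (wt_const θ π 0).symm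
      _ ≤ ∑ s, wt θ π s := Finset.single_le_sum (f := fun s => wt θ π s)
          (fun s _ => wt_nonneg hθ π s) (Finset.mem_univ _)
  nlinarith [hμ π]

/-! ### Linearity of the expectation -/

theorem EE_congr {μ : Equiv.Perm X → ℝ} {θ : X → ℝ} {f g : Equiv.Perm X → (X → Fin 2) → ℝ}
    (h : ∀ π s, f π s = g π s) : EE μ θ f = EE μ θ g := by
  have : f = g := funext fun π => funext fun s => h π s
  rw [this]

theorem EE_add (μ : Equiv.Perm X → ℝ) (θ : X → ℝ) (f g : Equiv.Perm X → (X → Fin 2) → ℝ) :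
    EE μ θ (fun π s => f π s + g π s) = EE μ θ f + EE μ θ g := by
  unfold EE
  rw [← add_div, ← Finset.sum_add_distrib]
  congr 1
  refine Finset.sum_congr rfl fun π _ => ?_
  rw [← Finset.sum_add_distrib]
  exact Finset.sum_congr rfl fun s _ => by ring

theorem EE_mul_left (μ : Equiv.Perm X → ℝ) (θ : X → ℝ) (c : ℝ)
    (f : Equiv.Perm X → (X → Fin 2) → ℝ) :
    EE μ θ (fun π s => c * f π s) = c * EE μ θ f := by
  unfold EE
  rw [← mul_div_assoc, Finset.mul_sum]
  congr 1
  refine Finset.sum_congr rfl fun π _ => ?_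
  rw [Finset.mul_sum]
  exact Finset.sum_congr rfl fun s _ => by ring

theorem EE_neg (μ : Equiv.Perm X → ℝ) (θ : X → ℝ) (f : Equiv.Perm X → (X → Fin 2) → ℝ) :
    EE μ θ (fun π s => - f π s) = - EE μ θ f := by
  have h := EE_mul_left μ θ (-1) f
  simpa using h

theorem EE_sub (μ : Equiv.Perm X → ℝ) (θ : X → ℝ) (f g : Equiv.Perm X → (X → Fin 2) → ℝ) :
    EE μ θ (fun π s => f π s - g π s) = EE μ θ f - EE μ θ g := by
  have h := EE_add μ θ f (fun π s => - g π s)
  rw [EE_neg] at h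
  simpa [sub_eq_add_neg] using h

theorem EE_sum {ι : Type*} (μ : Equiv.Perm X → ℝ) (θ : X → ℝ) (S : Finset ι)
    (f : ι → Equiv.Perm X → (X → Fin 2) → ℝ) :
    EE μ θ (fun π s => ∑ i ∈ S, f i π s) = ∑ i ∈ S, EE μ θ (f i) := by
  classical
  induction S using Finset.induction_on with
  | empty => simp [EE]
  | insert i S hi ih =>
    rw [Finset.sum_insert hi, ← ih, ← EE_add]
    exact EE_congr fun π s => by rw [Finset.sum_insert hi]

theorem EE_nonneg {μ : Equiv.Perm X → ℝ} (hμ : ∀ π, 0 ≤ μ π) {θ : X → ℝ} (hθ : ∀ x, 0 ≤ θ x)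
    {f : Equiv.Perm X → (X → Fin 2) → ℝ} (hf : ∀ π s, 0 ≤ f π s) : 0 ≤ EE μ θ f := by
  unfold EE ZZ
  apply div_nonneg
  · exact Finset.sum_nonneg fun π _ => Finset.sum_nonneg fun s _ =>
      mul_nonneg (mul_nonneg (hμ π) (wt_nonneg hθ π s)) (hf π s)
  · exact Finset.sum_nonneg fun π _ => Finset.sum_nonneg fun s _ =>
      mul_nonneg (hμ π) (wt_nonneg hθ π s)

theorem EE_mono {μ : Equiv.Perm X → ℝ} (hμ : ∀ π, 0 ≤ μ π) {θ : X → ℝ} (hθ : ∀ x, 0 ≤ θ x)
    {f g : Equiv.Perm X → (X → Fin 2) → ℝ} (hfg : ∀ π s, f π s ≤ g π s) :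
    EE μ θ f ≤ EE μ θ g := by
  have h := EE_nonneg (f := fun π s => g π s - f π s) hμ hθ (fun π s => sub_nonneg.2 (hfg π s))
  rw [EE_sub] at h
  linarith

theorem EE_const {μ : Equiv.Perm X → ℝ} {θ : X → ℝ} (hZ : ZZ μ θ ≠ 0) (c : ℝ) :
    EE μ θ (fun _ _ => c) = c := by
  unfold EE
  rw [div_eq_iff hZ]
  unfold ZZ
  rw [Finset.mul_sum]
  refine Finset.sum_congr rfl fun π _ => ?_
  rw [Finset.mul_sum]
  exact Finset.sum_congr rfl fun s _ => by ring

/-! ### Flip symmetry -/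

/-- The global flip of the configuration. -/
def flipC : (X → Fin 2) ≃ (X → Fin 2) := Equiv.piCongrRight fun _ => Equiv.subLeft (1 : Fin 2)

theorem flipC_apply (s : X → Fin 2) (x : X) : flipC s x = 1 - s x := rfl

theorem fin2_one_sub (a : Fin 2) : (((1 - a : Fin 2) : ℕ) : ℝ) = 1 - ((a : ℕ) : ℝ) := by
  fin_cases a <;> simp

theorem jj_flip (π : Equiv.Perm X) (s : X → Fin 2) (x : X) :
    jj π (flipC s) x = - jj π s x := by
  unfold jj
  rw [flipC_apply, flipC_apply, fin2_one_sub, fin2_one_sub]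
  ring

theorem wt_flip (θ : X → ℝ) (π : Equiv.Perm X) (s : X → Fin 2) :
    wt θ π (flipC s) = wt θ π s := by
  unfold wt
  refine Finset.prod_congr rfl fun x _ => ?_
  have : (flipC s x = flipC s (π x)) ↔ (s x = s (π x)) := by
    rw [flipC_apply, flipC_apply]; exact sub_right_inj
  simp only [this]

theorem EE_flip (μ : Equiv.Perm X → ℝ) (θ : X → ℝ) (f : Equiv.Perm X → (X → Fin 2) → ℝ) :
    EE μ θ (fun π s => f π (flipC s)) = EE μ θ f := by
  unfold EE
  congr 1
  refine Finset.sum_congr rfl fun π _ => ?_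
  refine Fintype.sum_equiv flipC _ _ fun s => ?_
  rw [wt_flip]

theorem EE_odd {μ : Equiv.Perm X → ℝ} {θ : X → ℝ} {f : Equiv.Perm X → (X → Fin 2) → ℝ}
    (h : ∀ π s, f π (flipC s) = - f π s) : EE μ θ f = 0 := by
  have h1 := EE_flip μ θ f
  rw [EE_congr h, EE_neg] at h1
  linarith

theorem EE_jj (μ : Equiv.Perm X → ℝ) (θ : X → ℝ) (x : X) :
    EE μ θ (fun π s => jj π s x) = 0 :=
  EE_odd fun π s => jj_flip π s x

theorem EE_lin (μ : Equiv.Perm X → ℝ) (θ : X → ℝ) (a : X → ℝ) :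
    EE μ θ (fun π s => ∑ x, a x * jj π s x) = 0 :=
  EE_odd fun π s => by
    rw [← Finset.sum_neg_distrib]
    exact Finset.sum_congr rfl fun x _ => by rw [jj_flip]; ring

/-! ### The quadratic form `KK` -/

theorem KK_expand (μ : Equiv.Perm X → ℝ) (θ : X → ℝ) (a : X → ℝ) :
    KK μ θ a = ∑ u, ∑ v, a u * a v * EE μ θ (fun π s => jj π s u * jj π s v) := by
  unfold KK
  rw [EE_congr (g := fun π s => ∑ u, ∑ v, (a u * a v) * (jj π s u * jj π s v))
    (fun π s => by
      rw [sq, Finset.sum_mul_sum]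
      exact Finset.sum_congr rfl fun u _ => Finset.sum_congr rfl fun v _ => by ring)]
  rw [EE_sum]
  refine Finset.sum_congr rfl fun u _ => ?_
  rw [EE_sum]
  exact Finset.sum_congr rfl fun v _ => EE_mul_left _ _ _ _

theorem KK_add_const (μ : Equiv.Perm X → ℝ) (θ : X → ℝ) (a : X → ℝ) (c : ℝ) :
    KK μ θ (fun x => a x + c) = KK μ θ a := by
  unfold KK
  refine EE_congr fun π s => ?_
  congr 1
  have : ∑ x, (a x + c) * jj π s x = ∑ x, a x * jj π s x + c * ∑ x, jj π s x := by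
    rw [Finset.mul_sum, ← Finset.sum_add_distrib]
    exact Finset.sum_congr rfl fun x _ => by ring
  rw [this, sum_jj]; ring

theorem KK_smul (μ : Equiv.Perm X → ℝ) (θ : X → ℝ) (c : ℝ) (a : X → ℝ) :
    KK μ θ (fun x => c * a x) = c ^ 2 * KK μ θ a := by
  unfold KK
  rw [← EE_mul_left]
  refine EE_congr fun π s => ?_
  have : ∑ x, c * a x * jj π s x = c * ∑ x, a x * jj π s x := by
    rw [Finset.mul_sum]; exact Finset.sum_congr rfl fun x _ => by ring
  rw [this]; ring

theorem cc_comm (μ : Equiv.Perm X → ℝ) (θ : X → ℝ) (u v : X) : cc μ θ u v = cc μ θ v u := by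
  unfold cc
  rw [EE_congr (fun π s => mul_comm (jj π s u) (jj π s v))]

theorem sum_cc_right (μ : Equiv.Perm X → ℝ) (θ : X → ℝ) (u : X) : ∑ v, cc μ θ u v = 0 := by
  unfold cc
  rw [Finset.sum_neg_distrib, ← EE_sum, neg_eq_zero]
  rw [EE_congr (g := fun _ _ => 0 * (0 : ℝ)) (fun π s => by
    rw [← Finset.mul_sum, sum_jj]; ring)]
  rw [EE_mul_left]; ring

/-- `K(a) = (1/2) ∑_{u,v} c_uv (a_u - a_v)²`. -/
theorem KK_eq (μ : Equiv.Perm X → ℝ) (θ : X → ℝ) (a : X → ℝ) :
    KK μ θ a = (1 / 2) * ∑ u, ∑ v, cc μ θ u v * (a u - a v) ^ 2 := by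
  have h1 : ∑ u, ∑ v, cc μ θ u v * a u ^ 2 = 0 := by
    refine Finset.sum_eq_zero fun u _ => ?_
    rw [← Finset.sum_mul, sum_cc_right, zero_mul]
  have h2 : ∑ u, ∑ v, cc μ θ u v * a v ^ 2 = 0 := by
    rw [Finset.sum_comm]
    refine Finset.sum_eq_zero fun v _ => ?_
    rw [← Finset.sum_mul, Finset.sum_congr rfl fun u _ => cc_comm μ θ u v, sum_cc_right, zero_mul]
  have h3 : ∑ u, ∑ v, cc μ θ u v * (a u - a v) ^ 2
      = ∑ u, ∑ v, cc μ θ u v * a u ^ 2 + ∑ u, ∑ v, cc μ θ u v * a v ^ 2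
        + 2 * ∑ u, ∑ v, a u * a v * EE μ θ (fun π s => jj π s u * jj π s v) := by
    rw [Finset.mul_sum, ← Finset.sum_add_distrib, ← Finset.sum_add_distrib]
    refine Finset.sum_congr rfl fun u _ => ?_
    rw [Finset.mul_sum, ← Finset.sum_add_distrib, ← Finset.sum_add_distrib]
    refine Finset.sum_congr rfl fun v _ => ?_
    unfold cc
    ring
  rw [KK_expand, h3, h1, h2]
  ring

end BaseA

end Vale.Agent.P361.LRO
end

section

/-!
Block (1) of the low temperature order proof (P361): binomial sums over the subsets of the block.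
-/

namespace Vale.Agent.P361.LRO.Tw

open Finset

set_option linter.unusedSectionVars false

variable {V : Type} [DecidableEq V]

theorem sum_pow_card (b : Finset V) (g : ℕ → ℝ) :
    ∑ A ∈ b.powerset, g A.card = ∑ k ∈ range (b.card + 1), (b.card.choose k : ℝ) * g k := by
  rw [Finset.sum_powerset_apply_card]
  refine Finset.sum_congr rfl fun k _ => ?_
  rw [nsmul_eq_mul]

/-- `∑_k C(n,k) x^k y^{n-k} / (k+1)` -/
theorem bin_one (x y : ℝ) (n : ℕ) :
    ((n : ℝ) + 1) * x * ∑ k ∈ range (n + 1), (n.choose k : ℝ) * (x ^ k * y ^ (n - k) * ((k : ℝ) + 1)⁻¹)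
      = (x + y) ^ (n + 1) - y ^ (n + 1) := by
  have hexp : (x + y) ^ (n + 1) = ∑ k ∈ range (n + 1),
      x ^ (k + 1) * y ^ (n + 1 - (k + 1)) * ((n + 1).choose (k + 1) : ℝ) + y ^ (n + 1) := by
    rw [add_pow, Finset.sum_range_succ']; simp
  rw [hexp, add_sub_cancel_right, Finset.mul_sum]
  refine Finset.sum_congr rfl fun k hk => ?_
  have h := Nat.add_one_mul_choose_eq n k
  have h' : ((n : ℝ) + 1) * (n.choose k : ℝ) = ((n + 1).choose (k + 1) : ℝ) * ((k : ℝ) + 1) := by
    exact_mod_cast h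
  have hk1 : ((k : ℝ) + 1) ≠ 0 := by positivity
  have e : n + 1 - (k + 1) = n - k := by omega
  rw [e]
  calc ((n : ℝ) + 1) * x * ((n.choose k : ℝ) * (x ^ k * y ^ (n - k) * ((k : ℝ) + 1)⁻¹))
      = (((n : ℝ) + 1) * (n.choose k : ℝ)) * (x ^ (k + 1) * y ^ (n - k) * ((k : ℝ) + 1)⁻¹) := by
        ring
    _ = ((n + 1).choose (k + 1) : ℝ) * ((k : ℝ) + 1)
          * (x ^ (k + 1) * y ^ (n - k) * ((k : ℝ) + 1)⁻¹) := by rw [h']
    _ = x ^ (k + 1) * y ^ (n - k) * ((n + 1).choose (k + 1) : ℝ) := by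
        field_simp

theorem bin_two (x y : ℝ) (n : ℕ) :
    ((n : ℝ) + 1) * ((n : ℝ) + 2) * x ^ 2 * ∑ k ∈ range (n + 1),
      (n.choose k : ℝ) * (x ^ k * y ^ (n - k) * (((k : ℝ) + 1) * ((k : ℝ) + 2))⁻¹)
      = (x + y) ^ (n + 2) - y ^ (n + 2) - ((n : ℝ) + 2) * x * y ^ (n + 1) := by
  have hexp : (x + y) ^ (n + 2) = ∑ k ∈ range (n + 1),
      x ^ (k + 1 + 1) * y ^ (n + 2 - (k + 1 + 1)) * ((n + 2).choose (k + 1 + 1) : ℝ)
      + x * y ^ (n + 1) * ((n + 2 : ℕ) : ℝ) + y ^ (n + 2) := by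
    rw [add_pow, Finset.sum_range_succ', Finset.sum_range_succ']; simp
  rw [hexp]
  have e1 : ∀ S : ℝ, S + x * y ^ (n + 1) * ((n + 2 : ℕ) : ℝ) + y ^ (n + 2) - y ^ (n + 2)
      - ((n : ℝ) + 2) * x * y ^ (n + 1) = S := by
    intro S; push_cast; ring
  rw [e1, Finset.mul_sum]
  refine Finset.sum_congr rfl fun k hk => ?_
  have h := Nat.add_one_mul_choose_eq n k
  have h' : ((n : ℝ) + 1) * (n.choose k : ℝ) = ((n + 1).choose (k + 1) : ℝ) * ((k : ℝ) + 1) := by
    exact_mod_cast h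
  have g := Nat.add_one_mul_choose_eq (n + 1) (k + 1)
  have g' : ((n : ℝ) + 2) * ((n + 1).choose (k + 1) : ℝ)
      = ((n + 2).choose (k + 2) : ℝ) * ((k : ℝ) + 2) := by
    have : (((n + 1 : ℕ) : ℝ) + 1) * ((n + 1).choose (k + 1) : ℝ)
      = ((n + 2).choose (k + 2) : ℝ) * (((k + 1 : ℕ) : ℝ) + 1) := by exact_mod_cast g
    push_cast at this
    linarith
  have hk1 : ((k : ℝ) + 1) ≠ 0 := by positivity
  have hk2 : ((k : ℝ) + 2) ≠ 0 := by positivity
  have e : n + 2 - (k + 1 + 1) = n - k := by omega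
  rw [e]
  calc ((n : ℝ) + 1) * ((n : ℝ) + 2) * x ^ 2 *
        ((n.choose k : ℝ) * (x ^ k * y ^ (n - k) * (((k : ℝ) + 1) * ((k : ℝ) + 2))⁻¹))
      = ((n : ℝ) + 2) * (((n : ℝ) + 1) * (n.choose k : ℝ)) *
          (x ^ (k + 2) * y ^ (n - k) * (((k : ℝ) + 1) * ((k : ℝ) + 2))⁻¹) := by ring
    _ = (((n : ℝ) + 2) * ((n + 1).choose (k + 1) : ℝ)) * ((k : ℝ) + 1) *
          (x ^ (k + 2) * y ^ (n - k) * (((k : ℝ) + 1) * ((k : ℝ) + 2))⁻¹) := by rw [h']; ring
    _ = ((n + 2).choose (k + 2) : ℝ) * ((k : ℝ) + 2) * ((k : ℝ) + 1) *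
          (x ^ (k + 2) * y ^ (n - k) * (((k : ℝ) + 1) * ((k : ℝ) + 2))⁻¹) := by rw [g']
    _ = x ^ (k + 1 + 1) * y ^ (n - k) * ((n + 2).choose (k + 1 + 1) : ℝ) := by
        field_simp

/-- Upper bound for the first sum. -/
theorem sum_one_le {x y : ℝ} (hx : 0 < x) (hy : 0 ≤ y) (b : Finset V) :
    ∑ A ∈ b.powerset, x ^ A.card * y ^ (b.card - A.card) * ((A.card : ℝ) + 1)⁻¹
      ≤ (x + y) ^ (b.card + 1) / (((b.card : ℝ) + 1) * x) := by
  have h := sum_pow_card b (fun k => x ^ k * y ^ (b.card - k) * ((k : ℝ) + 1)⁻¹)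
  rw [h, le_div_iff₀ (by positivity), mul_comm, bin_one]
  have := pow_nonneg hy (b.card + 1)
  linarith

/-- Lower bound for the second sum. -/
theorem le_sum_two {x y : ℝ} (hx : 0 < x) (hy : 0 ≤ y) (b : Finset V)
    (h6 : 6 * (x + y) ≤ (b.card : ℝ) * x) :
    (2 / 3) * ((x + y) ^ (b.card + 1) / (((b.card : ℝ) + 1) * x)) ≤
      ∑ A ∈ b.powerset, x ^ A.card * y ^ (b.card - A.card) *
        (((A.card : ℝ) + 1) * ((A.card : ℝ) + 2))⁻¹ * (A.card : ℝ) := by
  have h := sum_pow_card b (fun k => x ^ k * y ^ (b.card - k) *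
        (((k : ℝ) + 1) * ((k : ℝ) + 2))⁻¹ * (k : ℝ))
  rw [h]
  have hsplit : ∑ k ∈ range (b.card + 1), (b.card.choose k : ℝ) * (x ^ k * y ^ (b.card - k) *
        (((k : ℝ) + 1) * ((k : ℝ) + 2))⁻¹ * (k : ℝ))
      = ∑ k ∈ range (b.card + 1), (b.card.choose k : ℝ) * (x ^ k * y ^ (b.card - k) * ((k : ℝ) + 1)⁻¹)
        - 2 * ∑ k ∈ range (b.card + 1),
          (b.card.choose k : ℝ) * (x ^ k * y ^ (b.card - k) * (((k : ℝ) + 1) * ((k : ℝ) + 2))⁻¹) := by
    rw [Finset.mul_sum, ← Finset.sum_sub_distrib]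
    refine Finset.sum_congr rfl fun k _ => ?_
    have hk1 : ((k : ℝ) + 1) ≠ 0 := by positivity
    have hk2 : ((k : ℝ) + 2) ≠ 0 := by positivity
    field_simp
    ring
  rw [hsplit]
  set F1 := ∑ k ∈ range (b.card + 1),
    (b.card.choose k : ℝ) * (x ^ k * y ^ (b.card - k) * ((k : ℝ) + 1)⁻¹) with hF1
  set F2 := ∑ k ∈ range (b.card + 1),
    (b.card.choose k : ℝ) * (x ^ k * y ^ (b.card - k) * (((k : ℝ) + 1) * ((k : ℝ) + 2))⁻¹) with hF2
  have h1 := bin_one x y b.card
  have h2 := bin_two x y b.card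
  rw [← hF1] at h1
  rw [← hF2] at h2
  set n : ℝ := (b.card : ℝ) with hn
  have hn0 : 0 ≤ n := by positivity
  set W := (x + y) ^ (b.card + 1) with hW
  set Y := y ^ (b.card + 1) with hY
  have hW2 : (x + y) ^ (b.card + 2) = (x + y) * W := by rw [hW]; ring
  have hY2 : y ^ (b.card + 2) = y * Y := by rw [hY]; ring
  rw [hW2, hY2] at h2
  have hWY : 0 ≤ Y := by rw [hY]; positivity
  have hWpos : 0 ≤ W := by rw [hW]; positivity
  have hF1' : F1 = (W - Y) / ((n + 1) * x) := by
    rw [eq_div_iff (by positivity)]; linarith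
  have hF2' : F2 = ((x + y) * W - y * Y - (n + 2) * x * Y) / ((n + 1) * (n + 2) * x ^ 2) := by
    rw [eq_div_iff (by positivity)]; linarith
  have key : (n + 1) * (n + 2) * x ^ 2 * (F1 - 2 * F2)
      = (n + 2) * x * (W - Y) - 2 * ((x + y) * W - y * Y - (n + 2) * x * Y) := by
    rw [hF1', hF2']
    field_simp
  have goal' : (n + 1) * (n + 2) * x ^ 2 * ((2 / 3) * (W / ((n + 1) * x)))
      ≤ (n + 1) * (n + 2) * x ^ 2 * (F1 - 2 * F2) := by
    rw [key]
    have e : (n + 1) * (n + 2) * x ^ 2 * ((2 / 3) * (W / ((n + 1) * x)))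
        = (2 / 3) * ((n + 2) * x * W) := by field_simp
    rw [e]
    have p1 : 2 * (x + y) * W ≤ (1 / 3) * ((n + 2) * x * W) := by
      have : 2 * (x + y) ≤ (1 / 3) * ((n + 2) * x) := by nlinarith
      nlinarith
    have p2 : 0 ≤ (n + 2) * x * Y := by positivity
    have p3 : 0 ≤ y * Y := by positivity
    nlinarith
  exact le_of_mul_le_mul_left goal' (by positivity)

/-- The weights of the subsets containing `x` and `y`. -/
theorem sum_pair {X Y : ℝ} (b : Finset V) {x y : V} (hx : x ∈ b) (hy : y ∈ b) (hxy : x ≠ y) :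
    ∑ A ∈ b.powerset, (if x ∈ A ∧ y ∈ A then X ^ A.card * Y ^ (b.card - A.card) else 0)
      = X ^ 2 * (X + Y) ^ (b.card - 2) := by
  have h := Finset.prod_add (fun _ : V => X) (fun z => if z ≠ x ∧ z ≠ y then Y else 0) b
  have e1 : ∏ z ∈ b, (X + if z ≠ x ∧ z ≠ y then Y else 0) = X ^ 2 * (X + Y) ^ (b.card - 2) := by
    have hb : b = insert x (insert y ((b.erase x).erase y)) := by
      rw [Finset.insert_erase (Finset.mem_erase.2 ⟨hxy.symm, hy⟩), Finset.insert_erase hx]
    have hc : ((b.erase x).erase y).card = b.card - 2 := by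
      rw [Finset.card_erase_of_mem (Finset.mem_erase.2 ⟨hxy.symm, hy⟩),
        Finset.card_erase_of_mem hx]
      omega
    have hy' : y ∉ (b.erase x).erase y := Finset.notMem_erase y _
    have hx' : x ∉ insert y ((b.erase x).erase y) := by
      rw [Finset.insert_erase (Finset.mem_erase.2 ⟨hxy.symm, hy⟩)]
      exact Finset.notMem_erase x b
    have hprod : ∏ z ∈ (b.erase x).erase y, (X + if z ≠ x ∧ z ≠ y then Y else 0)
        = (X + Y) ^ (b.card - 2) := by
      rw [← hc, ← Finset.prod_const]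
      refine Finset.prod_congr rfl fun z hz => ?_
      have h1 : z ≠ y := (Finset.mem_erase.1 hz).1
      have h2 : z ≠ x := (Finset.mem_erase.1 (Finset.mem_erase.1 hz).2).1
      rw [if_pos ⟨h2, h1⟩]
    conv_lhs => rw [hb]
    rw [Finset.prod_insert hx', Finset.prod_insert hy', hprod]
    simp
    ring
  rw [e1] at h
  rw [h]
  refine Finset.sum_congr rfl fun A hA => ?_
  have hAb : A ⊆ b := Finset.mem_powerset.1 hA
  rw [Finset.prod_const, Finset.prod_ite_zero, Finset.prod_const,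
    Finset.card_sdiff_of_subset hAb]
  by_cases hm : x ∈ A ∧ y ∈ A
  · rw [if_pos hm, if_pos]
    intro z hz
    have hz' := (Finset.mem_sdiff.1 hz).2
    exact ⟨fun h' => hz' (h' ▸ hm.1), fun h' => hz' (h' ▸ hm.2)⟩
  · rw [if_neg hm, if_neg, mul_zero]
    intro h'
    apply hm
    constructor
    · by_contra hxA
      exact (h' x (Finset.mem_sdiff.2 ⟨hx, hxA⟩)).1 rfl
    · by_contra hyA
      exact (h' y (Finset.mem_sdiff.2 ⟨hy, hyA⟩)).2 rfl

/-- Sums of `f |A|` over the subsets containing `x` do not depend on `x`. -/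
theorem sum_mem_eq (b : Finset V) {x : V} (hx : x ∈ b) (f : ℕ → ℝ) :
    ∑ A ∈ b.powerset, (if x ∈ A then f A.card else 0)
      = ∑ k ∈ range b.card, ((b.card - 1).choose k : ℝ) * f (k + 1) := by
  have hb : b = insert x (b.erase x) := (Finset.insert_erase hx).symm
  have hxe : x ∉ b.erase x := Finset.notMem_erase x b
  have hpos : 0 < b.card := Finset.card_pos.2 ⟨x, hx⟩
  conv_lhs => rw [hb]
  rw [Finset.sum_powerset_insert hxe]
  have e1 : ∑ A ∈ (b.erase x).powerset, (if x ∈ A then f A.card else 0) = 0 := by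
    refine Finset.sum_eq_zero fun A hA => ?_
    rw [if_neg fun h => hxe (Finset.mem_powerset.1 hA h)]
  have e2 : ∑ A ∈ (b.erase x).powerset, (if x ∈ insert x A then f (insert x A).card else 0)
      = ∑ A ∈ (b.erase x).powerset, f (A.card + 1) := by
    refine Finset.sum_congr rfl fun A hA => ?_
    rw [if_pos (Finset.mem_insert_self x A), Finset.card_insert_of_notMem
      fun h => hxe (Finset.mem_powerset.1 hA h)]
  rw [e1, e2, zero_add]
  have h := sum_pow_card (b.erase x) (fun k => f (k + 1))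
  rw [h, Finset.card_erase_of_mem hx, Nat.sub_add_cancel hpos]

/-- `∑_A f |A| ∑_{x ∈ A} r_x = (avg r) ∑_A f |A| |A|`. -/
theorem sum_mem_avg (b : Finset V) (f : ℕ → ℝ) (r : V → ℝ) :
    (b.card : ℝ) * ∑ A ∈ b.powerset, f A.card * ∑ x ∈ A, r x
      = (∑ A ∈ b.powerset, f A.card * (A.card : ℝ)) * ∑ x ∈ b, r x := by
  set G := ∑ k ∈ range b.card, ((b.card - 1).choose k : ℝ) * f (k + 1) with hG
  have hgen : ∀ s : V → ℝ, ∑ A ∈ b.powerset, f A.card * ∑ x ∈ A, s x = G * ∑ x ∈ b, s x := by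
    intro s
    have h1 : ∑ A ∈ b.powerset, f A.card * ∑ x ∈ A, s x
        = ∑ A ∈ b.powerset, ∑ x ∈ b, s x * (if x ∈ A then f A.card else 0) := by
      refine Finset.sum_congr rfl fun A hA => ?_
      have hAb : A ⊆ b := Finset.mem_powerset.1 hA
      rw [Finset.mul_sum, ← Finset.sum_subset hAb]
      · refine Finset.sum_congr rfl fun x hx => ?_
        rw [if_pos hx, mul_comm]
      · intro x _ hx; rw [if_neg hx, mul_zero]
    rw [h1, Finset.sum_comm, Finset.mul_sum]
    refine Finset.sum_congr rfl fun x hx => ?_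
    rw [← Finset.mul_sum, sum_mem_eq b hx f, mul_comm]
  have h1 := hgen (fun _ => 1)
  simp only [Finset.sum_const, nsmul_eq_mul, mul_one] at h1
  rw [hgen r, h1]
  ring

end Vale.Agent.P361.LRO.Tw
end

section

/-!
# Closed hemisphere calculus (P361, block SR)

Pairs `u : Fin 2 → ℂ`; `Dc u`: `u ≠ 0` and `0 ≤ Re (u 0 * conj (u 1))` (closed hemisphere);
`Do u`: strict inequality.
* `pair_ne`: the pairing of an open and a closed point does not vanish;
* `gate_two`: the partial swap of a bilinear form which does not vanish on `Dc × Dc`;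
* `trace_ne`: its trace does not vanish;
* `node_open`: a node with `θ > 0`, `Re z > 0` maps closed to open.
-/

namespace Vale.Agent.P361.LRO.SR

open Complex

/-- closed hemisphere -/
def Dc (u : Fin 2 → ℂ) : Prop := u ≠ 0 ∧ 0 ≤ (u 0 * (starRingEnd ℂ) (u 1)).re

/-- open hemisphere -/
def Do (u : Fin 2 → ℂ) : Prop := 0 < (u 0 * (starRingEnd ℂ) (u 1)).re

theorem re_mul_conj (a b : ℂ) : (a * (starRingEnd ℂ) b).re = a.re * b.re + a.im * b.im := by
  simp [Complex.mul_re]

theorem Do.dc {u : Fin 2 → ℂ} (h : Do u) : Dc u := by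
  refine ⟨?_, h.le⟩
  rintro rfl
  simp [Do] at h

/-- pairing of a closed and an open point -/
theorem pair_ne {w u : Fin 2 → ℂ} (hw : Do w) (hu : Dc u) : w 0 * u 0 + w 1 * u 1 ≠ 0 := by
  intro h
  obtain ⟨h0, h1⟩ := hu
  have hw1 : w 1 ≠ 0 := by
    intro h2; rw [Do, h2] at hw; simp at hw
  have hw0 : w 0 ≠ 0 := by
    intro h2; rw [Do, h2] at hw; simp at hw
  have hu0 : u 0 ≠ 0 := by
    intro h2
    rw [h2, mul_zero, zero_add] at h
    have h3 : u 1 = 0 := (mul_eq_zero.1 h).resolve_left hw1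
    exact h0 (by funext i; fin_cases i <;> simp [h2, h3])
  have h4 : u 1 = - (w 0 * u 0) / w 1 := by
    field_simp
    linear_combination h
  have h5 : (u 0 * (starRingEnd ℂ) (u 1)) * (w 0 * (starRingEnd ℂ) (w 0)) * 0 = 0 := by ring
  have h6 : u 0 * (starRingEnd ℂ) (u 1) * (w 1 * (starRingEnd ℂ) (w 1)) =
      - (u 0 * (starRingEnd ℂ) (u 0)) * ((starRingEnd ℂ) (w 0) * w 1) := by
    rw [h4]
    have hc : (starRingEnd ℂ) (w 1) ≠ 0 := by simpa using hw1
    rw [map_div₀, map_neg, map_mul]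
    field_simp
  have h7 := congrArg Complex.re h6
  rw [Complex.mul_conj, Complex.mul_conj] at h7
  have h8 : (starRingEnd ℂ) (w 0) * w 1 = (starRingEnd ℂ) (w 0 * (starRingEnd ℂ) (w 1)) := by
    simp
  rw [h8] at h7
  simp only [Complex.re_mul_ofReal, neg_mul, Complex.neg_re, Complex.re_ofReal_mul,
    Complex.conj_re] at h7
  have h9 : 0 < normSq (u 0) := normSq_pos.2 hu0
  have h10 : 0 < normSq (w 1) := normSq_pos.2 hw1
  have h11 : 0 < normSq (u 0) * (w 0 * (starRingEnd ℂ) (w 1)).re := mul_pos h9 hw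
  have h12 : 0 ≤ (u 0 * (starRingEnd ℂ) (u 1)).re * normSq (w 1) := mul_nonneg h1 h10.le
  linarith

/-- the bilinear form of `C` -/
def bil (C : Fin 2 → Fin 2 → ℂ) (u w : Fin 2 → ℂ) : ℂ :=
  ∑ i, ∑ k, C i k * u i * w k

theorem bil_eq (C : Fin 2 → Fin 2 → ℂ) (u w : Fin 2 → ℂ) :
    bil C u w = (C 0 0 * u 0 + C 1 0 * u 1) * w 0 + (C 0 1 * u 0 + C 1 1 * u 1) * w 1 := by
  simp only [bil, Fin.sum_univ_two]
  ring

theorem open_of_bil {C : Fin 2 → Fin 2 → ℂ} {u : Fin 2 → ℂ}
    (h : ∀ w, Dc w → bil C u w ≠ 0) :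
    0 < ((C 0 0 * u 0 + C 1 0 * u 1) * (starRingEnd ℂ) (C 0 1 * u 0 + C 1 1 * u 1)).re := by
  set A := C 0 0 * u 0 + C 1 0 * u 1
  set B := C 0 1 * u 0 + C 1 1 * u 1
  by_contra hn
  rw [not_lt] at hn
  by_cases hAB : A = 0 ∧ B = 0
  · refine h ![1, 1] ⟨?_, by simp⟩ ?_
    · intro h0
      have := congrFun h0 0
      simp at this
    · rw [bil_eq]
      change A * _ + B * _ = 0
      rw [hAB.1, hAB.2]; ring
  · refine h ![B, -A] ⟨?_, ?_⟩ ?_
    · intro h0
      have e0 := congrFun h0 0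
      have e1 := congrFun h0 1
      simp at e0 e1
      exact hAB ⟨e1, e0⟩
    · rw [re_mul_conj] at hn ⊢
      simp only [Matrix.cons_val_zero, Matrix.cons_val_one, Complex.neg_re, Complex.neg_im]
      linarith
    · rw [bil_eq]
      change A * B + B * (-A) = 0
      ring

/-- **two-site gate lemma** -/
theorem gate_two {C : Fin 2 → Fin 2 → ℂ} (h : ∀ u w, Dc u → Dc w → bil C u w ≠ 0) {p : ℝ}
    (hp0 : 0 ≤ p) (hp1 : p ≤ 1) {u w : Fin 2 → ℂ} (hu : Dc u) (hw : Dc w) :
    (1 - p) * bil C u w + p * bil C w u ≠ 0 := by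
  have h0 := open_of_bil (C := C) (u := u) fun w hw => h u w hu hw
  have h1 := open_of_bil (C := fun i k => C k i) (u := u) fun w hw => by
    have e : bil (fun i k => C k i) u w = bil C w u := by
      rw [bil_eq, bil_eq]; ring
    rw [e]
    exact h w u hw hu
  have hopen : Do ![C 0 0 * u 0 + ((1 - p) * C 1 0 + p * C 0 1) * u 1,
      ((1 - p) * C 0 1 + p * C 1 0) * u 0 + C 1 1 * u 1] := by
    rw [Do]
    simp only [Matrix.cons_val_zero, Matrix.cons_val_one]
    have key : ((C 0 0 * u 0 + ((1 - p) * C 1 0 + p * C 0 1) * u 1) *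
        (starRingEnd ℂ) (((1 - p) * C 0 1 + p * C 1 0) * u 0 + C 1 1 * u 1)).re =
        (1 - p) * ((C 0 0 * u 0 + C 1 0 * u 1) *
          (starRingEnd ℂ) (C 0 1 * u 0 + C 1 1 * u 1)).re +
        p * ((C 0 0 * u 0 + C 0 1 * u 1) *
          (starRingEnd ℂ) (C 1 0 * u 0 + C 1 1 * u 1)).re +
        p * (1 - p) * normSq (C 1 0 - C 0 1) * (u 0 * (starRingEnd ℂ) (u 1)).re := by
      simp only [re_mul_conj]
      simp only [normSq_apply, Complex.add_re, Complex.add_im, Complex.mul_re,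
        Complex.mul_im, Complex.sub_re, Complex.sub_im, Complex.ofReal_re, Complex.ofReal_im,
        Complex.one_re, Complex.one_im]
      ring
    rw [key]
    have hp2 : 0 ≤ 1 - p := by linarith
    have t3 : 0 ≤ p * (1 - p) * normSq (C 1 0 - C 0 1) * (u 0 * (starRingEnd ℂ) (u 1)).re :=
      mul_nonneg (mul_nonneg (mul_nonneg hp0 hp2) (normSq_nonneg _)) hu.2
    rcases hp0.eq_or_lt with h2 | h2
    · rw [← h2] at t3 ⊢
      simp only [sub_zero, one_mul, zero_mul, add_zero]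
      exact h0
    · have t2 := mul_pos h2 h1
      have t1 : 0 ≤ (1 - p) * ((C 0 0 * u 0 + C 1 0 * u 1) *
          (starRingEnd ℂ) (C 0 1 * u 0 + C 1 1 * u 1)).re := mul_nonneg hp2 h0.le
      linarith
  have h2 := pair_ne hopen hw
  intro h3
  apply h2
  rw [bil_eq, bil_eq] at h3
  simp only [Matrix.cons_val_zero, Matrix.cons_val_one]
  linear_combination h3

theorem exists_root_re (c : ℂ) : ∃ t : ℂ, t ^ 2 = c ∧ 0 ≤ t.re := by
  obtain ⟨t, ht⟩ := IsAlgClosed.exists_pow_nat_eq c (n := 2) (by norm_num)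
  rcases le_total 0 t.re with h | h
  · exact ⟨t, ht, h⟩
  · exact ⟨-t, by rw [neg_sq, ht], by rw [Complex.neg_re]; linarith⟩

/-- **trace lemma** -/
theorem trace_ne {C : Fin 2 → Fin 2 → ℂ} (h : ∀ u w, Dc u → Dc w → bil C u w ≠ 0) :
    C 0 0 + C 1 1 ≠ 0 := by
  intro h0
  by_cases h1 : C 1 0 = 0
  · refine h ![0, 1] ![1, 0] ⟨?_, ?_⟩ ⟨?_, ?_⟩ ?_
    · intro e
      have := congrFun e 1
      simp at this
    · simp
    · intro e
      have := congrFun e 0
      simp at this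
    · simp
    · rw [bil_eq]
      simp [h1]
  · obtain ⟨t, ht, htr⟩ := exists_root_re (-(C 0 1) / C 1 0)
    refine h ![1, t] ![t, 1] ⟨?_, ?_⟩ ⟨?_, ?_⟩ ?_
    · intro e
      have := congrFun e 0
      simp at this
    · rw [re_mul_conj]
      simpa using htr
    · intro e
      have := congrFun e 1
      simp at this
    · rw [re_mul_conj]
      simpa using htr
    · rw [bil_eq]
      simp only [Matrix.cons_val_zero, Matrix.cons_val_one]
      have h2 : C 1 0 * t ^ 2 = - C 0 1 := by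
        rw [ht]; field_simp
      linear_combination h2 + t * h0

/-- a node with `θ > 0`, `Re z > 0` maps the closed hemisphere into the open one -/
theorem node_open {θ : ℝ} {z : ℂ} (h0 : 0 < θ) (h1 : θ ≤ 1) (hz : 0 < z.re) {u : Fin 2 → ℂ}
    (hu : Dc u) : Do ![u 0 * z + u 1 * (θ * z ^ 2), u 0 * θ + u 1 * z] := by
  obtain ⟨hne, hm⟩ := hu
  rw [Do]
  simp only [Matrix.cons_val_zero, Matrix.cons_val_one]
  rw [re_mul_conj] at hm ⊢
  have key : (u 0 * z + u 1 * (θ * z ^ 2)).re * (u 0 * θ + u 1 * z).re +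
      (u 0 * z + u 1 * (θ * z ^ 2)).im * (u 0 * θ + u 1 * z).im =
      θ * z.re * (((u 0).re - θ * z.im * (u 1).im) ^ 2 + ((u 0).im + θ * z.im * (u 1).re) ^ 2 +
        ((u 1).re ^ 2 + (u 1).im ^ 2) * (z.re ^ 2 + z.im ^ 2 * (1 - θ ^ 2))) +
      ((u 0).re * (u 1).re + (u 0).im * (u 1).im) *
        (z.re ^ 2 * (1 + θ ^ 2) + z.im ^ 2 * (1 - θ ^ 2)) := by
    simp only [Complex.add_re, Complex.add_im, Complex.mul_re, Complex.mul_im,
      Complex.ofReal_re, Complex.ofReal_im, pow_two]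
    ring
  rw [key]
  have hθ2 : 0 ≤ 1 - θ ^ 2 := by nlinarith
  have t2 : 0 ≤ ((u 0).re * (u 1).re + (u 0).im * (u 1).im) *
        (z.re ^ 2 * (1 + θ ^ 2) + z.im ^ 2 * (1 - θ ^ 2)) := by positivity
  have t3 : 0 < ((u 0).re - θ * z.im * (u 1).im) ^ 2 + ((u 0).im + θ * z.im * (u 1).re) ^ 2 +
        ((u 1).re ^ 2 + (u 1).im ^ 2) * (z.re ^ 2 + z.im ^ 2 * (1 - θ ^ 2)) := by
    by_cases hb : u 1 = 0
    · have ha : u 0 ≠ 0 := by
        intro ha
        exact hne (by funext i; fin_cases i <;> simp [ha, hb])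
      have h3 : 0 < (u 0).re ^ 2 + (u 0).im ^ 2 := by
        have := normSq_pos.2 ha
        rw [normSq_apply] at this
        nlinarith
      simpa [hb] using h3
    · have h3 : 0 < (u 1).re ^ 2 + (u 1).im ^ 2 := by
        have := normSq_pos.2 hb
        rw [normSq_apply] at this
        nlinarith
      have h4 : 0 < z.re ^ 2 + z.im ^ 2 * (1 - θ ^ 2) := by
        have : 0 < z.re ^ 2 := by positivity
        have : 0 ≤ z.im ^ 2 * (1 - θ ^ 2) := by positivity
        linarith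
      positivity
  have t1 := mul_pos (mul_pos h0 hz) t3
  linarith

end Vale.Agent.P361.LRO.SR
end

section

/-!
# Strong Rayleigh property of the charge law (P361, block SR)

`stable_of_isLaw_pos`: the generating polynomial of the charges of a law `IsLaw μ` with
`0 < θ ≤ 1` does not vanish when all variables are in the open upper half plane.
-/

namespace Vale.Agent.P361.LRO.SR

open Finset

variable {X : Type} [Fintype X] [DecidableEq X]

/-- evaluation of a vector at a family of pairs -/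
noncomputable def ev (ψ : (X → Fin 2) → ℂ) (ζ : X → Fin 2 → ℂ) : ℂ := ∑ s, ψ s * ∏ x, ζ x (s x)

/-- strict stability -/
def SSt (ψ : (X → Fin 2) → ℂ) : Prop := ∀ ζ : X → Fin 2 → ℂ, (∀ x, Dc (ζ x)) → ev ψ ζ ≠ 0

theorem prod_upd (ζ : X → Fin 2 → ℂ) (a : X) (u : Fin 2 → ℂ) (s : X → Fin 2) :
    ∏ x, Function.update ζ a u x (s x) = u (s a) * ∏ x ∈ univ \ {a}, ζ x (s x) := by
  have h : (fun x => Function.update ζ a u x (s x)) =
      Function.update (fun x => ζ x (s x)) a (u (s a)) := by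
    funext x
    exact Function.apply_update (fun x (v : Fin 2 → ℂ) => v (s x)) ζ a u x
  rw [show (∏ x, Function.update ζ a u x (s x)) =
    ∏ x, (fun x => Function.update ζ a u x (s x)) x from rfl, h]
  exact Finset.prod_update_of_mem (mem_univ a) _ _

theorem ev_update (ψ : (X → Fin 2) → ℂ) (ζ : X → Fin 2 → ℂ) (a : X) (u : Fin 2 → ℂ) :
    ev ψ (Function.update ζ a u) =
      ∑ i, u i * ev ψ (Function.update ζ a (Pi.single i 1)) := by
  simp only [ev, prod_upd, Finset.mul_sum]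
  rw [Finset.sum_comm]
  refine Finset.sum_congr rfl fun s _ => ?_
  have h : u (s a) = ∑ i, u i * (Pi.single i (1 : ℂ) : Fin 2 → ℂ) (s a) := by
    simp [Pi.single_apply]
  conv_lhs => rw [h]
  rw [Finset.sum_mul, Finset.mul_sum]
  exact Finset.sum_congr rfl fun i _ => by ring

theorem ev_prod (φ : X → Fin 2 → ℂ) (ζ : X → Fin 2 → ℂ) :
    ev (fun s => ∏ x, φ x (s x)) ζ = ∏ x, ∑ i, φ x i * ζ x i := by
  rw [ev, Finset.prod_univ_sum]
  simp only [Fintype.piFinset_univ, Finset.prod_mul_distrib]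

theorem ev_comp (ψ : (X → Fin 2) → ℂ) (τ : Equiv.Perm X) (ζ : X → Fin 2 → ℂ) :
    ev (fun s => ψ (s ∘ τ)) ζ = ev ψ (ζ ∘ τ) := by
  rw [ev, ev]
  refine Fintype.sum_equiv (Equiv.arrowCongr τ.symm (Equiv.refl (Fin 2))) _ _ fun s => ?_
  have h : ((Equiv.arrowCongr τ.symm (Equiv.refl (Fin 2))) s) = s ∘ τ := by
    funext x
    simp [Equiv.arrowCongr]
  rw [h]
  congr 1
  rw [← Equiv.prod_comp τ]
  rfl

theorem sst_prod {φ : X → Fin 2 → ℂ} (hφ : ∀ x, Do (φ x)) : SSt (fun s => ∏ x, φ x (s x)) := by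
  intro ζ hζ
  rw [ev_prod]
  refine Finset.prod_ne_zero_iff.2 fun x _ => ?_
  rw [Fin.sum_univ_two]
  exact pair_ne (hφ x) (hζ x)

theorem sst_comp {ψ : (X → Fin 2) → ℂ} (h : SSt ψ) (τ : Equiv.Perm X) :
    SSt (fun s => ψ (s ∘ τ)) := by
  intro ζ hζ
  rw [ev_comp]
  exact h _ fun x => hζ _

theorem sst_gate {ψ : (X → Fin 2) → ℂ} (h : SSt ψ) (a b : X) {p : ℝ} (hp0 : 0 ≤ p) (hp1 : p ≤ 1) :
    SSt (fun s => (1 - (p : ℂ)) * ψ s + (p : ℂ) * ψ (s ∘ Equiv.swap a b)) := by
  intro ζ hζ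
  have h1 : ev (fun s => (1 - (p : ℂ)) * ψ s + (p : ℂ) * ψ (s ∘ Equiv.swap a b)) ζ =
      (1 - (p : ℂ)) * ev ψ ζ + (p : ℂ) * ev ψ (ζ ∘ Equiv.swap a b) := by
    rw [← ev_comp]
    simp only [ev, Finset.mul_sum, ← Finset.sum_add_distrib]
    exact Finset.sum_congr rfl fun s _ => by ring
  rw [h1]
  by_cases hab : a = b
  · subst hab
    have : ζ ∘ Equiv.swap a a = ζ := by
      funext x; simp
    rw [this]
    have h2 := h ζ hζ
    intro h3
    apply h2
    linear_combination h3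
  · set C : Fin 2 → Fin 2 → ℂ := fun i k =>
      ev ψ (Function.update (Function.update ζ a (Pi.single i 1)) b (Pi.single k 1)) with hC
    have key : ∀ u w : Fin 2 → ℂ,
        ev ψ (Function.update (Function.update ζ a u) b w) = bil C u w := by
      intro u w
      rw [ev_update, bil]
      rw [Finset.sum_comm]
      refine Finset.sum_congr rfl fun k _ => ?_
      rw [Function.update_comm hab, ev_update, Finset.mul_sum]
      refine Finset.sum_congr rfl fun i _ => ?_
      have e : C i k = ev ψ (Function.update (Function.update ζ b (Pi.single k 1)) a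
          (Pi.single i 1)) := by
        rw [hC]
        simp only
        rw [Function.update_comm hab]
      rw [e]
      ring
    have hCne : ∀ u w, Dc u → Dc w → bil C u w ≠ 0 := by
      intro u w hu hw
      rw [← key]
      refine h _ fun x => ?_
      by_cases hxb : x = b
      · subst hxb; simpa using hw
      · rw [Function.update_of_ne hxb]
        by_cases hxa : x = a
        · subst hxa; simpa using hu
        · rw [Function.update_of_ne hxa]; exact hζ x
    have e1 : ev ψ ζ = bil C (ζ a) (ζ b) := by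
      rw [← key]
      simp
    have e2 : ev ψ (ζ ∘ Equiv.swap a b) = bil C (ζ b) (ζ a) := by
      rw [← key]
      congr 1
      funext x
      by_cases hxb : x = b
      · subst hxb; simp
      · rw [Function.update_of_ne hxb]
        by_cases hxa : x = a
        · subst hxa; simp
        · rw [Function.update_of_ne hxa]
          simp [Equiv.swap_apply_of_ne_of_ne hxa hxb]
    rw [e1, e2]
    exact gate_two hCne hp0 hp1 (hζ a) (hζ b)

/-- the vector obtained from a product vector by a law of permutations -/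
noncomputable def lv (μ : Equiv.Perm X → ℝ) (φ : X → Fin 2 → ℂ) (s : X → Fin 2) : ℂ :=
  ∑ π : Equiv.Perm X, (μ π : ℂ) * ∏ x, φ x (s (π x))

theorem sst_law (l : List (X × X × ℝ)) (σ : Equiv.Perm X)
    (hl : ∀ g ∈ l, 0 ≤ g.2.2 ∧ g.2.2 ≤ 1) {φ : X → Fin 2 → ℂ} (hφ : ∀ x, Do (φ x)) :
    SSt (lv (law l σ) φ) := by
  induction l with
  | nil =>
    have h : lv (law [] σ) φ = fun s => (fun s => ∏ x, φ x (s x)) (s ∘ σ) := by
      funext s
      rw [lv, Finset.sum_eq_single σ]
      · simp [law]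
      · intro π _ hπ
        simp [law, Pi.single_eq_of_ne hπ]
      · intro h; exact absurd (mem_univ σ) h
    rw [h]
    exact sst_comp (sst_prod hφ) σ
  | cons g l ih =>
    have ih' := ih fun g' hg' => hl g' (List.mem_cons_of_mem _ hg')
    obtain ⟨h0, h1⟩ := hl g List.mem_cons_self
    have h : lv (law (g :: l) σ) φ = fun s => (1 - (g.2.2 : ℂ)) * lv (law l σ) φ s +
        (g.2.2 : ℂ) * lv (law l σ) φ (s ∘ Equiv.swap g.1 g.2.1) := by
      funext s
      have e2 : lv (law l σ) φ (s ∘ Equiv.swap g.1 g.2.1) =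
          ∑ π : Equiv.Perm X, (law l σ (Equiv.swap g.1 g.2.1 * π) : ℂ) * ∏ x, φ x (s (π x)) := by
        rw [lv]
        refine (Fintype.sum_equiv (Equiv.mulLeft (Equiv.swap g.1 g.2.1)) _ _ fun π => ?_).symm
        simp only [Equiv.coe_mulLeft, Function.comp, Equiv.Perm.mul_apply, Equiv.swap_apply_self]
      rw [e2, lv, lv, Finset.mul_sum, Finset.mul_sum, ← Finset.sum_add_distrib]
      refine Finset.sum_congr rfl fun π _ => ?_
      rw [law]
      push_cast
      ring
    rw [h]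
    exact sst_gate ih' _ _ h0 h1

/-- general contraction of a kernel -/
noncomputable def con (K : (X → Fin 2) → (X → Fin 2) → ℂ) (E : X → Fin 2 → Fin 2 → ℂ) : ℂ :=
  ∑ s, ∑ t, K s t * ∏ x, E x (s x) (t x)

theorem con_update (K : (X → Fin 2) → (X → Fin 2) → ℂ) (E : X → Fin 2 → Fin 2 → ℂ) (a : X)
    (e : Fin 2 → Fin 2 → ℂ) :
    con K (Function.update E a e) =
      ∑ i, ∑ k, e i k * con K (Function.update E a
        (fun i' k' => if i' = i ∧ k' = k then 1 else 0)) := by
  have hp : ∀ (e : Fin 2 → Fin 2 → ℂ) (s t : X → Fin 2),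
      ∏ x, Function.update E a e x (s x) (t x) =
        e (s a) (t a) * ∏ x ∈ univ \ {a}, E x (s x) (t x) := by
    intro e s t
    have h : (fun x => Function.update E a e x (s x) (t x)) =
        Function.update (fun x => E x (s x) (t x)) a (e (s a) (t a)) := by
      funext x
      exact Function.apply_update (fun x (v : Fin 2 → Fin 2 → ℂ) => v (s x) (t x)) E a e x
    rw [show (∏ x, Function.update E a e x (s x) (t x)) =
      ∏ x, (fun x => Function.update E a e x (s x) (t x)) x from rfl, h]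
    exact Finset.prod_update_of_mem (mem_univ a) _ _
  simp only [con, hp, Finset.mul_sum]
  have e1 : ∀ s t : X → Fin 2, K s t * (e (s a) (t a) * ∏ x ∈ univ \ {a}, E x (s x) (t x)) =
      ∑ i, ∑ k, e i k * (K s t * ((if s a = i ∧ t a = k then 1 else 0) *
        ∏ x ∈ univ \ {a}, E x (s x) (t x))) := by
    intro s t
    rw [Finset.sum_eq_single (s a), Finset.sum_eq_single (t a)]
    · simp; ring
    · intro k _ hk
      simp [Ne.symm hk]
    · intro h; exact absurd (mem_univ _) h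
    · intro i _ hi
      simp [Ne.symm hi]
    · intro h; exact absurd (mem_univ _) h
  simp only [e1]
  rw [Finset.sum_congr rfl fun s _ => Finset.sum_comm]
  rw [Finset.sum_comm]
  refine Finset.sum_congr rfl fun i _ => ?_
  rw [Finset.sum_congr rfl fun s _ => Finset.sum_comm]
  rw [Finset.sum_comm]

/-- the trace of a strictly stable kernel does not vanish -/
theorem trace_con {K : (X → Fin 2) → (X → Fin 2) → ℂ}
    (h : ∀ ω ζ : X → Fin 2 → ℂ, (∀ x, Dc (ω x)) → (∀ x, Dc (ζ x)) →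
      con K (fun x i k => ω x i * ζ x k) ≠ 0) : ∑ s, K s s ≠ 0 := by
  have key : ∀ T : Finset X, ∀ ω ζ : X → Fin 2 → ℂ, (∀ x, Dc (ω x)) → (∀ x, Dc (ζ x)) →
      con K (fun x => if x ∈ T then (fun i k => if i = k then 1 else 0)
        else fun i k => ω x i * ζ x k) ≠ 0 := by
    intro T
    induction T using Finset.induction_on with
    | empty =>
      intro ω ζ hω hζ
      simpa using h ω ζ hω hζ
    | insert a T ha ih =>
      intro ω ζ hω hζ
      set E : X → Fin 2 → Fin 2 → ℂ := fun x => if x ∈ T then (fun i k => if i = k then 1 else 0)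
        else fun i k => ω x i * ζ x k with hE
      have e1 : (fun x => if x ∈ insert a T then (fun i k => if i = k then (1 : ℂ) else 0)
        else fun i k => ω x i * ζ x k) =
          Function.update E a (fun i k => if i = k then 1 else 0) := by
        funext x
        by_cases hx : x = a
        · subst hx; simp
        · rw [Function.update_of_ne hx]
          simp [hE, hx]
      rw [e1, con_update]
      set C : Fin 2 → Fin 2 → ℂ := fun i k => con K (Function.update E a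
        (fun i' k' => if i' = i ∧ k' = k then 1 else 0)) with hC
      have hCne : ∀ u w, Dc u → Dc w → bil C u w ≠ 0 := by
        intro u w hu hw
        have e2 : bil C u w = con K (Function.update E a (fun i k => u i * w k)) := by
          rw [con_update, bil]
          refine Finset.sum_congr rfl fun i _ => Finset.sum_congr rfl fun k _ => ?_
          rw [hC]; ring
        rw [e2]
        have e3 : Function.update E a (fun i k => u i * w k) =
            fun x => if x ∈ T then (fun i k => if i = k then (1 : ℂ) else 0)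
              else fun i k => Function.update ω a u x i * Function.update ζ a w x k := by
          funext x
          by_cases hx : x = a
          · subst hx; simp [ha]
          · rw [Function.update_of_ne hx, Function.update_of_ne hx, Function.update_of_ne hx]
        rw [e3]
        refine ih _ _ (fun x => ?_) (fun x => ?_)
        · by_cases hx : x = a
          · subst hx; simpa using hu
          · rw [Function.update_of_ne hx]; exact hω x
        · by_cases hx : x = a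
          · subst hx; simpa using hw
          · rw [Function.update_of_ne hx]; exact hζ x
      have h1 := trace_ne hCne
      intro h2
      apply h1
      rw [← h2]
      simp [Fin.sum_univ_two, hC]
  have h1 := key univ (fun _ => ![1, 1]) (fun _ => ![1, 1]) (fun x => ⟨?_, by simp⟩)
    (fun x => ⟨?_, by simp⟩)
  · intro h2
    apply h1
    rw [con]
    refine Eq.trans ?_ h2
    refine Finset.sum_congr rfl fun s _ => ?_
    rw [Finset.sum_eq_single s]
    · simp
    · intro t _ ht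
      have : ∃ x, s x ≠ t x := by
        by_contra hcon
        push Not at hcon
        exact ht (funext fun x => (hcon x).symm)
      obtain ⟨x, hx⟩ := this
      have h0 : ∏ x, (if x ∈ (univ : Finset X) then (fun i k => if i = k then (1 : ℂ) else 0)
        else fun i k => (![1, 1] : Fin 2 → ℂ) i * (![1, 1] : Fin 2 → ℂ) k) (s x) (t x) = 0 :=
        Finset.prod_eq_zero (mem_univ x) (by simp [hx])
      rw [h0, mul_zero]
    · intro h; exact absurd (mem_univ s) h
  · intro e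
    have := congrFun e 0
    simp at this
  · intro e
    have := congrFun e 0
    simp at this

/-- node matrix -/
noncomputable def nod (θ : ℝ) (z : ℂ) (i k : Fin 2) : ℂ :=
  if i = k then z else θ * (if i = 1 then z ^ 2 else 1)

theorem gen_eq (μ : Equiv.Perm X → ℝ) (θ : X → ℝ) (ζ : X → ℂ) :
    gen μ θ ζ = ∑ s : X → Fin 2, ∑ π : Equiv.Perm X,
      (μ π : ℂ) * ∏ x, nod (θ x) (ζ x) (s x) (s (π x)) := by
  rw [gen, Finset.sum_comm]
  refine Finset.sum_congr rfl fun s _ => Finset.sum_congr rfl fun π _ => ?_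
  push_cast [wt]
  rw [mul_assoc, ← Finset.prod_mul_distrib]
  congr 1
  refine Finset.prod_congr rfl fun x _ => ?_
  rw [nod]
  by_cases h : s x = s (π x)
  · simp [h]
  · simp only [h, if_false]

/-- the generating polynomial does not vanish in the right half plane -/
theorem gen_ne_of_re {l : List (X × X × ℝ)} {σ : Equiv.Perm X}
    (hl : ∀ g ∈ l, 0 ≤ g.2.2 ∧ g.2.2 ≤ 1) {θ : X → ℝ} (hθ : ∀ x, 0 < θ x ∧ θ x ≤ 1) {ζ : X → ℂ}
    (hζ : ∀ x, 0 < (ζ x).re) : gen (law l σ) θ ζ ≠ 0 := by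
  rw [gen_eq]
  set K : (X → Fin 2) → (X → Fin 2) → ℂ := fun s' s =>
    ∑ π : Equiv.Perm X, ((law l σ π : ℝ) : ℂ) * ∏ x, nod (θ x) (ζ x) (s' x) (s (π x)) with hK
  refine trace_con (K := K) fun ω ξ hω hξ => ?_
  set φ : X → Fin 2 → ℂ := fun x k => ∑ i, ω x i * nod (θ x) (ζ x) i k with hφ
  have hφo : ∀ x, Do (φ x) := by
    intro x
    have h1 := node_open (hθ x).1 (hθ x).2 (hζ x) (hω x)
    have e : φ x = ![ω x 0 * ζ x + ω x 1 * (θ x * ζ x ^ 2), ω x 0 * θ x + ω x 1 * ζ x] := by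
      funext k
      fin_cases k <;> simp [hφ, nod, Fin.sum_univ_two]
    rw [e]; exact h1
  have h1 := sst_law l σ hl hφo ξ hξ
  have e : con K (fun x i k => ω x i * ξ x k) = ev (lv (law l σ) φ) ξ := by
    rw [con, ev, Finset.sum_comm]
    refine Finset.sum_congr rfl fun s _ => ?_
    simp only [hK, lv, Finset.sum_mul]
    rw [Finset.sum_comm]
    refine Finset.sum_congr rfl fun π _ => ?_
    have e3 : ∏ x, φ x (s (π x)) = ∑ s' : X → Fin 2,
        ∏ x, (ω x (s' x) * nod (θ x) (ζ x) (s' x) (s (π x))) := by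
      rw [hφ]
      simp only
      rw [Finset.prod_univ_sum]
      simp only [Fintype.piFinset_univ]
    rw [e3, Finset.mul_sum, Finset.sum_mul]
    refine Finset.sum_congr rfl fun s' _ => ?_
    rw [Finset.prod_mul_distrib, Finset.prod_mul_distrib]
    ring
  rw [e]
  exact h1

/-- homogeneity -/
theorem gen_smul (μ : Equiv.Perm X → ℝ) (θ : X → ℝ) (ζ : X → ℂ) {c : ℂ} (hc : c ≠ 0) :
    gen μ θ (fun x => c * ζ x) = c ^ Fintype.card X * gen μ θ ζ := by
  rw [gen, gen, Finset.mul_sum]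
  refine Finset.sum_congr rfl fun π _ => ?_
  rw [Finset.mul_sum]
  refine Finset.sum_congr rfl fun s _ => ?_
  have h : ∏ x, (if s x = s (π x) then c * ζ x else if s x = 1 then (c * ζ x) ^ 2 else 1) =
      c ^ Fintype.card X * ∏ x, (if s x = s (π x) then ζ x else if s x = 1 then ζ x ^ 2 else 1) := by
    have h1 : ∀ x, (if s x = s (π x) then c * ζ x else if s x = 1 then (c * ζ x) ^ 2 else 1) *
        (if s (π x) = 1 then c else 1) =
        (c * (if s x = 1 then c else 1)) *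
        (if s x = s (π x) then ζ x else if s x = 1 then ζ x ^ 2 else 1) := by
      intro x
      by_cases h2 : s x = s (π x)
      · rw [if_pos h2, if_pos h2, ← h2]
        by_cases h3 : s x = 1
        · simp [h3]; ring
        · simp [h3]
      · rw [if_neg h2, if_neg h2]
        by_cases h3 : s x = 1
        · have h4 : s (π x) ≠ 1 := fun h => h2 (h3.trans h.symm)
          simp [h3, h4]; ring
        · have h4 : s (π x) = 1 := by omega
          simp [h3, h4]
    have h5 : ∏ x, (if s (π x) = 1 then c else (1 : ℂ)) = ∏ x, (if s x = 1 then c else 1) :=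
      Equiv.prod_comp π (fun x => if s x = 1 then c else (1 : ℂ))
    have h6 : ∏ x, (if s x = 1 then c else (1 : ℂ)) ≠ 0 :=
      Finset.prod_ne_zero_iff.2 fun x _ => by split_ifs <;> simp [hc]
    have h7 := Finset.prod_congr (rfl : (univ : Finset X) = univ) fun x _ => h1 x
    rw [Finset.prod_mul_distrib, Finset.prod_mul_distrib, Finset.prod_mul_distrib, h5,
      Finset.prod_const, Finset.card_univ] at h7
    apply mul_right_cancel₀ h6
    rw [h7]; ring
  rw [h]; ring

/-- **strong Rayleigh property**, `θ > 0` -/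
theorem stable_of_isLaw_pos {μ : Equiv.Perm X → ℝ} (hμ : IsLaw μ) {θ : X → ℝ}
    (hθ : ∀ x, 0 < θ x ∧ θ x ≤ 1) : Stable μ θ := by
  obtain ⟨l, σ, hl, rfl⟩ := hμ
  intro ζ hζ h0
  have h1 := gen_smul (law l σ) θ ζ (c := -Complex.I) (by simp)
  rw [h0, mul_zero] at h1
  refine gen_ne_of_re (l := l) (σ := σ) (θ := θ) (ζ := fun x => -Complex.I * ζ x)
    (fun g hg => ⟨(hl g hg).1, by linarith [(hl g hg).2]⟩) hθ (fun x => ?_) h1
  simpa using hζ x

end Vale.Agent.P361.LRO.SR
end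

section

/-!
Convexity of the hyperbolicity cone of a real stable homogeneous polynomial (Garding), in the form of
real-rootedness along all directions of the cone, and log-concavity at the points of the cone.
-/

namespace Vale.Agent.P361.LRO.T1

open MvPolynomial

variable {σ : Type*} [Fintype σ]

/-- real stability: no zero with all coordinates in the open upper half plane -/
def RStable (f : MvPolynomial σ ℝ) : Prop :=
  ∀ z : σ → ℂ, (∀ i, 0 < (z i).im) → aeval z f ≠ 0

theorem aeval_smul_hom {f : MvPolynomial σ ℝ} {N : ℕ} (hf : f.IsHomogeneous N) (c : ℂ)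
    (z : σ → ℂ) : aeval (fun i => c * z i) f = c ^ N * aeval z f := by
  rw [aeval_def, aeval_def, eval₂_eq', eval₂_eq', Finset.mul_sum]
  refine Finset.sum_congr rfl fun m hm => ?_
  have h1 : ∏ i, (c * z i) ^ m i = c ^ N * ∏ i, z i ^ m i := by
    simp only [mul_pow]
    rw [Finset.prod_mul_distrib, Finset.prod_pow_eq_pow_sum]
    congr 2
    have h2 := hf (mem_support_iff.1 hm)
    rw [← h2, Finsupp.weight_apply, Finsupp.sum_fintype]
    · simp
    · simp
  rw [h1]
  ring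

omit [Fintype σ] in
theorem aeval_conj (f : MvPolynomial σ ℝ) (z : σ → ℂ) :
    aeval (fun i => (starRingEnd ℂ) (z i)) f = (starRingEnd ℂ) (aeval z f) := by
  have h := comp_aeval_apply (R := ℝ) (f := z) (Complex.conjAe : ℂ →ₐ[ℝ] ℂ) f
  exact h.symm

omit [Fintype σ] in
theorem continuous_aeval (f : MvPolynomial σ ℝ) : Continuous fun z : σ → ℂ => aeval z f := by
  have h : (fun z : σ → ℂ => aeval z f) = fun z => eval z (map (algebraMap ℝ ℂ) f) := by
    funext z
    rw [eval_map, aeval_def]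
  rw [h]
  exact MvPolynomial.continuous_eval _

/-- the restriction to a line -/
noncomputable def line (f : MvPolynomial σ ℝ) (p q : σ → ℂ) : Polynomial ℂ :=
  aeval (fun i => Polynomial.C (p i) + Polynomial.C (q i) * Polynomial.X) f

omit [Fintype σ] in
theorem line_eval (f : MvPolynomial σ ℝ) (p q : σ → ℂ) (u : ℂ) :
    (line f p q).eval u = aeval (fun i => p i + q i * u) f := by
  have h := comp_aeval_apply (R := ℝ)
    (f := fun i => Polynomial.C (p i) + Polynomial.C (q i) * Polynomial.X)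
    ((Polynomial.aeval u : Polynomial ℂ →ₐ[ℂ] ℂ).restrictScalars ℝ) f
  rw [line]
  have h2 : ∀ P : Polynomial ℂ,
      ((Polynomial.aeval u : Polynomial ℂ →ₐ[ℂ] ℂ).restrictScalars ℝ) P = P.eval u := by
    intro P
    rw [AlgHom.restrictScalars_apply, Polynomial.coe_aeval_eq_eval]
  rw [h2] at h
  rw [h]
  congr 2
  funext i
  rw [h2]
  simp

omit [Fintype σ] in
theorem prod_lin (p q : σ → ℂ) (m : σ → ℕ) (s : Finset σ) :
    (∏ i ∈ s, (Polynomial.C (p i) + Polynomial.C (q i) * Polynomial.X) ^ m i).natDegree ≤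
        ∑ i ∈ s, m i ∧
      (∏ i ∈ s, (Polynomial.C (p i) + Polynomial.C (q i) * Polynomial.X) ^ m i).coeff
        (∑ i ∈ s, m i) = ∏ i ∈ s, q i ^ m i := by
  classical
  have key : ∀ (i : σ) (k : ℕ),
      ((Polynomial.C (p i) + Polynomial.C (q i) * Polynomial.X) ^ k).natDegree ≤ k ∧
      ((Polynomial.C (p i) + Polynomial.C (q i) * Polynomial.X) ^ k).coeff k = q i ^ k := by
    intro i k
    have hd1 : (Polynomial.C (p i) + Polynomial.C (q i) * Polynomial.X).natDegree ≤ 1 := by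
      rw [add_comm]
      exact Polynomial.natDegree_linear_le
    induction k with
    | zero => simp
    | succ k ih =>
      refine ⟨?_, ?_⟩
      · refine (Polynomial.natDegree_pow_le).trans ?_
        calc (k + 1) * _ ≤ (k + 1) * 1 := Nat.mul_le_mul_left _ hd1
          _ = k + 1 := mul_one _
      · rw [pow_succ, Polynomial.coeff_mul_add_eq_of_natDegree_le ih.1 hd1, ih.2, pow_succ]
        simp
  induction s using Finset.induction_on with
  | empty => simp
  | insert i s hi ih =>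
    rw [Finset.prod_insert hi, Finset.sum_insert hi, Finset.prod_insert hi]
    refine ⟨(Polynomial.natDegree_mul_le).trans (add_le_add (key i (m i)).1 ih.1), ?_⟩
    rw [Polynomial.coeff_mul_add_eq_of_natDegree_le (key i (m i)).1 ih.1, (key i (m i)).2, ih.2]

theorem line_degree {f : MvPolynomial σ ℝ} {N : ℕ} (hf : f.IsHomogeneous N) (p q : σ → ℂ) :
    (line f p q).natDegree ≤ N ∧ (line f p q).coeff N = aeval q f := by
  classical
  have hsum : ∀ m ∈ f.support, ∑ i, m i = N := by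
    intro m hm
    have h2 := hf (mem_support_iff.1 hm)
    rw [← h2, Finsupp.weight_apply, Finsupp.sum_fintype]
    · simp
    · simp
  rw [line, aeval_def, eval₂_eq']
  refine ⟨?_, ?_⟩
  · refine Polynomial.natDegree_sum_le_of_forall_le _ _ fun m hm => ?_
    refine (Polynomial.natDegree_mul_le).trans ?_
    have h1 : (algebraMap ℝ (Polynomial ℂ) (coeff m f)).natDegree = 0 := by
      rw [IsScalarTower.algebraMap_apply ℝ ℂ (Polynomial ℂ), Polynomial.algebraMap_eq]
      exact Polynomial.natDegree_C _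
    have h2 := (prod_lin p q m Finset.univ).1
    rw [hsum m hm] at h2
    rw [h1, zero_add]
    exact h2
  · rw [Polynomial.finsetSum_coeff, aeval_def, eval₂_eq']
    refine Finset.sum_congr rfl fun m hm => ?_
    have h2 := (prod_lin p q m Finset.univ).2
    rw [hsum m hm] at h2
    rw [IsScalarTower.algebraMap_apply ℝ ℂ (Polynomial ℂ), Polynomial.algebraMap_eq,
      Polynomial.coeff_C_mul, h2]

theorem prod_norm_ge (u : ℂ) (hu : 0 ≤ u.im) (s : Multiset ℂ) (hs : ∀ r ∈ s, r.im ≤ 0) :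
    u.im ^ s.card ≤ ‖(s.map fun a => u - a).prod‖ := by
  induction s using Multiset.induction_on with
  | empty => simp
  | cons a s ih =>
    rw [Multiset.card_cons, Multiset.map_cons, Multiset.prod_cons, norm_mul, pow_succ']
    refine mul_le_mul ?_ (ih fun r hr => hs r (Multiset.mem_cons_of_mem hr)) (by positivity)
      (norm_nonneg _)
    have h1 : (u - a).im ≤ ‖u - a‖ := (le_abs_self _).trans (Complex.abs_im_le_norm _)
    have h2 := hs a (Multiset.mem_cons_self a s)
    rw [Complex.sub_im] at h1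
    linarith

theorem eval_norm_ge (P : Polynomial ℂ) (N : ℕ) (hdeg : P.natDegree ≤ N) (hc : P.coeff N ≠ 0)
    (hroot : ∀ u : ℂ, 0 ≤ u.im → P.eval u ≠ 0) (u : ℂ) (hu : 0 ≤ u.im) :
    ‖P.coeff N‖ * u.im ^ N ≤ ‖P.eval u‖ := by
  have hN : P.natDegree = N := le_antisymm hdeg (Polynomial.le_natDegree_of_ne_zero hc)
  have hsp := IsAlgClosed.splits P
  have hcard := hsp.natDegree_eq_card_roots
  rw [hsp.eval_eq_prod_roots u, norm_mul, Polynomial.leadingCoeff, hN]
  refine mul_le_mul_of_nonneg_left ?_ (norm_nonneg _)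
  have h1 := prod_norm_ge u hu P.roots fun r hr => by
    by_contra h
    exact hroot r (not_le.1 h).le (Polynomial.isRoot_of_mem_roots hr)
  rw [← hcard, hN] at h1
  exact h1

/-- the point `b` lies in the hyperbolicity cone -/
def Cone (f : MvPolynomial σ ℝ) (b : σ → ℝ) : Prop :=
  ∀ s : ℝ, 0 ≤ s → aeval (fun i => ((b i + s : ℝ) : ℂ)) f ≠ 0

omit [Fintype σ] in
theorem aeval_shift_ne {f : MvPolynomial σ ℝ} (hs : RStable f) {b : σ → ℝ} (hb : Cone f b) (s : ℂ)
    (hre : 0 ≤ s.re) : aeval (fun i => (b i : ℂ) + s) f ≠ 0 := by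
  rcases lt_trichotomy s.im 0 with h | h | h
  · intro h0
    have h1 := aeval_conj f fun i => (b i : ℂ) + s
    rw [h0, map_zero] at h1
    refine hs _ (fun i => ?_) h1
    simp only [map_add, Complex.conj_ofReal, Complex.add_im, Complex.ofReal_im, Complex.conj_im]
    linarith
  · have h1 : s = (s.re : ℂ) := by
      apply Complex.ext
      · simp
      · simp [h]
    have h2 := hb s.re hre
    rw [h1]
    intro h0
    apply h2
    rw [← h0]
    congr 2
    funext i
    push_cast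
    rfl
  · refine hs _ fun i => ?_
    simp only [Complex.add_im, Complex.ofReal_im, zero_add]
    exact h

/-- **Homotopy.** -/
theorem garding_bound {f : MvPolynomial σ ℝ} {N : ℕ} (hf : f.IsHomogeneous N) (hs : RStable f)
    {b : σ → ℝ} (hb : Cone f b) (d : σ → ℝ) {δ : ℝ} (hδ : 0 < δ) (u : ℂ) (hu : 0 ≤ u.im) :
    ‖aeval (fun i => (b i : ℂ)) f‖ * u.im ^ N ≤
      ‖aeval (fun i => ((d i : ℂ) + δ * Complex.I) + b i * u) f‖ := by
  classical
  set B : ℂ := aeval (fun i => (b i : ℂ)) f with hB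
  have hB0 : B ≠ 0 := by
    have := hb 0 le_rfl
    simpa using this
  set G : ℝ → ℂ → ℂ := fun l u =>
    aeval (fun i => ((l * d i : ℝ) : ℂ) + δ * Complex.I + b i * u) f with hG
  have hGc : Continuous fun x : ℝ × ℂ => G x.1 x.2 := by
    refine (continuous_aeval f).comp (continuous_pi fun i => ?_)
    fun_prop
  -- no real root
  have hreal : ∀ (l : ℝ) (u : ℂ), u.im = 0 → G l u ≠ 0 := by
    intro l u hu
    refine hs _ fun i => ?_
    simp [hu, hδ]
  -- the bound for the good parameters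
  have hbd : ∀ l : ℝ, (∀ u : ℂ, 0 ≤ u.im → G l u ≠ 0) → ∀ u : ℂ, 0 ≤ u.im →
      ‖B‖ * u.im ^ N ≤ ‖G l u‖ := by
    intro l hl u hu
    obtain ⟨h1, h2⟩ := line_degree hf (fun i => ((l * d i : ℝ) : ℂ) + δ * Complex.I)
      (fun i => (b i : ℂ))
    have h3 := eval_norm_ge (line f (fun i => ((l * d i : ℝ) : ℂ) + δ * Complex.I)
      (fun i => (b i : ℂ))) N h1 (by rw [h2]; exact hB0)
      (fun u hu => by rw [line_eval]; exact hl u hu) u hu
    rw [h2, line_eval] at h3
    exact h3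
  -- a bound for the roots
  obtain ⟨R, hR⟩ : ∃ R : ℝ, ∀ l ∈ Set.Icc (0 : ℝ) 1, ∀ u : ℂ, G l u = 0 → ‖u‖ ≤ R := by
    have hc := (continuous_aeval f).continuousAt (x := fun i => (b i : ℂ))
    have h1 : ∀ᶠ z in nhds (fun i => (b i : ℂ)), aeval z f ≠ 0 := hc.eventually_ne hB0
    obtain ⟨ε, hε, h2⟩ := Metric.eventually_nhds_iff.1 h1
    set D : ℝ := ∑ i, |d i| + δ with hD
    have hD0 : 0 < D := by
      have : 0 ≤ ∑ i, |d i| := Finset.sum_nonneg fun i _ => abs_nonneg _
      linarith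
    refine ⟨D / ε * 2, fun l hl u h0 => ?_⟩
    by_contra hu
    rw [not_le] at hu
    have hun : 0 < ‖u‖ := lt_trans (by positivity) hu
    have hu0 : u ≠ 0 := norm_pos_iff.1 hun
    have h3 : G l u = u ^ N * aeval (fun i => (b i : ℂ) +
        (((l * d i : ℝ) : ℂ) + δ * Complex.I) / u) f := by
      rw [← aeval_smul_hom hf]
      simp only [hG]
      congr 2
      funext i
      field_simp
      ring
    rw [h3] at h0
    rcases mul_eq_zero.1 h0 with h4 | h4
    · exact hu0 (eq_zero_of_pow_eq_zero h4)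
    · refine h2 ?_ h4
      rw [dist_pi_lt_iff hε]
      intro i
      rw [Complex.dist_eq, add_sub_cancel_left, norm_div, div_lt_iff₀ hun]
      have h5 : ‖((l * d i : ℝ) : ℂ) + δ * Complex.I‖ ≤ D := by
        refine (norm_add_le _ _).trans ?_
        have e1 : ‖((l * d i : ℝ) : ℂ)‖ = l * |d i| := by
          rw [Complex.norm_real, Real.norm_eq_abs, abs_mul, abs_of_nonneg hl.1]
        have e2 : ‖(δ : ℂ) * Complex.I‖ = δ := by
          rw [norm_mul, Complex.norm_real, Complex.norm_I, mul_one, Real.norm_eq_abs,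
            abs_of_pos hδ]
        rw [e1, e2]
        have h6 : |d i| ≤ ∑ i, |d i| :=
          Finset.single_le_sum (f := fun i => |d i|) (fun i _ => abs_nonneg _) (Finset.mem_univ i)
        have h7 : l * |d i| ≤ |d i| := by
          have := abs_nonneg (d i)
          nlinarith [hl.2]
        linarith
      have h6 : D < ε * ‖u‖ := by
        have h7 : D / ε * 2 < ‖u‖ := hu
        have h8 : D = ε * (D / ε) := by field_simp
        have h9 : 0 < D / ε := by positivity
        rw [h8]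
        exact mul_lt_mul_of_pos_left (by linarith) hε
      linarith
  -- the two closed sets
  set T : Set ℝ := {l | l ∈ Set.Icc (0 : ℝ) 1 ∧ ∃ u : ℂ, 0 ≤ u.im ∧ G l u = 0} with hT
  set T' : Set ℝ := {l | ∀ u : ℂ, 0 ≤ u.im → ‖B‖ * u.im ^ N ≤ ‖G l u‖} with hT'
  have hTc : IsClosed T := by
    have h1 : IsCompact ((Set.Icc (0 : ℝ) 1 ×ˢ Metric.closedBall (0 : ℂ) R) ∩
        {x : ℝ × ℂ | 0 ≤ x.2.im ∧ G x.1 x.2 = 0}) := by
      refine (isCompact_Icc.prod (isCompact_closedBall _ _)).inter_right ?_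
      refine IsClosed.inter ?_ ?_
      · exact isClosed_le continuous_const (Complex.continuous_im.comp continuous_snd)
      · exact isClosed_eq hGc continuous_const
    have h2 : T = Prod.fst '' ((Set.Icc (0 : ℝ) 1 ×ˢ Metric.closedBall (0 : ℂ) R) ∩
        {x : ℝ × ℂ | 0 ≤ x.2.im ∧ G x.1 x.2 = 0}) := by
      ext l
      constructor
      · rintro ⟨hl, u, hu, h0⟩
        refine ⟨(l, u), ⟨⟨hl, ?_⟩, hu, h0⟩, rfl⟩
        rw [mem_closedBall_zero_iff]
        exact hR l hl u h0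
      · rintro ⟨⟨l', u⟩, ⟨⟨hl, -⟩, hu, h0⟩, rfl⟩
        exact ⟨hl, u, hu, h0⟩
    rw [h2]
    exact (h1.image continuous_fst).isClosed
  have hTc' : IsClosed T' := by
    have h1 : T' = ⋂ u : {u : ℂ // 0 ≤ u.im}, {l | ‖B‖ * u.1.im ^ N ≤ ‖G l u.1‖} := by
      ext l
      simp only [hT', Set.mem_ofPred_eq, Set.mem_iInter, Subtype.forall]
    rw [h1]
    refine isClosed_iInter fun u => ?_
    refine isClosed_le continuous_const ?_
    exact (hGc.comp (continuous_id.prodMk continuous_const)).norm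
  have hcov : Set.Icc (0 : ℝ) 1 ⊆ T ∪ T' := by
    intro l hl
    by_cases h : ∃ u : ℂ, 0 ≤ u.im ∧ G l u = 0
    · exact Or.inl ⟨hl, h⟩
    · push Not at h
      exact Or.inr (hbd l h)
  have h0T' : (0 : ℝ) ∈ T' := by
    refine hbd 0 fun u hu h0 => ?_
    by_cases hu0 : u = 0
    · exact hreal 0 u (by rw [hu0]; rfl) h0
    · have h3 : G 0 u = u ^ N * aeval (fun i => (b i : ℂ) + δ * Complex.I / u) f := by
        rw [← aeval_smul_hom hf]
        simp only [hG]
        congr 2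
        funext i
        field_simp
        push_cast
        ring
      rw [h3] at h0
      rcases mul_eq_zero.1 h0 with h4 | h4
      · exact hu0 (eq_zero_of_pow_eq_zero h4)
      · refine aeval_shift_ne hs hb (δ * Complex.I / u) ?_ h4
        rw [Complex.div_re]
        simp only [Complex.mul_re, Complex.ofReal_re, Complex.I_re, mul_zero, Complex.ofReal_im,
          Complex.I_im, mul_one, sub_self, zero_mul, zero_div, Complex.mul_im, zero_add]
        have := Complex.normSq_nonneg u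
        positivity
  have h1T' : (1 : ℝ) ∈ T' := by
    by_contra h1
    have h2 : (1 : ℝ) ∈ T := by
      rcases hcov ⟨zero_le_one, le_rfl⟩ with h | h
      · exact h
      · exact absurd h h1
    obtain ⟨l, -, hl, hl'⟩ := isPreconnected_closed_iff.1 isPreconnected_Icc T T' hTc hTc' hcov
      ⟨1, ⟨zero_le_one, le_rfl⟩, h2⟩ ⟨0, ⟨le_rfl, zero_le_one⟩, h0T'⟩
    obtain ⟨-, u, hu, h0⟩ := hl
    rcases hu.lt_or_eq with h | h
    · have h3 := hl' u hu
      rw [h0, norm_zero] at h3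
      have h4 : 0 < ‖B‖ * u.im ^ N := mul_pos (norm_pos_iff.2 hB0) (pow_pos h N)
      linarith
    · exact hreal l u h.symm h0
  have h5 := h1T' u hu
  simp only [hG] at h5
  refine h5.trans_eq ?_
  congr 3
  funext i
  push_cast
  ring

/-- real-rootedness along the directions of the cone -/
theorem garding {f : MvPolynomial σ ℝ} {N : ℕ} (hf : f.IsHomogeneous N) (hs : RStable f)
    {b : σ → ℝ} (hb : Cone f b) (d : σ → ℝ) (u : ℂ) (hu : u.im ≠ 0) :
    aeval (fun i => (d i : ℂ) + b i * u) f ≠ 0 := by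
  have hB0 : aeval (fun i => (b i : ℂ)) f ≠ 0 := by
    have := hb 0 le_rfl
    simpa using this
  have key : ∀ u : ℂ, 0 < u.im → aeval (fun i => (d i : ℂ) + b i * u) f ≠ 0 := by
    intro u hu h0
    have h1 : Filter.Tendsto (fun δ : ℝ =>
        ‖aeval (fun i => ((d i : ℂ) + δ * Complex.I) + b i * u) f‖) (nhdsWithin 0 (Set.Ioi 0))
        (nhds ‖aeval (fun i => (d i : ℂ) + b i * u) f‖) := by
      have h2 : Continuous fun δ : ℝ =>
          ‖aeval (fun i => ((d i : ℂ) + δ * Complex.I) + b i * u) f‖ := by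
        refine ((continuous_aeval f).comp (continuous_pi fun i => ?_)).norm
        fun_prop
      have h3 := (h2.tendsto 0).mono_left (nhdsWithin_le_nhds (s := Set.Ioi (0 : ℝ)))
      simpa using h3
    have h2 : ‖aeval (fun i => (b i : ℂ)) f‖ * u.im ^ N ≤
        ‖aeval (fun i => (d i : ℂ) + b i * u) f‖ := by
      refine ge_of_tendsto h1 ?_
      filter_upwards [self_mem_nhdsWithin] with δ hδ
      exact garding_bound hf hs hb d hδ u hu.le
    rw [h0, norm_zero] at h2
    have h4 : 0 < ‖aeval (fun i => (b i : ℂ)) f‖ * u.im ^ N :=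
      mul_pos (norm_pos_iff.2 hB0) (pow_pos hu N)
    linarith
  rcases lt_or_gt_of_ne hu with h | h
  · intro h0
    have h1 := aeval_conj f fun i => (d i : ℂ) + b i * u
    rw [h0, map_zero] at h1
    refine key ((starRingEnd ℂ) u) (by rw [Complex.conj_im]; linarith) ?_
    rw [← h1]
    congr 2
    funext i
    simp
  · exact key u h

/-- a real polynomial with real zeros only is log-concave -/
theorem real_rooted_ineq (g : Polynomial ℝ)
    (hg : ∀ z : ℂ, z.im ≠ 0 → Polynomial.aeval z g ≠ 0) (x : ℝ) :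
    g.eval x * g.derivative.derivative.eval x ≤ g.derivative.eval x ^ 2 := by
  induction hn : g.natDegree using Nat.strong_induction_on generalizing g with
  | _ n ih =>
    by_cases hd : g.natDegree = 0
    · rw [Polynomial.eq_C_of_natDegree_eq_zero hd]
      simp
    · have h1 : (g.map (algebraMap ℝ ℂ)).degree ≠ 0 := by
        intro h
        rw [Polynomial.degree_map] at h
        exact hd (Polynomial.natDegree_eq_of_degree_eq_some h)
      obtain ⟨z, hz⟩ := IsAlgClosed.exists_root (g.map (algebraMap ℝ ℂ)) h1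
      rw [Polynomial.IsRoot, Polynomial.eval_map_algebraMap] at hz
      have him : z.im = 0 := by
        by_contra h
        exact hg z h hz
      have hz2 : z = ((z.re : ℝ) : ℂ) := by
        apply Complex.ext
        · simp
        · simp [him]
      have hroot : g.IsRoot z.re := by
        rw [hz2] at hz
        have h2 : Polynomial.aeval ((z.re : ℝ) : ℂ) g = ((g.eval z.re : ℝ) : ℂ) :=
          Polynomial.aeval_algebraMap_apply_eq_algebraMap_eval z.re g
        rw [h2] at hz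
        exact_mod_cast hz
      obtain ⟨h, rfl⟩ := Polynomial.dvd_iff_isRoot.2 hroot
      have hh0 : h ≠ 0 := by
        rintro rfl
        rw [mul_zero, Polynomial.natDegree_zero] at hd
        exact hd rfl
      have hlt : h.natDegree < n := by
        rw [← hn, Polynomial.natDegree_mul (Polynomial.X_sub_C_ne_zero _) hh0,
          Polynomial.natDegree_X_sub_C]
        omega
      have h3 := ih _ hlt h (fun w hw h0 => hg w hw (by rw [map_mul, h0, mul_zero])) rfl
      have e1 : ((Polynomial.X - Polynomial.C z.re) * h).derivative =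
          h + (Polynomial.X - Polynomial.C z.re) * h.derivative := by
        rw [Polynomial.derivative_mul]
        simp
      have e2 : ((Polynomial.X - Polynomial.C z.re) * h).derivative.derivative =
          2 * h.derivative + (Polynomial.X - Polynomial.C z.re) * h.derivative.derivative := by
        rw [e1, Polynomial.derivative_add, Polynomial.derivative_mul]
        simp
        ring
      rw [e2, e1]
      simp only [Polynomial.eval_mul, Polynomial.eval_add, Polynomial.eval_sub, Polynomial.eval_X,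
        Polynomial.eval_C, Polynomial.eval_ofNat]
      nlinarith [sq_nonneg (h.eval x), sq_nonneg (x - z.re),
        mul_nonneg (sq_nonneg (x - z.re)) (sub_nonneg.2 h3)]

/-- the real restriction to a line -/
noncomputable def lineR (f : MvPolynomial σ ℝ) (p q : σ → ℝ) : Polynomial ℝ :=
  aeval (fun i => Polynomial.C (p i) + Polynomial.C (q i) * Polynomial.X) f

omit [Fintype σ] in
theorem lineR_aeval (f : MvPolynomial σ ℝ) (p q : σ → ℝ) (u : ℂ) :
    Polynomial.aeval u (lineR f p q) = aeval (fun i => (p i : ℂ) + q i * u) f := by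
  rw [lineR]
  have h := comp_aeval_apply (R := ℝ)
    (f := fun i => Polynomial.C (p i) + Polynomial.C (q i) * Polynomial.X)
    (Polynomial.aeval u : Polynomial ℝ →ₐ[ℝ] ℂ) f
  rw [h]
  congr 2
  funext i
  simp

/-- **Log-concavity at the points of the cone.** -/
theorem garding_ineq {f : MvPolynomial σ ℝ} {N : ℕ} (hf : f.IsHomogeneous N) (hs : RStable f)
    {b : σ → ℝ} (hb : Cone f b) (d : σ → ℝ) :
    (lineR f b d).coeff 0 * (2 * (lineR f b d).coeff 2) ≤ (lineR f b d).coeff 1 ^ 2 := by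
  have h := real_rooted_ineq (lineR f b d) (fun z hz h0 => by
    rw [lineR_aeval] at h0
    have hz0 : z ≠ 0 := by
      rintro rfl
      exact hz rfl
    have h1 : aeval (fun i => (b i : ℂ) + d i * z) f =
        z ^ N * aeval (fun i => (d i : ℂ) + b i * z⁻¹) f := by
      rw [← aeval_smul_hom hf]
      congr 2
      funext i
      field_simp
      ring
    rw [h1] at h0
    rcases mul_eq_zero.1 h0 with h4 | h4
    · exact hz0 (eq_zero_of_pow_eq_zero h4)
    · refine garding hf hs hb d z⁻¹ ?_ h4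
      rw [Complex.inv_im]
      exact div_ne_zero (neg_ne_zero.2 hz) (Complex.normSq_pos.2 hz0).ne') 0
  rw [← Polynomial.coeff_zero_eq_eval_zero, ← Polynomial.coeff_zero_eq_eval_zero,
    ← Polynomial.coeff_zero_eq_eval_zero, Polynomial.coeff_derivative,
    Polynomial.coeff_derivative, Polynomial.coeff_derivative] at h
  norm_num at h
  linarith

end Vale.Agent.P361.LRO.T1
end

section

/-!
# Strong Rayleigh property, `θ ≥ 0` (P361, block SR)
-/

namespace Vale.Agent.P361.LRO.SR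

open Finset

variable {X : Type} [Fintype X] [DecidableEq X]

/-- exponent of the node `x` -/
def expo (π : Equiv.Perm X) (s : X → Fin 2) (x : X) : ℕ :=
  if s x = s (π x) then 1 else if s x = 1 then 2 else 0

omit [DecidableEq X] in
theorem sum_expo (π : Equiv.Perm X) (s : X → Fin 2) : ∑ x, expo π s x = Fintype.card X := by
  have h1 : ∀ x, expo π s x + (s (π x) : ℕ) = 1 + (s x : ℕ) := by
    intro x
    rw [expo]
    by_cases h : s x = s (π x)
    · rw [if_pos h, h]
    · rw [if_neg h]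
      by_cases h3 : s x = 1
      · have h4 : s (π x) = 0 := by
          have : s (π x) ≠ 1 := fun h' => h (h3.trans h'.symm)
          omega
        simp [h3, h4]
      · have h5 : s x = 0 := by omega
        have h4 : s (π x) = 1 := by omega
        simp [h5, h4]
  have h2 := Finset.sum_congr (rfl : (univ : Finset X) = univ) fun x _ => h1 x
  rw [Finset.sum_add_distrib, Finset.sum_add_distrib,
    Equiv.sum_comp π (fun x => (s x : ℕ))] at h2
  simpa using h2

/-- the generating polynomial -/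
noncomputable def genP (μ : Equiv.Perm X → ℝ) (θ : X → ℝ) : MvPolynomial X ℝ :=
  ∑ π : Equiv.Perm X, ∑ s : X → Fin 2, MvPolynomial.C (μ π * wt θ π s) *
    ∏ x, MvPolynomial.X x ^ expo π s x

theorem genP_hom (μ : Equiv.Perm X → ℝ) (θ : X → ℝ) :
    (genP μ θ).IsHomogeneous (Fintype.card X) := by
  refine MvPolynomial.IsHomogeneous.sum _ _ _ fun π _ =>
    MvPolynomial.IsHomogeneous.sum _ _ _ fun s _ => ?_
  have h1 : (∏ x, (MvPolynomial.X x : MvPolynomial X ℝ) ^ expo π s x).IsHomogeneous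
      (∑ x, expo π s x) :=
    MvPolynomial.IsHomogeneous.prod _ _ _ fun x _ => by
      simpa using (MvPolynomial.isHomogeneous_X ℝ x).pow (expo π s x)
  rw [sum_expo] at h1
  have h2 := (MvPolynomial.isHomogeneous_C X (μ π * wt θ π s)).mul h1
  simpa using h2

theorem aeval_genP (μ : Equiv.Perm X → ℝ) (θ : X → ℝ) (ζ : X → ℂ) :
    MvPolynomial.aeval ζ (genP μ θ) = gen μ θ ζ := by
  rw [genP, map_sum, gen]
  refine Finset.sum_congr rfl fun π _ => ?_
  rw [map_sum]
  refine Finset.sum_congr rfl fun s _ => ?_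
  rw [map_mul, map_prod, MvPolynomial.aeval_C]
  congr 1
  refine Finset.prod_congr rfl fun x _ => ?_
  rw [map_pow, MvPolynomial.aeval_X, expo]
  split_ifs <;> simp

theorem gen_lower {μ : Equiv.Perm X → ℝ} {θ : X → ℝ} (h : Stable μ θ) {ζ : X → ℂ}
    (hζ : ∀ x, 0 < (ζ x).im) (hb0 : gen μ θ (fun x => ((ζ x).im : ℂ)) ≠ 0) :
    ‖gen μ θ (fun x => ((ζ x).im : ℂ))‖ * (1 / 2) ^ Fintype.card X ≤ ‖gen μ θ ζ‖ := by
  set p : X → ℂ := fun x => ((ζ x).re : ℂ) + ((ζ x).im / 2 : ℝ) * Complex.I with hp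
  set q : X → ℂ := fun x => ((ζ x).im : ℂ) with hq
  obtain ⟨h1, h2⟩ := T1.line_degree (genP_hom μ θ) p q
  rw [aeval_genP] at h2
  have h3 := T1.eval_norm_ge (T1.line (genP μ θ) p q) (Fintype.card X) h1 (by rw [h2]; exact hb0)
    (fun u hu => ?_) (Complex.I / 2) (by simp)
  · rw [h2, T1.line_eval, aeval_genP] at h3
    have e : (fun i => p i + q i * (Complex.I / 2)) = ζ := by
      funext x
      apply Complex.ext
      · simp [hp, hq]
      · simp [hp, hq]
        ring
    rw [e] at h3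
    have e2 : (Complex.I / 2).im = 1 / 2 := by simp
    rw [e2] at h3
    exact h3
  · rw [T1.line_eval, aeval_genP]
    refine h _ fun x => ?_
    have : (p x + q x * u).im = (ζ x).im / 2 + (ζ x).im * u.im := by
      simp [hp, hq]
    rw [this]
    have h4 := hζ x
    have : 0 ≤ (ζ x).im * u.im := mul_nonneg h4.le hu
    linarith

theorem continuous_gen (μ : Equiv.Perm X → ℝ) (ζ : X → ℂ) : Continuous fun θ : X → ℝ =>
    gen μ θ ζ := by
  unfold gen wt
  refine continuous_finsetSum _ fun π _ => continuous_finsetSum _ fun s _ => ?_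
  refine Continuous.mul ?_ continuous_const
  refine Complex.continuous_ofReal.comp (continuous_const.mul ?_)
  refine continuous_finsetProd _ fun x _ => ?_
  split_ifs
  · exact continuous_const
  · exact continuous_apply x

theorem gen_pos {μ : Equiv.Perm X → ℝ} (hμ0 : ∀ π, 0 ≤ μ π) (hμ1 : 0 < ∑ π, μ π) {θ : X → ℝ}
    (hθ : ∀ x, 0 ≤ θ x) {b : X → ℝ} (hb : ∀ x, 0 < b x) :
    gen μ θ (fun x => (b x : ℂ)) ≠ 0 := by
  have e : gen μ θ (fun x => (b x : ℂ)) = ((∑ π : Equiv.Perm X, ∑ s : X → Fin 2, μ π * wt θ π s *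
      ∏ x, (if s x = s (π x) then b x else if s x = 1 then b x ^ 2 else 1) : ℝ) : ℂ) := by
    rw [gen]
    push_cast
    refine Finset.sum_congr rfl fun π _ => Finset.sum_congr rfl fun s _ => ?_
    congr 1
    refine Finset.prod_congr rfl fun x _ => ?_
    split_ifs <;> simp
  rw [e, Complex.ofReal_ne_zero]
  apply ne_of_gt
  have hP : ∀ (π : Equiv.Perm X) (s : X → Fin 2),
      0 < ∏ x, (if s x = s (π x) then b x else if s x = 1 then b x ^ 2 else 1) := fun π s =>
    Finset.prod_pos fun x _ => by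
      have := hb x
      split_ifs <;> positivity
  have hw : ∀ (π : Equiv.Perm X) (s : X → Fin 2), 0 ≤ wt θ π s := fun π s =>
    Finset.prod_nonneg fun x _ => by
      split_ifs
      · exact zero_le_one
      · exact hθ x
  have h1 : 0 < ∑ π : Equiv.Perm X, μ π * ∏ x, b x := by
    rw [← Finset.sum_mul]
    exact mul_pos hμ1 (Finset.prod_pos fun x _ => hb x)
  refine h1.trans_le (Finset.sum_le_sum fun π _ => ?_)
  have h2 := Finset.single_le_sum (f := fun s : X → Fin 2 => μ π * wt θ π s *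
      ∏ x, (if s x = s (π x) then b x else if s x = 1 then b x ^ 2 else 1))
    (fun s _ => mul_nonneg (mul_nonneg (hμ0 π) (hw π s)) (hP π s).le)
    (mem_univ (fun _ : X => (0 : Fin 2)))
  refine le_trans (le_of_eq ?_) h2
  simp [wt]

/-- closure of stability in `θ` -/
theorem stable_closure {μ : Equiv.Perm X → ℝ} (hμ0 : ∀ π, 0 ≤ μ π) (hμ1 : 0 < ∑ π, μ π)
    (h : ∀ θ : X → ℝ, (∀ x, 0 < θ x ∧ θ x ≤ 1) → Stable μ θ) {θ : X → ℝ}
    (hθ : ∀ x, 0 ≤ θ x ∧ θ x ≤ 1) : Stable μ θ := by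
  intro ζ hζ h0
  set g : ℝ → X → ℝ := fun ε x => max (θ x) ε with hg
  have hgc : Continuous g := continuous_pi fun x => continuous_const.max continuous_id
  have hg0 : g 0 = θ := by
    funext x
    exact max_eq_left (hθ x).1
  have hc1 : Continuous fun ε => ‖gen μ (g ε) ζ‖ := ((continuous_gen μ ζ).comp hgc).norm
  have hc2 : Continuous fun ε => ‖gen μ (g ε) (fun x => ((ζ x).im : ℂ))‖ *
      (1 / 2) ^ Fintype.card X :=
    (((continuous_gen μ _).comp hgc).norm).mul continuous_const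
  have hle : ‖gen μ (g 0) (fun x => ((ζ x).im : ℂ))‖ * (1 / 2) ^ Fintype.card X ≤
      ‖gen μ (g 0) ζ‖ := by
    have t1 : Filter.Tendsto (fun ε => ‖gen μ (g ε) ζ‖) (nhdsWithin 0 (Set.Ioi 0))
        (nhds ‖gen μ (g 0) ζ‖) := (hc1.tendsto 0).mono_left nhdsWithin_le_nhds
    have t2 : Filter.Tendsto (fun ε => ‖gen μ (g ε) (fun x => ((ζ x).im : ℂ))‖ *
        (1 / 2) ^ Fintype.card X) (nhdsWithin 0 (Set.Ioi 0))
        (nhds (‖gen μ (g 0) (fun x => ((ζ x).im : ℂ))‖ * (1 / 2) ^ Fintype.card X)) :=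
      (hc2.tendsto 0).mono_left nhdsWithin_le_nhds
    refine le_of_tendsto_of_tendsto t2 t1 ?_
    have hmem : Set.Ioc (0 : ℝ) 1 ∈ nhdsWithin (0 : ℝ) (Set.Ioi 0) :=
      Ioc_mem_nhdsGT one_pos
    filter_upwards [hmem] with ε hε
    refine gen_lower (h (g ε) fun x => ⟨lt_max_of_lt_right hε.1, max_le (hθ x).2 hε.2⟩) hζ ?_
    exact gen_pos hμ0 hμ1 (fun x => le_max_of_le_left (hθ x).1) hζ
  rw [hg0, h0, norm_zero] at hle
  have h1 : 0 < ‖gen μ θ (fun x => ((ζ x).im : ℂ))‖ * (1 / 2) ^ Fintype.card X :=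
    mul_pos (norm_pos_iff.2 (gen_pos hμ0 hμ1 (fun x => (hθ x).1) hζ)) (by positivity)
  linarith

theorem law_nonneg' {l : List (X × X × ℝ)} (hl : ∀ g ∈ l, 0 ≤ g.2.2 ∧ g.2.2 ≤ 1 / 2)
    (σ π : Equiv.Perm X) : 0 ≤ law l σ π := by
  induction l generalizing π with
  | nil =>
    rw [law]
    by_cases h : π = σ
    · subst h; simp
    · rw [Pi.single_eq_of_ne h]
  | cons g l ih =>
    obtain ⟨h0, h1⟩ := hl g List.mem_cons_self
    have ih' := fun π => ih (fun g' hg' => hl g' (List.mem_cons_of_mem _ hg')) π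
    rw [law]
    have := ih' π
    have := ih' (Equiv.swap g.1 g.2.1 * π)
    have : 0 ≤ 1 - g.2.2 := by linarith
    positivity

theorem law_sum' (l : List (X × X × ℝ)) (σ : Equiv.Perm X) : ∑ π, law l σ π = 1 := by
  induction l with
  | nil => simp [law]
  | cons g l ih =>
    have h1 : ∑ π, law l σ (Equiv.swap g.1 g.2.1 * π) = ∑ π, law l σ π :=
      Equiv.sum_comp (Equiv.mulLeft (Equiv.swap g.1 g.2.1)) (law l σ)
    simp only [law]
    rw [Finset.sum_add_distrib, ← Finset.mul_sum, ← Finset.mul_sum, h1, ih]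
    ring

/-- **The charge law is strong Rayleigh.** -/
theorem stable_of_isLaw {μ : Equiv.Perm X → ℝ} (hμ : IsLaw μ) {θ : X → ℝ}
    (hθ : ∀ x, 0 ≤ θ x ∧ θ x ≤ 1) : Stable μ θ := by
  obtain ⟨l, σ, hl, h⟩ := id hμ
  refine stable_closure (fun π => ?_) ?_ (fun θ hθ => stable_of_isLaw_pos hμ hθ) hθ
  · rw [h]; exact law_nonneg' hl σ π
  · rw [h, law_sum']; exact one_pos

end Vale.Agent.P361.LRO.SR
end

section

/-!
# Network ODE (note 9886, step (3)): abstract form

`c s x y` is a time dependent symmetric family of conductances on a finite set.  If the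
derivative of the quadratic form is bounded below by the one-node inequality, then the
capacity between two electrodes loses at most the factor `exp (-4 ε s*)` and an additive
`2 ε B exp (-s*)`.
-/

namespace P361.LRO

open Finset Set Filter Topology

variable {V : Type*} [Fintype V] [DecidableEq V]

/-- Dirichlet form of the (symmetric) weight `c`. -/
noncomputable def netK (c : V → V → ℝ) (a : V → ℝ) : ℝ :=
  (1 / 2) * ∑ x, ∑ y, c x y * (a x - a y) ^ 2

/-- `(K a)_z`. -/
noncomputable def netQ (c : V → V → ℝ) (a : V → ℝ) (z : V) : ℝ :=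
  ∑ x, c z x * (a z - a x)

/-- The star energy of the node `z`. -/
noncomputable def netStar (c : V → V → ℝ) (a : V → ℝ) (z : V) : ℝ :=
  ∑ x, c z x * (a x - a z) ^ 2

/-- Total conductance of the node `z`. -/
noncomputable def netV (c : V → V → ℝ) (z : V) : ℝ := ∑ x, c z x

/-- Admissible potentials. -/
def netAdm (E G : Set V) : Set (V → ℝ) :=
  {u | (∀ x, 0 ≤ u x ∧ u x ≤ 1) ∧ (∀ x ∈ E, u x = 1) ∧ (∀ x ∈ G, u x = 0)}

/-- Capacity between the electrodes `E` (potential one) and `G` (potential zero). -/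
noncomputable def netCap (c : V → V → ℝ) (E G : Set V) : ℝ :=
  sInf (netK c '' netAdm E G)

omit [DecidableEq V] in
theorem netK_nonneg {c : V → V → ℝ} (hc : ∀ x y, 0 ≤ c x y) (a : V → ℝ) : 0 ≤ netK c a := by
  unfold netK
  have : 0 ≤ ∑ x, ∑ y, c x y * (a x - a y) ^ 2 :=
    Finset.sum_nonneg fun x _ => Finset.sum_nonneg fun y _ => mul_nonneg (hc x y) (sq_nonneg _)
  linarith

omit [DecidableEq V] in
theorem netStar_nonneg {c : V → V → ℝ} (hc : ∀ x y, 0 ≤ c x y) (a : V → ℝ) (z : V) :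
    0 ≤ netStar c a z :=
  Finset.sum_nonneg fun x _ => mul_nonneg (hc z x) (sq_nonneg _)

omit [DecidableEq V] in
theorem sum_netStar (c : V → V → ℝ) (a : V → ℝ) : ∑ z, netStar c a z = 2 * netK c a := by
  unfold netStar netK
  have : ∀ z x : V, c z x * (a x - a z) ^ 2 = c z x * (a z - a x) ^ 2 := fun z x => by ring
  simp only [this]
  ring

omit [DecidableEq V] in
theorem netStar_le_netV {c : V → V → ℝ} (hc : ∀ x y, 0 ≤ c x y) {a : V → ℝ}
    (ha : ∀ x, 0 ≤ a x ∧ a x ≤ 1) (z : V) : netStar c a z ≤ netV c z := by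
  unfold netStar netV
  refine Finset.sum_le_sum fun x _ => ?_
  have h1 : (a x - a z) ^ 2 ≤ 1 := by
    have hx := ha x; have hz := ha z
    nlinarith [hx.1, hx.2, hz.1, hz.2]
  calc c z x * (a x - a z) ^ 2 ≤ c z x * 1 := mul_le_mul_of_nonneg_left h1 (hc z x)
    _ = c z x := mul_one _

omit [DecidableEq V] in
theorem netK_sub_abs_le (c d : V → V → ℝ) {a : V → ℝ} (ha : ∀ x, 0 ≤ a x ∧ a x ≤ 1) :
    |netK c a - netK d a| ≤ ∑ x, ∑ y, |c x y - d x y| := by
  have h : netK c a - netK d a = (1 / 2) * ∑ x, ∑ y, (c x y - d x y) * (a x - a y) ^ 2 := by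
    unfold netK
    rw [← mul_sub, ← Finset.sum_sub_distrib]
    congr 1
    refine Finset.sum_congr rfl fun x _ => ?_
    rw [← Finset.sum_sub_distrib]
    exact Finset.sum_congr rfl fun y _ => by ring
  rw [h, abs_mul]
  have h2 : |∑ x, ∑ y, (c x y - d x y) * (a x - a y) ^ 2| ≤ ∑ x, ∑ y, |c x y - d x y| := by
    refine (Finset.abs_sum_le_sum_abs _ _).trans (Finset.sum_le_sum fun x _ => ?_)
    refine (Finset.abs_sum_le_sum_abs _ _).trans (Finset.sum_le_sum fun y _ => ?_)
    rw [abs_mul]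
    have h1 : |(a x - a y) ^ 2| ≤ 1 := by
      rw [abs_of_nonneg (sq_nonneg _)]
      have hx := ha x; have hz := ha y
      nlinarith [hx.1, hx.2, hz.1, hz.2]
    calc |c x y - d x y| * |(a x - a y) ^ 2| ≤ |c x y - d x y| * 1 :=
          mul_le_mul_of_nonneg_left h1 (abs_nonneg _)
      _ = _ := mul_one _
  have h3 : |(1 / 2 : ℝ)| = 1 / 2 := abs_of_pos (by norm_num)
  rw [h3]
  have h4 : 0 ≤ ∑ x, ∑ y, |c x y - d x y| :=
    Finset.sum_nonneg fun x _ => Finset.sum_nonneg fun y _ => abs_nonneg _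
  linarith

omit [DecidableEq V] in
theorem netQ_sub_abs_le (c d : V → V → ℝ) {a : V → ℝ} (ha : ∀ x, 0 ≤ a x ∧ a x ≤ 1) (z : V) :
    |netQ c a z - netQ d a z| ≤ ∑ x, ∑ y, |c x y - d x y| := by
  have h : netQ c a z - netQ d a z = ∑ x, (c z x - d z x) * (a z - a x) := by
    unfold netQ
    rw [← Finset.sum_sub_distrib]
    exact Finset.sum_congr rfl fun x _ => by ring
  rw [h]
  have h2 : |∑ x, (c z x - d z x) * (a z - a x)| ≤ ∑ x, |c z x - d z x| := by
    refine (Finset.abs_sum_le_sum_abs _ _).trans (Finset.sum_le_sum fun x _ => ?_)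
    rw [abs_mul]
    have h1 : |a z - a x| ≤ 1 := by
      have hx := ha x; have hz := ha z
      rw [abs_le]; constructor <;> linarith [hx.1, hx.2, hz.1, hz.2]
    calc |c z x - d z x| * |a z - a x| ≤ |c z x - d z x| * 1 :=
          mul_le_mul_of_nonneg_left h1 (abs_nonneg _)
      _ = _ := mul_one _
  refine h2.trans ?_
  exact Finset.single_le_sum (f := fun x => ∑ y, |c x y - d x y|)
    (fun x _ => Finset.sum_nonneg fun y _ => abs_nonneg _) (Finset.mem_univ z)

omit [DecidableEq V] in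
theorem continuous_netK (c : V → V → ℝ) : Continuous (netK c) := by
  unfold netK
  fun_prop

omit [Fintype V] [DecidableEq V] in
theorem isCompact_netAdm (E G : Set V) : IsCompact (netAdm E G) := by
  have h : netAdm E G = (Set.pi Set.univ fun _ : V => Set.Icc (0 : ℝ) 1) ∩
      {u | (∀ x ∈ E, u x = 1) ∧ (∀ x ∈ G, u x = 0)} := by
    ext u
    simp only [netAdm, Set.mem_ofPred_eq, Set.mem_inter_iff, Set.mem_pi, Set.mem_univ,
      forall_true_left, Set.mem_Icc]
  rw [h]
  refine (isCompact_univ_pi fun _ => isCompact_Icc).inter_right ?_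
  have h1 : IsClosed {u : V → ℝ | ∀ x ∈ E, u x = 1} := by
    simp only [Set.ofPred_forall]
    exact isClosed_iInter fun x => isClosed_iInter fun _ =>
      isClosed_eq (continuous_apply x) continuous_const
  have h2 : IsClosed {u : V → ℝ | ∀ x ∈ G, u x = 0} := by
    simp only [Set.ofPred_forall]
    exact isClosed_iInter fun x => isClosed_iInter fun _ =>
      isClosed_eq (continuous_apply x) continuous_const
  exact h1.inter h2

omit [Fintype V] [DecidableEq V] in
theorem nonempty_netAdm {E G : Set V} (hEG : Disjoint E G) : (netAdm E G).Nonempty := by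
  classical
  refine ⟨fun x => if x ∈ E then 1 else 0, ?_, ?_, ?_⟩
  · intro x
    by_cases hx : x ∈ E <;> simp [hx]
  · intro x hx; simp [hx]
  · intro x hx
    have : x ∉ E := fun h => (Set.disjoint_left.mp hEG h) hx
    simp [this]

omit [DecidableEq V] in
theorem exists_min (c : V → V → ℝ) {E G : Set V} (hEG : Disjoint E G) :
    ∃ u ∈ netAdm E G, netK c u = netCap c E G ∧ ∀ w ∈ netAdm E G, netK c u ≤ netK c w := by
  obtain ⟨u, hu, hmin⟩ := (isCompact_netAdm E G).exists_isMinOn (nonempty_netAdm hEG)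
    (continuous_netK c).continuousOn
  have hm : ∀ w ∈ netAdm E G, netK c u ≤ netK c w := fun w hw => hmin hw
  refine ⟨u, hu, ?_, hm⟩
  unfold netCap
  refine le_antisymm ?_ ?_
  · refine le_csInf ⟨_, Set.mem_image_of_mem _ hu⟩ ?_
    rintro _ ⟨w, hw, rfl⟩
    exact hm w hw
  · refine csInf_le ⟨netK c u, ?_⟩ (Set.mem_image_of_mem _ hu)
    rintro _ ⟨w, hw, rfl⟩
    exact hm w hw

omit [DecidableEq V] in
theorem netCap_le {c : V → V → ℝ} (hc : ∀ x y, 0 ≤ c x y) {E G : Set V} {w : V → ℝ}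
    (hw : w ∈ netAdm E G) : netCap c E G ≤ netK c w := by
  unfold netCap
  refine csInf_le ⟨0, ?_⟩ (Set.mem_image_of_mem _ hw)
  rintro _ ⟨w, _, rfl⟩
  exact netK_nonneg hc w

omit [DecidableEq V] in
theorem netCap_nonneg {c : V → V → ℝ} (hc : ∀ x y, 0 ≤ c x y) {E G : Set V}
    (hEG : Disjoint E G) : 0 ≤ netCap c E G := by
  obtain ⟨u, _, h, _⟩ := exists_min c hEG
  rw [← h]; exact netK_nonneg hc u

/-- Truncation to `[0,1]`. -/
noncomputable def trunc01 (a : V → ℝ) : V → ℝ := fun x => max 0 (min 1 (a x))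

omit [Fintype V] [DecidableEq V] in
theorem trunc01_lip (s t : ℝ) : (max 0 (min 1 s) - max 0 (min 1 t)) ^ 2 ≤ (s - t) ^ 2 := by
  have h : |max 0 (min 1 s) - max 0 (min 1 t)| ≤ |s - t| := by
    have h1 : |max 0 (min 1 s) - max 0 (min 1 t)| ≤ |min 1 s - min 1 t| := by
      have := abs_max_sub_max_le_abs (min 1 s) (min 1 t) 0
      simpa [max_comm] using this
    have h2 : |min 1 s - min 1 t| ≤ |s - t| := by
      have := abs_min_sub_min_le_max 1 s 1 t
      simpa using this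
    exact h1.trans h2
  exact sq_le_sq.mpr h

omit [DecidableEq V] in
theorem netK_trunc01_le {c : V → V → ℝ} (hc : ∀ x y, 0 ≤ c x y) (a : V → ℝ) :
    netK c (trunc01 a) ≤ netK c a := by
  unfold netK trunc01
  have : ∑ x, ∑ y, c x y * (max 0 (min 1 (a x)) - max 0 (min 1 (a y))) ^ 2 ≤
      ∑ x, ∑ y, c x y * (a x - a y) ^ 2 :=
    Finset.sum_le_sum fun x _ => Finset.sum_le_sum fun y _ =>
      mul_le_mul_of_nonneg_left (trunc01_lip _ _) (hc x y)
  linarith

omit [Fintype V] [DecidableEq V] in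
theorem trunc01_mem {E G : Set V} {a : V → ℝ} (hE : ∀ x ∈ E, a x = 1) (hG : ∀ x ∈ G, a x = 0) :
    trunc01 a ∈ netAdm E G := by
  refine ⟨fun x => ⟨le_max_left _ _, ?_⟩, fun x hx => ?_, fun x hx => ?_⟩
  · exact max_le (by norm_num) (min_le_left _ _)
  · simp [trunc01, hE x hx]
  · simp [trunc01, hG x hx]

omit [DecidableEq V] in
/-- the capacity is a lower bound without the restriction to `[0,1]`. -/
theorem netCap_le' {c : V → V → ℝ} (hc : ∀ x y, 0 ≤ c x y) {E G : Set V} {w : V → ℝ}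
    (hE : ∀ x ∈ E, w x = 1) (hG : ∀ x ∈ G, w x = 0) : netCap c E G ≤ netK c w :=
  (netCap_le hc (trunc01_mem hE hG)).trans (netK_trunc01_le hc w)

theorem netK_add_single {c : V → V → ℝ} (hsymm : ∀ x y, c x y = c y x) (a : V → ℝ) (z : V)
    (t : ℝ) :
    netK c (a + Pi.single z t) = netK c a + 2 * t * netQ c a z + t ^ 2 * netK c (Pi.single z 1) := by
  have hexp : netK c (a + Pi.single z t) = netK c a
      + t * ∑ x, ∑ y, c x y * ((a x - a y) * ((Pi.single z (1:ℝ) : V → ℝ) x - (Pi.single z (1:ℝ) : V → ℝ) y))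
      + t ^ 2 * netK c (Pi.single z 1) := by
    unfold netK
    have hs : ∀ x, (a + (Pi.single z t : V → ℝ)) x = a x + t * (Pi.single z (1:ℝ) : V → ℝ) x := by
      intro x
      by_cases hx : x = z
      · subst hx; simp
      · simp [Pi.single_eq_of_ne hx]
    simp only [hs, Finset.mul_sum, ← Finset.sum_add_distrib]
    refine Finset.sum_congr rfl fun x _ => Finset.sum_congr rfl fun y _ => ?_
    ring
  have hlin : ∑ x, ∑ y, c x y * ((a x - a y) * ((Pi.single z (1:ℝ) : V → ℝ) x - (Pi.single z (1:ℝ) : V → ℝ) y))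
      = 2 * netQ c a z := by
    have h1 : ∑ x, ∑ y, c x y * ((a x - a y) * ((Pi.single z (1:ℝ) : V → ℝ) x - (Pi.single z (1:ℝ) : V → ℝ) y))
        = ∑ x, ∑ y, (Pi.single z (1:ℝ) : V → ℝ) x * (c x y * (a x - a y))
          + ∑ x, ∑ y, (Pi.single z (1:ℝ) : V → ℝ) y * (c x y * (a y - a x)) := by
      rw [← Finset.sum_add_distrib]
      refine Finset.sum_congr rfl fun x _ => ?_
      rw [← Finset.sum_add_distrib]
      exact Finset.sum_congr rfl fun y _ => by ring
    have h2 : ∑ x, ∑ y, (Pi.single z (1:ℝ) : V → ℝ) x * (c x y * (a x - a y)) = netQ c a z := by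
      unfold netQ
      rw [Finset.sum_eq_single z]
      · simp
      · intro x _ hx; simp [Pi.single_eq_of_ne hx]
      · intro h; exact absurd (Finset.mem_univ z) h
    have h3 : ∑ x, ∑ y, (Pi.single z (1:ℝ) : V → ℝ) y * (c x y * (a y - a x)) = netQ c a z := by
      rw [Finset.sum_comm, ← h2]
      refine Finset.sum_congr rfl fun x _ => Finset.sum_congr rfl fun y _ => ?_
      rw [hsymm y x]
    rw [h1, h2, h3]; ring
  rw [hexp, hlin]; ring

theorem stationary {c : V → V → ℝ} (hc : ∀ x y, 0 ≤ c x y) (hsymm : ∀ x y, c x y = c y x)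
    {E G : Set V} {u : V → ℝ} (hu : u ∈ netAdm E G) (hmin : netK c u = netCap c E G)
    {z : V} (hzE : z ∉ E) (hzG : z ∉ G) : netQ c u z = 0 := by
  have h : ∀ t : ℝ, 0 ≤ 2 * t * netQ c u z + t ^ 2 * netK c (Pi.single z 1) := by
    intro t
    have h1 : netCap c E G ≤ netK c (u + Pi.single z t) := by
      refine netCap_le' hc (fun x hx => ?_) (fun x hx => ?_)
      · have : x ≠ z := fun h => hzE (h ▸ hx)
        simp [Pi.single_eq_of_ne this, hu.2.1 x hx]
      · have : x ≠ z := fun h => hzG (h ▸ hx)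
        simp [Pi.single_eq_of_ne this, hu.2.2 x hx]
    rw [netK_add_single hsymm, ← hmin] at h1
    linarith
  set q := netQ c u z
  set k := netK c (Pi.single z 1)
  have hk : 0 ≤ k := netK_nonneg hc _
  have h2 := h (-q / (k + 1))
  have hk1 : 0 < k + 1 := by linarith
  have h3 : 2 * (-q / (k + 1)) * q + (-q / (k + 1)) ^ 2 * k = - (q ^ 2 * (k + 2)) / (k + 1) ^ 2 := by
    field_simp
    ring
  rw [h3] at h2
  have h4 : 0 < (k + 1) ^ 2 := by positivity
  rw [le_div_iff₀ h4] at h2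
  have h5 : q ^ 2 * (k + 2) ≤ 0 := by linarith
  have h6 : q ^ 2 ≤ 0 := by nlinarith [sq_nonneg q]
  exact pow_eq_zero_iff (two_ne_zero) |>.mp (le_antisymm h6 (sq_nonneg q))


/-- `ℓ¹` distance of two weights. -/
noncomputable def netDist (c d : V → V → ℝ) : ℝ := ∑ x, ∑ y, |c x y - d x y|

omit [DecidableEq V] in
theorem netDist_nonneg (c d : V → V → ℝ) : 0 ≤ netDist c d :=
  Finset.sum_nonneg fun _ _ => Finset.sum_nonneg fun _ _ => abs_nonneg _

omit [DecidableEq V] in
theorem netDist_comm (c d : V → V → ℝ) : netDist c d = netDist d c := by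
  unfold netDist
  exact Finset.sum_congr rfl fun x _ => Finset.sum_congr rfl fun y _ => abs_sub_comm _ _

omit [DecidableEq V] in
theorem netCap_sub_le {c d : V → V → ℝ} {E G : Set V} (hd : ∀ x y, 0 ≤ d x y)
    (hEG : Disjoint E G) : netCap d E G - netCap c E G ≤ netDist d c := by
  obtain ⟨u, hu, huc, _⟩ := exists_min c hEG
  have h1 := netCap_le hd hu
  have h2 := netK_sub_abs_le d c hu.1
  have h3 := (abs_le.mp h2).2
  unfold netDist
  linarith

omit [DecidableEq V] in
theorem netCap_abs_sub_le {c d : V → V → ℝ} {E G : Set V} (hc : ∀ x y, 0 ≤ c x y)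
    (hd : ∀ x y, 0 ≤ d x y) (hEG : Disjoint E G) :
    |netCap d E G - netCap c E G| ≤ netDist d c := by
  rw [abs_le]
  have h1 := netCap_sub_le (c := c) (d := d) hd hEG
  have h2 := netCap_sub_le (c := d) (d := c) hc hEG
  rw [netDist_comm] at h2
  constructor <;> linarith

/-- One step of the Gronwall argument, evaluated at the NEW minimiser. -/
theorem one_step {c0 c1 c' : V → V → ℝ} {E G : Set V} (hEG : Disjoint E G)
    (h0 : ∀ x y, 0 ≤ c0 x y) (h1 : ∀ x y, 0 ≤ c1 x y) (hs1 : ∀ x y, c1 x y = c1 y x)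
    {r : V → ℝ} (hr0 : ∀ z, 0 ≤ r z) (hr1 : ∀ z, r z ≤ 1) (hrE : ∀ z ∈ E, r z = 0)
    (hrG : ∀ z ∈ G, r z = 0) {ε : ℝ} (hε : 0 ≤ ε)
    (hbound : ∀ a : V → ℝ, - ∑ z, r z * ((netQ c0 a z) ^ 2 / netV c0 z + 2 * ε * netStar c0 a z)
      ≤ netK c' a) {δ : ℝ} (hδ : 0 < δ) :
    δ⁻¹ * (netCap c0 E G - netCap c1 E G) ≤
      netDist (fun x y => δ⁻¹ * (c1 x y - c0 x y)) c'
        + (∑ z, (netV c0 z)⁻¹) * (netDist c1 c0) ^ 2
        + 2 * ε * min (2 * (netCap c0 E G + 2 * netDist c1 c0)) (∑ z, r z * netV c0 z) := by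
  obtain ⟨u, hu, huc, _⟩ := exists_min c1 hEG
  set Δ := netDist c1 c0 with hΔ
  have hΔ0 : 0 ≤ Δ := netDist_nonneg _ _
  have hstep : netCap c0 E G - netCap c1 E G ≤ netK c0 u - netK c1 u := by
    have := netCap_le h0 hu
    linarith
  have hlin : δ⁻¹ * (netK c0 u - netK c1 u) = - netK (fun x y => δ⁻¹ * (c1 x y - c0 x y)) u := by
    unfold netK
    have : ∑ x, ∑ y, δ⁻¹ * (c1 x y - c0 x y) * (u x - u y) ^ 2
        = δ⁻¹ * (∑ x, ∑ y, c1 x y * (u x - u y) ^ 2 - ∑ x, ∑ y, c0 x y * (u x - u y) ^ 2) := by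
      rw [← Finset.sum_sub_distrib, Finset.mul_sum]
      refine Finset.sum_congr rfl fun x _ => ?_
      rw [← Finset.sum_sub_distrib, Finset.mul_sum]
      exact Finset.sum_congr rfl fun y _ => by ring
    rw [this]; ring
  have hd := netK_sub_abs_le (fun x y => δ⁻¹ * (c1 x y - c0 x y)) c' hu.1
  have hd' : - netK (fun x y => δ⁻¹ * (c1 x y - c0 x y)) u ≤
      netDist (fun x y => δ⁻¹ * (c1 x y - c0 x y)) c' - netK c' u := by
    have := (abs_le.mp hd).1
    unfold netDist
    linarith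
  have hb := hbound u
  have hq : ∀ z, r z * ((netQ c0 u z) ^ 2 / netV c0 z) ≤ (netV c0 z)⁻¹ * Δ ^ 2 := by
    intro z
    have hv : 0 ≤ (netV c0 z)⁻¹ := inv_nonneg.mpr (Finset.sum_nonneg fun x _ => h0 z x)
    by_cases hz : z ∈ E
    · rw [hrE z hz, zero_mul]; positivity
    by_cases hz' : z ∈ G
    · rw [hrG z hz', zero_mul]; positivity
    have hst := stationary h1 hs1 hu huc hz hz'
    have hq1 := netQ_sub_abs_le c0 c1 hu.1 z
    rw [hst, sub_zero] at hq1
    have hq2 : |netQ c0 u z| ≤ Δ := by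
      rw [hΔ, netDist_comm]; exact hq1
    have hq3 : (netQ c0 u z) ^ 2 ≤ Δ ^ 2 := by
      rw [← sq_abs]
      exact pow_le_pow_left₀ (abs_nonneg _) hq2 2
    rw [div_eq_mul_inv]
    calc r z * ((netQ c0 u z) ^ 2 * (netV c0 z)⁻¹)
        ≤ 1 * ((netQ c0 u z) ^ 2 * (netV c0 z)⁻¹) :=
          mul_le_mul_of_nonneg_right (hr1 z) (mul_nonneg (sq_nonneg _) hv)
      _ = (netV c0 z)⁻¹ * (netQ c0 u z) ^ 2 := by ring
      _ ≤ (netV c0 z)⁻¹ * Δ ^ 2 := mul_le_mul_of_nonneg_left hq3 hv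
  have hstar1 : ∑ z, r z * netStar c0 u z ≤ 2 * (netCap c0 E G + 2 * Δ) := by
    have e1 : ∑ z, r z * netStar c0 u z ≤ ∑ z, netStar c0 u z :=
      Finset.sum_le_sum fun z _ => by
        have := mul_le_mul_of_nonneg_right (hr1 z) (netStar_nonneg h0 u z)
        linarith
    rw [sum_netStar] at e1
    have e2 := (abs_le.mp (netK_sub_abs_le c0 c1 hu.1)).2
    have e3 : ∑ x, ∑ y, |c0 x y - c1 x y| = Δ := by
      rw [hΔ, netDist_comm]; rfl
    have e4 := netCap_sub_le (c := c0) (d := c1) h1 hEG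
    rw [e3] at e2
    linarith
  have hstar2 : ∑ z, r z * netStar c0 u z ≤ ∑ z, r z * netV c0 z :=
    Finset.sum_le_sum fun z _ =>
      mul_le_mul_of_nonneg_left (netStar_le_netV h0 hu.1 z) (hr0 z)
  have hsum : ∑ z, r z * ((netQ c0 u z) ^ 2 / netV c0 z + 2 * ε * netStar c0 u z)
      ≤ (∑ z, (netV c0 z)⁻¹) * Δ ^ 2
        + 2 * ε * min (2 * (netCap c0 E G + 2 * Δ)) (∑ z, r z * netV c0 z) := by
    have e1 : ∑ z, r z * ((netQ c0 u z) ^ 2 / netV c0 z + 2 * ε * netStar c0 u z)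
        = ∑ z, r z * ((netQ c0 u z) ^ 2 / netV c0 z) + 2 * ε * ∑ z, r z * netStar c0 u z := by
      rw [Finset.mul_sum, ← Finset.sum_add_distrib]
      exact Finset.sum_congr rfl fun z _ => by ring
    rw [e1]
    have e2 : ∑ z, r z * ((netQ c0 u z) ^ 2 / netV c0 z) ≤ (∑ z, (netV c0 z)⁻¹) * Δ ^ 2 := by
      rw [Finset.sum_mul]
      exact Finset.sum_le_sum fun z _ => hq z
    have e3 : 2 * ε * ∑ z, r z * netStar c0 u z
        ≤ 2 * ε * min (2 * (netCap c0 E G + 2 * Δ)) (∑ z, r z * netV c0 z) :=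
      mul_le_mul_of_nonneg_left (le_min hstar1 hstar2) (by positivity)
    linarith
  calc δ⁻¹ * (netCap c0 E G - netCap c1 E G) ≤ δ⁻¹ * (netK c0 u - netK c1 u) :=
        mul_le_mul_of_nonneg_left hstep (by positivity)
    _ = - netK (fun x y => δ⁻¹ * (c1 x y - c0 x y)) u := hlin
    _ ≤ _ := by linarith

omit [DecidableEq V] in
theorem tendsto_netDist {c : ℝ → V → V → ℝ} {d : V → V → ℝ} {l : Filter ℝ}
    (h : ∀ x y, Tendsto (fun t => c t x y) l (𝓝 (d x y))) :
    Tendsto (fun t => netDist (c t) d) l (𝓝 0) := by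
  unfold netDist
  have : (0 : ℝ) = ∑ x : V, ∑ y : V, (0 : ℝ) := by simp
  rw [this]
  refine tendsto_finsetSum _ fun x _ => tendsto_finsetSum _ fun y _ => ?_
  have h1 : Tendsto (fun t => c t x y - d x y) l (𝓝 (d x y - d x y)) :=
    (h x y).sub tendsto_const_nhds
  rw [sub_self] at h1
  simpa using h1.abs

/-- The hypotheses of the network ODE. -/
structure NetFlow (c c' : ℝ → V → V → ℝ) (r : ℝ → V → ℝ) (E G : Set V) (ε : ℝ) : Prop where
  disj : Disjoint E G
  nn : ∀ s, 0 ≤ s → ∀ x y, 0 ≤ c s x y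
  symm : ∀ s, 0 ≤ s → ∀ x y, c s x y = c s y x
  cont : ∀ x y, ContinuousOn (fun s => c s x y) (Set.Ici 0)
  der : ∀ s, 0 ≤ s → ∀ x y, HasDerivWithinAt (fun t => c t x y) (c' s x y) (Set.Ici s) s
  r0 : ∀ s, 0 ≤ s → ∀ z, 0 ≤ r s z
  r1 : ∀ s, 0 ≤ s → ∀ z, r s z ≤ 1
  rE : ∀ s, 0 ≤ s → ∀ z ∈ E, r s z = 0
  rG : ∀ s, 0 ≤ s → ∀ z ∈ G, r s z = 0
  eps : 0 ≤ ε
  bound : ∀ s, 0 ≤ s → ∀ a : V → ℝ,
    - ∑ z, r s z * ((netQ (c s) a z) ^ 2 / netV (c s) z + 2 * ε * netStar (c s) a z)
      ≤ netK (c' s) a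

theorem NetFlow.dini {c c' : ℝ → V → V → ℝ} {r : ℝ → V → ℝ} {E G : Set V} {ε : ℝ}
    (H : NetFlow c c' r E G ε) {s : ℝ} (hs : 0 ≤ s) {b : ℝ}
    (hb : 2 * ε * min (2 * netCap (c s) E G) (∑ z, r s z * netV (c s) z) < b) :
    ∀ᶠ z in 𝓝[>] s, (z - s)⁻¹ * (netCap (c s) E G - netCap (c z) E G) < b := by
  have hslope : ∀ x y, Tendsto (fun z => (z - s)⁻¹ * (c z x y - c s x y)) (𝓝[>] s)
      (𝓝 (c' s x y)) := by
    intro x y
    have h := hasDerivWithinAt_iff_tendsto_slope.mp (H.der s hs x y)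
    rw [Set.Ici_sdiff_left] at h
    refine h.congr fun z => ?_
    simp [slope_def_field, div_eq_inv_mul]
  have hval : ∀ x y, Tendsto (fun z => c z x y) (𝓝[>] s) (𝓝 (c s x y)) := by
    intro x y
    exact (H.der s hs x y).continuousWithinAt.tendsto.mono_left
      (nhdsWithin_mono _ Set.Ioi_subset_Ici_self)
  have h1 := tendsto_netDist hslope
  have h2 := tendsto_netDist hval
  have hlim : Tendsto (fun z => netDist (fun x y => (z - s)⁻¹ * (c z x y - c s x y)) (c' s)
        + (∑ w, (netV (c s) w)⁻¹) * (netDist (c z) (c s)) ^ 2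
        + 2 * ε * min (2 * (netCap (c s) E G + 2 * netDist (c z) (c s)))
            (∑ w, r s w * netV (c s) w)) (𝓝[>] s)
      (𝓝 (0 + (∑ w, (netV (c s) w)⁻¹) * 0 ^ 2
        + 2 * ε * min (2 * (netCap (c s) E G + 2 * 0)) (∑ w, r s w * netV (c s) w))) := by
    refine (h1.add ((h2.pow 2).const_mul _)).add (Tendsto.const_mul _ ?_)
    exact Tendsto.min (((h2.const_mul 2).const_add _).const_mul 2) tendsto_const_nhds
  have hlt : 0 + (∑ w, (netV (c s) w)⁻¹) * 0 ^ 2
        + 2 * ε * min (2 * (netCap (c s) E G + 2 * 0)) (∑ w, r s w * netV (c s) w) < b := by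
    simpa using hb
  have hev := hlim.eventually (gt_mem_nhds hlt)
  filter_upwards [hev, self_mem_nhdsWithin] with z hz hzs
  have hzs' : (0 : ℝ) < z - s := sub_pos.mpr hzs
  have hz0 : 0 ≤ z := hs.trans (le_of_lt hzs)
  exact lt_of_le_of_lt (one_step H.disj (H.nn s hs) (H.nn z hz0) (H.symm z hz0) (H.r0 s hs)
    (H.r1 s hs) (H.rE s hs) (H.rG s hs) H.eps (H.bound s hs) hzs') hz

omit [DecidableEq V] in
theorem NetFlow.continuousOn_cap {c c' : ℝ → V → V → ℝ} {r : ℝ → V → ℝ} {E G : Set V} {ε : ℝ}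
    (H : NetFlow c c' r E G ε) : ContinuousOn (fun s => netCap (c s) E G) (Set.Ici 0) := by
  intro s hs
  have hval : ∀ x y, Tendsto (fun z => c z x y) (𝓝[Set.Ici 0] s) (𝓝 (c s x y)) :=
    fun x y => H.cont x y s hs
  have h2 := tendsto_netDist hval
  rw [ContinuousWithinAt, tendsto_iff_dist_tendsto_zero]
  refine squeeze_zero' (Eventually.of_forall fun _ => dist_nonneg) ?_ h2
  filter_upwards [self_mem_nhdsWithin] with z hz
  rw [Real.dist_eq]
  exact netCap_abs_sub_le (H.nn s hs) (H.nn z hz) H.disj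

/-- Exponential loss. -/
theorem NetFlow.cap_exp {c c' : ℝ → V → V → ℝ} {r : ℝ → V → ℝ} {E G : Set V} {ε : ℝ}
    (H : NetFlow c c' r E G ε) {T : ℝ} (hT : 0 ≤ T) :
    Real.exp (-(4 * ε * T)) * netCap (c 0) E G ≤ netCap (c T) E G := by
  have hf : ContinuousOn (fun s => - netCap (c s) E G) (Set.Icc 0 T) :=
    (H.continuousOn_cap.mono Set.Icc_subset_Ici_self).neg
  have key := le_gronwallBound_of_liminf_deriv_right_le (f := fun s => - netCap (c s) E G)
    (f' := fun s => 4 * ε * netCap (c s) E G) (δ := - netCap (c 0) E G) (K := -(4 * ε)) (ε := 0)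
    (a := 0) (b := T) hf ?_ le_rfl ?_ T ⟨hT, le_rfl⟩
  · rw [gronwallBound_ε0, sub_zero] at key
    have : -(4 * ε) * T = -(4 * ε * T) := by ring
    rw [this] at key
    linarith
  · intro s hs b hb
    have hb' : 2 * ε * min (2 * netCap (c s) E G) (∑ z, r s z * netV (c s) z) < b := by
      refine lt_of_le_of_lt ?_ hb
      calc 2 * ε * min (2 * netCap (c s) E G) (∑ z, r s z * netV (c s) z)
          ≤ 2 * ε * (2 * netCap (c s) E G) :=
            mul_le_mul_of_nonneg_left (min_le_left _ _) (by have := H.eps; positivity)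
        _ = 4 * ε * netCap (c s) E G := by ring
    have := H.dini hs.1 hb'
    refine Eventually.frequently (this.mono fun z hz => ?_)
    have e : -netCap (c z) E G - -netCap (c s) E G = netCap (c s) E G - netCap (c z) E G := by ring
    rw [e]; exact hz
  · intro s _
    have : -(4 * ε) * (-netCap (c s) E G) + 0 = 4 * ε * netCap (c s) E G := by ring
    rw [this]

/-- Additive loss. -/
theorem NetFlow.cap_add {c c' : ℝ → V → V → ℝ} {r : ℝ → V → ℝ} {E G : Set V} {ε : ℝ}
    (H : NetFlow c c' r E G ε) {B : ℝ}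
    (hB : ∀ s, 0 ≤ s → ∑ z, r s z * netV (c s) z ≤ B * Real.exp (-s)) {S T : ℝ} (hS : 0 ≤ S)
    (hT : S ≤ T) :
    netCap (c S) E G - 2 * ε * B * (Real.exp (-S) - Real.exp (-T)) ≤ netCap (c T) E G := by
  have hf : ContinuousOn (fun s => - netCap (c s) E G) (Set.Icc S T) :=
    (H.continuousOn_cap.mono fun s hs => hS.trans hs.1).neg
  have key := image_le_of_liminf_slope_right_le_deriv_boundary (f := fun s => - netCap (c s) E G)
    (a := S) (b := T) hf
    (B := fun s => - netCap (c S) E G + 2 * ε * B * (Real.exp (-S) - Real.exp (-s)))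
    (B' := fun s => 2 * ε * B * Real.exp (-s)) ?_ ?_ ?_ ?_ (x := T) ⟨hT, le_rfl⟩
  · linarith
  · simp
  · fun_prop
  · intro s _
    have h1 : HasDerivAt (fun s : ℝ => Real.exp (-s)) (-Real.exp (-s)) s := by
      have := (hasDerivAt_id s).neg.exp
      simpa using this
    have h2 := ((h1.const_sub (Real.exp (-S))).const_mul (2 * ε * B)).const_add
      (- netCap (c S) E G)
    simp only [neg_neg] at h2
    exact h2.hasDerivWithinAt
  · intro s hs b hb
    have hs0 : 0 ≤ s := hS.trans hs.1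
    have hb' : 2 * ε * min (2 * netCap (c s) E G) (∑ z, r s z * netV (c s) z) < b := by
      refine lt_of_le_of_lt ?_ hb
      calc 2 * ε * min (2 * netCap (c s) E G) (∑ z, r s z * netV (c s) z)
          ≤ 2 * ε * (B * Real.exp (-s)) :=
            mul_le_mul_of_nonneg_left ((min_le_right _ _).trans (hB s hs0))
              (by have := H.eps; positivity)
        _ = 2 * ε * B * Real.exp (-s) := by ring
    have := H.dini hs0 hb'
    refine Eventually.frequently (this.mono fun z hz => ?_)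
    rw [slope_def_field, div_eq_inv_mul]
    have e : -netCap (c z) E G - -netCap (c s) E G = netCap (c s) E G - netCap (c z) E G := by ring
    rw [e]; exact hz

/-- **Network ODE, primal form** (note 9886, step (3)). -/
theorem NetFlow.cap_lower {c c' : ℝ → V → V → ℝ} {r : ℝ → V → ℝ} {E G : Set V} {ε : ℝ}
    (H : NetFlow c c' r E G ε) {B : ℝ} (hB0 : 0 ≤ B)
    (hB : ∀ s, 0 ≤ s → ∑ z, r s z * netV (c s) z ≤ B * Real.exp (-s)) {S T : ℝ} (hS : 0 ≤ S)
    (hT : 0 ≤ T) :
    Real.exp (-(4 * ε * S)) * netCap (c 0) E G - 2 * ε * B * Real.exp (-S) ≤ netCap (c T) E G := by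
  have hε := H.eps
  have hc0 : 0 ≤ netCap (c 0) E G := netCap_nonneg (H.nn 0 le_rfl) H.disj
  rcases le_total S T with hST | hTS
  · have h1 := H.cap_exp hS
    have h2 := H.cap_add hB hS hST
    have h3 : 0 ≤ 2 * ε * B * Real.exp (-T) := by positivity
    nlinarith
  · have h1 := H.cap_exp hT
    have h2 : Real.exp (-(4 * ε * S)) ≤ Real.exp (-(4 * ε * T)) := by
      apply Real.exp_le_exp.mpr
      have : 4 * ε * T ≤ 4 * ε * S := mul_le_mul_of_nonneg_left hTS (by positivity)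
      linarith
    have h3 := mul_le_mul_of_nonneg_right h2 hc0
    have h4 : 0 ≤ 2 * ε * B * Real.exp (-S) := by positivity
    linarith

end P361.LRO
end

section

/-!
# P361 LRO, block (6): definitions

Everything in block (6) is about an abstract family of symmetric conductances
`c : (Tor n → ℝ) → Nd n N → Nd n N → ℝ` (field profile ↦ network on the space-time nodes).
Time: `N = m * W`, `m` windows of `W` slices, physical layers `1, …, N`,
layer `1 + w W + j` is the `j`-th slice of the window `w`.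
-/

namespace Vale.Agent.P361.LRO.Ind

open Finset Vale.Agent.P361.LRO _root_.P361.LRO

noncomputable section

/-- Space-time nodes. -/
abbrev Nd (n N : ℕ) : Type := Fin (N + 1) × Tor n

/-- The site `o + (x, y, z)`. -/
def pt (n : ℕ) (o : Tor n) (x y z : ℕ) : Tor n :=
  o + ![(x : ZMod n), (y : ZMod n), (z : ZMod n)]

/-- Lower bound for the effective conductance. -/
def LBn {X : Type} [Fintype X] (c : X → X → ℝ) (E G : Finset X) (A : ℝ) : Prop :=
  ∀ a : X → ℝ, (∀ x ∈ E, a x = 1) → (∀ x ∈ G, a x = 0) → A ≤ netK c a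

/-- Upper bound for the resistance between `E` and the charge distribution `q`. -/
def RBn {X : Type} [Fintype X] (c : X → X → ℝ) (E : Finset X) (q : X → ℝ) (R : ℝ) : Prop :=
  ∀ a : X → ℝ, (∀ x ∈ E, a x = 1) → (1 - ∑ x, q x * a x) ^ 2 ≤ R * netK c a

/-- Local information on the network `c` in the field `h` (output of block (4)). -/
structure Local (n N W : ℕ) [NeZero n] (β K c1 : ℝ) (b : Finset (Tor n)) (h : Tor n → ℝ)
    (c : Nd n N → Nd n N → ℝ) : Prop where
  symm : ∀ u v, c u v = c v u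
  nonneg : ∀ u v, 0 ≤ c u v
  tot : ∀ (k : Fin (N + 1)) (x : Tor n), k ≠ 0 → ∑ v, c (k, x) v ≤ β * h x / (2 * N)
  same : ∀ (k l : Fin (N + 1)) (x : Tor n), k ≠ 0 → k < l → (l : ℕ) ≤ k + 3 * W → h x = 1 →
    c1 * (β / N) ^ 2 ≤ c (k, x) (l, x)
  nbr : ∀ (k l : Fin (N + 1)) (x : Tor n) (i : Fin 3), k ≠ 0 → l ≠ 0 →
    ((k : ℕ) + W ≤ l ∨ (l : ℕ) + W ≤ k) → (l : ℕ) ≤ k + 3 * W → (k : ℕ) ≤ l + 3 * W →
    h x = 1 → h (x + Pi.single i 1) = 1 →
    c1 * (β / N) ^ 2 ≤ c (k, x) (l, x + Pi.single i 1)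
  contact : ∀ (k : Fin (N + 1)) (x : Tor n), k ≠ 0 → (k : ℕ) ≤ W → x ∈ b → h x = 1 →
    c1 * (K / b.card) * (β / N) ≤ c (0, x) (k, x)

/-- Lowering the field (output of block (3)). -/
structure Low (n N : ℕ) [NeZero n] (β h0 lam ε : ℝ)
    (c : (Tor n → ℝ) → Nd n N → Nd n N → ℝ) : Prop where
  prim : ∀ h h' : Tor n → ℝ, Fam n h0 lam h → Fam n h0 lam h' → (∀ x, h' x ≤ h x) →
    ∀ E G : Finset (Nd n N), Disjoint E G →
    (∀ z ∈ E ∪ G, z.1 ≠ 0 → h' z.2 = h z.2) →
    ∀ S : ℝ, 1 ≤ β * S → ∑ x, (if h' x = h x then 0 else h x) ≤ S →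
    ∀ A : ℝ, 0 ≤ A → LBn (c h) E G A →
      LBn (c h') E G ((β * S) ^ (-(4 * ε)) * A - 2 * ε)
  dual : 0 < h0 → h0 ≤ 1 → ∀ h' : Tor n → ℝ, Fam n h0 lam h' →
    ∀ (E : Finset (Nd n N)) (q : Nd n N → ℝ),
    (∀ z ∈ E, z.1 ≠ 0 → h' z.2 = 1) → (∀ z ∈ E, q z = 0) → (∀ x, q (0, x) = 0) →
    (∀ z, 0 ≤ q z) → ∑ z, q z = 1 →
    ∀ R : ℝ, 0 ≤ R → RBn (c fun _ => 1) E q R →
      RBn (c h') E q (h0 ^ (-(4 * ε)) * (R + 8 * N / (β * h0) * ∑ z, (q z) ^ 2))

/-- Window parameters: `m` windows of length `β / m`. -/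
structure Win (β : ℝ) (m : ℕ) : Prop where
  pos : 0 < m
  lo : 1 / 4 ≤ β / m
  hi : β / m ≤ 1 / 3

/-! ### Geometry -/

/-- Distance of `t` to `{0, …, r - 1}` in `ZMod n`. -/
def d1 (n r : ℕ) (t : ZMod n) : ℕ := if t.val < r then 0 else min (t.val + 1 - r) (n - t.val)

/-- Distance of `x` to the cube of side `r` at the corner `o`. -/
def dist (n : ℕ) (o : Tor n) (r : ℕ) (x : Tor n) : ℕ := ∑ i, d1 n r (x i - o i)

/-- The bump `exp (- lam * dist)`. -/
def bump (n : ℕ) (lam : ℝ) (o : Tor n) (r : ℕ) (x : Tor n) : ℝ :=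
  Real.exp (-(lam * dist n o r x))

/-- `H = max (h, bump)`. -/
def HH (n : ℕ) (lam : ℝ) (o : Tor n) (r : ℕ) (h : Tor n → ℝ) (x : Tor n) : ℝ :=
  max (h x) (bump n lam o r x)

/-- Electrode: the nodes of the extra slice on `b` and all physical nodes over the cube of side
`r` at the corner `o`. -/
def EE6 (n N : ℕ) [NeZero n] (o : Tor n) (b : Finset (Tor n)) (r : ℕ) : Finset (Nd n N) :=
  hatb N b ∪ ((univ.filter fun k => k ≠ 0) ×ˢ cube n o r)

/-- Ground: all physical nodes over the cube of side `s` at the corner `o + (4 s, 0, 0)`. -/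
def GG6 (n N : ℕ) [NeZero n] (o : Tor n) (s : ℕ) : Finset (Nd n N) :=
  (univ.filter fun k => k ≠ 0) ×ˢ cube n (pt n o (4 * s) 0 0) s

/-! ### Window averages and energies -/

/-- Layer of the `j`-th slice of the window `w` (junk value `0` if out of range). -/
def lay (N W w j : ℕ) : Fin (N + 1) :=
  if h : 1 + w * W + j < N + 1 then ⟨1 + w * W + j, h⟩ else 0

/-- Average of `a` over the window `w` at the site `o + (x, y, z)`. -/
def UU (n N W : ℕ) (o : Tor n) (a : Nd n N → ℝ) (x y z w : ℕ) : ℝ :=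
  (1 / W : ℝ) * ∑ j ∈ range W, a (lay N W w j, pt n o x y z)

/-- Energy of the space edges on `[0, S)³ × [0, T)`. -/
def Esp (S T : ℕ) (U : ℕ → ℕ → ℕ → ℕ → ℝ) : ℝ :=
  (∑ x ∈ range (S - 1), ∑ y ∈ range S, ∑ z ∈ range S, ∑ w ∈ range T,
      (U (x + 1) y z w - U x y z w) ^ 2) +
  (∑ x ∈ range S, ∑ y ∈ range (S - 1), ∑ z ∈ range S, ∑ w ∈ range T,
      (U x (y + 1) z w - U x y z w) ^ 2) +
  (∑ x ∈ range S, ∑ y ∈ range S, ∑ z ∈ range (S - 1), ∑ w ∈ range T,
      (U x y (z + 1) w - U x y z w) ^ 2)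

/-- Energy of the time edges on `[0, S)³ × [0, T)`. -/
def Eti (S T : ℕ) (U : ℕ → ℕ → ℕ → ℕ → ℝ) : ℝ :=
  ∑ x ∈ range S, ∑ y ∈ range S, ∑ z ∈ range S, ∑ w ∈ range (T - 1),
      (U x y z (w + 1) - U x y z w) ^ 2

/-- Nearest neighbour energy on `[0, S)³ × [0, T)`. -/
def E4 (S T : ℕ) (U : ℕ → ℕ → ℕ → ℕ → ℝ) : ℝ := Esp S T U + Eti S T U

/-- Number of points of `[0, S)³ × [0, T)` where `U < t`. -/
def cnt (S T : ℕ) (t : ℝ) (U : ℕ → ℕ → ℕ → ℕ → ℝ) : ℝ :=
  ∑ x ∈ range S, ∑ y ∈ range S, ∑ z ∈ range S, ∑ w ∈ range T, if U x y z w < t then 1 else 0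

end

end Vale.Agent.P361.LRO.Ind
end

section

/-!
# P361, long range order: the one-node inequality (statement)
-/

namespace Vale.Agent.P361.LRO

open Finset

/-- The one-node inequality (Theorem 1 of note 8371 in covariance form):
`Cov(j_z², (a·j)²) ≤ F_z² / v_z + sqrt (1 - M_z²) Star_z(a)`. -/
def OneNode {X : Type} [Fintype X] [DecidableEq X] (μ : Equiv.Perm X → ℝ) : Prop :=
  ∀ θ : X → ℝ, (∀ x, 0 ≤ θ x ∧ θ x ≤ 1) → ∀ z, 0 < θ z → ∀ a : X → ℝ,
    EE μ θ (fun π s => jj π s z ^ 2 * (∑ x, a x * jj π s x) ^ 2) - vv μ θ z * KK μ θ a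
      ≤ (∑ x, cc μ θ z x * (a x - a z)) ^ 2 / vv μ θ z
        + Real.sqrt (1 - mag μ θ z ^ 2) * ∑ x, cc μ θ z x * (a x - a z) ^ 2

end Vale.Agent.P361.LRO
end

section

/-!
# Network ODE (note 9886, step (3)): dual form with a fixed charge
-/

namespace P361.LRO

open Finset Set Filter Topology

variable {V : Type*} [Fintype V] [DecidableEq V]

omit [DecidableEq V] in
theorem netK_sub_abs_le_of_osc (c d : V → V → ℝ) {a : V → ℝ} {L : ℝ}
    (ha : ∀ x y, |a x - a y| ≤ L) : |netK c a - netK d a| ≤ L ^ 2 * netDist c d := by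
  have h : netK c a - netK d a = (1 / 2) * ∑ x, ∑ y, (c x y - d x y) * (a x - a y) ^ 2 := by
    unfold netK
    rw [← mul_sub, ← Finset.sum_sub_distrib]
    congr 1
    refine Finset.sum_congr rfl fun x _ => ?_
    rw [← Finset.sum_sub_distrib]
    exact Finset.sum_congr rfl fun y _ => by ring
  rw [h, abs_mul]
  have h2 : |∑ x, ∑ y, (c x y - d x y) * (a x - a y) ^ 2| ≤ L ^ 2 * netDist c d := by
    unfold netDist
    rw [Finset.mul_sum]
    refine (Finset.abs_sum_le_sum_abs _ _).trans (Finset.sum_le_sum fun x _ => ?_)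
    rw [Finset.mul_sum]
    refine (Finset.abs_sum_le_sum_abs _ _).trans (Finset.sum_le_sum fun y _ => ?_)
    rw [abs_mul, mul_comm]
    refine mul_le_mul_of_nonneg_right ?_ (abs_nonneg _)
    rw [abs_of_nonneg (sq_nonneg _), ← sq_abs]
    exact pow_le_pow_left₀ (abs_nonneg _) (ha x y) 2
  have h3 : |(1 / 2 : ℝ)| = 1 / 2 := abs_of_pos (by norm_num)
  rw [h3]
  have h4 := mul_nonneg (sq_nonneg L) (netDist_nonneg c d)
  linarith

omit [DecidableEq V] in
theorem netQ_sub_abs_le_of_osc (c d : V → V → ℝ) {a : V → ℝ} {L : ℝ} (hL : 0 ≤ L)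
    (ha : ∀ x y, |a x - a y| ≤ L) (z : V) :
    |netQ c a z - netQ d a z| ≤ L * netDist c d := by
  have h : netQ c a z - netQ d a z = ∑ x, (c z x - d z x) * (a z - a x) := by
    unfold netQ
    rw [← Finset.sum_sub_distrib]
    exact Finset.sum_congr rfl fun x _ => by ring
  rw [h]
  have h2 : |∑ x, (c z x - d z x) * (a z - a x)| ≤ L * ∑ x, |c z x - d z x| := by
    rw [Finset.mul_sum]
    refine (Finset.abs_sum_le_sum_abs _ _).trans (Finset.sum_le_sum fun x _ => ?_)
    rw [abs_mul, mul_comm]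
    exact mul_le_mul_of_nonneg_right (ha z x) (abs_nonneg _)
  refine h2.trans (mul_le_mul_of_nonneg_left ?_ hL)
  exact Finset.single_le_sum (f := fun x => ∑ y, |c x y - d x y|)
    (fun x _ => Finset.sum_nonneg fun y _ => abs_nonneg _) (Finset.mem_univ z)

omit [DecidableEq V] in
theorem sum_mul_netQ {c : V → V → ℝ} (hsymm : ∀ x y, c x y = c y x) (a : V → ℝ) :
    ∑ z, a z * netQ c a z = netK c a := by
  unfold netQ netK
  have h1 : ∑ z, a z * ∑ x, c z x * (a z - a x) = ∑ z, ∑ x, c z x * (a z * (a z - a x)) := by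
    refine Finset.sum_congr rfl fun z _ => ?_
    rw [Finset.mul_sum]
    exact Finset.sum_congr rfl fun x _ => by ring
  have h2 : ∑ z, ∑ x, c z x * (a z * (a z - a x)) = ∑ z, ∑ x, c z x * (a x * (a x - a z)) := by
    rw [Finset.sum_comm]
    refine Finset.sum_congr rfl fun x _ => Finset.sum_congr rfl fun z _ => ?_
    rw [hsymm z x]
  have h3 : ∑ x, ∑ y, c x y * (a x - a y) ^ 2 =
      ∑ z, ∑ x, c z x * (a z * (a z - a x)) + ∑ z, ∑ x, c z x * (a x * (a x - a z)) := by
    rw [← Finset.sum_add_distrib]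
    refine Finset.sum_congr rfl fun x _ => ?_
    rw [← Finset.sum_add_distrib]
    exact Finset.sum_congr rfl fun y _ => by ring
  rw [h1, h3, ← h2]; ring

/-- Regularised dual functional. -/
noncomputable def dualJ (c : V → V → ℝ) (q : V → ℝ) (l : ℝ) (u : V → ℝ) : ℝ :=
  2 * ∑ x, q x * u x - netK c u - l * ∑ x, u x ^ 2

/-- Potentials vanishing on the electrode. -/
def dualAdm (E : Set V) : Set (V → ℝ) := {u | ∀ x ∈ E, u x = 0}

/-- Regularised resistance of the charge `q` to the electrode `E`. -/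
noncomputable def dualR (E : Set V) (c : V → V → ℝ) (q : V → ℝ) (l : ℝ) : ℝ :=
  sSup (dualJ c q l '' dualAdm E)

/-- A bound for the maximiser. -/
noncomputable def dualM (q : V → ℝ) (l : ℝ) : ℝ := 2 * (√(∑ x, q x ^ 2) / l)

omit [DecidableEq V] in
theorem dualJ_le {c : V → V → ℝ} (hc : ∀ x y, 0 ≤ c x y) (q : V → ℝ) {l : ℝ} (hl : 0 < l)
    (u : V → ℝ) : dualJ c q l u ≤ (∑ x, q x ^ 2) / l - l * ∑ x, (u x - q x / l) ^ 2 := by
  have h : (∑ x, q x ^ 2) / l - l * ∑ x, (u x - q x / l) ^ 2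
      = 2 * ∑ x, q x * u x - l * ∑ x, u x ^ 2 := by
    rw [Finset.sum_div, Finset.mul_sum, Finset.mul_sum, Finset.mul_sum, ← Finset.sum_sub_distrib,
      ← Finset.sum_sub_distrib]
    refine Finset.sum_congr rfl fun x _ => ?_
    field_simp
    ring
  rw [h]
  unfold dualJ
  have := netK_nonneg hc u
  linarith

omit [DecidableEq V] in
theorem exists_max (E : Set V) {c : V → V → ℝ} (hc : ∀ x y, 0 ≤ c x y) (q : V → ℝ) {l : ℝ}
    (hl : 0 < l) :
    ∃ u ∈ dualAdm E, dualJ c q l u = dualR E c q l ∧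
      (∀ w ∈ dualAdm E, dualJ c q l w ≤ dualJ c q l u) ∧
      ∀ x, |u x| ≤ dualM q l := by
  set Q := ∑ x, q x ^ 2 with hQ
  have hQ0 : 0 ≤ Q := Finset.sum_nonneg fun _ _ => sq_nonneg _
  have hbox : ∀ u : V → ℝ, 0 ≤ dualJ c q l u → ∀ x, |u x| ≤ dualM q l := by
    intro u hu x
    have h1 := dualJ_le hc q hl u
    have h2 : l * ∑ x, (u x - q x / l) ^ 2 ≤ Q / l := by linarith
    have h3 : (u x - q x / l) ^ 2 ≤ ∑ x, (u x - q x / l) ^ 2 :=
      Finset.single_le_sum (f := fun x => (u x - q x / l) ^ 2) (fun _ _ => sq_nonneg _)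
        (Finset.mem_univ x)
    have h4 : (u x - q x / l) ^ 2 ≤ Q / l / l := by
      rw [le_div_iff₀ hl]
      calc (u x - q x / l) ^ 2 * l ≤ (∑ x, (u x - q x / l) ^ 2) * l :=
            mul_le_mul_of_nonneg_right h3 hl.le
        _ ≤ Q / l := by linarith
    have h5 : |u x - q x / l| ≤ √Q / l := by
      rw [← Real.sqrt_sq_eq_abs]
      calc √((u x - q x / l) ^ 2) ≤ √(Q / l / l) := Real.sqrt_le_sqrt h4
        _ = √Q / l := by
            rw [div_div, ← sq, Real.sqrt_div hQ0, Real.sqrt_sq hl.le]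
    have h6 : |q x / l| ≤ √Q / l := by
      rw [abs_div, abs_of_pos hl]
      refine div_le_div_of_nonneg_right ?_ hl.le
      rw [← Real.sqrt_sq_eq_abs]
      refine Real.sqrt_le_sqrt ?_
      exact Finset.single_le_sum (f := fun x => q x ^ 2) (fun _ _ => sq_nonneg _)
        (Finset.mem_univ x)
    have h7 : |u x| ≤ |u x - q x / l| + |q x / l| := by
      have := abs_add_le (u x - q x / l) (q x / l)
      simpa using this
    unfold dualM
    linarith
  have hcont : Continuous (dualJ c q l) := by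
    unfold dualJ
    have := continuous_netK c
    fun_prop
  have hcl : IsClosed (dualAdm E : Set (V → ℝ)) := by
    have : (dualAdm E : Set (V → ℝ)) = ⋂ x ∈ E, {u : V → ℝ | u x = 0} := by
      ext u; simp [dualAdm]
    rw [this]
    exact isClosed_iInter fun x => isClosed_iInter fun _ =>
      isClosed_eq (continuous_apply x) continuous_const
  have hcomp : IsCompact ((Set.pi Set.univ fun _ : V => Set.Icc (-dualM q l) (dualM q l)) ∩
      dualAdm E) :=
    (isCompact_univ_pi fun _ => isCompact_Icc).inter_right hcl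
  have hM : 0 ≤ dualM q l := by unfold dualM; positivity
  have hJ0 : dualJ c q l 0 = 0 := by simp [dualJ, netK]
  have hmem0 : (0 : V → ℝ) ∈ (Set.pi Set.univ fun _ : V => Set.Icc (-dualM q l) (dualM q l)) ∩
      dualAdm E := by
    refine ⟨fun x _ => ?_, fun x _ => rfl⟩
    simp [hM]
  obtain ⟨u, hu, hmax⟩ := hcomp.exists_isMaxOn ⟨0, hmem0⟩ hcont.continuousOn
  have hall : ∀ w ∈ dualAdm E, dualJ c q l w ≤ dualJ c q l u := by
    intro w hwE
    have h0 : 0 ≤ dualJ c q l u := by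
      have := hmax hmem0
      simp only [Set.mem_ofPred_eq, hJ0] at this
      exact this
    by_cases hw : 0 ≤ dualJ c q l w
    · have hwm : w ∈ (Set.pi Set.univ fun _ : V => Set.Icc (-dualM q l) (dualM q l)) ∩
          dualAdm E := by
        refine ⟨fun x _ => ?_, hwE⟩
        exact abs_le.mp (hbox w hw x)
      exact hmax hwm
    · linarith [not_le.mp hw]
  refine ⟨u, hu.2, ?_, hall, ?_⟩
  · unfold dualR
    refine le_antisymm ?_ ?_
    · refine le_csSup ⟨dualJ c q l u, ?_⟩ ⟨u, hu.2, rfl⟩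
      rintro _ ⟨w, hw, rfl⟩
      exact hall w hw
    · refine csSup_le ⟨_, ⟨u, hu.2, rfl⟩⟩ ?_
      rintro _ ⟨w, hw, rfl⟩
      exact hall w hw
  · intro x
    exact abs_le.mpr (hu.1 x (Set.mem_univ x))

omit [DecidableEq V] in
theorem dualJ_le_dualR {E : Set V} {c : V → V → ℝ} (hc : ∀ x y, 0 ≤ c x y) (q : V → ℝ) {l : ℝ}
    (hl : 0 < l) {w : V → ℝ} (hw : w ∈ dualAdm E) : dualJ c q l w ≤ dualR E c q l := by
  obtain ⟨u, _, hu, hmax, _⟩ := exists_max E hc q hl
  rw [← hu]; exact hmax w hw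

theorem dual_stationary {E : Set V} {c : V → V → ℝ} (hc : ∀ x y, 0 ≤ c x y)
    (hsymm : ∀ x y, c x y = c y x)
    {q : V → ℝ} {l : ℝ} (hl : 0 < l) {u : V → ℝ} (hu : u ∈ dualAdm E)
    (hmax : ∀ w ∈ dualAdm E, dualJ c q l w ≤ dualJ c q l u)
    {z : V} (hz : z ∉ E) : netQ c u z + l * u z = q z := by
  have hsq : ∀ t : ℝ, ∑ x, (u + (Pi.single z t : V → ℝ)) x ^ 2 = ∑ x, u x ^ 2 + 2 * t * u z + t ^ 2 := by
    intro t
    have h1 : ∀ x, (u + (Pi.single z t : V → ℝ)) x ^ 2
        = u x ^ 2 + (if x = z then 2 * t * u z + t ^ 2 else 0) := by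
      intro x
      by_cases hx : x = z
      · subst hx; simp; ring
      · simp [hx]
    simp only [h1, Finset.sum_add_distrib]
    simp
    ring
  have hlin : ∀ t : ℝ, ∑ x, q x * (u + (Pi.single z t : V → ℝ)) x = ∑ x, q x * u x + t * q z := by
    intro t
    have h1 : ∀ x, q x * (u + (Pi.single z t : V → ℝ)) x
        = q x * u x + (if x = z then t * q z else 0) := by
      intro x
      by_cases hx : x = z
      · subst hx; simp; ring
      · simp [hx]
    simp only [h1, Finset.sum_add_distrib]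
    simp
  set g := q z - netQ c u z - l * u z with hg
  set k := netK c (Pi.single z 1) + l with hk
  have hk0 : 0 < k := by
    have := netK_nonneg hc (Pi.single z (1:ℝ) : V → ℝ)
    rw [hk]; linarith
  have h : ∀ t : ℝ, 2 * t * g - t ^ 2 * k ≤ 0 := by
    intro t
    have hm : u + (Pi.single z t : V → ℝ) ∈ dualAdm E := by
      intro x hx
      have hxz : x ≠ z := fun h => hz (h ▸ hx)
      simp [Pi.single_eq_of_ne hxz, hu x hx]
    have h1 := hmax _ hm
    unfold dualJ at h1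
    rw [hsq, hlin, netK_add_single hsymm] at h1
    rw [hg, hk]
    linarith
  have h2 := h (g / k)
  have h3 : 2 * (g / k) * g - (g / k) ^ 2 * k = g ^ 2 / k := by
    field_simp
    ring
  rw [h3] at h2
  have h4 : g ^ 2 ≤ 0 := by
    by_contra hcon
    have : 0 < g ^ 2 / k := div_pos (not_le.mp hcon) hk0
    linarith
  have h5 : g = 0 := pow_eq_zero_iff (two_ne_zero) |>.mp (le_antisymm h4 (sq_nonneg g))
  rw [hg] at h5
  linarith

theorem dual_value {E : Set V} {c : V → V → ℝ} (hc : ∀ x y, 0 ≤ c x y)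
    (hsymm : ∀ x y, c x y = c y x)
    {q : V → ℝ} {l : ℝ} (hl : 0 < l) {u : V → ℝ} (hu : u ∈ dualAdm E)
    (hmax : ∀ w ∈ dualAdm E, dualJ c q l w ≤ dualJ c q l u) :
    dualJ c q l u = netK c u + l * ∑ x, u x ^ 2 := by
  have h1 : ∑ z, q z * u z = netK c u + l * ∑ x, u x ^ 2 := by
    rw [← sum_mul_netQ hsymm u, Finset.mul_sum, ← Finset.sum_add_distrib]
    refine Finset.sum_congr rfl fun z _ => ?_
    by_cases hz : z ∈ E
    · rw [hu z hz]; ring
    · rw [← dual_stationary hc hsymm hl hu hmax hz]; ring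
  unfold dualJ
  rw [h1]; ring


omit [DecidableEq V] in
theorem dualR_sub_le (E : Set V) {c0 c1 : V → V → ℝ} (h0 : ∀ x y, 0 ≤ c0 x y)
    (h1 : ∀ x y, 0 ≤ c1 x y) (q : V → ℝ) {l : ℝ} (hl : 0 < l) :
    dualR E c1 q l - dualR E c0 q l ≤ (2 * dualM q l) ^ 2 * netDist c1 c0 := by
  obtain ⟨u, huE, hu, _, hM⟩ := exists_max E h1 q hl
  have hosc : ∀ x y, |u x - u y| ≤ 2 * dualM q l := by
    intro x y
    have := abs_sub (u x) (u y)
    linarith [hM x, hM y]
  have e1 := dualJ_le_dualR h0 q hl huE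
  have e2 := (abs_le.mp (netK_sub_abs_le_of_osc c1 c0 hosc)).1
  rw [← hu]
  unfold dualJ at *
  linarith

theorem dual_one_step {E : Set V} {c0 c1 c' : V → V → ℝ}
    (h0 : ∀ x y, 0 ≤ c0 x y) (h1 : ∀ x y, 0 ≤ c1 x y) (hs1 : ∀ x y, c1 x y = c1 y x)
    {r : V → ℝ} (hr0 : ∀ z, 0 ≤ r z) (hr1 : ∀ z, r z ≤ 1) (hrE : ∀ z ∈ E, r z = 0)
    {ε : ℝ} (hε : 0 ≤ ε)
    (hbound : ∀ a : V → ℝ, - ∑ z, r z * ((netQ c0 a z) ^ 2 / netV c0 z + 2 * ε * netStar c0 a z)
      ≤ netK c' a) (q : V → ℝ) {l : ℝ} (hl : 0 < l) {η : ℝ} (hη : 0 < η) {δ : ℝ} (hδ : 0 < δ)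
    {L : ℝ} (hL : L = 2 * dualM q l) :
    δ⁻¹ * (dualR E c1 q l - dualR E c0 q l) ≤
      L ^ 2 * netDist (fun x y => δ⁻¹ * (c1 x y - c0 x y)) c'
      + ((1 + η) * ∑ z, r z * (q z ^ 2 / netV c0 z)
         + (1 + η⁻¹) * (l * (dualR E c0 q l + L ^ 2 * netDist c1 c0) + l * L ^ 2 * netDist c1 c0
            + L ^ 2 * netDist c1 c0 ^ 2) * ∑ z, r z * (netV c0 z)⁻¹)
      + 4 * ε * (dualR E c0 q l + 2 * L ^ 2 * netDist c1 c0) := by
  obtain ⟨u, huE, hu, hmax, hM⟩ := exists_max E h1 q hl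
  set Δ := netDist c1 c0 with hΔ
  have hΔ0 : 0 ≤ Δ := netDist_nonneg _ _
  have hM0 : 0 ≤ dualM q l := by unfold dualM; positivity
  have hL0 : 0 ≤ L := by rw [hL]; positivity
  have hosc : ∀ x y, |u x - u y| ≤ L := by
    intro x y
    have := abs_sub (u x) (u y)
    rw [hL]
    linarith [hM x, hM y]
  -- value comparison
  have hR1 : dualR E c1 q l ≤ dualR E c0 q l + L ^ 2 * Δ := by
    have := dualR_sub_le E h0 h1 q hl
    rw [← hL] at this
    linarith
  have hval := dual_value h1 hs1 hl huE hmax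
  rw [hu] at hval
  have hK0 : 0 ≤ netK c1 u := netK_nonneg h1 u
  have hS0 : 0 ≤ ∑ x, u x ^ 2 := Finset.sum_nonneg fun _ _ => sq_nonneg _
  have hK1 : netK c1 u ≤ dualR E c1 q l := by nlinarith
  have hlu : ∀ z, l ^ 2 * u z ^ 2 ≤ l * (dualR E c0 q l + L ^ 2 * Δ) := by
    intro z
    have e1 : u z ^ 2 ≤ ∑ x, u x ^ 2 :=
      Finset.single_le_sum (f := fun x => u x ^ 2) (fun _ _ => sq_nonneg _) (Finset.mem_univ z)
    have e2 : l * u z ^ 2 ≤ dualR E c1 q l := by nlinarith
    have e3 : l * (l * u z ^ 2) ≤ l * (dualR E c0 q l + L ^ 2 * Δ) :=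
      mul_le_mul_of_nonneg_left (e2.trans hR1) hl.le
    linarith
  have hstep : dualR E c1 q l - dualR E c0 q l ≤ netK c0 u - netK c1 u := by
    have e1 := dualJ_le_dualR h0 q hl huE
    rw [← hu]
    unfold dualJ at *
    linarith
  have hlin : δ⁻¹ * (netK c0 u - netK c1 u) = - netK (fun x y => δ⁻¹ * (c1 x y - c0 x y)) u := by
    unfold netK
    have : ∑ x, ∑ y, δ⁻¹ * (c1 x y - c0 x y) * (u x - u y) ^ 2
        = δ⁻¹ * (∑ x, ∑ y, c1 x y * (u x - u y) ^ 2 - ∑ x, ∑ y, c0 x y * (u x - u y) ^ 2) := by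
      rw [← Finset.sum_sub_distrib, Finset.mul_sum]
      refine Finset.sum_congr rfl fun x _ => ?_
      rw [← Finset.sum_sub_distrib, Finset.mul_sum]
      exact Finset.sum_congr rfl fun y _ => by ring
    rw [this]; ring
  have hd := netK_sub_abs_le_of_osc (fun x y => δ⁻¹ * (c1 x y - c0 x y)) c' hosc
  have hd' := (abs_le.mp hd).1
  have hb := hbound u
  set P := l * (dualR E c0 q l + L ^ 2 * Δ) + l * L ^ 2 * Δ + L ^ 2 * Δ ^ 2 with hP
  have hq : ∀ z ∉ E, (netQ c0 u z) ^ 2 ≤ (1 + η) * q z ^ 2 + (1 + η⁻¹) * P := by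
    intro z hz
    have hst := dual_stationary h1 hs1 hl huE hmax hz
    set e := netQ c0 u z - netQ c1 u z with he
    have he1 : |e| ≤ L * Δ := by
      rw [he, hΔ, netDist_comm]
      exact netQ_sub_abs_le_of_osc c0 c1 hL0 hosc z
    have hqz : netQ c0 u z = q z + (e - l * u z) := by
      rw [he]; linarith
    have hb2 : (e - l * u z) ^ 2 ≤ P := by
      have e1 : (e - l * u z) ^ 2 ≤ (|e| + l * |u z|) ^ 2 := by
        rw [← sq_abs (e - l * u z)]
        refine pow_le_pow_left₀ (abs_nonneg _) ?_ 2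
        have := abs_sub e (l * u z)
        rwa [abs_mul, abs_of_pos hl] at this
      have e2 : |u z| ≤ L / 2 := by rw [hL]; linarith [hM z]
      have e3 := hlu z
      have e4 : |e| * (l * |u z|) ≤ (L * Δ) * (l * (L / 2)) :=
        mul_le_mul he1 (mul_le_mul_of_nonneg_left e2 hl.le) (by positivity) (by positivity)
      have e5 : |e| ^ 2 ≤ (L * Δ) ^ 2 := pow_le_pow_left₀ (abs_nonneg _) he1 2
      have e6 : (l * |u z|) ^ 2 = l ^ 2 * u z ^ 2 := by rw [mul_pow, sq_abs]
      rw [hP]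
      nlinarith
    have hy : 2 * (q z * (e - l * u z)) ≤ η * q z ^ 2 + η⁻¹ * (e - l * u z) ^ 2 := by
      have h1 : 0 ≤ η⁻¹ * (η * q z - (e - l * u z)) ^ 2 := by positivity
      have h2 : η⁻¹ * (η * q z - (e - l * u z)) ^ 2
          = η * q z ^ 2 - 2 * (q z * (e - l * u z)) + η⁻¹ * (e - l * u z) ^ 2 := by
        field_simp
        ring
      linarith
    have hη' : 0 < 1 + η⁻¹ := by positivity
    have hfin := mul_le_mul_of_nonneg_left hb2 hη'.le
    rw [hqz]
    nlinarith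
  have hrq : ∑ z, r z * ((netQ c0 u z) ^ 2 / netV c0 z) ≤
      (1 + η) * ∑ z, r z * (q z ^ 2 / netV c0 z) + (1 + η⁻¹) * P * ∑ z, r z * (netV c0 z)⁻¹ := by
    rw [Finset.mul_sum, Finset.mul_sum, ← Finset.sum_add_distrib]
    refine Finset.sum_le_sum fun z _ => ?_
    have hv : 0 ≤ (netV c0 z)⁻¹ := inv_nonneg.mpr (Finset.sum_nonneg fun x _ => h0 z x)
    by_cases hz : z ∈ E
    · rw [hrE z hz]; simp
    have h2 := mul_le_mul_of_nonneg_right (hq z hz) (mul_nonneg (hr0 z) hv)
    rw [div_eq_mul_inv, div_eq_mul_inv]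
    linarith
  have hstar : ∑ z, r z * netStar c0 u z ≤ 2 * (dualR E c0 q l + 2 * L ^ 2 * Δ) := by
    have e1 : ∑ z, r z * netStar c0 u z ≤ ∑ z, netStar c0 u z :=
      Finset.sum_le_sum fun z _ => by
        have := mul_le_mul_of_nonneg_right (hr1 z) (netStar_nonneg h0 u z)
        linarith
    rw [sum_netStar] at e1
    have e2 := (abs_le.mp (netK_sub_abs_le_of_osc c0 c1 hosc)).2
    rw [netDist_comm, ← hΔ] at e2
    linarith
  have hsum : ∑ z, r z * ((netQ c0 u z) ^ 2 / netV c0 z + 2 * ε * netStar c0 u z)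
      = ∑ z, r z * ((netQ c0 u z) ^ 2 / netV c0 z) + 2 * ε * ∑ z, r z * netStar c0 u z := by
    rw [Finset.mul_sum, ← Finset.sum_add_distrib]
    exact Finset.sum_congr rfl fun z _ => by ring
  have hstar2 : 2 * ε * ∑ z, r z * netStar c0 u z ≤ 2 * ε * (2 * (dualR E c0 q l + 2 * L ^ 2 * Δ)) :=
    mul_le_mul_of_nonneg_left hstar (by positivity)
  have hfin := mul_le_mul_of_nonneg_left hstep (inv_nonneg.mpr hδ.le)
  rw [hlin] at hfin
  linarith

theorem NetFlow.dual_dini {c c' : ℝ → V → V → ℝ} {r : ℝ → V → ℝ} {E G : Set V} {ε : ℝ}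
    (H : NetFlow c c' r E G ε) (q : V → ℝ) {l : ℝ} (hl : 0 < l) {η : ℝ} (hη : 0 < η)
    {s : ℝ} (hs : 0 ≤ s) {b : ℝ}
    (hb : ((1 + η) * ∑ z, r s z * (q z ^ 2 / netV (c s) z)
         + (1 + η⁻¹) * (l * dualR E (c s) q l) * ∑ z, r s z * (netV (c s) z)⁻¹)
      + 4 * ε * dualR E (c s) q l < b) :
    ∀ᶠ z in 𝓝[>] s, (z - s)⁻¹ * (dualR E (c z) q l - dualR E (c s) q l) < b := by
  have hslope : ∀ x y, Tendsto (fun z => (z - s)⁻¹ * (c z x y - c s x y)) (𝓝[>] s)
      (𝓝 (c' s x y)) := by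
    intro x y
    have h := hasDerivWithinAt_iff_tendsto_slope.mp (H.der s hs x y)
    rw [Set.Ici_sdiff_left] at h
    refine h.congr fun z => ?_
    simp [slope_def_field, div_eq_inv_mul]
  have hval : ∀ x y, Tendsto (fun z => c z x y) (𝓝[>] s) (𝓝 (c s x y)) := by
    intro x y
    exact (H.der s hs x y).continuousWithinAt.tendsto.mono_left
      (nhdsWithin_mono _ Set.Ioi_subset_Ici_self)
  have h1 := tendsto_netDist hslope
  have h2 := tendsto_netDist hval
  set L := 2 * dualM q l with hL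
  set R := dualR E (c s) q l with hR
  have hlim : Tendsto (fun z =>
      L ^ 2 * netDist (fun x y => (z - s)⁻¹ * (c z x y - c s x y)) (c' s)
      + ((1 + η) * ∑ w, r s w * (q w ^ 2 / netV (c s) w)
         + (1 + η⁻¹) * (l * (R + L ^ 2 * netDist (c z) (c s)) + l * L ^ 2 * netDist (c z) (c s)
            + L ^ 2 * netDist (c z) (c s) ^ 2) * ∑ w, r s w * (netV (c s) w)⁻¹)
      + 4 * ε * (R + 2 * L ^ 2 * netDist (c z) (c s))) (𝓝[>] s)
      (𝓝 (L ^ 2 * 0
      + ((1 + η) * ∑ w, r s w * (q w ^ 2 / netV (c s) w)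
         + (1 + η⁻¹) * (l * (R + L ^ 2 * 0) + l * L ^ 2 * 0
            + L ^ 2 * 0 ^ 2) * ∑ w, r s w * (netV (c s) w)⁻¹)
      + 4 * ε * (R + 2 * L ^ 2 * 0))) := by
    refine ((h1.const_mul _).add ?_).add (Tendsto.const_mul _ ?_)
    · refine Tendsto.const_add _ (Tendsto.mul_const _ (Tendsto.const_mul _ ?_))
      refine ((Tendsto.const_mul _ ((h2.const_mul _).const_add _)).add (h2.const_mul _)).add ?_
      exact (h2.pow 2).const_mul _
    · exact (h2.const_mul _).const_add _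
  have hlt : (L ^ 2 * 0
      + ((1 + η) * ∑ w, r s w * (q w ^ 2 / netV (c s) w)
         + (1 + η⁻¹) * (l * (R + L ^ 2 * 0) + l * L ^ 2 * 0
            + L ^ 2 * 0 ^ 2) * ∑ w, r s w * (netV (c s) w)⁻¹)
      + 4 * ε * (R + 2 * L ^ 2 * 0)) < b := by
    simpa using hb
  have hev := hlim.eventually (gt_mem_nhds hlt)
  filter_upwards [hev, self_mem_nhdsWithin] with z hz hzs
  have hzs' : (0 : ℝ) < z - s := sub_pos.mpr hzs
  have hz0 : 0 ≤ z := hs.trans (le_of_lt hzs)
  exact lt_of_le_of_lt (dual_one_step (H.nn s hs) (H.nn z hz0) (H.symm z hz0) (H.r0 s hs)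
    (H.r1 s hs) (H.rE s hs) H.eps (H.bound s hs) q hl hη hzs' hL) hz

omit [DecidableEq V] in
theorem NetFlow.continuousOn_dualR {c c' : ℝ → V → V → ℝ} {r : ℝ → V → ℝ} {E G : Set V} {ε : ℝ}
    (H : NetFlow c c' r E G ε) (q : V → ℝ) {l : ℝ} (hl : 0 < l) :
    ContinuousOn (fun s => dualR E (c s) q l) (Set.Ici 0) := by
  intro s hs
  have hval : ∀ x y, Tendsto (fun z => c z x y) (𝓝[Set.Ici 0] s) (𝓝 (c s x y)) :=
    fun x y => H.cont x y s hs
  have h2 := (tendsto_netDist hval).const_mul ((2 * dualM q l) ^ 2)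
  rw [mul_zero] at h2
  rw [ContinuousWithinAt, tendsto_iff_dist_tendsto_zero]
  refine squeeze_zero' (Eventually.of_forall fun _ => dist_nonneg) ?_ h2
  filter_upwards [self_mem_nhdsWithin] with z hz
  rw [Real.dist_eq, abs_le]
  have e1 := dualR_sub_le E (H.nn s hs) (H.nn z hz) q hl
  have e2 := dualR_sub_le E (H.nn z hz) (H.nn s hs) q hl
  rw [netDist_comm] at e2
  constructor <;> linarith

theorem NetFlow.dual_upper_reg {c c' : ℝ → V → V → ℝ} {r : ℝ → V → ℝ} {E G : Set V} {ε : ℝ}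
    (H : NetFlow c c' r E G ε) (q : V → ℝ) {T D W R0 : ℝ} (hT : 0 ≤ T) (hD : 0 ≤ D)
    (hW0 : 0 ≤ W) (hR00 : 0 ≤ R0)
    (hq : ∀ s, 0 ≤ s → s ≤ T → ∑ z, r s z * (q z ^ 2 / netV (c s) z) ≤ D * Real.exp s)
    (hW : ∀ s, 0 ≤ s → s ≤ T → ∑ z, r s z * (netV (c s) z)⁻¹ ≤ W)
    (hR0 : ∀ u : V → ℝ, (∀ x ∈ E, u x = 0) → 2 * ∑ x, q x * u x - netK (c 0) u ≤ R0)
    {l : ℝ} (hl : 0 < l) {η : ℝ} (hη : 0 < η) :
    dualR E (c T) q l ≤ Real.exp ((4 * ε + (1 + η⁻¹) * l * W + η) * T)
      * (R0 + η + (1 + η) * D * (Real.exp T - 1)) := by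
  set K := 4 * ε + (1 + η⁻¹) * l * W with hK
  have hε := H.eps
  have hK0 : 0 ≤ K := by rw [hK]; positivity
  have hf : ContinuousOn (fun s => dualR E (c s) q l) (Set.Icc 0 T) :=
    (H.continuousOn_dualR q hl).mono Set.Icc_subset_Ici_self
  have hRnn : ∀ s, 0 ≤ s → 0 ≤ dualR E (c s) q l := by
    intro s hs
    have h0E : (0 : V → ℝ) ∈ dualAdm E := fun x _ => rfl
    have := dualJ_le_dualR (H.nn s hs) q hl h0E
    simpa [dualJ, netK] using this
  refine image_le_of_liminf_slope_right_lt_deriv_boundary' (f := fun s => dualR E (c s) q l)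
    (f' := fun s => (1 + η) * (D * Real.exp s) + K * dualR E (c s) q l)
    (a := 0) (b := T) hf
    (B := fun s => Real.exp ((K + η) * s) * (R0 + η + (1 + η) * D * (Real.exp s - 1)))
    (B' := fun s => (K + η) * (Real.exp ((K + η) * s) * (R0 + η + (1 + η) * D * (Real.exp s - 1)))
      + Real.exp ((K + η) * s) * ((1 + η) * D * Real.exp s)) ?_ ?_ ?_ ?_ ?_ (x := T) ⟨hT, le_rfl⟩
  · -- slope
    intro s hs b hb
    have hb' : ((1 + η) * ∑ z, r s z * (q z ^ 2 / netV (c s) z)
         + (1 + η⁻¹) * (l * dualR E (c s) q l) * ∑ z, r s z * (netV (c s) z)⁻¹)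
      + 4 * ε * dualR E (c s) q l < b := by
      refine lt_of_le_of_lt ?_ hb
      have e1 := mul_le_mul_of_nonneg_left (hq s hs.1 hs.2.le) (by positivity : 0 ≤ 1 + η)
      have hRs := hRnn s hs.1
      have e2 := mul_le_mul_of_nonneg_left (hW s hs.1 hs.2.le)
        (by positivity : 0 ≤ (1 + η⁻¹) * (l * dualR E (c s) q l))
      rw [hK]
      have e3 : (4 * ε + (1 + η⁻¹) * l * W) * dualR E (c s) q l
          = 4 * ε * dualR E (c s) q l + (1 + η⁻¹) * (l * dualR E (c s) q l) * W := by ring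
      rw [e3]
      linarith
    have := H.dual_dini q hl hη hs.1 hb'
    refine Eventually.frequently (this.mono fun z hz => ?_)
    rw [slope_def_field, div_eq_inv_mul]
    exact hz
  · -- initial value
    obtain ⟨u, huE, hu, _, _⟩ := exists_max E (H.nn 0 le_rfl) q hl
    have e1 := hR0 u huE
    have e2 : 0 ≤ l * ∑ x, u x ^ 2 := mul_nonneg hl.le (Finset.sum_nonneg fun _ _ => sq_nonneg _)
    simp only [mul_zero, Real.exp_zero, one_mul, sub_self, add_zero]
    rw [← hu]
    unfold dualJ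
    linarith
  · fun_prop
  · intro s _
    have h1 : HasDerivAt (fun s : ℝ => Real.exp ((K + η) * s)) (Real.exp ((K + η) * s) * (K + η)) s := by
      have := ((hasDerivAt_id s).const_mul (K + η)).exp
      simpa using this
    have h2 : HasDerivAt (fun s : ℝ => R0 + η + (1 + η) * D * (Real.exp s - 1))
        ((1 + η) * D * Real.exp s) s :=
      (((Real.hasDerivAt_exp s).sub_const 1).const_mul _).const_add _
    have h3 := h1.mul h2
    refine (h3.congr_deriv ?_).hasDerivWithinAt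
    ring
  · intro s hs heq
    have hs0 := hs.1

    rw [heq]
    have hBpos : 0 < Real.exp ((K + η) * s) * (R0 + η + (1 + η) * D * (Real.exp s - 1)) := by
      have : 0 ≤ (1 + η) * D * (Real.exp s - 1) := by
        have := Real.one_le_exp hs0
        have h' : 0 ≤ Real.exp s - 1 := by linarith
        positivity
      have h2 : 0 < R0 + η + (1 + η) * D * (Real.exp s - 1) := by linarith
      positivity
    have h1 : (1 + η) * (D * Real.exp s) ≤ Real.exp ((K + η) * s) * ((1 + η) * D * Real.exp s) := by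
      have h2 : 1 ≤ Real.exp ((K + η) * s) := Real.one_le_exp (by positivity)
      have h3 : 0 ≤ (1 + η) * D * Real.exp s := by positivity
      nlinarith
    nlinarith [mul_pos hη hBpos]

/-- **Network ODE, dual form** (note 9886, step (3)). -/
theorem NetFlow.dual_upper {c c' : ℝ → V → V → ℝ} {r : ℝ → V → ℝ} {E G : Set V} {ε : ℝ}
    (H : NetFlow c c' r E G ε) (q : V → ℝ) {T D W R0 : ℝ} (hT : 0 ≤ T) (hD : 0 ≤ D)
    (hq : ∀ s, 0 ≤ s → s ≤ T → ∑ z, r s z * (q z ^ 2 / netV (c s) z) ≤ D * Real.exp s)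
    (hW : ∀ s, 0 ≤ s → s ≤ T → ∑ z, r s z * (netV (c s) z)⁻¹ ≤ W)
    (hR0 : ∀ u : V → ℝ, (∀ x ∈ E, u x = 0) → 2 * ∑ x, q x * u x - netK (c 0) u ≤ R0)
    {u : V → ℝ} (hu : ∀ x ∈ E, u x = 0) :
    2 * ∑ x, q x * u x - netK (c T) u ≤ Real.exp (4 * ε * T) * (R0 + D * (Real.exp T - 1)) := by
  have hR00 : 0 ≤ R0 := by
    have := hR0 0 (fun _ _ => rfl)
    simpa [netK] using this
  have hW' : ∀ s, 0 ≤ s → s ≤ T → ∑ z, r s z * (netV (c s) z)⁻¹ ≤ max W 0 :=
    fun s h1 h2 => (hW s h1 h2).trans (le_max_left _ _)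
  have hreg : ∀ t : ℝ, 0 < t → 2 * ∑ x, q x * u x - netK (c T) u - t ^ 2 * ∑ x, u x ^ 2 ≤
      Real.exp ((4 * ε + (t ^ 2 + t) * max W 0 + t) * T)
      * (R0 + t + (1 + t) * D * (Real.exp T - 1)) := by
    intro t ht
    have h1 := H.dual_upper_reg q hT hD (le_max_right W 0) hR00 hq hW' hR0 (l := t ^ 2)
      (by positivity) ht
    have h2 := dualJ_le_dualR (H.nn T hT) q (l := t ^ 2) (by positivity) hu
    have h3 : (1 + t⁻¹) * t ^ 2 = t ^ 2 + t := by field_simp
    rw [h3] at h1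
    unfold dualJ at h2
    exact h2.trans h1
  have hl1 : Tendsto (fun t : ℝ => 2 * ∑ x, q x * u x - netK (c T) u - t ^ 2 * ∑ x, u x ^ 2)
      (𝓝[>] 0) (𝓝 (2 * ∑ x, q x * u x - netK (c T) u - 0 ^ 2 * ∑ x, u x ^ 2)) := by
    refine Tendsto.mono_left ?_ nhdsWithin_le_nhds
    exact (Continuous.tendsto (by fun_prop) 0)
  have hl2 : Tendsto (fun t : ℝ => Real.exp ((4 * ε + (t ^ 2 + t) * max W 0 + t) * T)
      * (R0 + t + (1 + t) * D * (Real.exp T - 1))) (𝓝[>] 0)
      (𝓝 (Real.exp ((4 * ε + (0 ^ 2 + 0) * max W 0 + 0) * T)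
      * (R0 + 0 + (1 + 0) * D * (Real.exp T - 1)))) := by
    refine Tendsto.mono_left ?_ nhdsWithin_le_nhds
    have hc : Continuous (fun t : ℝ => Real.exp ((4 * ε + (t ^ 2 + t) * max W 0 + t) * T)
      * (R0 + t + (1 + t) * D * (Real.exp T - 1))) := by fun_prop
    exact hc.tendsto 0
  have hle := le_of_tendsto_of_tendsto hl1 hl2
    (by filter_upwards [self_mem_nhdsWithin] with t ht using hreg t ht)
  simpa using hle

end P361.LRO
end

section

/-!
# Network ODE (note 9886, step (3)): the forms `LB` and `RB`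
-/

namespace P361.LRO

open Finset Set Filter Topology

variable {V : Type*} [Fintype V] [DecidableEq V]

omit [DecidableEq V] in
theorem le_netCap_iff {c : V → V → ℝ} (hc : ∀ x y, 0 ≤ c x y) {E G : Set V} (hEG : Disjoint E G)
    {C : ℝ} : C ≤ netCap c E G ↔
      ∀ a : V → ℝ, (∀ x ∈ E, a x = 1) → (∀ x ∈ G, a x = 0) → C ≤ netK c a := by
  constructor
  · intro h a hE hG
    exact h.trans (netCap_le' hc hE hG)
  · intro h
    obtain ⟨u, hu, huc, _⟩ := exists_min c hEG
    rw [← huc]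
    exact h u hu.2.1 hu.2.2

/-- Primal ODE for lower bounds of the effective conductance. -/
theorem NetFlow.LB_lower {c c' : ℝ → V → V → ℝ} {r : ℝ → V → ℝ} {E G : Set V} {ε : ℝ}
    (H : NetFlow c c' r E G ε) {B : ℝ} (hB0 : 0 ≤ B)
    (hB : ∀ s, 0 ≤ s → ∑ z, r s z * netV (c s) z ≤ B * Real.exp (-s)) {S T : ℝ} (hS : 0 ≤ S)
    (hT : 0 ≤ T) {C : ℝ}
    (h : ∀ a : V → ℝ, (∀ x ∈ E, a x = 1) → (∀ x ∈ G, a x = 0) → C ≤ netK (c 0) a)
    {a : V → ℝ} (haE : ∀ x ∈ E, a x = 1) (haG : ∀ x ∈ G, a x = 0) :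
    Real.exp (-(4 * ε * S)) * C - 2 * ε * B * Real.exp (-S) ≤ netK (c T) a := by
  have h1 := (le_netCap_iff (H.nn 0 le_rfl) H.disj).mpr h
  have h2 := H.cap_lower hB0 hB hS hT
  have h3 := netCap_le' (H.nn T hT) haE haG
  have h4 := mul_le_mul_of_nonneg_left h1 (Real.exp_nonneg (-(4 * ε * S)))
  linarith

omit [DecidableEq V] in
theorem sq_le_iff_quad {E : Set V} {c : V → V → ℝ} (hc : ∀ x y, 0 ≤ c x y) {q : V → ℝ} {R : ℝ}
    (hR : 0 ≤ R) :
    (∀ u : V → ℝ, (∀ x ∈ E, u x = 0) → (∑ x, q x * u x) ^ 2 ≤ R * netK c u) ↔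
    (∀ u : V → ℝ, (∀ x ∈ E, u x = 0) → 2 * ∑ x, q x * u x - netK c u ≤ R) := by
  constructor
  · intro h u hu
    have h1 := h u hu
    have hK := netK_nonneg hc u
    nlinarith [sq_nonneg (R - netK c u), sq_nonneg (∑ x, q x * u x - (R + netK c u) / 2),
      abs_le_of_sq_le_sq' (show (∑ x, q x * u x) ^ 2 ≤ ((R + netK c u) / 2) ^ 2 by
        nlinarith [sq_nonneg (R - netK c u)]) (by linarith)]
  · intro h u hu
    have hK := netK_nonneg hc u
    have hs : ∀ t : ℝ, 2 * t * ∑ x, q x * u x - t ^ 2 * netK c u ≤ R := by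
      intro t
      have h1 := h (fun x => t * u x) (fun x hx => by rw [hu x hx, mul_zero])
      have h2 : ∑ x, q x * (t * u x) = t * ∑ x, q x * u x := by
        rw [Finset.mul_sum]
        exact Finset.sum_congr rfl fun x _ => by ring
      have h3 : netK c (fun x => t * u x) = t ^ 2 * netK c u := by
        unfold netK
        have : ∀ x y, c x y * (t * u x - t * u y) ^ 2 = t ^ 2 * (c x y * (u x - u y) ^ 2) :=
          fun x y => by ring
        simp only [this, ← Finset.mul_sum]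
        ring
      rw [h2, h3] at h1
      linarith
    set S := ∑ x, q x * u x with hS
    rcases hK.lt_or_eq with hK0 | hK0
    · have h1 := hs (S / netK c u)
      have h2 : 2 * (S / netK c u) * S - (S / netK c u) ^ 2 * netK c u = S ^ 2 / netK c u := by
        field_simp
        ring
      rw [h2, div_le_iff₀ hK0] at h1
      exact h1
    · rw [← hK0, mul_zero]
      by_contra hcon
      have hS2 : 0 < S ^ 2 := not_le.mp hcon
      have hS0 : S ≠ 0 := fun h => by rw [h] at hS2; simp at hS2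
      have h1 := hs ((R + 1) / (2 * S))
      rw [← hK0] at h1
      have h2 : 2 * ((R + 1) / (2 * S)) * S - ((R + 1) / (2 * S)) ^ 2 * 0 = R + 1 := by
        field_simp
        ring
      rw [h2] at h1
      linarith

/-- Dual ODE for upper bounds of the resistance, `u = 0` on the electrode. -/
theorem NetFlow.RB_lower0 {c c' : ℝ → V → V → ℝ} {r : ℝ → V → ℝ} {E G : Set V} {ε : ℝ}
    (H : NetFlow c c' r E G ε) (q : V → ℝ) {T D W R : ℝ} (hT : 0 ≤ T) (hD : 0 ≤ D) (hR : 0 ≤ R)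
    (hq : ∀ s, 0 ≤ s → s ≤ T → ∑ z, r s z * (q z ^ 2 / netV (c s) z) ≤ D * Real.exp s)
    (hW : ∀ s, 0 ≤ s → s ≤ T → ∑ z, r s z * (netV (c s) z)⁻¹ ≤ W)
    (hR0 : ∀ u : V → ℝ, (∀ x ∈ E, u x = 0) → (∑ x, q x * u x) ^ 2 ≤ R * netK (c 0) u)
    {u : V → ℝ} (hu : ∀ x ∈ E, u x = 0) :
    (∑ x, q x * u x) ^ 2 ≤
      (Real.exp (4 * ε * T) * (R + D * (Real.exp T - 1))) * netK (c T) u := by
  have hRT : 0 ≤ Real.exp (4 * ε * T) * (R + D * (Real.exp T - 1)) := by
    have : 0 ≤ Real.exp T - 1 := by linarith [Real.one_le_exp hT]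
    positivity
  refine (sq_le_iff_quad (H.nn T hT) hRT).mpr ?_ u hu
  intro u hu
  exact H.dual_upper q hT hD hq hW ((sq_le_iff_quad (H.nn 0 le_rfl) hR).mp hR0) hu

omit [DecidableEq V] in
theorem netK_one_sub (c : V → V → ℝ) (a : V → ℝ) : netK c (fun x => 1 - a x) = netK c a := by
  unfold netK
  congr 1
  exact Finset.sum_congr rfl fun x _ => Finset.sum_congr rfl fun y _ => by ring

/-- Dual ODE for upper bounds of the resistance, `a = 1` on the electrode, unit charge `q`. -/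
theorem NetFlow.RB_lower {c c' : ℝ → V → V → ℝ} {r : ℝ → V → ℝ} {E G : Set V} {ε : ℝ}
    (H : NetFlow c c' r E G ε) (q : V → ℝ) (hq1 : ∑ x, q x = 1)
    {T D W R : ℝ} (hT : 0 ≤ T) (hD : 0 ≤ D) (hR : 0 ≤ R)
    (hq : ∀ s, 0 ≤ s → s ≤ T → ∑ z, r s z * (q z ^ 2 / netV (c s) z) ≤ D * Real.exp s)
    (hW : ∀ s, 0 ≤ s → s ≤ T → ∑ z, r s z * (netV (c s) z)⁻¹ ≤ W)
    (hR0 : ∀ a : V → ℝ, (∀ x ∈ E, a x = 1) → (1 - ∑ x, q x * a x) ^ 2 ≤ R * netK (c 0) a)
    {a : V → ℝ} (ha : ∀ x ∈ E, a x = 1) :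
    (1 - ∑ x, q x * a x) ^ 2 ≤
      (Real.exp (4 * ε * T) * (R + D * (Real.exp T - 1))) * netK (c T) a := by
  have hconv : ∀ a : V → ℝ, ∑ x, q x * (1 - a x) = 1 - ∑ x, q x * a x := by
    intro a
    have h1 : ∑ x, q x * (1 - a x) = ∑ x, q x - ∑ x, q x * a x := by
      rw [← Finset.sum_sub_distrib]
      exact Finset.sum_congr rfl fun x _ => by ring
    rw [h1, hq1]
  have h := H.RB_lower0 q hT hD hR hq hW (fun u hu => by
    have h1 := hR0 (fun x => 1 - u x) (fun x hx => by simp [hu x hx])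
    rw [netK_one_sub] at h1
    have h2 := hconv (fun x => 1 - u x)
    simp only [sub_sub_cancel] at h2
    rw [h2]
    exact h1) (u := fun x => 1 - a x) (fun x hx => by simp [ha x hx])
  rw [netK_one_sub, hconv] at h
  exact h

end P361.LRO
end

section

/-!
P361, note 9886, step (3) for the charge network of `Defs.lean` (Part A): lowering the node
parameters `θ` along `max (θ') (e^{-s} θ)`.
-/

namespace Vale.Agent.P361.LRO.Net

open Finset Filter Topology
open Vale.Agent.P361.LRO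

set_option linter.unusedSectionVars false

variable {X : Type} [Fintype X] [DecidableEq X]

/-- The properties of the law of the rings used by the network part. -/
structure Good (μ : Equiv.Perm X → ℝ) : Prop where
  nn : ∀ π, 0 ≤ μ π
  pos : 0 < ∑ π, μ π
  ccnn : ∀ θ : X → ℝ, (∀ x, 0 ≤ θ x ∧ θ x ≤ 1) → ∀ x y, x ≠ y → 0 ≤ cc μ θ x y
  vle : ∀ θ : X → ℝ, (∀ x, 0 ≤ θ x ∧ θ x ≤ 1) → ∀ z, vv μ θ z ≤ θ z
  one : OneNode μ

/-! ### Elementary facts -/

theorem law_nonneg (l : List (X × X × ℝ)) (σ : Equiv.Perm X)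
    (hl : ∀ g ∈ l, 0 ≤ g.2.2 ∧ g.2.2 ≤ 1) (π : Equiv.Perm X) : 0 ≤ law l σ π := by
  induction l generalizing π with
  | nil =>
    simp only [law]
    by_cases h : π = σ
    · subst h; simp
    · simp [Pi.single_eq_of_ne h]
  | cons g l ih =>
    have hg := hl g (by simp)
    have hl' : ∀ g ∈ l, 0 ≤ g.2.2 ∧ g.2.2 ≤ 1 := fun g hg => hl g (by simp [hg])
    simp only [law]
    exact add_nonneg (mul_nonneg (by linarith [hg.2]) (ih hl' π)) (mul_nonneg hg.1 (ih hl' _))

theorem law_sum (l : List (X × X × ℝ)) (σ : Equiv.Perm X) : ∑ π, law l σ π = 1 := by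
  induction l with
  | nil => simp [law]
  | cons g l ih =>
    simp only [law, Finset.sum_add_distrib, ← Finset.mul_sum]
    have h := Equiv.sum_comp (Equiv.mulLeft (Equiv.swap g.1 g.2.1)) (law l σ)
    simp only [Equiv.coe_mulLeft] at h
    rw [h, ih]
    ring

theorem wt_nonneg {θ : X → ℝ} (hθ : ∀ x, 0 ≤ θ x) (π : Equiv.Perm X) (s : X → Fin 2) :
    0 ≤ wt θ π s := by
  unfold wt
  refine Finset.prod_nonneg fun x _ => ?_
  split_ifs
  · exact zero_le_one
  · exact hθ x

theorem ZZ_pos {μ : Equiv.Perm X → ℝ} (h0 : ∀ π, 0 ≤ μ π) (h1 : 0 < ∑ π, μ π) {θ : X → ℝ}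
    (hθ : ∀ x, 0 ≤ θ x) : 0 < ZZ μ θ := by
  unfold ZZ
  refine lt_of_lt_of_le h1 (Finset.sum_le_sum fun π _ => ?_)
  have h2 : μ π * wt θ π (fun _ => 0) = μ π := by simp [wt]
  calc μ π = μ π * wt θ π (fun _ => 0) := h2.symm
    _ ≤ ∑ s, μ π * wt θ π s :=
      Finset.single_le_sum (f := fun s => μ π * wt θ π s)
        (fun s _ => mul_nonneg (h0 π) (wt_nonneg hθ π s)) (Finset.mem_univ _)

theorem sum_jj (π : Equiv.Perm X) (s : X → Fin 2) : ∑ x, jj π s x = 0 := by
  unfold jj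
  rw [Finset.sum_sub_distrib, Equiv.sum_comp π (fun x => ((s x : ℕ) : ℝ)), sub_self]

theorem jj_sq (π : Equiv.Perm X) (s : X → Fin 2) (x : X) :
    jj π s x ^ 2 = if s x = s (π x) then 0 else 1 := by
  unfold jj
  generalize s x = u
  generalize s (π x) = v
  fin_cases u <;> fin_cases v <;> norm_num

/-! ### Linearity of the expectation -/

theorem EE_add (μ : Equiv.Perm X → ℝ) (θ : X → ℝ) (f g : Equiv.Perm X → (X → Fin 2) → ℝ) :
    EE μ θ (fun π s => f π s + g π s) = EE μ θ f + EE μ θ g := by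
  unfold EE
  rw [← add_div, ← Finset.sum_add_distrib]
  congr 1
  refine Finset.sum_congr rfl fun π _ => ?_
  rw [← Finset.sum_add_distrib]
  exact Finset.sum_congr rfl fun s _ => by ring

theorem EE_const_mul (μ : Equiv.Perm X → ℝ) (θ : X → ℝ) (k : ℝ)
    (f : Equiv.Perm X → (X → Fin 2) → ℝ) :
    EE μ θ (fun π s => k * f π s) = k * EE μ θ f := by
  unfold EE
  rw [← mul_div_assoc, Finset.mul_sum]
  congr 1
  refine Finset.sum_congr rfl fun π _ => ?_
  rw [Finset.mul_sum]
  exact Finset.sum_congr rfl fun s _ => by ring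

theorem EE_sum {ι : Type*} (A : Finset ι) (μ : Equiv.Perm X → ℝ) (θ : X → ℝ)
    (f : ι → Equiv.Perm X → (X → Fin 2) → ℝ) :
    EE μ θ (fun π s => ∑ i ∈ A, f i π s) = ∑ i ∈ A, EE μ θ (f i) := by
  classical
  induction A using Finset.induction_on with
  | empty => simp [EE]
  | insert i A hi ih =>
    simp only [Finset.sum_insert hi]
    rw [EE_add, ih]

/-- Pointwise form of `K(a) = ∑_{u<v} c_uv (a_u - a_v)²`. -/
theorem jj_square (π : Equiv.Perm X) (s : X → Fin 2) (a : X → ℝ) :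
    (∑ x, a x * jj π s x) ^ 2 =
      (1 / 2) * ∑ x, ∑ y, (-(jj π s x * jj π s y)) * (a x - a y) ^ 2 := by
  have h0 := sum_jj π s
  have e : ∀ x y : X, (-(jj π s x * jj π s y)) * (a x - a y) ^ 2 =
      -(a x ^ 2 * jj π s x) * jj π s y - jj π s x * (a y ^ 2 * jj π s y)
        + 2 * ((a x * jj π s x) * (a y * jj π s y)) := fun x y => by ring
  simp only [e, Finset.sum_add_distrib, Finset.sum_sub_distrib, ← Finset.mul_sum,
    ← Finset.sum_mul, h0]
  ring

/-- Off-diagonal conductances. -/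
noncomputable def c0 (μ : Equiv.Perm X → ℝ) (θ : X → ℝ) (x y : X) : ℝ :=
  if x = y then 0 else cc μ θ x y

theorem netK_offdiag (c : X → X → ℝ) (a : X → ℝ) :
    P361.LRO.netK (fun x y => if x = y then 0 else c x y) a =
      (1 / 2) * ∑ x, ∑ y, c x y * (a x - a y) ^ 2 := by
  unfold P361.LRO.netK
  congr 1
  refine Finset.sum_congr rfl fun x _ => Finset.sum_congr rfl fun y _ => ?_
  by_cases h : x = y
  · subst h; simp
  · simp [h]

/-- `K` of a bilinear functional. -/
theorem netK_EE (μ : Equiv.Perm X → ℝ) (θ : X → ℝ) (R : Equiv.Perm X → (X → Fin 2) → ℝ)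
    (a : X → ℝ) :
    (1 / 2) * ∑ x, ∑ y, (-(EE μ θ fun π s => R π s * (jj π s x * jj π s y))) * (a x - a y) ^ 2 =
      EE μ θ (fun π s => R π s * (∑ x, a x * jj π s x) ^ 2) := by
  have h1 : (fun (π : Equiv.Perm X) (s : X → Fin 2) => R π s * (∑ x, a x * jj π s x) ^ 2) =
      fun π s => ∑ x, ∑ y, ((-(1 / 2) * (a x - a y) ^ 2) *
        (R π s * (jj π s x * jj π s y))) := by
    funext π s
    rw [jj_square, Finset.mul_sum, Finset.mul_sum]
    refine Finset.sum_congr rfl fun x _ => ?_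
    rw [Finset.mul_sum, Finset.mul_sum]
    exact Finset.sum_congr rfl fun y _ => by ring
  rw [h1, EE_sum, Finset.mul_sum]
  refine Finset.sum_congr rfl fun x _ => ?_
  rw [EE_sum, Finset.mul_sum]
  refine Finset.sum_congr rfl fun y _ => ?_
  rw [EE_const_mul]
  ring

theorem netK_c0 (μ : Equiv.Perm X → ℝ) (θ : X → ℝ) (a : X → ℝ) :
    P361.LRO.netK (c0 μ θ) a = KK μ θ a := by
  have h := netK_EE μ θ (fun _ _ => 1) a
  simp only [one_mul] at h
  unfold c0
  rw [netK_offdiag]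
  exact h

/-- `K(a) = (1/2) ∑ ∑ c_xy (a_x - a_y)²`. -/
theorem KK_eq (μ : Equiv.Perm X → ℝ) (θ : X → ℝ) (a : X → ℝ) :
    KK μ θ a = (1 / 2) * ∑ x, ∑ y, cc μ θ x y * (a x - a y) ^ 2 := by
  rw [← netK_c0]; unfold c0; rw [netK_offdiag]

theorem cc_self (μ : Equiv.Perm X → ℝ) (θ : X → ℝ) (z : X) : cc μ θ z z = - vv μ θ z := by
  unfold cc vv
  simp only [pow_two]

theorem cc_comm (μ : Equiv.Perm X → ℝ) (θ : X → ℝ) (x y : X) : cc μ θ x y = cc μ θ y x := by
  unfold cc
  simp only [mul_comm]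

theorem sum_cc (μ : Equiv.Perm X → ℝ) (θ : X → ℝ) (z : X) : ∑ x, cc μ θ z x = 0 := by
  unfold cc
  rw [Finset.sum_neg_distrib, ← EE_sum]
  have : (fun (π : Equiv.Perm X) (s : X → Fin 2) => ∑ i, jj π s z * jj π s i) =
      fun _ _ => 0 := by
    funext π s
    rw [← Finset.mul_sum, sum_jj, mul_zero]
  rw [this]
  simp [EE]

theorem netV_c0 (μ : Equiv.Perm X → ℝ) (θ : X → ℝ) (z : X) :
    P361.LRO.netV (c0 μ θ) z = vv μ θ z := by
  unfold P361.LRO.netV c0
  have h1 : ∑ x, (if z = x then (0 : ℝ) else cc μ θ z x) =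
      ∑ x, cc μ θ z x - ∑ x, (if z = x then cc μ θ z x else 0) := by
    rw [← Finset.sum_sub_distrib]
    refine Finset.sum_congr rfl fun x _ => ?_
    by_cases h : z = x <;> simp [h]
  rw [h1, sum_cc, Finset.sum_ite_eq]
  simp [cc_self]

theorem netQ_c0 (μ : Equiv.Perm X → ℝ) (θ : X → ℝ) (a : X → ℝ) (z : X) :
    P361.LRO.netQ (c0 μ θ) a z = - ∑ x, cc μ θ z x * (a x - a z) := by
  unfold P361.LRO.netQ c0
  rw [← Finset.sum_neg_distrib]
  refine Finset.sum_congr rfl fun x _ => ?_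
  by_cases h : z = x
  · subst h; simp
  · simp [h]; ring

theorem netStar_c0 (μ : Equiv.Perm X → ℝ) (θ : X → ℝ) (a : X → ℝ) (z : X) :
    P361.LRO.netStar (c0 μ θ) a z = ∑ x, cc μ θ z x * (a x - a z) ^ 2 := by
  unfold P361.LRO.netStar c0
  refine Finset.sum_congr rfl fun x _ => ?_
  by_cases h : z = x
  · subst h; simp
  · simp [h]

/-! ### Derivatives along a path of parameters -/

section Deriv

variable {θs : ℝ → X → ℝ} {r : X → ℝ} {s₀ : ℝ} {S : Set ℝ}

/-- `∑_z r_z j_z²`. -/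
noncomputable def RR (r : X → ℝ) (π : Equiv.Perm X) (s : X → Fin 2) : ℝ :=
  ∑ z, r z * jj π s z ^ 2

theorem wt_hasDeriv (h : ∀ x, HasDerivWithinAt (fun t => θs t x) (-(r x * θs s₀ x)) S s₀)
    (π : Equiv.Perm X) (s : X → Fin 2) :
    HasDerivWithinAt (fun t => wt (θs t) π s) (-(RR r π s * wt (θs s₀) π s)) S s₀ := by
  have h1 : ∀ x ∈ (Finset.univ : Finset X),
      HasDerivWithinAt (fun t => if s x = s (π x) then (1 : ℝ) else θs t x)
        (-(r x * jj π s x ^ 2 * (if s x = s (π x) then (1 : ℝ) else θs s₀ x))) S s₀ := by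
    intro x _
    rw [jj_sq]
    by_cases hx : s x = s (π x)
    · simp only [hx, if_true]
      simpa using hasDerivWithinAt_const s₀ S (1 : ℝ)
    · simp only [hx, if_false]
      simpa using h x
  have h2 := HasDerivWithinAt.fun_finsetProd h1
  unfold wt
  refine h2.congr_deriv ?_
  simp only [smul_eq_mul]
  unfold RR
  rw [Finset.sum_mul, ← Finset.sum_neg_distrib]
  refine Finset.sum_congr rfl fun x hx => ?_
  rw [← Finset.mul_prod_erase Finset.univ _ hx]
  ring

/-- Numerator of the expectation. -/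
noncomputable def NN (μ : Equiv.Perm X → ℝ) (θ : X → ℝ)
    (f : Equiv.Perm X → (X → Fin 2) → ℝ) : ℝ :=
  ∑ π, ∑ s, μ π * wt θ π s * f π s

theorem EE_eq (μ : Equiv.Perm X → ℝ) (θ : X → ℝ) (f : Equiv.Perm X → (X → Fin 2) → ℝ) :
    EE μ θ f = NN μ θ f / ZZ μ θ := rfl

theorem NN_hasDeriv (μ : Equiv.Perm X → ℝ)
    (h : ∀ x, HasDerivWithinAt (fun t => θs t x) (-(r x * θs s₀ x)) S s₀)
    (f : Equiv.Perm X → (X → Fin 2) → ℝ) :
    HasDerivWithinAt (fun t => NN μ (θs t) f)
      (-NN μ (θs s₀) (fun π s => RR r π s * f π s)) S s₀ := by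
  unfold NN
  have h1 := HasDerivWithinAt.fun_sum (u := (Finset.univ : Finset (Equiv.Perm X)))
    (A := fun π t => ∑ s, μ π * wt (θs t) π s * f π s)
    (A' := fun π => ∑ s, μ π * (-(RR r π s * wt (θs s₀) π s)) * f π s) (s := S) (x := s₀)
    (fun π _ => HasDerivWithinAt.fun_sum
      (fun s _ => ((wt_hasDeriv h π s).const_mul (μ π)).mul_const (f π s)))
  refine h1.congr_deriv ?_
  rw [← Finset.sum_neg_distrib]
  refine Finset.sum_congr rfl fun π _ => ?_
  rw [← Finset.sum_neg_distrib]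
  exact Finset.sum_congr rfl fun s _ => by ring

theorem ZZ_eq (μ : Equiv.Perm X → ℝ) (θ : X → ℝ) : ZZ μ θ = NN μ θ (fun _ _ => 1) := by
  unfold ZZ NN; simp

theorem EE_hasDeriv {μ : Equiv.Perm X → ℝ}
    (h : ∀ x, HasDerivWithinAt (fun t => θs t x) (-(r x * θs s₀ x)) S s₀)
    (hZ : ZZ μ (θs s₀) ≠ 0) (f : Equiv.Perm X → (X → Fin 2) → ℝ) :
    HasDerivWithinAt (fun t => EE μ (θs t) f)
      (-(EE μ (θs s₀) (fun π s => RR r π s * f π s) -
        EE μ (θs s₀) (RR r) * EE μ (θs s₀) f)) S s₀ := by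
  have h1 := NN_hasDeriv μ h f
  have h2 := NN_hasDeriv μ h (fun _ _ => (1 : ℝ))
  have h3 : (fun t => EE μ (θs t) f) =
      fun t => NN μ (θs t) f / NN μ (θs t) (fun _ _ => 1) := by
    funext t; rw [EE_eq, ZZ_eq]
  rw [h3]
  have hZ' : NN μ (θs s₀) (fun _ _ => 1) ≠ 0 := by rwa [← ZZ_eq]
  refine (h1.div h2 hZ').congr_deriv ?_
  rw [EE_eq, EE_eq, EE_eq, ZZ_eq]
  simp only [mul_one]
  have h4 : NN μ (θs s₀) (fun π s => RR r π s) = NN μ (θs s₀) (RR r) := rfl
  rw [h4]
  field_simp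
  ring

end Deriv

theorem wt_continuous (π : Equiv.Perm X) (s : X → Fin 2) :
    Continuous fun θ : X → ℝ => wt θ π s := by
  unfold wt
  refine continuous_finsetProd _ fun x _ => ?_
  by_cases hx : s x = s (π x)
  · simp only [hx, if_true]; exact continuous_const
  · simp only [hx, if_false]; exact continuous_apply x

theorem NN_continuous (μ : Equiv.Perm X → ℝ) (f : Equiv.Perm X → (X → Fin 2) → ℝ) :
    Continuous fun θ : X → ℝ => NN μ θ f := by
  unfold NN
  refine continuous_finsetSum _ fun π _ => continuous_finsetSum _ fun s _ => ?_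
  exact (continuous_const.mul (wt_continuous π s)).mul continuous_const

/-- The lowering path. -/
noncomputable def path (θ θ' : X → ℝ) (s : ℝ) (x : X) : ℝ := max (θ' x) (Real.exp (-s) * θ x)

/-- The rates of the lowering path. -/
noncomputable def rate (θ θ' : X → ℝ) (s : ℝ) (x : X) : ℝ :=
  if θ' x < Real.exp (-s) * θ x then 1 else 0

theorem path_hasDeriv {θ θ' : X → ℝ} (hθ : ∀ x, 0 ≤ θ x) (s : ℝ) (x : X) :
    HasDerivWithinAt (fun t => path θ θ' t x) (-(rate θ θ' s x * path θ θ' s x))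
      (Set.Ici s) s := by
  have he : HasDerivAt (fun t : ℝ => Real.exp (-t) * θ x) (-(Real.exp (-s) * θ x)) s := by
    have h1 : HasDerivAt (fun t : ℝ => Real.exp (-t)) (-Real.exp (-s)) s := by
      have := (hasDerivAt_id s).neg.exp
      simpa using this
    exact (h1.mul_const (θ x)).congr_deriv (by ring)
  unfold path rate
  by_cases h : θ' x < Real.exp (-s) * θ x
  · simp only [h, if_true, one_mul, max_eq_right h.le]
    have hev : ∀ᶠ t in 𝓝[Set.Ici s] s, max (θ' x) (Real.exp (-t) * θ x) =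
        Real.exp (-t) * θ x := by
      have hc : ContinuousAt (fun t : ℝ => Real.exp (-t) * θ x) s := he.continuousAt
      have := hc.eventually (lt_mem_nhds h)
      exact (this.filter_mono nhdsWithin_le_nhds).mono fun t ht => max_eq_right ht.le
    exact he.hasDerivWithinAt.congr_of_eventuallyEq hev (by simp [max_eq_right h.le])
  · simp only [h, if_false, zero_mul, neg_zero]
    have h' := not_lt.mp h
    have hev : ∀ t ∈ Set.Ici s, max (θ' x) (Real.exp (-t) * θ x) = θ' x := by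
      intro t ht
      apply max_eq_left
      refine le_trans ?_ h'
      exact mul_le_mul_of_nonneg_right (Real.exp_le_exp.mpr (neg_le_neg ht)) (hθ x)
    exact (hasDerivWithinAt_const s (Set.Ici s) (θ' x)).congr hev (hev s Set.self_mem_Ici)

theorem path_zero {θ θ' : X → ℝ} (h : ∀ x, θ' x ≤ θ x) : path θ θ' 0 = θ := by
  funext x
  simp [path, h x]

theorem path_nonneg {θ θ' : X → ℝ} (h0 : ∀ x, 0 ≤ θ' x) (s : ℝ) (x : X) : 0 ≤ path θ θ' s x :=
  (h0 x).trans (le_max_left _ _)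

theorem path_le {θ θ' : X → ℝ} (h0 : ∀ x, 0 ≤ θ' x) (h : ∀ x, θ' x ≤ θ x) {s : ℝ} (hs : 0 ≤ s)
    (x : X) : path θ θ' s x ≤ θ x := by
  refine max_le (h x) ?_
  have h1 : Real.exp (-s) ≤ 1 := Real.exp_le_one_iff.mpr (by linarith)
  have h2 : 0 ≤ θ x := (h0 x).trans (h x)
  nlinarith

theorem path_continuous (θ θ' : X → ℝ) : Continuous fun s => path θ θ' s := by
  refine continuous_pi fun x => ?_
  unfold path
  fun_prop

/-- Derivative of the off-diagonal conductances. -/
noncomputable def c0' (μ : Equiv.Perm X → ℝ) (θ : X → ℝ) (r : X → ℝ) (x y : X) : ℝ :=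
  if x = y then 0 else
    EE μ θ (fun π s => RR r π s * (jj π s x * jj π s y)) -
      EE μ θ (RR r) * EE μ θ (fun π s => jj π s x * jj π s y)

theorem EE_RR (μ : Equiv.Perm X → ℝ) (θ : X → ℝ) (r : X → ℝ)
    (f : Equiv.Perm X → (X → Fin 2) → ℝ) :
    EE μ θ (fun π s => RR r π s * f π s) =
      ∑ z, r z * EE μ θ (fun π s => jj π s z ^ 2 * f π s) := by
  have h1 : (fun (π : Equiv.Perm X) (s : X → Fin 2) => RR r π s * f π s) =
      fun π s => ∑ z, r z * (jj π s z ^ 2 * f π s) := by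
    funext π s
    unfold RR
    rw [Finset.sum_mul]
    exact Finset.sum_congr rfl fun z _ => by ring
  rw [h1, EE_sum]
  exact Finset.sum_congr rfl fun z _ => EE_const_mul _ _ _ _

theorem netK_c0' (μ : Equiv.Perm X → ℝ) (θ : X → ℝ) (r : X → ℝ) (a : X → ℝ) :
    P361.LRO.netK (c0' μ θ r) a =
      - ∑ z, r z * (EE μ θ (fun π s => jj π s z ^ 2 * (∑ x, a x * jj π s x) ^ 2) -
        vv μ θ z * KK μ θ a) := by
  unfold c0'
  rw [netK_offdiag]
  have h1 := netK_EE μ θ (RR r) a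
  have h2 := KK_eq μ θ a
  have h3 : (1 / 2) * ∑ x, ∑ y,
      (EE μ θ (fun π s => RR r π s * (jj π s x * jj π s y)) -
        EE μ θ (RR r) * EE μ θ (fun π s => jj π s x * jj π s y)) * (a x - a y) ^ 2 =
      -((1 / 2) * ∑ x, ∑ y,
        (-(EE μ θ fun π s => RR r π s * (jj π s x * jj π s y))) * (a x - a y) ^ 2) +
      EE μ θ (RR r) * ((1 / 2) * ∑ x, ∑ y, cc μ θ x y * (a x - a y) ^ 2) := by
    unfold cc
    simp only [Finset.mul_sum, ← Finset.sum_neg_distrib, ← Finset.sum_add_distrib]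
    exact Finset.sum_congr rfl fun x _ => Finset.sum_congr rfl fun y _ => by ring
  rw [h3, h1, ← h2, EE_RR]
  have h4 : EE μ θ (RR r) = ∑ z, r z * vv μ θ z := by
    have := EE_RR μ θ r (fun _ _ => 1)
    simp only [mul_one] at this
    exact this
  rw [h4, Finset.sum_mul, ← Finset.sum_neg_distrib, ← Finset.sum_neg_distrib,
    ← Finset.sum_add_distrib]
  exact Finset.sum_congr rfl fun z _ => by ring

theorem c0_hasDeriv {μ : Equiv.Perm X → ℝ} (hμ : Good μ) {θ θ' : X → ℝ} (h0 : ∀ x, 0 ≤ θ' x)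
    (h : ∀ x, θ' x ≤ θ x) (s : ℝ) (x y : X) :
    HasDerivWithinAt (fun t => c0 μ (path θ θ' t) x y)
      (c0' μ (path θ θ' s) (rate θ θ' s) x y) (Set.Ici s) s := by
  have hθ : ∀ x, 0 ≤ θ x := fun x => (h0 x).trans (h x)
  by_cases hxy : x = y
  · simp only [c0, c0', hxy, if_true]
    exact hasDerivWithinAt_const _ _ _
  · simp only [c0, c0', hxy, if_false]
    have hZ : ZZ μ (path θ θ' s) ≠ 0 := (ZZ_pos hμ.nn hμ.pos (path_nonneg h0 s)).ne'
    have h1 := EE_hasDeriv (μ := μ) (S := Set.Ici s) (fun x => path_hasDeriv hθ s x) hZ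
      (fun π s => jj π s x * jj π s y)
    have h2 := h1.neg
    simp only [neg_neg] at h2
    exact h2

theorem EE_continuousOn {μ : Equiv.Perm X → ℝ} (hμ : Good μ)
    (f : Equiv.Perm X → (X → Fin 2) → ℝ) :
    ContinuousOn (fun θ : X → ℝ => EE μ θ f) {θ | ∀ x, 0 ≤ θ x} := by
  have h3 : (fun θ : X → ℝ => EE μ θ f) =
      fun θ => NN μ θ f / NN μ θ (fun _ _ => 1) := by
    funext t; rw [EE_eq, ZZ_eq]
  rw [h3]
  refine (NN_continuous μ f).continuousOn.div (NN_continuous μ _).continuousOn ?_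
  intro θ hθ
  rw [← ZZ_eq]
  exact (ZZ_pos hμ.nn hμ.pos hθ).ne'

theorem sqrt_mag_le {m ε : ℝ} (hε : 0 ≤ ε) (h : 1 - ε ^ 2 ≤ m) : Real.sqrt (1 - m ^ 2) ≤ 2 * ε := by
  rw [Real.sqrt_le_left (by positivity)]
  nlinarith [sq_nonneg ε, sq_nonneg (m - 1)]

/-- The lowering path is a `NetFlow`. -/
theorem netFlow {μ : Equiv.Perm X → ℝ} (hμ : Good μ) {θ θ' : X → ℝ} {E G : Finset X} {ε : ℝ}
    (hε : 0 ≤ ε) (h0 : ∀ x, 0 ≤ θ' x) (h : ∀ x, θ' x ≤ θ x) (h1 : ∀ x, θ x ≤ 1)
    (hE : ∀ x ∈ E, θ' x = θ x) (hG : ∀ x ∈ G, θ' x = θ x) (hEG : Disjoint E G)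
    (hmag : ∀ s, 0 ≤ s → ∀ z, θ' z < θ z →
      Real.sqrt (1 - mag μ (path θ θ' s) z ^ 2) ≤ 2 * ε) :
    P361.LRO.NetFlow (fun s => c0 μ (path θ θ' s)) (fun s => c0' μ (path θ θ' s) (rate θ θ' s))
      (rate θ θ') (E : Set X) (G : Set X) ε := by
  have hp0 : ∀ s x, 0 ≤ path θ θ' s x := fun s x => path_nonneg h0 s x
  have hp1 : ∀ s, 0 ≤ s → ∀ x, path θ θ' s x ≤ 1 := fun s hs x =>
    (path_le h0 h hs x).trans (h1 x)
  have hrate : ∀ s, 0 ≤ s → ∀ z, θ' z = θ z → rate θ θ' s z = 0 := by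
    intro s hs z hz
    unfold rate
    rw [if_neg]
    rw [hz, not_lt]
    have h1 : Real.exp (-s) ≤ 1 := Real.exp_le_one_iff.mpr (by linarith)
    have h2 : 0 ≤ θ z := (h0 z).trans (h z)
    nlinarith
  refine ⟨by exact_mod_cast hEG, ?_, ?_, ?_, ?_, ?_, ?_, ?_, ?_, hε, ?_⟩
  · intro s hs x y
    show 0 ≤ c0 μ (path θ θ' s) x y
    unfold c0
    split_ifs with hxy
    · exact le_rfl
    · exact hμ.ccnn _ (fun x => ⟨hp0 s x, hp1 s hs x⟩) x y hxy
  · intro s _ x y
    show c0 μ (path θ θ' s) x y = c0 μ (path θ θ' s) y x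
    unfold c0
    by_cases hxy : x = y
    · simp [hxy]
    · simp only [hxy, Ne.symm hxy, if_false]
      exact cc_comm _ _ _ _
  · intro x y
    show ContinuousOn (fun s => c0 μ (path θ θ' s) x y) (Set.Ici 0)
    unfold c0
    by_cases hxy : x = y
    · simp only [hxy, if_true]; exact continuousOn_const
    · simp only [hxy, if_false]
      unfold cc
      refine ContinuousOn.neg ?_
      exact (EE_continuousOn hμ _).comp (path_continuous θ θ').continuousOn
        (fun s _ => fun x => hp0 s x)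
  · intro s _ x y
    exact c0_hasDeriv hμ h0 h s x y
  · intro s _ z
    unfold rate; split_ifs <;> norm_num
  · intro s _ z
    unfold rate; split_ifs <;> norm_num
  · intro s hs z hz
    exact hrate s hs z (hE z (by exact_mod_cast hz))
  · intro s hs z hz
    exact hrate s hs z (hG z (by exact_mod_cast hz))
  · intro s hs a
    show _ ≤ P361.LRO.netK (c0' μ (path θ θ' s) (rate θ θ' s)) a
    rw [netK_c0', neg_le_neg_iff]
    refine Finset.sum_le_sum fun z _ => ?_
    show _ ≤ rate θ θ' s z * ((P361.LRO.netQ (c0 μ (path θ θ' s)) a z) ^ 2 /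
      P361.LRO.netV (c0 μ (path θ θ' s)) z + 2 * ε * P361.LRO.netStar (c0 μ (path θ θ' s)) a z)
    by_cases hz : θ' z < Real.exp (-s) * θ z
    · have hr : rate θ θ' s z = 1 := by simp [rate, hz]
      rw [hr, one_mul, one_mul, netQ_c0, netV_c0, netStar_c0]
      have hzpos : 0 < path θ θ' s z := lt_of_lt_of_le (lt_of_le_of_lt (h0 z) hz)
        (le_max_right _ _)
      have hzl : θ' z < θ z := by
        refine lt_of_lt_of_le hz ?_
        have h1 : Real.exp (-s) ≤ 1 := Real.exp_le_one_iff.mpr (by linarith)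
        have h2 : 0 ≤ θ z := (h0 z).trans (h z)
        nlinarith
      have h3 := hμ.one (path θ θ' s) (fun x => ⟨hp0 s x, hp1 s hs x⟩) z hzpos a
      have h4 := hmag s hs z hzl
      have h5 : 0 ≤ ∑ x, cc μ (path θ θ' s) z x * (a x - a z) ^ 2 := by
        refine Finset.sum_nonneg fun x _ => ?_
        by_cases hxz : z = x
        · subst hxz; simp
        · exact mul_nonneg (hμ.ccnn _ (fun x => ⟨hp0 s x, hp1 s hs x⟩) z x hxz) (sq_nonneg _)
      rw [neg_sq]
      refine h3.trans ?_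
      have h6 := mul_le_mul_of_nonneg_right h4 h5
      linarith
    · have hr : rate θ θ' s z = 0 := by simp [rate, hz]
      rw [hr, zero_mul, zero_mul]

theorem LB_iff_netCap {μ : Equiv.Perm X → ℝ} (hμ : Good μ) {θ : X → ℝ}
    (hθ : ∀ x, 0 ≤ θ x ∧ θ x ≤ 1) {E G : Finset X} (hEG : Disjoint E G) (C : ℝ) :
    LB μ θ E G C ↔ C ≤ P361.LRO.netCap (c0 μ θ) (E : Set X) (G : Set X) := by
  have hnn : ∀ x y, 0 ≤ c0 μ θ x y := by
    intro x y
    unfold c0
    split_ifs with hxy
    · exact le_rfl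
    · exact hμ.ccnn _ hθ x y hxy
  have hd : Disjoint (E : Set X) (G : Set X) := by exact_mod_cast hEG
  constructor
  · intro hLB
    obtain ⟨u, hu, h1, _⟩ := P361.LRO.exists_min (c0 μ θ) hd
    rw [← h1, netK_c0]
    exact hLB u (fun x hx => hu.2.1 x (by exact_mod_cast hx))
      (fun x hx => hu.2.2 x (by exact_mod_cast hx))
  · intro hC a ha1 ha0
    rw [← netK_c0]
    exact hC.trans (P361.LRO.netCap_le' hnn (fun x hx => ha1 x (by exact_mod_cast hx))
      (fun x hx => ha0 x (by exact_mod_cast hx)))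

/-- The end of the path is reached at a finite time. -/
theorem exists_time {θ θ' : X → ℝ} (h0 : ∀ x, 0 ≤ θ' x) (h : ∀ x, θ' x ≤ θ x)
    (hpos : ∀ x, θ' x < θ x → 0 < θ' x) : ∃ T : ℝ, 0 ≤ T ∧ path θ θ' T = θ' := by
  have h1 : ∀ x, ∀ᶠ T : ℝ in atTop, Real.exp (-T) * θ x ≤ θ' x := by
    intro x
    rcases (h x).lt_or_eq with hx | hx
    · have ht : Tendsto (fun T : ℝ => Real.exp (-T) * θ x) atTop (𝓝 (0 * θ x)) :=
        (Real.tendsto_exp_neg_atTop_nhds_zero).mul_const _
      rw [zero_mul] at ht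
      exact (ht.eventually (gt_mem_nhds (hpos x hx))).mono fun T hT => le_of_lt hT
    · filter_upwards [eventually_ge_atTop (0 : ℝ)] with T hT
      rw [hx]
      have h1 : Real.exp (-T) ≤ 1 := Real.exp_le_one_iff.mpr (by linarith)
      have h2 : 0 ≤ θ x := (h0 x).trans (h x)
      nlinarith
  obtain ⟨T, hT, hT0⟩ := ((eventually_all.mpr h1).and (eventually_ge_atTop (0 : ℝ))).exists
  exact ⟨T, hT0, funext fun x => max_eq_left (hT x)⟩

/-- **Lowering, primal form** (`2 ε` bounds `sqrt (1 - M²)`). -/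
theorem LB_lower' {μ : Equiv.Perm X → ℝ} (hμ : Good μ) {θ θ' : X → ℝ} {E G : Finset X}
    {ε S B C : ℝ} (hε : 0 ≤ ε) (h0 : ∀ x, 0 ≤ θ' x) (h : ∀ x, θ' x ≤ θ x) (h1 : ∀ x, θ x ≤ 1)
    (hE : ∀ x ∈ E, θ' x = θ x) (hG : ∀ x ∈ G, θ' x = θ x) (hEG : Disjoint E G)
    (hpos : ∀ x, θ' x < θ x → 0 < θ' x)
    (hmag : ∀ s, 0 ≤ s → ∀ z, θ' z < θ z →
      Real.sqrt (1 - mag μ (path θ θ' s) z ^ 2) ≤ 2 * ε)
    (hS : 0 ≤ S) (hB : ∑ z, (if θ' z < θ z then θ z else 0) ≤ B) (hC : LB μ θ E G C) :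
    LB μ θ' E G (Real.exp (-(4 * ε * S)) * C - 2 * ε * B * Real.exp (-S)) := by
  have H := netFlow hμ hε h0 h h1 hE hG hEG hmag
  obtain ⟨T, hT0, hT⟩ := exists_time h0 h hpos
  have hθ0 : ∀ x, 0 ≤ θ x := fun x => (h0 x).trans (h x)
  have hB0 : 0 ≤ B := by
    refine le_trans (Finset.sum_nonneg fun z _ => ?_) hB
    split_ifs
    · exact hθ0 z
    · exact le_rfl
  have hBB : ∀ s, 0 ≤ s →
      ∑ z, rate θ θ' s z * P361.LRO.netV (c0 μ (path θ θ' s)) z ≤ B * Real.exp (-s) := by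
    intro s hs
    have h2 : B * Real.exp (-s) ≥ (∑ z, (if θ' z < θ z then θ z else 0)) * Real.exp (-s) :=
      mul_le_mul_of_nonneg_right hB (Real.exp_pos _).le
    refine le_trans ?_ h2
    rw [Finset.sum_mul]
    refine Finset.sum_le_sum fun z _ => ?_
    rw [netV_c0]
    have hexp : Real.exp (-s) ≤ 1 := Real.exp_le_one_iff.mpr (by linarith)
    by_cases hz : θ' z < Real.exp (-s) * θ z
    · have hzl : θ' z < θ z := by
        refine lt_of_lt_of_le hz ?_
        have h2 : 0 ≤ θ z := hθ0 z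
        nlinarith
      have h3 := hμ.vle (path θ θ' s)
        (fun x => ⟨path_nonneg h0 s x, (path_le h0 h hs x).trans (h1 x)⟩) z
      have h4 : path θ θ' s z = Real.exp (-s) * θ z := by
        simp [path, max_eq_right hz.le]
      simp only [rate, hz, hzl, if_true, one_mul]
      rw [h4] at h3
      linarith
    · simp only [rate, hz, if_false, zero_mul]
      refine mul_nonneg ?_ (Real.exp_pos _).le
      split_ifs
      · exact hθ0 z
      · exact le_rfl
  have key := H.cap_lower hB0 hBB hS hT0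
  have hθ1 : ∀ x, 0 ≤ θ x ∧ θ x ≤ 1 := fun x => ⟨hθ0 x, h1 x⟩
  have hθ'1 : ∀ x, 0 ≤ θ' x ∧ θ' x ≤ 1 := fun x => ⟨h0 x, (h x).trans (h1 x)⟩
  rw [LB_iff_netCap hμ hθ'1 hEG]
  rw [LB_iff_netCap hμ hθ1 hEG] at hC
  simp only [hT, path_zero h] at key
  refine le_trans ?_ key
  have := mul_le_mul_of_nonneg_left hC (Real.exp_pos (-(4 * ε * S))).le
  linarith

/-- **Lowering, primal form.** -/
theorem LB_lower {μ : Equiv.Perm X → ℝ} (hμ : Good μ) {θ θ' : X → ℝ} {E G : Finset X}
    {ε S B C : ℝ} (hε : 0 ≤ ε) (h0 : ∀ x, 0 ≤ θ' x) (h : ∀ x, θ' x ≤ θ x) (h1 : ∀ x, θ x ≤ 1)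
    (hE : ∀ x ∈ E, θ' x = θ x) (hG : ∀ x ∈ G, θ' x = θ x) (hEG : Disjoint E G)
    (hpos : ∀ x, θ' x < θ x → 0 < θ' x)
    (hmag : ∀ s, 0 ≤ s → ∀ z, θ' z < θ z → 1 - ε ^ 2 ≤ mag μ (path θ θ' s) z)
    (hS : 0 ≤ S) (hB : ∑ z, (if θ' z < θ z then θ z else 0) ≤ B) (hC : LB μ θ E G C) :
    LB μ θ' E G (Real.exp (-(4 * ε * S)) * C - 2 * ε * B * Real.exp (-S)) :=
  LB_lower' hμ hε h0 h h1 hE hG hEG hpos
    (fun s hs z hz => sqrt_mag_le hε (hmag s hs z hz)) hS hB hC

/-- 118's form of the primal ODE. -/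
theorem ode_LB {μ : Equiv.Perm X → ℝ} (hμ : Good μ) {θ0 θ1 : X → ℝ}
    (h0 : ∀ x, 0 ≤ θ0 x) (h01 : ∀ x, θ0 x ≤ θ1 x) (h1 : ∀ x, θ1 x ≤ 1)
    (hpos : ∀ x, θ0 x < θ1 x → 0 < θ0 x) {E G : Finset X} (hEG : Disjoint E G)
    (hE : ∀ x ∈ E, θ0 x = θ1 x) (hG : ∀ x ∈ G, θ0 x = θ1 x) {τ : ℝ} (hτ : 0 ≤ τ)
    (hmag : ∀ s : ℝ, 0 ≤ s → ∀ z, θ0 z < θ1 z →
      Real.sqrt (1 - mag μ (fun x => max (θ0 x) (Real.exp (-s) * θ1 x)) z ^ 2) ≤ τ)
    {c : ℝ} (hc : LB μ θ1 E G c) {S : ℝ} (hS : 0 ≤ S) :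
    LB μ θ0 E G (Real.exp (-(2 * τ * S)) * c - τ * Real.exp (-S) *
      ∑ z ∈ univ.filter (fun z => θ0 z < θ1 z), θ1 z) := by
  have h := LB_lower' hμ (ε := τ / 2) (by positivity) h0 h01 h1 hE hG hEG hpos
    (fun s hs z hz => by
      have := hmag s hs z hz
      rw [show 2 * (τ / 2) = τ by ring]
      exact this) hS (B := ∑ z ∈ univ.filter (fun z => θ0 z < θ1 z), θ1 z)
    (by rw [Finset.sum_filter]) hc
  have e : Real.exp (-(4 * (τ / 2) * S)) * c - 2 * (τ / 2) *
      (∑ z ∈ univ.filter (fun z => θ0 z < θ1 z), θ1 z) * Real.exp (-S) =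
      Real.exp (-(2 * τ * S)) * c - τ * Real.exp (-S) *
      ∑ z ∈ univ.filter (fun z => θ0 z < θ1 z), θ1 z := by
    rw [show 4 * (τ / 2) * S = 2 * τ * S by ring]
    ring
  rw [e] at h
  exact h

/-! ### Dual form -/

/-- `v_z = θ M / (1 + θ M)`. -/
theorem vv_mag {μ : Equiv.Perm X → ℝ} (hμ : Good μ) {θ : X → ℝ} (hθ : ∀ x, 0 ≤ θ x) (z : X) :
    vv μ θ z = θ z * mag μ θ z / (1 + θ z * mag μ θ z) := by
  set A : ℝ := ∑ π, ∑ s, if s z = s (π z) then 0 else μ π * wt (Function.update θ z 1) π s with hA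
  set B : ℝ := ∑ π, ∑ s : X → Fin 2, if s z = s (π z) then μ π * wt θ π s else 0 with hB
  have hwt : ∀ (π : Equiv.Perm X) (s : X → Fin 2), ¬ s z = s (π z) →
      wt θ π s = θ z * wt (Function.update θ z 1) π s := by
    intro π s hs
    unfold wt
    rw [← Finset.mul_prod_erase Finset.univ _ (Finset.mem_univ z),
      ← Finset.mul_prod_erase (s := Finset.univ)
        (f := fun x => if s x = s (π x) then (1 : ℝ) else Function.update θ z 1 x)
        (Finset.mem_univ z)]
    simp only [hs, if_false, Function.update_self, one_mul]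
    congr 1
    refine Finset.prod_congr rfl fun x hx => ?_
    rw [Function.update_of_ne (Finset.ne_of_mem_erase hx)]
  have hnum : ∑ π, ∑ s, μ π * wt θ π s * jj π s z ^ 2 = θ z * A := by
    rw [hA, Finset.mul_sum]
    refine Finset.sum_congr rfl fun π _ => ?_
    rw [Finset.mul_sum]
    refine Finset.sum_congr rfl fun s _ => ?_
    rw [jj_sq]
    by_cases hs : s z = s (π z)
    · simp [hs]
    · simp only [hs, if_false, hwt π s hs]; ring
  have hZ : ZZ μ θ = B + θ z * A := by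
    rw [hA, hB, Finset.mul_sum, ← Finset.sum_add_distrib]
    unfold ZZ
    refine Finset.sum_congr rfl fun π _ => ?_
    rw [Finset.mul_sum, ← Finset.sum_add_distrib]
    refine Finset.sum_congr rfl fun s _ => ?_
    by_cases hs : s z = s (π z)
    · simp [hs]
    · simp only [hs, if_false, hwt π s hs]; ring
  have hBpos : 0 < B := by
    refine lt_of_lt_of_le hμ.pos ?_
    rw [hB]
    refine Finset.sum_le_sum fun π _ => ?_
    have h3 : ∀ s ∈ (Finset.univ : Finset (X → Fin 2)),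
        0 ≤ (if s z = s (π z) then μ π * wt θ π s else 0) := by
      intro s _
      split_ifs
      · exact mul_nonneg (hμ.nn π) (wt_nonneg hθ π s)
      · exact le_rfl
    have h4 := Finset.single_le_sum h3 (Finset.mem_univ (fun _ : X => (0 : Fin 2)))
    simpa [wt] using h4
  have hmag : mag μ θ z = A / B := rfl
  have hZpos : 0 < ZZ μ θ := ZZ_pos hμ.nn hμ.pos hθ
  have hvv : vv μ θ z = θ z * A / (B + θ z * A) := by
    unfold vv EE
    rw [hnum, hZ]
  rw [hvv, hmag]
  rw [hZ] at hZpos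
  have h1 : 1 + θ z * (A / B) = (B + θ z * A) / B := by field_simp
  rw [h1]
  field_simp

theorem vv_ge {μ : Equiv.Perm X → ℝ} (hμ : Good μ) {θ : X → ℝ} (hθ : ∀ x, 0 ≤ θ x ∧ θ x ≤ 1)
    (z : X) (hm : 1 / 2 ≤ mag μ θ z) : θ z / 4 ≤ vv μ θ z := by
  rw [vv_mag hμ (fun x => (hθ x).1) z]
  have h1 := (hθ z).1
  have h2 := (hθ z).2
  set m := mag μ θ z with hm'
  have h3 : 0 < 1 + θ z * m := by nlinarith
  rw [div_le_div_iff₀ (by norm_num) h3]
  nlinarith [mul_nonneg h1 (sub_nonneg.mpr hm), mul_nonneg h1 h1,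
    mul_nonneg (mul_nonneg h1 (sub_nonneg.mpr h2)) (sub_nonneg.mpr hm)]

/-- **Lowering, dual form.** -/
theorem ode_RB {μ : Equiv.Perm X → ℝ} (hμ : Good μ) {θ0 θ1 : X → ℝ}
    (h0 : ∀ x, 0 ≤ θ0 x) (h01 : ∀ x, θ0 x ≤ θ1 x) (h1 : ∀ x, θ1 x ≤ 1)
    {E : Finset X}
    (hE : ∀ x ∈ E, θ0 x = θ1 x) {q : X → ℝ} (hq1 : ∑ x, q x = 1) {τ : ℝ} (hτ : 0 ≤ τ)
    (hmag : ∀ s : ℝ, 0 ≤ s → ∀ z, θ0 z < θ1 z →
      Real.sqrt (1 - mag μ (fun x => max (θ0 x) (Real.exp (-s) * θ1 x)) z ^ 2) ≤ τ ∧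
        1 / 2 ≤ mag μ (fun x => max (θ0 x) (Real.exp (-s) * θ1 x)) z)
    {R : ℝ} (hR0 : 0 ≤ R) (hR : RB μ θ1 E q R) {S : ℝ} (hS : 0 ≤ S)
    (hS1 : ∀ x, θ1 x ≤ Real.exp S * θ0 x) :
    RB μ θ0 E q (Real.exp (2 * τ * S) *
      (R + 4 * (Real.exp S - 1) *
        ∑ z ∈ univ.filter (fun z => θ0 z < θ1 z), q z ^ 2 / θ1 z)) := by
  have H := netFlow hμ (θ := θ1) (θ' := θ0) (E := E) (G := ∅) (ε := τ / 2) (by positivity)
    h0 h01 h1 hE (by simp) (by simp)
    (fun s hs z hz => by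
      have := (hmag s hs z hz).1
      rw [show 2 * (τ / 2) = τ by ring]
      exact this)
  have hθ1 : ∀ x, 0 ≤ θ1 x := fun x => (h0 x).trans (h01 x)
  have hend : path θ1 θ0 S = θ0 := by
    funext x
    refine max_eq_left ?_
    have h3 := mul_le_mul_of_nonneg_left (hS1 x) (Real.exp_pos (-S)).le
    rw [← mul_assoc, ← Real.exp_add, neg_add_cancel, Real.exp_zero, one_mul] at h3
    exact h3
  have hvz : ∀ s, 0 ≤ s → ∀ z, θ0 z < Real.exp (-s) * θ1 z →
      θ0 z < θ1 z ∧ 0 < θ1 z ∧ Real.exp (-s) * θ1 z / 4 ≤ vv μ (path θ1 θ0 s) z := by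
    intro s hs z hz
    have hexp : Real.exp (-s) ≤ 1 := Real.exp_le_one_iff.mpr (by linarith)
    have hzl : θ0 z < θ1 z := by
      refine lt_of_lt_of_le hz ?_
      nlinarith [hθ1 z]
    have h4 : path θ1 θ0 s z = Real.exp (-s) * θ1 z := by simp [path, max_eq_right hz.le]
    refine ⟨hzl, (h0 z).trans_lt hzl, ?_⟩
    have h5 := vv_ge hμ (θ := path θ1 θ0 s)
      (fun x => ⟨path_nonneg h0 s x, (path_le h0 h01 hs x).trans (h1 x)⟩) z (hmag s hs z hzl).2
    rwa [h4] at h5
  set D : ℝ := 4 * ∑ z ∈ univ.filter (fun z => θ0 z < θ1 z), q z ^ 2 / θ1 z with hD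
  have hD0 : 0 ≤ D := by
    rw [hD]
    refine mul_nonneg (by norm_num) (Finset.sum_nonneg fun z _ => ?_)
    exact div_nonneg (sq_nonneg _) (hθ1 z)
  have hq : ∀ s, 0 ≤ s → s ≤ S → ∑ z, rate θ1 θ0 s z *
      (q z ^ 2 / P361.LRO.netV (c0 μ (path θ1 θ0 s)) z) ≤ D * Real.exp s := by
    intro s hs _
    rw [hD, Finset.sum_filter, mul_assoc, Finset.sum_mul, Finset.mul_sum]
    refine Finset.sum_le_sum fun z _ => ?_
    rw [netV_c0]
    by_cases hz : θ0 z < Real.exp (-s) * θ1 z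
    · obtain ⟨hzl, hpz, hv⟩ := hvz s hs z hz
      simp only [rate, hz, hzl, if_true, one_mul]
      have hpos1 : 0 < Real.exp (-s) * θ1 z / 4 := by positivity
      calc q z ^ 2 / vv μ (path θ1 θ0 s) z ≤ q z ^ 2 / (Real.exp (-s) * θ1 z / 4) :=
            div_le_div_of_nonneg_left (sq_nonneg _) hpos1 hv
        _ = 4 * (q z ^ 2 / θ1 z * Real.exp s) := by
            rw [Real.exp_neg]
            have := Real.exp_pos s
            field_simp
    · simp only [rate, hz, if_false, zero_mul]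
      split_ifs
      · exact mul_nonneg (by norm_num) (mul_nonneg (div_nonneg (sq_nonneg _) (hθ1 z))
          (Real.exp_pos _).le)
      · simp
  have hW : ∀ s, 0 ≤ s → s ≤ S → ∑ z, rate θ1 θ0 s z *
      (P361.LRO.netV (c0 μ (path θ1 θ0 s)) z)⁻¹ ≤
      ∑ z ∈ univ.filter (fun z => θ0 z < θ1 z), 4 * Real.exp S / θ1 z := by
    intro s hs hsS
    rw [Finset.sum_filter]
    refine Finset.sum_le_sum fun z _ => ?_
    rw [netV_c0]
    by_cases hz : θ0 z < Real.exp (-s) * θ1 z
    · obtain ⟨hzl, hpz, hv⟩ := hvz s hs z hz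
      simp only [rate, hz, hzl, if_true, one_mul]
      have hpos1 : 0 < Real.exp (-s) * θ1 z / 4 := by positivity
      calc (vv μ (path θ1 θ0 s) z)⁻¹ ≤ (Real.exp (-s) * θ1 z / 4)⁻¹ :=
            inv_anti₀ hpos1 hv
        _ = 4 * Real.exp s / θ1 z := by
            rw [Real.exp_neg]
            have := Real.exp_pos s
            field_simp
        _ ≤ 4 * Real.exp S / θ1 z := by
            have := Real.exp_le_exp.mpr hsS
            gcongr
    · simp only [rate, hz, if_false, zero_mul]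
      split_ifs
      · have := hθ1 z
        positivity
      · exact le_rfl
  intro a ha
  have key := H.RB_lower q hq1 (T := S) (D := D) (R := R) hS hD0 hR0 hq hW
    (fun a ha => by
      rw [path_zero h01, netK_c0]
      exact hR a (fun x hx => ha x (by exact_mod_cast hx)))
    (a := a) (fun x hx => ha x (by exact_mod_cast hx))
  rw [hend, netK_c0] at key
  refine key.trans (le_of_eq ?_)
  rw [hD, show 4 * (τ / 2) * S = 2 * τ * S by ring]
  ring

end Vale.Agent.P361.LRO.Net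
end

section

/-!
P361, step (5): the family `F(h0)` of field profiles (closure properties, bumps, retraction).
-/

namespace Vale.Agent.P361.LRO

open Finset

noncomputable section

variable {n : ℕ} {h0 h0' lam lam' : ℝ} {g h : Tor n → ℝ}

/-- `|log h_x - log h_y| ≤ lam` for nearest neighbours. -/
def LipN (n : ℕ) (lam : ℝ) (h : Tor n → ℝ) : Prop :=
  ∀ (x : Tor n) (i : Fin 3), h x ≤ Real.exp lam * h (x + Pi.single i 1) ∧
    h (x + Pi.single i 1) ≤ Real.exp lam * h x

theorem fam_iff : Fam n h0 lam h ↔ (∀ x, h0 ≤ h x ∧ h x ≤ 1) ∧ LipN n lam h := Iff.rfl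

theorem Fam.lip (H : Fam n h0 lam h) : LipN n lam h := H.2

theorem Fam.ge (H : Fam n h0 lam h) (x : Tor n) : h0 ≤ h x := (H.1 x).1

theorem Fam.le_one (H : Fam n h0 lam h) (x : Tor n) : h x ≤ 1 := (H.1 x).2

theorem LipN.max (hg : LipN n lam g) (hh : LipN n lam h) : LipN n lam fun x => max (g x) (h x) := by
  intro x i
  have e : 0 ≤ Real.exp lam := (Real.exp_pos _).le
  refine ⟨?_, ?_⟩
  · rw [mul_max_of_nonneg _ _ e]
    exact max_le_max (hg x i).1 (hh x i).1
  · rw [mul_max_of_nonneg _ _ e]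
    exact max_le_max (hg x i).2 (hh x i).2

theorem LipN.smul (hh : LipN n lam h) {c : ℝ} (hc : 0 ≤ c) : LipN n lam fun x => c * h x := by
  intro x i
  refine ⟨?_, ?_⟩
  · calc c * h x ≤ c * (Real.exp lam * h (x + Pi.single i 1)) :=
        mul_le_mul_of_nonneg_left (hh x i).1 hc
      _ = _ := by ring
  · calc c * h (x + Pi.single i 1) ≤ c * (Real.exp lam * h x) :=
        mul_le_mul_of_nonneg_left (hh x i).2 hc
      _ = _ := by ring

theorem lipN_const {c : ℝ} (hc : 0 ≤ c) (hl : 0 ≤ lam) : LipN n lam fun _ => c := by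
  intro x i
  have : c ≤ Real.exp lam * c := le_mul_of_one_le_left hc (Real.one_le_exp hl)
  exact ⟨this, this⟩

theorem LipN.translate (hh : LipN n lam h) (v : Tor n) : LipN n lam fun x => h (x + v) := by
  intro x i
  have e : x + Pi.single i 1 + v = x + v + Pi.single i 1 := by abel
  simp only [e]
  exact hh (x + v) i

theorem LipN.mono (hh : LipN n lam h) (h1 : ∀ x, 0 ≤ h x) (hl : lam ≤ lam') : LipN n lam' h := by
  intro x i
  have e := Real.exp_le_exp.2 hl
  exact ⟨(hh x i).1.trans (mul_le_mul_of_nonneg_right e (h1 _)),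
    (hh x i).2.trans (mul_le_mul_of_nonneg_right e (h1 _))⟩

/-- Bumps: `exp (- lam (d(x) - r)₊)` for a function `d` that changes by at most `1` from a site to
its neighbour. -/
theorem lipN_bump {d : Tor n → ℝ} (hl : 0 ≤ lam) (r : ℝ)
    (hd : ∀ x i, |d (x + Pi.single i 1) - d x| ≤ 1) :
    LipN n lam fun x => Real.exp (-(lam * Max.max (d x - r) 0)) := by
  intro x i
  have h1 := abs_le.1 (hd x i)
  constructor
  · rw [← Real.exp_add]
    refine Real.exp_le_exp.2 ?_
    have : Max.max (d (x + Pi.single i 1) - r) 0 ≤ Max.max (d x - r) 0 + 1 :=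
      max_le (by have := le_max_left (d x - r) 0; linarith [h1.2])
        (by have := le_max_right (d x - r) 0; linarith)
    nlinarith
  · rw [← Real.exp_add]
    refine Real.exp_le_exp.2 ?_
    have : Max.max (d x - r) 0 ≤ Max.max (d (x + Pi.single i 1) - r) 0 + 1 :=
      max_le (by have := le_max_left (d (x + Pi.single i 1) - r) 0; linarith [h1.1])
        (by have := le_max_right (d (x + Pi.single i 1) - r) 0; linarith)
    nlinarith

theorem bump_le_one {d : Tor n → ℝ} (hl : 0 ≤ lam) (r : ℝ) (x : Tor n) :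
    Real.exp (-(lam * Max.max (d x - r) 0)) ≤ 1 :=
  Real.exp_le_one_iff.2 (by have := mul_nonneg hl (le_max_right (d x - r) 0); linarith)

theorem bump_eq_one {d : Tor n → ℝ} {r : ℝ} {x : Tor n} (hx : d x ≤ r) :
    Real.exp (-(lam * Max.max (d x - r) 0)) = 1 := by
  rw [max_eq_right (by linarith), mul_zero, neg_zero, Real.exp_zero]

/-! ### The family -/

theorem fam_const {c : ℝ} (h1 : h0 ≤ c) (h2 : c ≤ 1) (hc : 0 ≤ c) (hl : 0 ≤ lam) :
    Fam n h0 lam fun _ => c :=
  ⟨fun _ => ⟨h1, h2⟩, lipN_const hc hl⟩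

/-- `max g h` with `g` in the family, `h` log-Lipschitz and `≤ 1`. -/
theorem Fam.sup' (hg : Fam n h0 lam g) (hh : LipN n lam h) (h1 : ∀ x, h x ≤ 1) :
    Fam n h0 lam fun x => max (g x) (h x) :=
  ⟨fun x => ⟨(hg.ge x).trans (le_max_left _ _), max_le (hg.le_one x) (h1 x)⟩, hg.lip.max hh⟩

theorem Fam.sup (hg : Fam n h0 lam g) (hh : Fam n h0' lam h) :
    Fam n h0 lam fun x => max (g x) (h x) :=
  hg.sup' hh.lip hh.le_one

/-- The path of profiles used for lowering: `max (g, c h)`, `0 ≤ c ≤ 1`. -/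
theorem Fam.max_smul (hg : Fam n h0 lam g) (hh : LipN n lam h) (h1 : ∀ x, h x ≤ 1)
    (h2 : ∀ x, 0 ≤ h x) {c : ℝ} (hc : 0 ≤ c) (hc1 : c ≤ 1) :
    Fam n h0 lam fun x => max (g x) (c * h x) :=
  hg.sup' (hh.smul hc) fun x =>
    (mul_le_of_le_one_left (h2 x) hc1).trans (h1 x)

theorem Fam.translate (H : Fam n h0 lam h) (v : Tor n) : Fam n h0 lam fun x => h (x + v) :=
  ⟨fun x => H.1 (x + v), H.lip.translate v⟩

theorem Fam.mono (H : Fam n h0 lam h) (h1 : h0' ≤ h0) (hl : lam ≤ lam') (hp : 0 ≤ h0) :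
    Fam n h0' lam' h :=
  ⟨fun x => ⟨h1.trans (H.ge x), H.le_one x⟩, H.lip.mono (fun x => hp.trans (H.ge x)) hl⟩

/-- The bumped profile. -/
theorem Fam.bump (H : Fam n h0 lam h) {d : Tor n → ℝ} (hl : 0 ≤ lam) (r : ℝ)
    (hd : ∀ x i, |d (x + Pi.single i 1) - d x| ≤ 1) :
    Fam n h0 lam fun x => Max.max (h x) (Real.exp (-(lam * Max.max (d x - r) 0))) :=
  H.sup' (lipN_bump hl r hd) (bump_le_one hl r)

/-- The retraction onto the smaller family. -/
theorem Fam.retract (H : Fam n h0' lam h) (h1 : h0 ≤ 1) (hp : 0 ≤ h0) (hl : 0 ≤ lam) :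
    Fam n h0 lam fun x => Max.max (h x) h0 :=
  ⟨fun x => ⟨le_max_right _ _, max_le (H.le_one x) h1⟩, H.lip.max (lipN_const hp hl)⟩

theorem abs_retract_sub (H : Fam n h0' lam h) (hh : h0' ≤ h0) (x : Tor n) :
    |Max.max (h x) h0 - h x| ≤ h0 - h0' := by
  have h1 := H.ge x
  rw [abs_of_nonneg (by linarith [le_max_left (h x) h0])]
  rcases le_total (h x) h0 with h2 | h2
  · rw [max_eq_right h2]; linarith
  · rw [max_eq_left h2]; linarith

theorem LipN.step (hh : LipN n lam h) (i : Fin 3) (m : ℕ) (x : Tor n) :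
    h x ≤ Real.exp (lam * m) * h (x + m • (Pi.single i 1 : Tor n)) ∧
      h (x + m • (Pi.single i 1 : Tor n)) ≤ Real.exp (lam * m) * h x := by
  induction m with
  | zero => simp
  | succ m ih =>
    have e : x + (m + 1) • (Pi.single i 1 : Tor n) =
        x + m • (Pi.single i 1 : Tor n) + Pi.single i 1 := by
      rw [succ_nsmul]; abel
    have e2 : Real.exp (lam * ((m + 1 : ℕ) : ℝ)) = Real.exp (lam * m) * Real.exp lam := by
      rw [← Real.exp_add]; congr 1; push_cast; ring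
    have h3 := hh (x + m • (Pi.single i 1 : Tor n)) i
    rw [e, e2]
    constructor
    · calc h x ≤ Real.exp (lam * m) * h (x + m • (Pi.single i 1 : Tor n)) := ih.1
        _ ≤ Real.exp (lam * m) *
            (Real.exp lam * h (x + m • (Pi.single i 1 : Tor n) + Pi.single i 1)) :=
          mul_le_mul_of_nonneg_left h3.1 (Real.exp_pos _).le
        _ = _ := by ring
    · calc h (x + m • (Pi.single i 1 : Tor n) + Pi.single i 1) ≤
          Real.exp lam * h (x + m • (Pi.single i 1 : Tor n)) := h3.2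
        _ ≤ Real.exp lam * (Real.exp (lam * m) * h x) :=
          mul_le_mul_of_nonneg_left ih.2 (Real.exp_pos _).le
        _ = _ := by ring

/-- Translation by a vector with natural coordinates. -/
theorem LipN.vec (hh : LipN n lam h) (v : Fin 3 → ℕ) (x : Tor n) :
    h x ≤ Real.exp (lam * (v 0 + v 1 + v 2 : ℕ)) * h (x + fun i => ((v i : ℕ) : ZMod n)) ∧
      h (x + fun i => ((v i : ℕ) : ZMod n)) ≤ Real.exp (lam * (v 0 + v 1 + v 2 : ℕ)) * h x := by
  have e : (x + fun i => ((v i : ℕ) : ZMod n)) = x + v 0 • (Pi.single 0 1 : Tor n) +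
      v 1 • (Pi.single 1 1 : Tor n) + v 2 • (Pi.single 2 1 : Tor n) := by
    funext i
    fin_cases i <;> simp
  have a0 := hh.step 0 (v 0) x
  have a1 := hh.step 1 (v 1) (x + v 0 • (Pi.single 0 1 : Tor n))
  have a2 := hh.step 2 (v 2) (x + v 0 • (Pi.single 0 1 : Tor n) + v 1 • (Pi.single 1 1 : Tor n))
  have e2 : Real.exp (lam * (v 0 + v 1 + v 2 : ℕ)) =
      Real.exp (lam * v 0) * (Real.exp (lam * v 1) * Real.exp (lam * v 2)) := by
    rw [← Real.exp_add, ← Real.exp_add]; congr 1; push_cast; ring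
  rw [e, e2]
  have p0 := (Real.exp_pos (lam * v 0)).le
  have p1 := (Real.exp_pos (lam * v 1)).le
  have p2 := (Real.exp_pos (lam * v 2)).le
  constructor
  · calc h x ≤ _ := a0.1
      _ ≤ _ := mul_le_mul_of_nonneg_left a1.1 p0
      _ ≤ _ := mul_le_mul_of_nonneg_left (mul_le_mul_of_nonneg_left a2.1 p1) p0
      _ = _ := by ring
  · calc _ ≤ _ := a2.2
      _ ≤ _ := mul_le_mul_of_nonneg_left a1.2 p2
      _ ≤ _ := mul_le_mul_of_nonneg_left (mul_le_mul_of_nonneg_left a0.2 p1) p2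
      _ = _ := by ring

theorem isCompact_fam (n : ℕ) [NeZero n] (h0 lam : ℝ) : IsCompact {h : Tor n → ℝ | Fam n h0 lam h} := by
  have h1 : IsCompact (Set.pi Set.univ fun _ : Tor n => Set.Icc h0 (1 : ℝ)) :=
    isCompact_univ_pi fun _ => isCompact_Icc
  refine h1.of_isClosed_subset ?_ ?_
  · have e : {h : Tor n → ℝ | Fam n h0 lam h} =
        (⋂ x, {h : Tor n → ℝ | h0 ≤ h x ∧ h x ≤ 1}) ∩
          ⋂ x, ⋂ i : Fin 3, {h : Tor n → ℝ | h x ≤ Real.exp lam * h (x + Pi.single i 1) ∧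
            h (x + Pi.single i 1) ≤ Real.exp lam * h x} := by
      ext h
      simp only [Set.mem_ofPred_eq, Set.mem_inter_iff, Set.mem_iInter]
      exact Iff.rfl
    rw [e]
    refine IsClosed.inter (isClosed_iInter fun x => ?_)
      (isClosed_iInter fun x => isClosed_iInter fun i => ?_)
    · exact (isClosed_le continuous_const (continuous_apply x)).inter
        (isClosed_le (continuous_apply x) continuous_const)
    · have c1 : Continuous fun h : Tor n → ℝ => h x := continuous_apply x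
      have c2 : Continuous fun h : Tor n → ℝ => h (x + Pi.single i 1) := continuous_apply _
      exact (isClosed_le c1 (continuous_const.mul c2)).inter
        (isClosed_le c2 (continuous_const.mul c1))
  · intro h hh x _
    exact ⟨(hh.1 x).1, (hh.1 x).2⟩

end

end Vale.Agent.P361.LRO
end

section

/-!
The one-node inequality for symmetric homogeneous stable laws (star-mesh inequality), from the
convexity of the hyperbolicity cone.
-/

namespace Vale.Agent.P361.LRO.T1

open MvPolynomial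

section coeffs

/-- the first coefficients of a product of linear polynomials -/
def J3 (P : Polynomial ℝ) (e q : ℝ) : Prop :=
  P.coeff 0 = 1 ∧ P.coeff 1 = e ∧ 2 * P.coeff 2 = e ^ 2 - q

theorem coeff_two_mul (P Q : Polynomial ℝ) :
    (P * Q).coeff 2 = P.coeff 0 * Q.coeff 2 + P.coeff 1 * Q.coeff 1 + P.coeff 2 * Q.coeff 0 := by
  rw [Polynomial.coeff_mul, Finset.Nat.sum_antidiagonal_eq_sum_range_succ_mk,
    Finset.sum_range_succ, Finset.sum_range_succ, Finset.sum_range_one]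

theorem coeff_one_mul' (P Q : Polynomial ℝ) :
    (P * Q).coeff 1 = P.coeff 0 * Q.coeff 1 + P.coeff 1 * Q.coeff 0 := by
  rw [Polynomial.mul_coeff_one]

theorem J3.mul {P Q : Polynomial ℝ} {e q e' q' : ℝ} (h : J3 P e q) (h' : J3 Q e' q') :
    J3 (P * Q) (e + e') (q + q') := by
  obtain ⟨h0, h1, h2⟩ := h
  obtain ⟨g0, g1, g2⟩ := h'
  refine ⟨by rw [Polynomial.mul_coeff_zero, h0, g0, one_mul], ?_, ?_⟩
  · rw [coeff_one_mul', h0, h1, g0, g1]
    ring
  · rw [coeff_two_mul, h0, h1, g0, g1]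
    linarith [h2, g2]

theorem J3.one : J3 1 0 0 := by
  refine ⟨by simp, ?_, ?_⟩
  · rw [Polynomial.coeff_one]
    simp
  · rw [Polynomial.coeff_one]
    simp

theorem J3.lin (a : ℝ) : J3 (Polynomial.C 1 + Polynomial.C a * Polynomial.X) a (a ^ 2) := by
  refine ⟨by simp, by simp [Polynomial.coeff_one], ?_⟩
  simp [Polynomial.coeff_one]

theorem J3.pow {P : Polynomial ℝ} {e q : ℝ} (h : J3 P e q) (n : ℕ) :
    J3 (P ^ n) (n * e) (n * q) := by
  induction n with
  | zero => simpa using J3.one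
  | succ n ih =>
    rw [pow_succ]
    have h1 := ih.mul h
    have e1 : (n : ℝ) * e + e = ((n + 1 : ℕ) : ℝ) * e := by push_cast; ring
    have e2 : (n : ℝ) * q + q = ((n + 1 : ℕ) : ℝ) * q := by push_cast; ring
    rwa [e1, e2] at h1

theorem J3.prod {V : Type*} (s : Finset V) (a : V → ℝ) (m : V → ℕ) :
    J3 (∏ x ∈ s, (Polynomial.C 1 + Polynomial.C (a x) * Polynomial.X) ^ m x)
      (∑ x ∈ s, m x * a x) (∑ x ∈ s, m x * a x ^ 2) := by
  classical
  induction s using Finset.induction_on with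
  | empty => simpa using J3.one
  | insert i s hi ih =>
    rw [Finset.prod_insert hi, Finset.sum_insert hi, Finset.sum_insert hi]
    exact ((J3.lin (a i)).pow (m i)).mul ih

end coeffs

section real

/-- the limit `τ → s` -/
theorem one_node_real (w0 w1 al E2 E0 la S S2 c s : ℝ) (hw1 : 0 < w1) (hs0 : 0 < s)
    (hs1 : s ≤ 1) (hs : w1 * (1 + s ^ 2) = w0 * s) (hcw : c * w1 = s * al)
    (hfun : ∀ τ : ℝ, 0 ≤ τ → τ < s →
      (w1 - τ * w0 + τ ^ 2 * w1) *
        ((S ^ 2 - S2) * (w1 - τ * w0 + τ ^ 2 * w1) - 2 * S * al * (1 - τ ^ 2) +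
          E2 * (1 + τ ^ 2) - τ * E0 - la * (1 - τ ^ 2) + 2 * c * S * (w0 - 2 * τ * w1) +
          2 * c ^ 2 * w1 - 4 * τ * c * al) ≤
      (S * (w1 - τ * w0 + τ ^ 2 * w1) - al * (1 - τ ^ 2) + c * (w0 - 2 * τ * w1)) ^ 2) :
    E2 * (1 + s ^ 2) - s * E0 - la * (1 - s ^ 2) - 2 * s ^ 2 * al ^ 2 / w1 ≤ 0 := by
  have hphi : ∀ τ : ℝ, s * (w1 - τ * w0 + τ ^ 2 * w1) = w1 * ((s - τ) * (1 - s * τ)) := by
    intro τ
    linear_combination τ * hs
  have hcw0 : c * w0 = al * (1 + s ^ 2) := by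
    have h1 : w1 * (c * w0) = w1 * (al * (1 + s ^ 2)) := by
      linear_combination w0 * hcw - al * hs
    exact mul_left_cancel₀ hw1.ne' h1
  set B : ℝ := |S| + |al| / w1 with hB
  set F : ℝ → ℝ := fun τ =>
    (S ^ 2 - S2) * (w1 - τ * w0 + τ ^ 2 * w1) - 2 * S * al * (1 - τ ^ 2) +
      E2 * (1 + τ ^ 2) - τ * E0 - la * (1 - τ ^ 2) + 2 * c * S * (w0 - 2 * τ * w1) +
      2 * c ^ 2 * w1 - 4 * τ * c * al - B ^ 2 * (w1 - τ * w0 + τ ^ 2 * w1)
    with hF
  have hFle : ∀ τ : ℝ, 0 ≤ τ → τ < s → F τ ≤ 0 := by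
    intro τ hτ0 hτs
    have h1 := hfun τ hτ0 hτs
    set φ : ℝ := w1 - τ * w0 + τ ^ 2 * w1 with hφ
    have h2 := hphi τ
    have hδ : 0 < s - τ := sub_pos.2 hτs
    have h3 : w1 * (s - τ) ^ 2 ≤ φ := by
      have h4 : s * (w1 * (s - τ) ^ 2) ≤ s * φ := by
        rw [h2]
        have h6 : s * (s - τ) ≤ 1 - s * τ := by
          have : s ^ 2 ≤ 1 := by
            have := pow_le_one₀ (n := 2) hs0.le hs1
            exact this
          linarith
        have h7 := mul_le_mul_of_nonneg_left h6 (mul_nonneg hw1.le hδ.le)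
        linarith
      exact le_of_mul_le_mul_left h4 hs0
    have h4 : 0 < φ := lt_of_lt_of_le (by positivity) h3
    have h5 : S * φ - al * (1 - τ ^ 2) + c * (w0 - 2 * τ * w1) = S * φ + al * (s - τ) ^ 2 := by
      linear_combination hcw0 - 2 * τ * hcw
    rw [h5] at h1
    have h6 : |S * φ + al * (s - τ) ^ 2| ≤ B * φ := by
      have a1 : (s - τ) ^ 2 ≤ φ / w1 := by
        rw [le_div_iff₀ hw1]
        linarith
      calc |S * φ + al * (s - τ) ^ 2| ≤ |S * φ| + |al * (s - τ) ^ 2| := abs_add_le _ _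
        _ = |S| * φ + |al| * (s - τ) ^ 2 := by
          rw [abs_mul, abs_mul, abs_of_pos h4, abs_of_nonneg (sq_nonneg (s - τ))]
        _ ≤ |S| * φ + |al| * (φ / w1) :=
          add_le_add le_rfl (mul_le_mul_of_nonneg_left a1 (abs_nonneg _))
        _ = B * φ := by
          rw [hB]
          ring
    have h7 : (S * φ + al * (s - τ) ^ 2) ^ 2 ≤ (B * φ) ^ 2 :=
      sq_le_sq.2 (h6.trans (le_abs_self _))
    have h8 : φ * F τ ≤ 0 := by
      have h9 : φ * F τ = φ * ((S ^ 2 - S2) * φ - 2 * S * al * (1 - τ ^ 2) +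
          E2 * (1 + τ ^ 2) - τ * E0 - la * (1 - τ ^ 2) + 2 * c * S * (w0 - 2 * τ * w1) +
          2 * c ^ 2 * w1 - 4 * τ * c * al) - (B * φ) ^ 2 := by
        simp only [hF]
        ring
      rw [h9]
      exact sub_nonpos.2 (h1.trans h7)
    by_contra h9
    exact absurd (mul_pos h4 (not_le.1 h9)) (not_lt.2 h8)
  have hFs : F s ≤ 0 := by
    have hc : Continuous F := by
      simp only [hF]
      fun_prop
    have h1 : Filter.Tendsto F (nhdsWithin s (Set.Iio s)) (nhds (F s)) :=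
      (hc.tendsto s).mono_left nhdsWithin_le_nhds
    refine le_of_tendsto h1 ?_
    have h2 : ∀ᶠ τ in nhdsWithin s (Set.Iio s), 0 < τ :=
      (eventually_gt_nhds hs0).filter_mono nhdsWithin_le_nhds
    filter_upwards [self_mem_nhdsWithin, h2] with τ hτ hτ0
    exact hFle τ hτ0.le hτ
  have h0 : w1 - s * w0 + s ^ 2 * w1 = 0 := by linear_combination hs
  have hcal : c * al = s * al ^ 2 / w1 := by
    rw [eq_div_iff hw1.ne']
    linear_combination al * hcw
  have h1 : F s = E2 * (1 + s ^ 2) - s * E0 - la * (1 - s ^ 2) - 2 * s ^ 2 * al ^ 2 / w1 := by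
    simp only [hF]
    rw [h0]
    have h2 : 2 * s ^ 2 * al ^ 2 / w1 = 2 * s * (c * al) := by
      rw [hcal]
      ring
    rw [h2]
    linear_combination (2 * S) * hcw0 + (2 * c - 4 * S * s) * hcw
  rw [← h1]
  exact hFs

end real

section law

variable {Om V : Type*} [Fintype Om] [Fintype V] [DecidableEq V]

/-- the generating polynomial of a law -/
noncomputable def gen (W : Om → ℝ) (n : Om → V → ℕ) : MvPolynomial V ℝ :=
  ∑ w, C (W w) * ∏ x, X x ^ n w x

omit [DecidableEq V] in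
theorem gen_aeval (W : Om → ℝ) (n : Om → V → ℕ) (y : V → ℂ) :
    aeval y (gen W n) = ∑ w, (W w : ℂ) * ∏ x, y x ^ n w x := by
  rw [gen, map_sum]
  refine Finset.sum_congr rfl fun w _ => ?_
  rw [map_mul, map_prod, aeval_C]
  congr 1
  refine Finset.prod_congr rfl fun x _ => ?_
  rw [map_pow, aeval_X]

omit [DecidableEq V] in
theorem gen_hom {W : Om → ℝ} {n : Om → V → ℕ} {N : ℕ}
    (hdeg : ∀ w, W w ≠ 0 → ∑ x, n w x = N) : (gen W n).IsHomogeneous N := by
  refine IsHomogeneous.sum _ _ _ fun w _ => ?_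
  by_cases hw : W w = 0
  · rw [hw, C_0, zero_mul]
    exact isHomogeneous_zero _ _ _
  · have h1 := (isHomogeneous_C V (W w)).mul (IsHomogeneous.prod Finset.univ
      (fun x => (X x : MvPolynomial V ℝ) ^ n w x) (fun x => n w x) (fun x _ => by
        have := (isHomogeneous_X ℝ x).pow (n w x)
        rwa [one_mul] at this))
    rwa [zero_add, hdeg w hw] at h1

omit [DecidableEq V] in
theorem gen_lineR (W : Om → ℝ) (n : Om → V → ℕ) (b d : V → ℝ) :
    lineR (gen W n) b d = ∑ w, Polynomial.C (W w) *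
      ∏ x, (Polynomial.C (b x) + Polynomial.C (d x) * Polynomial.X) ^ n w x := by
  rw [lineR, gen, map_sum]
  refine Finset.sum_congr rfl fun w _ => ?_
  rw [map_mul, map_prod, aeval_C]
  congr 1
  refine Finset.prod_congr rfl fun x _ => ?_
  rw [map_pow, aeval_X]

/-- sums over the configurations with `k` particles at `z` -/
noncomputable def Sk (W : Om → ℝ) (n : Om → V → ℕ) (z : V) (k : ℕ) (F : Om → ℝ) : ℝ :=
  ∑ w, if n w z = k then W w * F w else 0

omit [Fintype V] [DecidableEq V] in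
theorem Sk_add (W : Om → ℝ) (n : Om → V → ℕ) (z : V) (k : ℕ) (F G : Om → ℝ) :
    Sk W n z k (fun w => F w + G w) = Sk W n z k F + Sk W n z k G := by
  rw [Sk, Sk, Sk, ← Finset.sum_add_distrib]
  refine Finset.sum_congr rfl fun w _ => ?_
  split_ifs
  · ring
  · ring

omit [Fintype V] [DecidableEq V] in
theorem Sk_smul (W : Om → ℝ) (n : Om → V → ℕ) (z : V) (k : ℕ) (c : ℝ) (F : Om → ℝ) :
    Sk W n z k (fun w => c * F w) = c * Sk W n z k F := by
  rw [Sk, Sk, Finset.mul_sum]
  refine Finset.sum_congr rfl fun w _ => ?_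
  split_ifs
  · ring
  · ring

omit [Fintype V] [DecidableEq V] in
theorem Sk_split {W : Om → ℝ} {n : Om → V → ℕ} (hn : ∀ w x, n w x ≤ 2) (z : V)
    (F : ℕ → Om → ℝ) : ∑ w, W w * F (n w z) w =
      Sk W n z 0 (F 0) + Sk W n z 1 (F 1) + Sk W n z 2 (F 2) := by
  rw [Sk, Sk, Sk, ← Finset.sum_add_distrib, ← Finset.sum_add_distrib]
  refine Finset.sum_congr rfl fun w _ => ?_
  have h := hn w z
  interval_cases h1 : n w z <;> simp

/-- the values of the polynomial, its first and second derivatives on the line through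
`(1,…,1,-τ)` in the direction `(a, c)` -/
theorem line_coeffs {W : Om → ℝ} {n : Om → V → ℕ} (hn : ∀ w x, n w x ≤ 2) (z : V) (a : V → ℝ)
    (ha : a z = 0) (τ c : ℝ) :
    let P := lineR (gen W n) (fun x => if x = z then -τ else 1)
      (fun x => if x = z then c else a x)
    let e : Om → ℝ := fun w => ∑ x, n w x * a x
    let q : Om → ℝ := fun w => ∑ x, n w x * a x ^ 2
    P.coeff 0 = Sk W n z 0 (fun _ => 1) - τ * Sk W n z 1 (fun _ => 1) +
        τ ^ 2 * Sk W n z 2 (fun _ => 1) ∧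
    P.coeff 1 = Sk W n z 0 e + (c * Sk W n z 1 (fun _ => 1) - τ * Sk W n z 1 e) +
        (-2 * τ * c * Sk W n z 2 (fun _ => 1) + τ ^ 2 * Sk W n z 2 e) ∧
    2 * P.coeff 2 = Sk W n z 0 (fun w => e w ^ 2 - q w) +
        (2 * c * Sk W n z 1 e - τ * Sk W n z 1 (fun w => e w ^ 2 - q w)) +
        (2 * c ^ 2 * Sk W n z 2 (fun _ => 1) - 4 * τ * c * Sk W n z 2 e +
          τ ^ 2 * Sk W n z 2 (fun w => e w ^ 2 - q w)) := by
  intro P e q
  have hP : P = ∑ w, Polynomial.C (W w) *
      ((Polynomial.C (-τ) + Polynomial.C c * Polynomial.X) ^ n w z *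
        ∏ x ∈ Finset.univ.erase z,
          (Polynomial.C 1 + Polynomial.C (a x) * Polynomial.X) ^ n w x) := by
    change lineR (gen W n) _ _ = _
    rw [gen_lineR]
    refine Finset.sum_congr rfl fun w _ => ?_
    congr 1
    rw [← Finset.mul_prod_erase Finset.univ _ (Finset.mem_univ z), if_pos rfl, if_pos rfl]
    congr 1
    refine Finset.prod_congr rfl fun x hx => ?_
    rw [if_neg (Finset.ne_of_mem_erase hx), if_neg (Finset.ne_of_mem_erase hx)]
  have hJ : ∀ w, J3 (∏ x ∈ Finset.univ.erase z,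
      (Polynomial.C 1 + Polynomial.C (a x) * Polynomial.X) ^ n w x) (e w) (q w) := by
    intro w
    have h := J3.prod (Finset.univ.erase z) a (n w)
    have e1 : ∑ x ∈ Finset.univ.erase z, (n w x : ℝ) * a x = e w := by
      change _ = ∑ x, (n w x : ℝ) * a x
      rw [← Finset.add_sum_erase Finset.univ _ (Finset.mem_univ z), ha, mul_zero, zero_add]
    have e2 : ∑ x ∈ Finset.univ.erase z, (n w x : ℝ) * a x ^ 2 = q w := by
      change _ = ∑ x, (n w x : ℝ) * a x ^ 2
      rw [← Finset.add_sum_erase Finset.univ _ (Finset.mem_univ z), ha]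
      simp
    rwa [e1, e2] at h
  have hA : ∀ k : ℕ, P.coeff k = ∑ w, W w *
      ((Polynomial.C (-τ) + Polynomial.C c * Polynomial.X) ^ n w z *
        ∏ x ∈ Finset.univ.erase z,
          (Polynomial.C 1 + Polynomial.C (a x) * Polynomial.X) ^ n w x).coeff k := by
    intro k
    rw [hP, Polynomial.finsetSum_coeff]
    refine Finset.sum_congr rfl fun w _ => ?_
    rw [Polynomial.coeff_C_mul]
  -- coefficients of the powers of the node factor
  have hN : ∀ m : ℕ, m ≤ 2 →
      ((Polynomial.C (-τ) + Polynomial.C c * Polynomial.X) ^ m).coeff 0 = (-τ) ^ m ∧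
      ((Polynomial.C (-τ) + Polynomial.C c * Polynomial.X) ^ m).coeff 1 =
        (if m = 0 then 0 else if m = 1 then c else -2 * τ * c) ∧
      ((Polynomial.C (-τ) + Polynomial.C c * Polynomial.X) ^ m).coeff 2 =
        (if m = 2 then c ^ 2 else 0) := by
    intro m hm
    have l0 : (Polynomial.C (-τ) + Polynomial.C c * Polynomial.X).coeff 0 = -τ := by simp
    have l1 : (Polynomial.C (-τ) + Polynomial.C c * Polynomial.X).coeff 1 = c := by
      rw [Polynomial.coeff_add, Polynomial.coeff_C_mul, Polynomial.coeff_X_one,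
        Polynomial.coeff_C_of_ne_zero one_ne_zero]
      ring
    have l2 : (Polynomial.C (-τ) + Polynomial.C c * Polynomial.X).coeff 2 = 0 := by
      rw [Polynomial.coeff_add, Polynomial.coeff_C_mul, Polynomial.coeff_X,
        Polynomial.coeff_C_of_ne_zero two_ne_zero]
      norm_num
    interval_cases m
    · simp [Polynomial.coeff_one]
    · simp only [pow_one]
      rw [l0, l1, l2]
      simp
    · rw [pow_two, Polynomial.mul_coeff_zero, coeff_one_mul', coeff_two_mul, l0, l1, l2]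
      refine ⟨by ring, ?_, ?_⟩
      · simp
        ring
      · simp
        ring
  refine ⟨?_, ?_, ?_⟩
  · rw [hA 0]
    have h1 : ∀ w, ((Polynomial.C (-τ) + Polynomial.C c * Polynomial.X) ^ n w z *
        ∏ x ∈ Finset.univ.erase z,
          (Polynomial.C 1 + Polynomial.C (a x) * Polynomial.X) ^ n w x).coeff 0 =
        (-τ) ^ n w z := by
      intro w
      rw [Polynomial.mul_coeff_zero, (hJ w).1, (hN _ (hn w z)).1, mul_one]
    simp only [h1]
    rw [Sk_split hn z (fun k _ => (-τ) ^ k)]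
    have e0 : Sk W n z 0 (fun _ => (-τ) ^ 0) = Sk W n z 0 (fun _ => 1) := by simp
    have e1 : Sk W n z 1 (fun _ => (-τ) ^ 1) = -τ * Sk W n z 1 (fun _ => 1) := by
      rw [← Sk_smul]
      simp
    have e2 : Sk W n z 2 (fun _ => (-τ) ^ 2) = τ ^ 2 * Sk W n z 2 (fun _ => 1) := by
      rw [← Sk_smul]
      simp
    rw [e0, e1, e2]
    ring
  · rw [hA 1]
    have h1 : ∀ w, ((Polynomial.C (-τ) + Polynomial.C c * Polynomial.X) ^ n w z *
        ∏ x ∈ Finset.univ.erase z,
          (Polynomial.C 1 + Polynomial.C (a x) * Polynomial.X) ^ n w x).coeff 1 =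
        (-τ) ^ n w z * e w +
          (if n w z = 0 then 0 else if n w z = 1 then c else -2 * τ * c) := by
      intro w
      rw [coeff_one_mul', (hJ w).1, (hJ w).2.1, (hN _ (hn w z)).1, (hN _ (hn w z)).2.1, mul_one]
    simp only [h1]
    rw [Sk_split hn z (fun k w => (-τ) ^ k * e w +
      (if k = 0 then 0 else if k = 1 then c else -2 * τ * c))]
    have e0 : Sk W n z 0 (fun w => (-τ) ^ 0 * e w +
        (if (0 : ℕ) = 0 then 0 else if (0 : ℕ) = 1 then c else -2 * τ * c)) = Sk W n z 0 e := by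
      simp
    have e1 : Sk W n z 1 (fun w => (-τ) ^ 1 * e w +
        (if (1 : ℕ) = 0 then 0 else if (1 : ℕ) = 1 then c else -2 * τ * c)) =
        -τ * Sk W n z 1 e + c * Sk W n z 1 (fun _ => 1) := by
      rw [← Sk_smul, ← Sk_smul, ← Sk_add]
      simp
    have e2 : Sk W n z 2 (fun w => (-τ) ^ 2 * e w +
        (if (2 : ℕ) = 0 then 0 else if (2 : ℕ) = 1 then c else -2 * τ * c)) =
        τ ^ 2 * Sk W n z 2 e + (-2 * τ * c) * Sk W n z 2 (fun _ => 1) := by
      rw [← Sk_smul, ← Sk_smul, ← Sk_add]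
      simp
    rw [e0, e1, e2]
    ring
  · rw [hA 2, Finset.mul_sum]
    have h1 : ∀ w, 2 * (W w * ((Polynomial.C (-τ) + Polynomial.C c * Polynomial.X) ^ n w z *
        ∏ x ∈ Finset.univ.erase z,
          (Polynomial.C 1 + Polynomial.C (a x) * Polynomial.X) ^ n w x).coeff 2) =
        W w * ((-τ) ^ n w z * (e w ^ 2 - q w) +
          2 * (if n w z = 0 then 0 else if n w z = 1 then c else -2 * τ * c) * e w +
          2 * (if n w z = 2 then c ^ 2 else 0)) := by
      intro w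
      rw [coeff_two_mul, (hJ w).1, (hJ w).2.1, (hN _ (hn w z)).1, (hN _ (hn w z)).2.1,
        (hN _ (hn w z)).2.2, ← (hJ w).2.2]
      ring
    simp only [h1]
    rw [Sk_split hn z (fun k w => (-τ) ^ k * (e w ^ 2 - q w) +
          2 * (if k = 0 then 0 else if k = 1 then c else -2 * τ * c) * e w +
          2 * (if k = 2 then c ^ 2 else 0))]
    have e0 : Sk W n z 0 (fun w => (-τ) ^ 0 * (e w ^ 2 - q w) +
          2 * (if (0 : ℕ) = 0 then 0 else if (0 : ℕ) = 1 then c else -2 * τ * c) * e w +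
          2 * (if (0 : ℕ) = 2 then c ^ 2 else 0)) = Sk W n z 0 (fun w => e w ^ 2 - q w) := by
      simp
    have e1 : Sk W n z 1 (fun w => (-τ) ^ 1 * (e w ^ 2 - q w) +
          2 * (if (1 : ℕ) = 0 then 0 else if (1 : ℕ) = 1 then c else -2 * τ * c) * e w +
          2 * (if (1 : ℕ) = 2 then c ^ 2 else 0)) =
        -τ * Sk W n z 1 (fun w => e w ^ 2 - q w) + 2 * c * Sk W n z 1 e := by
      rw [← Sk_smul, ← Sk_smul, ← Sk_add]
      simp
    have e2 : Sk W n z 2 (fun w => (-τ) ^ 2 * (e w ^ 2 - q w) +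
          2 * (if (2 : ℕ) = 0 then 0 else if (2 : ℕ) = 1 then c else -2 * τ * c) * e w +
          2 * (if (2 : ℕ) = 2 then c ^ 2 else 0)) =
        τ ^ 2 * Sk W n z 2 (fun w => e w ^ 2 - q w) + (2 * (-2 * τ * c)) * Sk W n z 2 e +
          2 * c ^ 2 * Sk W n z 2 (fun _ => 1) := by
      rw [← Sk_smul, ← Sk_smul, ← Sk_smul, ← Sk_add, ← Sk_add]
      simp
    rw [e0, e1, e2]
    ring

/-- **One node**, in terms of the weights. -/
theorem one_node_core {W : Om → ℝ} {n : Om → V → ℕ} (hn : ∀ w x, n w x ≤ 2) {N : ℕ}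
    (hdeg : ∀ w, W w ≠ 0 → ∑ x, n w x = N) (hst : RStable (gen W n)) (z : V) (a : V → ℝ)
    (ha : a z = 0) (w0 w1 al E2 E0 la : ℝ) (hw1 : 0 < w1)
    (h00 : Sk W n z 0 (fun _ => 1) = w1) (h20 : Sk W n z 2 (fun _ => 1) = w1)
    (h10 : Sk W n z 1 (fun _ => 1) = w0)
    (h0A : Sk W n z 0 (fun w => ∑ x, ((n w x : ℝ) - 1) * a x) = -al)
    (h1A : Sk W n z 1 (fun w => ∑ x, ((n w x : ℝ) - 1) * a x) = 0)
    (h2A : Sk W n z 2 (fun w => ∑ x, ((n w x : ℝ) - 1) * a x) = al)
    (h0E : Sk W n z 0 (fun w => (∑ x, ((n w x : ℝ) - 1) * a x) ^ 2) = E2)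
    (h1E : Sk W n z 1 (fun w => (∑ x, ((n w x : ℝ) - 1) * a x) ^ 2) = E0)
    (h2E : Sk W n z 2 (fun w => (∑ x, ((n w x : ℝ) - 1) * a x) ^ 2) = E2)
    (h0L : Sk W n z 0 (fun w => ∑ x, ((n w x : ℝ) - 1) * a x ^ 2) = la)
    (h1L : Sk W n z 1 (fun w => ∑ x, ((n w x : ℝ) - 1) * a x ^ 2) = 0)
    (h2L : Sk W n z 2 (fun w => ∑ x, ((n w x : ℝ) - 1) * a x ^ 2) = -la)
    (s : ℝ) (hs0 : 0 < s) (hs1 : s ≤ 1) (hs : w1 * (1 + s ^ 2) = w0 * s) :
    E2 * (1 + s ^ 2) - s * E0 - la * (1 - s ^ 2) - 2 * s ^ 2 * al ^ 2 / w1 ≤ 0 := by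
  set S : ℝ := ∑ x, a x with hS
  set S2 : ℝ := ∑ x, a x ^ 2 with hS2
  have he : ∀ w, ∑ x, (n w x : ℝ) * a x = S + ∑ x, ((n w x : ℝ) - 1) * a x := by
    intro w
    rw [hS, ← Finset.sum_add_distrib]
    exact Finset.sum_congr rfl fun x _ => by ring
  have hq : ∀ w, ∑ x, (n w x : ℝ) * a x ^ 2 = S2 + ∑ x, ((n w x : ℝ) - 1) * a x ^ 2 := by
    intro w
    rw [hS2, ← Finset.sum_add_distrib]
    exact Finset.sum_congr rfl fun x _ => by ring
  -- the sums of `e` and of `e ^ 2 - q`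
  have he' : ∀ k, Sk W n z k (fun w => ∑ x, (n w x : ℝ) * a x) =
      S * Sk W n z k (fun _ => 1) + Sk W n z k (fun w => ∑ x, ((n w x : ℝ) - 1) * a x) := by
    intro k
    rw [← Sk_smul, ← Sk_add]
    congr 1
    funext w
    rw [he]
    ring
  have hq' : ∀ k, Sk W n z k (fun w => (∑ x, (n w x : ℝ) * a x) ^ 2 -
      ∑ x, (n w x : ℝ) * a x ^ 2) =
      (S ^ 2 - S2) * Sk W n z k (fun _ => 1) +
      (2 * S * Sk W n z k (fun w => ∑ x, ((n w x : ℝ) - 1) * a x) +
      (Sk W n z k (fun w => (∑ x, ((n w x : ℝ) - 1) * a x) ^ 2) +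
      (-1) * Sk W n z k (fun w => ∑ x, ((n w x : ℝ) - 1) * a x ^ 2))) := by
    intro k
    rw [← Sk_smul, ← Sk_smul, ← Sk_smul, ← Sk_add, ← Sk_add, ← Sk_add]
    congr 1
    funext w
    rw [he, hq]
    ring
  set c : ℝ := s * al / w1 with hc
  have hcw : c * w1 = s * al := by
    rw [hc]
    field_simp
  -- the three functions of `τ`
  have hfun : ∀ τ : ℝ, 0 ≤ τ → τ < s →
      (w1 - τ * w0 + τ ^ 2 * w1) *
        ((S ^ 2 - S2) * (w1 - τ * w0 + τ ^ 2 * w1) - 2 * S * al * (1 - τ ^ 2) +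
          E2 * (1 + τ ^ 2) - τ * E0 - la * (1 - τ ^ 2) + 2 * c * S * (w0 - 2 * τ * w1) +
          2 * c ^ 2 * w1 - 4 * τ * c * al) ≤
      (S * (w1 - τ * w0 + τ ^ 2 * w1) - al * (1 - τ ^ 2) + c * (w0 - 2 * τ * w1)) ^ 2 := by
    intro τ hτ0 hτs
    have hcone : Cone (gen W n) (fun x => if x = z then -τ else 1) := by
      intro r hr h0
      -- value at the shifted point
      have hval : aeval (fun i => (((if i = z then -τ else (1 : ℝ)) + r : ℝ) : ℂ)) (gen W n) =
          (((1 + r) ^ N * (w1 + w0 * ((r - τ) / (1 + r)) +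
            w1 * ((r - τ) / (1 + r)) ^ 2) : ℝ) : ℂ) := by
        have h1r : (1 + r : ℝ) ≠ 0 := by positivity
        rw [gen_aeval]
        have h2 : ∀ w, (W w : ℂ) * ∏ x, (((if x = z then -τ else (1 : ℝ)) + r : ℝ) : ℂ) ^ n w x =
            ((W w * ((1 + r) ^ N * ((r - τ) / (1 + r)) ^ n w z) : ℝ) : ℂ) := by
          intro w
          by_cases hw : W w = 0
          · rw [hw]
            simp
          · have h3 : ∏ x, ((if x = z then -τ else (1 : ℝ)) + r) ^ n w x =
                (1 + r) ^ N * ((r - τ) / (1 + r)) ^ n w z := by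
              rw [← hdeg w hw, ← Finset.prod_pow_eq_pow_sum,
                ← Finset.mul_prod_erase Finset.univ _ (Finset.mem_univ z),
                ← Finset.mul_prod_erase Finset.univ (fun x => (1 + r) ^ n w x)
                  (Finset.mem_univ z), if_pos rfl]
              have h4 : ∏ x ∈ Finset.univ.erase z, ((if x = z then -τ else (1 : ℝ)) + r) ^ n w x =
                  ∏ x ∈ Finset.univ.erase z, (1 + r) ^ n w x := by
                refine Finset.prod_congr rfl fun x hx => ?_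
                rw [if_neg (Finset.ne_of_mem_erase hx)]
              rw [h4, div_pow]
              field_simp
              ring
            rw [← h3]
            push_cast
            rfl
        simp only [h2]
        rw [← Complex.ofReal_sum]
        congr 1
        rw [Sk_split hn z (fun k _ => (1 + r) ^ N * ((r - τ) / (1 + r)) ^ k)]
        have e0 : ∀ k : ℕ, Sk W n z k (fun _ => (1 + r) ^ N * ((r - τ) / (1 + r)) ^ k) =
            ((1 + r) ^ N * ((r - τ) / (1 + r)) ^ k) * Sk W n z k (fun _ => 1) := by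
          intro k
          rw [← Sk_smul]
          simp
        rw [e0, e0, e0, h00, h10, h20]
        ring
      rw [hval] at h0
      have h1 : (1 + r) ^ N * (w1 + w0 * ((r - τ) / (1 + r)) +
            w1 * ((r - τ) / (1 + r)) ^ 2) = 0 := by exact_mod_cast h0
      have h1r : (0 : ℝ) < 1 + r := by positivity
      rcases mul_eq_zero.1 h1 with h2 | h2
      · exact (pow_pos h1r N).ne' h2
      · set t : ℝ := (r - τ) / (1 + r) with ht
        have ht1 : -s < t := by
          rw [ht, lt_div_iff₀ h1r]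
          nlinarith
        have h3 : s * (w1 + w0 * t + w1 * t ^ 2) = w1 * ((t + s) * (1 + s * t)) := by
          linear_combination (-t) * hs
        have h4 : 0 < 1 + s * t := by nlinarith
        have h5 : 0 < w1 * ((t + s) * (1 + s * t)) := by
          have : 0 < t + s := by linarith
          positivity
        rw [h2, mul_zero] at h3
        linarith
    have h := garding_ineq (gen_hom hdeg) hst hcone (fun x => if x = z then c else a x)
    obtain ⟨l0, l1, l2⟩ := line_coeffs (W := W) hn z a ha τ c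
    rw [l2, l1, l0, he', he', he', hq', hq', hq', h00, h10, h20, h0A, h1A, h2A, h0E, h1E, h2E,
      h0L, h1L, h2L] at h
    refine le_trans (le_of_eq ?_) (h.trans (le_of_eq ?_))
    · ring
    · ring
  exact one_node_real w0 w1 al E2 E0 la S S2 c s hw1 hs0 hs1 hs hcw hfun

end law

end Vale.Agent.P361.LRO.T1
end

section

/-!
P361, LRO: Griffiths' first inequality for the spins of the charge network (helper169), and its
consequences `0 ≤ cc` off the diagonal, `mag ≤ 1`, for every law `μ ≥ 0` and `0 ≤ θ ≤ 1`.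
-/

namespace Vale.Agent.P361.LRO

open Finset

noncomputable section

variable {X : Type} [Fintype X] [DecidableEq X]

/-- `±1` spin. -/
def sgn2 (i : Fin 2) : ℝ := if i = 0 then 1 else -1

theorem sgn2_zero : sgn2 0 = 1 := by simp [sgn2]

theorem sgn2_one : sgn2 1 = -1 := by simp [sgn2]

theorem sgn2_sq (i : Fin 2) : sgn2 i * sgn2 i = 1 := by
  fin_cases i <;> simp [sgn2]

theorem sgn2_flip (i : Fin 2) : sgn2 (1 - i) = - sgn2 i := by
  fin_cases i <;> simp [sgn2]

/-- Monomials in the spins. -/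
def mon (m : X → ℕ) (s : X → Fin 2) : ℝ := ∏ x, sgn2 (s x) ^ m x

omit [DecidableEq X] in
theorem mon_add (m m' : X → ℕ) (s : X → Fin 2) : mon (m + m') s = mon m s * mon m' s := by
  simp only [mon, Pi.add_apply, pow_add, Finset.prod_mul_distrib]

theorem mon_single (p : X) (s : X → Fin 2) : mon (Pi.single p 1) s = sgn2 (s p) := by
  unfold mon
  rw [Finset.prod_eq_single p]
  · simp
  · intro x _ hx; simp [Pi.single_eq_of_ne hx]
  · intro h; exact absurd (Finset.mem_univ p) h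

theorem sum_mon_nonneg (m : X → ℕ) : 0 ≤ ∑ s : X → Fin 2, mon m s := by
  have h := Finset.prod_univ_sum (fun _ : X => (univ : Finset (Fin 2)))
    (fun x i => sgn2 i ^ m x)
  rw [Fintype.piFinset_univ] at h
  unfold mon
  rw [← h]
  refine Finset.prod_nonneg fun x _ => ?_
  rw [Fin.sum_univ_two, sgn2_zero, sgn2_one, one_pow]
  rcases neg_one_pow_eq_or ℝ (m x) with h | h <;> rw [h] <;> norm_num

/-- **Griffiths' first inequality.** -/
theorem griffiths (T : Finset X) (α β : X → ℝ) (hα : ∀ x, 0 ≤ α x) (hβ : ∀ x, 0 ≤ β x)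
    (p q : X → X) (m : X → ℕ) :
    0 ≤ ∑ s : X → Fin 2, mon m s * ∏ x ∈ T, (α x + β x * (sgn2 (s (p x)) * sgn2 (s (q x)))) := by
  induction T using Finset.induction generalizing m with
  | empty => simpa using sum_mon_nonneg m
  | insert a T ha ih =>
    have e : ∀ s : X → Fin 2,
        mon m s * ∏ x ∈ insert a T, (α x + β x * (sgn2 (s (p x)) * sgn2 (s (q x)))) =
        α a * (mon m s * ∏ x ∈ T, (α x + β x * (sgn2 (s (p x)) * sgn2 (s (q x))))) +
        β a * (mon (m + Pi.single (p a) 1 + Pi.single (q a) 1) s *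
          ∏ x ∈ T, (α x + β x * (sgn2 (s (p x)) * sgn2 (s (q x))))) := by
      intro s
      rw [Finset.prod_insert ha, mon_add, mon_add, mon_single, mon_single]
      ring
    rw [Finset.sum_congr rfl fun s _ => e s, Finset.sum_add_distrib, ← Finset.mul_sum,
      ← Finset.mul_sum]
    exact add_nonneg (mul_nonneg (hα a) (ih m)) (mul_nonneg (hβ a) (ih _))

/-- The bond weight. -/
theorem bond_eq (t : ℝ) (i j : Fin 2) :
    (if i = j then (1 : ℝ) else t) = (1 + t) / 2 + (1 - t) / 2 * (sgn2 i * sgn2 j) := by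
  fin_cases i <;> fin_cases j <;> simp [sgn2] <;> ring

omit [Fintype X] [DecidableEq X] in
theorem jj_eq_sgn (π : Equiv.Perm X) (s : X → Fin 2) (x : X) :
    jj π s x = (sgn2 (s (π x)) - sgn2 (s x)) / 2 := by
  unfold jj
  generalize s x = a
  generalize s (π x) = b
  fin_cases a <;> fin_cases b <;> simp [sgn2] <;> norm_num

/-- Two point function with the bonds in `T`. -/
theorem griffiths_two {θ : X → ℝ} (hθ : ∀ x, 0 ≤ θ x ∧ θ x ≤ 1) (π : Equiv.Perm X)
    (T : Finset X) (a b : X) :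
    0 ≤ ∑ s : X → Fin 2, (sgn2 (s a) * sgn2 (s b)) *
      ∏ x ∈ T, (if s x = s (π x) then 1 else θ x) := by
  have h := griffiths T (fun x => (1 + θ x) / 2) (fun x => (1 - θ x) / 2)
    (fun x => by have := (hθ x).1; positivity) (fun x => by have := (hθ x).2; linarith)
    (fun x => x) (fun x => π x) (Pi.single a 1 + Pi.single b 1)
  refine h.trans (le_of_eq ?_)
  refine Finset.sum_congr rfl fun s _ => ?_
  rw [mon_add, mon_single, mon_single]
  congr 1
  exact Finset.prod_congr rfl fun x _ => (bond_eq _ _ _).symm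

/-! ### Flipping a set of spins -/

/-- Flip the spins in `P`. -/
def flipP (P : X → Prop) [DecidablePred P] (s : X → Fin 2) : X → Fin 2 :=
  fun x => if P x then 1 - s x else s x

omit [Fintype X] [DecidableEq X] in
theorem flipP_invol (P : X → Prop) [DecidablePred P] : Function.Involutive (flipP P) := by
  intro s
  funext x
  unfold flipP
  by_cases h : P x
  · simp [h]
  · simp [h]

theorem sum_flipP (P : X → Prop) [DecidablePred P] (F : (X → Fin 2) → ℝ) :
    ∑ s, F (flipP P s) = ∑ s, F s :=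
  Equiv.sum_comp (Function.Involutive.toPerm (flipP P) (flipP_invol P)) F

theorem sum_eq_zero_of_flip (P : X → Prop) [DecidablePred P] (F : (X → Fin 2) → ℝ)
    (h : ∀ s, F (flipP P s) = - F s) : ∑ s, F s = 0 := by
  have h1 := sum_flipP P F
  rw [Finset.sum_congr rfl fun s _ => h s, Finset.sum_neg_distrib] at h1
  linarith

omit [Fintype X] [DecidableEq X] in
theorem sgn2_flipP (P : X → Prop) [DecidablePred P] (s : X → Fin 2) (x : X) :
    sgn2 (flipP P s x) = (if P x then -1 else 1) * sgn2 (s x) := by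
  unfold flipP
  split_ifs with h
  · rw [sgn2_flip]; ring
  · ring

omit [Fintype X] [DecidableEq X] in
theorem flipP_eq_iff (P : X → Prop) [DecidablePred P] (s : X → Fin 2) {x y : X}
    (h : P x ↔ P y) : (flipP P s x = flipP P s y) ↔ (s x = s y) := by
  unfold flipP
  by_cases hx : P x
  · have hy : P y := h.mp hx
    simp [hx, hy]
  · have hy : ¬ P y := fun h' => hx (h.mpr h')
    simp [hx, hy]

/-- The arc from `π u` to the first visit of `{u, v}`. -/
theorem exists_arc (π : Equiv.Perm X) {u v : X} (huv : u ≠ v) :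
    ∃ P : X → Prop, (∀ x, x ≠ u → x ≠ v → (P x ↔ P (π x))) ∧ P (π u) ∧ ¬ P (π v) ∧
      (P u ↔ ¬ P v) := by
  classical
  have hex : ∃ n : ℕ, 1 ≤ n ∧ ((π ^ n) u = u ∨ (π ^ n) u = v) :=
    ⟨orderOf π, orderOf_pos π, Or.inl (by rw [pow_orderOf_eq_one]; rfl)⟩
  set n := Nat.find hex with hn
  have hn1 : 1 ≤ n := (Nat.find_spec hex).1
  have hn2 : (π ^ n) u = u ∨ (π ^ n) u = v := (Nat.find_spec hex).2
  have hmin : ∀ i, 1 ≤ i → i < n → (π ^ i) u ≠ u ∧ (π ^ i) u ≠ v := by
    intro i hi1 hi2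
    have := Nat.find_min hex hi2
    push Not at this
    exact this hi1
  have hsucc : ∀ i : ℕ, π ((π ^ i) u) = (π ^ (i + 1)) u := by
    intro i
    rw [pow_succ', Equiv.Perm.mul_apply]
  refine ⟨fun x => ∃ i, 1 ≤ i ∧ i ≤ n ∧ (π ^ i) u = x, ?_, ?_, ?_, ?_⟩
  · intro x hxu hxv
    constructor
    · rintro ⟨i, hi1, hi2, rfl⟩
      have hin : i ≠ n := by
        rintro rfl
        rcases hn2 with h | h
        · exact hxu h
        · exact hxv h
      exact ⟨i + 1, by omega, by omega, (hsucc i).symm⟩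
    · rintro ⟨i, hi1, hi2, hi⟩
      obtain ⟨k, rfl⟩ : ∃ k, i = k + 1 := ⟨i - 1, by omega⟩
      rw [← hsucc k] at hi
      have hk : (π ^ k) u = x := π.injective hi
      rcases Nat.eq_zero_or_pos k with h0 | h0
      · subst h0
        exact absurd hk.symm (by simpa using hxu)
      · exact ⟨k, h0, by omega, hk⟩
  · exact ⟨1, le_rfl, hn1, by simp⟩
  · rintro ⟨i, hi1, hi2, hi⟩
    obtain ⟨k, rfl⟩ : ∃ k, i = k + 1 := ⟨i - 1, by omega⟩
    rw [← hsucc k] at hi
    have hk : (π ^ k) u = v := π.injective hi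
    rcases Nat.eq_zero_or_pos k with h0 | h0
    · subst h0
      exact huv (by simpa using hk)
    · exact (hmin k h0 (by omega)).2 hk
  · have huP : (∃ i, 1 ≤ i ∧ i ≤ n ∧ (π ^ i) u = u) ↔ (π ^ n) u = u := by
      constructor
      · rintro ⟨i, hi1, hi2, hi⟩
        rcases Nat.lt_or_ge i n with h | h
        · exact absurd hi (hmin i hi1 h).1
        · have : i = n := by omega
          rw [← this]; exact hi
      · intro h; exact ⟨n, hn1, le_rfl, h⟩
    have hvP : (∃ i, 1 ≤ i ∧ i ≤ n ∧ (π ^ i) u = v) ↔ (π ^ n) u = v := by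
      constructor
      · rintro ⟨i, hi1, hi2, hi⟩
        rcases Nat.lt_or_ge i n with h | h
        · exact absurd hi (hmin i hi1 h).2
        · have : i = n := by omega
          rw [← this]; exact hi
      · intro h; exact ⟨n, hn1, le_rfl, h⟩
    refine (show (∃ i, 1 ≤ i ∧ i ≤ n ∧ (π ^ i) u = u) ↔
      ¬ (∃ i, 1 ≤ i ∧ i ≤ n ∧ (π ^ i) u = v) from ?_)
    rw [huP, hvP]
    constructor
    · intro h h'
      exact huv (h.symm.trans h')
    · intro h
      exact hn2.resolve_right h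

/-- At fixed permutation the charges at two nodes are negatively correlated. -/
theorem inner_nonpos {θ : X → ℝ} (hθ : ∀ x, 0 ≤ θ x ∧ θ x ≤ 1) (π : Equiv.Perm X) {u v : X}
    (huv : u ≠ v) : ∑ s, wt θ π s * (jj π s u * jj π s v) ≤ 0 := by
  classical
  set R : (X → Fin 2) → ℝ := fun s =>
    ∏ x ∈ (univ.erase u).erase v, (if s x = s (π x) then 1 else θ x) with hR
  have hw : ∀ s, wt θ π s * (jj π s u * jj π s v) =
      (θ u * θ v / 4) * ((sgn2 (s (π u)) * sgn2 (s (π v))) * R s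
        - (sgn2 (s (π u)) * sgn2 (s v)) * R s - (sgn2 (s u) * sgn2 (s (π v))) * R s
        + (sgn2 (s u) * sgn2 (s v)) * R s) := by
    intro s
    have h1 : wt θ π s = (if s u = s (π u) then 1 else θ u) *
        ((if s v = s (π v) then 1 else θ v) * R s) := by
      rw [wt_eq_mul_erase θ π s u, hR]
      congr 1
      exact (Finset.mul_prod_erase (univ.erase u)
        (fun x => if s x = s (π x) then (1:ℝ) else θ x)
        (Finset.mem_erase.mpr ⟨huv.symm, Finset.mem_univ v⟩)).symm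
    have h2 : ∀ x, (if s x = s (π x) then 1 else θ x) * jj π s x = θ x * jj π s x := by
      intro x
      split_ifs with h
      · rw [jj_eq_zero h]; ring
      · rfl
    have h3 : wt θ π s * (jj π s u * jj π s v) =
        ((if s u = s (π u) then 1 else θ u) * jj π s u) *
        ((if s v = s (π v) then 1 else θ v) * jj π s v) * R s := by
      rw [h1]; ring
    rw [h3, h2, h2, jj_eq_sgn, jj_eq_sgn]
    ring
  obtain ⟨P, hP1, hP2, hP3, hP4⟩ := exists_arc π huv
  have hRflip : ∀ s, R (flipP P s) = R s := by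
    intro s
    refine Finset.prod_congr rfl fun x hx => ?_
    have hxv : x ≠ v := Finset.ne_of_mem_erase hx
    have hxu : x ≠ u := Finset.ne_of_mem_erase (Finset.mem_of_mem_erase hx)
    simp only [flipP_eq_iff P s (hP1 x hxu hxv)]
  have z1 : ∑ s, (sgn2 (s (π u)) * sgn2 (s (π v))) * R s = 0 := by
    refine sum_eq_zero_of_flip P _ fun s => ?_
    simp only [sgn2_flipP, hRflip, if_pos hP2, if_neg hP3]
    ring
  have z2 : ∑ s, (sgn2 (s u) * sgn2 (s v)) * R s = 0 := by
    refine sum_eq_zero_of_flip P _ fun s => ?_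
    simp only [sgn2_flipP, hRflip]
    by_cases hu : P u
    · rw [if_pos hu, if_neg (hP4.mp hu)]; ring
    · have hv : P v := by
        by_contra hv
        exact hu (hP4.mpr hv)
      rw [if_neg hu, if_pos hv]; ring
  have g1 := griffiths_two hθ π ((univ.erase u).erase v) (π u) v
  have g2 := griffiths_two hθ π ((univ.erase u).erase v) u (π v)
  rw [Finset.sum_congr rfl fun s _ => hw s, ← Finset.mul_sum, Finset.sum_add_distrib,
    Finset.sum_sub_distrib, Finset.sum_sub_distrib, z1, z2]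
  have h4 : 0 ≤ θ u * θ v / 4 := by
    have := mul_nonneg (hθ u).1 (hθ v).1
    positivity
  have h5 : (0 : ℝ) - ∑ s, (sgn2 (s (π u)) * sgn2 (s v)) * R s
      - ∑ s, (sgn2 (s u) * sgn2 (s (π v))) * R s + 0 ≤ 0 := by
    have e1 : 0 ≤ ∑ s, (sgn2 (s (π u)) * sgn2 (s v)) * R s := g1
    have e2 : 0 ≤ ∑ s, (sgn2 (s u) * sgn2 (s (π v))) * R s := g2
    linarith
  exact mul_nonpos_of_nonneg_of_nonpos h4 h5

/-- **The conductances are nonnegative.** -/
theorem cc_nonneg {μ : Equiv.Perm X → ℝ} (hμ : ∀ π, 0 ≤ μ π) {θ : X → ℝ}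
    (hθ : ∀ x, 0 ≤ θ x ∧ θ x ≤ 1) {u v : X} (huv : u ≠ v) : 0 ≤ cc μ θ u v := by
  unfold cc
  rw [EE_eq, ← neg_div]
  refine div_nonneg ?_ (SS_nonneg hμ (fun x => (hθ x).1) fun _ _ => zero_le_one)
  have : SS μ θ (fun π s => jj π s u * jj π s v) =
      ∑ π, μ π * ∑ s, wt θ π s * (jj π s u * jj π s v) := by
    unfold SS
    refine Finset.sum_congr rfl fun π _ => ?_
    rw [Finset.mul_sum]
    exact Finset.sum_congr rfl fun s _ => by ring
  rw [this, neg_nonneg]
  exact Finset.sum_nonpos fun π _ => mul_nonpos_of_nonneg_of_nonpos (hμ π) (inner_nonpos hθ π huv)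

/-- `A ≤ B`. -/
theorem SA_le_SB {μ : Equiv.Perm X → ℝ} (hμ : ∀ π, 0 ≤ μ π) {θ : X → ℝ}
    (hθ : ∀ x, 0 ≤ θ x ∧ θ x ≤ 1) (z : X) : SA μ θ z one' ≤ SB μ θ z one' := by
  rw [← sub_nonneg]
  have h : SB μ θ z one' - SA μ θ z one' =
      ∑ π, μ π * ∑ s : X → Fin 2, (sgn2 (s z) * sgn2 (s (π z))) *
        ∏ x ∈ univ.erase z, (if s x = s (π x) then 1 else θ x) := by
    unfold SB SA
    rw [← Finset.sum_sub_distrib]
    refine Finset.sum_congr rfl fun π _ => ?_
    rw [← Finset.sum_sub_distrib, Finset.mul_sum]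
    refine Finset.sum_congr rfl fun s _ => ?_
    by_cases hz : s z = s (π z)
    · rw [if_pos hz, if_pos hz, wt_eq_mul_erase θ π s z, if_pos hz, ← hz, sgn2_sq]
      simp only [one']
      ring
    · rw [if_neg hz, if_neg hz, wt_eq_mul_erase _ π s z, if_neg hz, Function.update_self]
      have h1 : sgn2 (s z) * sgn2 (s (π z)) = -1 := by
        revert hz
        generalize s z = a
        generalize s (π z) = b
        fin_cases a <;> fin_cases b <;> simp [sgn2]
      have h2 : ∏ x ∈ univ.erase z, (if s x = s (π x) then (1:ℝ) else Function.update θ z 1 x) =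
          ∏ x ∈ univ.erase z, (if s x = s (π x) then 1 else θ x) :=
        Finset.prod_congr rfl fun x hx => by
          rw [Function.update_of_ne (Finset.ne_of_mem_erase hx)]
      rw [h1, h2]
      simp only [one']
      ring
  rw [h]
  exact Finset.sum_nonneg fun π _ => mul_nonneg (hμ π) (griffiths_two hθ π _ _ _)

theorem mag_le_one {μ : Equiv.Perm X → ℝ} (h : IsLaw μ) {θ : X → ℝ}
    (hθ : ∀ x, 0 ≤ θ x ∧ θ x ≤ 1) (z : X) : mag μ θ z ≤ 1 := by
  rw [mag_eq]
  exact div_le_one_of_le₀ (SA_le_SB h.nonneg hθ z)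
    (le_trans zero_le_one (SB_pos h.nonneg h.sum (fun x => (hθ x).1) z))

theorem vv_le {μ : Equiv.Perm X → ℝ} (h : IsLaw μ) {θ : X → ℝ}
    (hθ : ∀ x, 0 ≤ θ x ∧ θ x ≤ 1) (z : X) : vv μ θ z ≤ θ z := by
  refine (vv_le_mul_mag h (fun x => (hθ x).1) z).trans ?_
  have := mul_le_mul_of_nonneg_left (mag_le_one h hθ z) (hθ z).1
  linarith

theorem le_vv {μ : Equiv.Perm X → ℝ} (h : IsLaw μ) {θ : X → ℝ}
    (hθ : ∀ x, 0 ≤ θ x ∧ θ x ≤ 1) (z : X) (hm : 1 / 2 ≤ mag μ θ z) : θ z / 4 ≤ vv μ θ z := by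
  rw [vv_eq_mag h (fun x => (hθ x).1)]
  have h1 := mag_le_one h hθ z
  have h0 := hθ z
  have h2 : 0 ≤ θ z * mag μ θ z := mul_nonneg h0.1 (by linarith)
  rw [le_div_iff₀ (by linarith)]
  have h3 : θ z * mag μ θ z ≤ 1 := by nlinarith
  have h4 : θ z * (1 / 2) ≤ θ z * mag μ θ z := mul_le_mul_of_nonneg_left hm h0.1
  nlinarith

end

end Vale.Agent.P361.LRO
end

section

/-!
P361, low-temperature order, block LOC (4), part (b): expansion of the law of a product of
independent random transpositions over the gates touching a window `B`.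
-/

namespace Vale.Agent.P361.LRO.Loc

open Finset

variable {X : Type} [DecidableEq X]

/-- Expectation under `law l σ`, recursive form. -/
noncomputable def EL (σ : Equiv.Perm X) : List (X × X × ℝ) → (Equiv.Perm X → ℝ) → ℝ
  | [], f => f σ
  | g :: l, f => (1 - g.2.2) * EL σ l f +
      g.2.2 * EL σ l (fun π => f (Equiv.swap g.1 g.2.1 * π))

theorem sum_law [Fintype X] (σ : Equiv.Perm X) (l : List (X × X × ℝ)) (f : Equiv.Perm X → ℝ) :
    ∑ π, law l σ π * f π = EL σ l f := by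
  induction l generalizing f with
  | nil => simp [law, EL, Pi.single_apply]
  | cons g l ih =>
    have h1 : ∑ π, law l σ (Equiv.swap g.1 g.2.1 * π) * f π =
        ∑ π, law l σ π * f (Equiv.swap g.1 g.2.1 * π) := by
      rw [← Equiv.sum_comp (Equiv.mulLeft (Equiv.swap g.1 g.2.1))]
      refine Finset.sum_congr rfl fun π _ => ?_
      simp [← mul_assoc]
    simp only [law, EL]
    rw [← ih, ← ih, ← h1]
    simp only [add_mul, Finset.sum_add_distrib, Finset.mul_sum, mul_assoc]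

/-- All gate probabilities are in `[0, 1]`. -/
def Pr (l : List (X × X × ℝ)) : Prop := ∀ g ∈ l, 0 ≤ g.2.2 ∧ g.2.2 ≤ 1

omit [DecidableEq X] in
theorem Pr.head {g : X × X × ℝ} {l : List (X × X × ℝ)} (h : Pr (g :: l)) :
    0 ≤ g.2.2 ∧ g.2.2 ≤ 1 := h g (by simp)

omit [DecidableEq X] in
theorem Pr.tail {g : X × X × ℝ} {l : List (X × X × ℝ)} (h : Pr (g :: l)) : Pr l :=
  fun g' hg' => h g' (by simp [hg'])

theorem EL_mono (σ : Equiv.Perm X) {l : List (X × X × ℝ)} (hl : Pr l) {f f' : Equiv.Perm X → ℝ}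
    (h : ∀ π, f π ≤ f' π) : EL σ l f ≤ EL σ l f' := by
  induction l generalizing f f' with
  | nil => exact h σ
  | cons g l ih =>
    have hp := hl.head
    simp only [EL]
    exact add_le_add (mul_le_mul_of_nonneg_left (ih hl.tail h) (by linarith [hp.2]))
      (mul_le_mul_of_nonneg_left (ih hl.tail fun π => h _) hp.1)

theorem EL_const_mul (σ : Equiv.Perm X) (l : List (X × X × ℝ)) (c : ℝ) (f : Equiv.Perm X → ℝ) :
    EL σ l (fun π => c * f π) = c * EL σ l f := by
  induction l generalizing f with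
  | nil => rfl
  | cons g l ih =>
    simp only [EL]
    rw [ih, ih (fun π => f (Equiv.swap g.1 g.2.1 * π))]
    ring

theorem EL_nonneg (σ : Equiv.Perm X) {l : List (X × X × ℝ)} (hl : Pr l) {f : Equiv.Perm X → ℝ}
    (h : ∀ π, 0 ≤ f π) : 0 ≤ EL σ l f := by
  induction l generalizing f with
  | nil => exact h σ
  | cons g l ih =>
    have hp := hl.head
    simp only [EL]
    exact add_nonneg (mul_nonneg (by linarith [hp.2]) (ih hl.tail h))
      (mul_nonneg hp.1 (ih hl.tail fun π => h _))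

/-- The gate touches the window. -/
def Bad (B : Finset X) (g : X × X × ℝ) : Prop := g.1 ∈ B ∨ g.2.1 ∈ B

instance (B : Finset X) : DecidablePred (Bad B) := fun g => by unfold Bad; infer_instance

/-- All gates touching the window are closed. -/
noncomputable def E0 (σ : Equiv.Perm X) (B : Finset X) :
    List (X × X × ℝ) → (Equiv.Perm X → ℝ) → ℝ
  | [], f => f σ
  | g :: l, f => (1 - g.2.2) * E0 σ B l f +
      if Bad B g then 0 else g.2.2 * E0 σ B l (fun π => f (Equiv.swap g.1 g.2.1 * π))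

/-- Exactly one gate touching the window is open, and it is good. -/
noncomputable def E1 (σ : Equiv.Perm X) (B : Finset X) (good : X × X × ℝ → Prop)
    [DecidablePred good] : List (X × X × ℝ) → (Equiv.Perm X → ℝ) → ℝ
  | [], _ => 0
  | g :: l, f => (1 - g.2.2) * E1 σ B good l f +
      if Bad B g then
        (if good g then g.2.2 * E0 σ B l (fun π => f (Equiv.swap g.1 g.2.1 * π)) else 0)
      else g.2.2 * E1 σ B good l (fun π => f (Equiv.swap g.1 g.2.1 * π))

/-- `π` follows `σ` in the window. -/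
def Agr (σ : Equiv.Perm X) (B : Finset X) (π : Equiv.Perm X) : Prop := ∀ z, σ z ∈ B → π z = σ z

theorem Agr.swap {σ : Equiv.Perm X} {B : Finset X} {π : Equiv.Perm X} (h : Agr σ B π)
    {g : X × X × ℝ} (hg : ¬ Bad B g) : Agr σ B (Equiv.swap g.1 g.2.1 * π) := by
  intro z hz
  unfold Bad at hg
  push Not at hg
  rw [Equiv.Perm.mul_apply, h z hz]
  apply Equiv.swap_apply_of_ne_of_ne
  · intro h1; exact hg.1 (h1 ▸ hz)
  · intro h1; exact hg.2 (h1 ▸ hz)

theorem E0_mono_on (σ : Equiv.Perm X) (B : Finset X) {l : List (X × X × ℝ)} (hl : Pr l)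
    {f f' : Equiv.Perm X → ℝ} (h : ∀ π, Agr σ B π → f π ≤ f' π) : E0 σ B l f ≤ E0 σ B l f' := by
  induction l generalizing f f' with
  | nil => exact h σ fun z _ => rfl
  | cons g l ih =>
    have hp := hl.head
    simp only [E0]
    refine add_le_add (mul_le_mul_of_nonneg_left (ih hl.tail h) (by linarith [hp.2])) ?_
    split_ifs with hb
    · exact le_rfl
    · exact mul_le_mul_of_nonneg_left (ih hl.tail fun π hπ => h _ (hπ.swap hb)) hp.1

theorem E0_const_mul (σ : Equiv.Perm X) (B : Finset X) (l : List (X × X × ℝ)) (c : ℝ)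
    (f : Equiv.Perm X → ℝ) : E0 σ B l (fun π => c * f π) = c * E0 σ B l f := by
  induction l generalizing f with
  | nil => rfl
  | cons g l ih =>
    simp only [E0]
    rw [ih, ih (fun π => f (Equiv.swap g.1 g.2.1 * π))]
    split_ifs <;> ring

theorem E0_nonneg (σ : Equiv.Perm X) (B : Finset X) {l : List (X × X × ℝ)} (hl : Pr l)
    {f : Equiv.Perm X → ℝ} (h : ∀ π, 0 ≤ f π) : 0 ≤ E0 σ B l f := by
  have h1 := E0_mono_on σ B hl (f := fun _ => 0 * 0) (f' := f) (fun π _ => by simpa using h π)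
  rw [E0_const_mul σ B l 0 (fun _ => 0)] at h1
  simpa using h1

theorem E0_le_EL (σ : Equiv.Perm X) (B : Finset X) {l : List (X × X × ℝ)} (hl : Pr l)
    {f : Equiv.Perm X → ℝ} (h : ∀ π, 0 ≤ f π) : E0 σ B l f ≤ EL σ l f := by
  induction l generalizing f with
  | nil => exact le_rfl
  | cons g l ih =>
    have hp := hl.head
    simp only [E0, EL]
    refine add_le_add (mul_le_mul_of_nonneg_left (ih hl.tail h) (by linarith [hp.2])) ?_
    split_ifs with hb
    · exact mul_nonneg hp.1 (EL_nonneg σ hl.tail fun π => h _)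
    · exact mul_le_mul_of_nonneg_left (ih hl.tail fun π => h _) hp.1

theorem E1_le_EL (σ : Equiv.Perm X) (B : Finset X) (good : X × X × ℝ → Prop)
    [DecidablePred good] {l : List (X × X × ℝ)} (hl : Pr l)
    {f : Equiv.Perm X → ℝ} (h : ∀ π, 0 ≤ f π) : E1 σ B good l f ≤ EL σ l f := by
  induction l generalizing f with
  | nil => exact h σ
  | cons g l ih =>
    have hp := hl.head
    simp only [E1, EL]
    refine add_le_add (mul_le_mul_of_nonneg_left (ih hl.tail h) (by linarith [hp.2])) ?_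
    split_ifs with hb hg
    · exact mul_le_mul_of_nonneg_left (E0_le_EL σ B hl.tail fun π => h _) hp.1
    · exact mul_nonneg hp.1 (EL_nonneg σ hl.tail fun π => h _)
    · exact mul_le_mul_of_nonneg_left (ih hl.tail fun π => h _) hp.1

/-- Doubling class: one transposition changes `F` by at most a factor `2`. -/
def Dbl (F : Equiv.Perm X → ℝ) : Prop :=
  (∀ π, 0 ≤ F π) ∧ ∀ a b π, F (Equiv.swap a b * π) ≤ 2 * F π

theorem Dbl.swap {F : Equiv.Perm X → ℝ} (h : Dbl F) (c d : X) :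
    Dbl (fun π => F (Equiv.swap c d * π)) := by
  refine ⟨fun π => h.1 _, fun a b π => ?_⟩
  have h1 : Equiv.swap c d * (Equiv.swap a b * π) =
      Equiv.swap (Equiv.swap c d a) (Equiv.swap c d b) * (Equiv.swap c d * π) := by
    rw [Equiv.swap_apply_apply, ← mul_assoc, ← mul_assoc]
    simp [mul_assoc]
  show F (Equiv.swap c d * (Equiv.swap a b * π)) ≤ 2 * F (Equiv.swap c d * π)
  rw [h1]
  exact h.2 _ _ _

/-- `∏ (1 - p) / (1 + p)` over the gates touching the window. -/
noncomputable def DD (B : Finset X) (l : List (X × X × ℝ)) : ℝ :=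
  (l.map fun g => if Bad B g then (1 - g.2.2) / (1 + g.2.2) else 1).prod

theorem DD_cons (B : Finset X) (g : X × X × ℝ) (l : List (X × X × ℝ)) :
    DD B (g :: l) = (if Bad B g then (1 - g.2.2) / (1 + g.2.2) else 1) * DD B l := by
  simp [DD]

theorem DD_nonneg (B : Finset X) {l : List (X × X × ℝ)} (hl : Pr l) : 0 ≤ DD B l := by
  induction l with
  | nil => simp [DD]
  | cons g l ih =>
    have hp := hl.head
    rw [DD_cons]
    refine mul_nonneg ?_ (ih hl.tail)
    split_ifs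
    · exact div_nonneg (by linarith [hp.2]) (by linarith [hp.1])
    · exact zero_le_one

theorem DD_mul_EL_le (σ : Equiv.Perm X) (B : Finset X) {l : List (X × X × ℝ)} (hl : Pr l)
    {F : Equiv.Perm X → ℝ} (hF : Dbl F) : DD B l * EL σ l F ≤ E0 σ B l F := by
  induction l generalizing F with
  | nil => simp [DD, EL, E0]
  | cons g l ih =>
    have hp := hl.head
    have hD := DD_nonneg B hl.tail
    have h1 := ih hl.tail hF
    rw [DD_cons]
    simp only [EL, E0]
    split_ifs with hb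
    · have h2 : EL σ l (fun π => F (Equiv.swap g.1 g.2.1 * π)) ≤ 2 * EL σ l F := by
        rw [← EL_const_mul]
        exact EL_mono σ hl.tail fun π => hF.2 _ _ _
      have h3 : (1 - g.2.2) * EL σ l F +
          g.2.2 * EL σ l (fun π => F (Equiv.swap g.1 g.2.1 * π)) ≤ (1 + g.2.2) * EL σ l F := by
        nlinarith [mul_le_mul_of_nonneg_left h2 hp.1]
      have h4 : (0 : ℝ) < 1 + g.2.2 := by linarith [hp.1]
      calc (1 - g.2.2) / (1 + g.2.2) * DD B l * ((1 - g.2.2) * EL σ l F +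
            g.2.2 * EL σ l (fun π => F (Equiv.swap g.1 g.2.1 * π)))
          ≤ (1 - g.2.2) / (1 + g.2.2) * DD B l * ((1 + g.2.2) * EL σ l F) :=
            mul_le_mul_of_nonneg_left h3
              (mul_nonneg (div_nonneg (by linarith [hp.2]) h4.le) hD)
        _ = (1 - g.2.2) * (DD B l * EL σ l F) := by field_simp
        _ ≤ (1 - g.2.2) * E0 σ B l F := mul_le_mul_of_nonneg_left h1 (by linarith [hp.2])
        _ = (1 - g.2.2) * E0 σ B l F + 0 := by ring
    · have h2 := ih hl.tail (hF.swap g.1 g.2.1)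
      have h5 := mul_le_mul_of_nonneg_left h1 (by linarith [hp.2] : 0 ≤ 1 - g.2.2)
      have h6 := mul_le_mul_of_nonneg_left h2 hp.1
      linarith [h5, h6, mul_add (DD B l) ((1 - g.2.2) * EL σ l F)
        (g.2.2 * EL σ l (fun π => F (Equiv.swap g.1 g.2.1 * π)))]

/-- **(b1)** -/
theorem EL_ge_of_agr (σ : Equiv.Perm X) (B : Finset X) {l : List (X × X × ℝ)} (hl : Pr l)
    {f F : Equiv.Perm X → ℝ} (hf : ∀ π, 0 ≤ f π) (hF : Dbl F) {c : ℝ} (hc : 0 ≤ c)
    (h : ∀ π, Agr σ B π → c * F π ≤ f π) : c * DD B l * EL σ l F ≤ EL σ l f := by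
  calc c * DD B l * EL σ l F = c * (DD B l * EL σ l F) := by ring
    _ ≤ c * E0 σ B l F := mul_le_mul_of_nonneg_left (DD_mul_EL_le σ B hl hF) hc
    _ = E0 σ B l (fun π => c * F π) := (E0_const_mul σ B l c F).symm
    _ ≤ E0 σ B l f := E0_mono_on σ B hl h
    _ ≤ EL σ l f := E0_le_EL σ B hl hf

/-- Sum of the probabilities of the good gates. -/
noncomputable def GG (B : Finset X) (good : X × X × ℝ → Prop) [DecidablePred good]
    (l : List (X × X × ℝ)) : ℝ :=
  (l.map fun g => if Bad B g ∧ good g then g.2.2 else 0).sum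

theorem GG_cons (B : Finset X) (good : X × X × ℝ → Prop) [DecidablePred good]
    (g : X × X × ℝ) (l : List (X × X × ℝ)) :
    GG B good (g :: l) = (if Bad B g ∧ good g then g.2.2 else 0) + GG B good l := by
  simp [GG]

theorem GG_nonneg (B : Finset X) (good : X × X × ℝ → Prop) [DecidablePred good]
    {l : List (X × X × ℝ)} (hl : Pr l) : 0 ≤ GG B good l := by
  induction l with
  | nil => simp [GG]
  | cons g l ih =>
    have hp := hl.head
    rw [GG_cons]
    refine add_nonneg ?_ (ih hl.tail)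
    split_ifs
    · exact hp.1
    · exact le_rfl

theorem swap_comm_of {B : Finset X} {g h : X × X × ℝ} (hg : g.1 ∈ B ∧ g.2.1 ∈ B)
    (hh : ¬ Bad B h) (π : Equiv.Perm X) :
    Equiv.swap h.1 h.2.1 * (Equiv.swap g.1 g.2.1 * π) =
      Equiv.swap g.1 g.2.1 * (Equiv.swap h.1 h.2.1 * π) := by
  unfold Bad at hh
  push Not at hh
  have h1 : g.1 ≠ h.1 := by rintro h1; exact hh.1 (h1 ▸ hg.1)
  have h2 : g.1 ≠ h.2.1 := by rintro h1; exact hh.2 (h1 ▸ hg.1)
  have h3 : g.2.1 ≠ h.1 := by rintro h1; exact hh.1 (h1 ▸ hg.2)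
  have h4 : g.2.1 ≠ h.2.1 := by rintro h1; exact hh.2 (h1 ▸ hg.2)
  have h5 : Equiv.swap h.1 h.2.1 * Equiv.swap g.1 g.2.1 =
      Equiv.swap (Equiv.swap h.1 h.2.1 g.1) (Equiv.swap h.1 h.2.1 g.2.1) *
        Equiv.swap h.1 h.2.1 := by
    rw [Equiv.swap_apply_apply]
    simp [mul_assoc]
  rw [← mul_assoc, ← mul_assoc, h5, Equiv.swap_apply_of_ne_of_ne h1 h2,
    Equiv.swap_apply_of_ne_of_ne h3 h4]

theorem E1_ge (σ : Equiv.Perm X) (B : Finset X) (good : X × X × ℝ → Prop)
    [DecidablePred good] (hgood : ∀ g, good g → g.1 ∈ B ∧ g.2.1 ∈ B)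
    {l : List (X × X × ℝ)} (hl : Pr l)
    {f F : Equiv.Perm X → ℝ} (hF : ∀ π, 0 ≤ F π) {c : ℝ} (hc : 0 ≤ c)
    (h : ∀ g ∈ l, good g → ∀ π, Agr σ B π → c * F π ≤ f (Equiv.swap g.1 g.2.1 * π)) :
    c * GG B good l * E0 σ B l F ≤ E1 σ B good l f := by
  induction l generalizing f F with
  | nil => simp [GG, E1]
  | cons g l ih =>
    have hp := hl.head
    have hG := GG_nonneg B good hl.tail
    have h0 := E0_nonneg σ B hl.tail hF
    have h1 := ih hl.tail hF fun g' hg' => h g' (by simp [hg'])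
    have hp1 : 0 ≤ 1 - g.2.2 := by linarith [hp.2]
    rw [GG_cons]
    simp only [E1, E0]
    by_cases hb : Bad B g
    · by_cases hgd : good g
      · simp only [hb, hgd, and_self, if_true, add_zero]
        have h2 : c * E0 σ B l F ≤ E0 σ B l (fun π => f (Equiv.swap g.1 g.2.1 * π)) := by
          rw [← E0_const_mul]
          exact E0_mono_on σ B hl.tail (h g (by simp) hgd)
        have h3 := mul_le_mul_of_nonneg_left h1 hp1
        have h4 := mul_le_mul_of_nonneg_left h2 hp.1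
        have h5 : 0 ≤ c * E0 σ B l F := mul_nonneg hc h0
        nlinarith [mul_nonneg (mul_nonneg hp.1 hp.1) h5]
      · simp only [hb, hgd, and_false, if_true, if_false, add_zero, zero_add]
        have h3 := mul_le_mul_of_nonneg_left h1 hp1
        linarith
    · simp only [hb, false_and, if_false, zero_add]
      have h2 := ih (f := fun π => f (Equiv.swap g.1 g.2.1 * π))
        (F := fun π => F (Equiv.swap g.1 g.2.1 * π)) hl.tail (fun π => hF _)
        (fun g' hg' hgd π hπ => by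
          rw [swap_comm_of (hgood g' hgd) hb]
          exact h g' (by simp [hg']) hgd _ (hπ.swap hb))
      have h3 := mul_le_mul_of_nonneg_left h1 hp1
      have h4 := mul_le_mul_of_nonneg_left h2 hp.1
      linarith [mul_add (c * GG B good l) ((1 - g.2.2) * E0 σ B l F)
        (g.2.2 * E0 σ B l (fun π => F (Equiv.swap g.1 g.2.1 * π)))]

/-- **(b2)** -/
theorem EL_ge_of_swap (σ : Equiv.Perm X) (B : Finset X) (good : X × X × ℝ → Prop)
    [DecidablePred good] (hgood : ∀ g, good g → g.1 ∈ B ∧ g.2.1 ∈ B)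
    {l : List (X × X × ℝ)} (hl : Pr l)
    {f F : Equiv.Perm X → ℝ} (hf : ∀ π, 0 ≤ f π) (hF : Dbl F) {c : ℝ} (hc : 0 ≤ c)
    (h : ∀ g ∈ l, good g → ∀ π, Agr σ B π → c * F π ≤ f (Equiv.swap g.1 g.2.1 * π)) :
    c * GG B good l * DD B l * EL σ l F ≤ EL σ l f := by
  calc c * GG B good l * DD B l * EL σ l F = c * GG B good l * (DD B l * EL σ l F) := by ring
    _ ≤ c * GG B good l * E0 σ B l F :=
        mul_le_mul_of_nonneg_left (DD_mul_EL_le σ B hl hF) (mul_nonneg hc (GG_nonneg B good hl))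
    _ ≤ E1 σ B good l f := E1_ge σ B good hgood hl hF.1 hc h
    _ ≤ EL σ l f := E1_le_EL σ B good hl hf

end Vale.Agent.P361.LRO.Loc
end

section

/-!
P361 LRO, block (4) LOC: interfaces.  Everything on helper118's `LRO/Defs.lean`.

For a permutation `π` of the nodes:
* `Zp π θ = ∑_{t, t ∘ π = t} ∏ (1 + θ_x t_x)` (spins constant on the cycles);
* `Zf π θ u v`: the spin is flipped exactly at `u` and `v`, the factors of `u, v` are dropped.
-/

namespace Vale.Agent.P361.LRO.Loc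

open Finset Vale.Agent.P361.LRO

noncomputable section

variable {X : Type} [Fintype X] [DecidableEq X]

/-- Sign of a spin. -/
def sg (a : Fin 2) : ℝ := if a = 0 then 1 else -1

/-- Dual partition function of a permutation. -/
def Zp (π : Equiv.Perm X) (θ : X → ℝ) : ℝ :=
  ∑ t : X → Fin 2, if (∀ x, t (π x) = t x) then ∏ x, (1 + θ x * sg (t x)) else 0

/-- The same with flips exactly at the nodes `u, v`, whose factors are dropped. -/
def Zf (π : Equiv.Perm X) (θ : X → ℝ) (u v : X) : ℝ :=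
  ∑ t : X → Fin 2, if (∀ x, (t (π x) = t x ↔ (x ≠ u ∧ x ≠ v))) then
    ∏ x, (if x = u ∨ x = v then 1 else 1 + θ x * sg (t x)) else 0

/-- Expectation of a function of the permutation (linear in the gate list). -/
def ev (l : List (X × X × ℝ)) (σ : Equiv.Perm X) (F : Equiv.Perm X → ℝ) : ℝ :=
  ∑ π, law l σ π * F π

/-- All gates of the list are honest. -/
def OKg (l : List (X × X × ℝ)) : Prop := ∀ g ∈ l, 0 ≤ g.2.2 ∧ g.2.2 ≤ 1 / 2

/-- A (helper1): Fourier transform on the cycles. -/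
def FourierStmt : Prop :=
  ∀ (X : Type) [Fintype X] [DecidableEq X] (π : Equiv.Perm X) (θ : X → ℝ),
    (∑ s, wt θ π s = Zp π θ) ∧
    (∀ u v, u ≠ v → -(∑ s, wt θ π s * (jj π s u * jj π s v)) = θ u * θ v * Zf π θ u v) ∧
    (∀ u, ∑ s, (if s u = s (π u) then 0 else wt θ π s) =
      θ u * ∑ t : X → Fin 2, if (∀ x, t (π x) = t x) then
        ∏ x, (if x = u then sg (t x) else 1 + θ x * sg (t x)) else 0)

/-- B (helper759): Griffiths on the cycles; one more transposition changes `Zp` by at most `2`. -/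
def RingStmt : Prop :=
  ∀ (X : Type) [Fintype X] [DecidableEq X] (π : Equiv.Perm X) (θ : X → ℝ),
    (∀ x, 0 ≤ θ x ∧ θ x ≤ 1) →
    0 < Zp π θ ∧ ∀ a b, Zp (Equiv.swap a b * π) θ ≤ 2 * Zp π θ

/-- D (helper759): the arc bound.  `w` lists the nodes strictly between `u` and `v`. -/
def ArcStmt : Prop :=
  ∀ (X : Type) [Fintype X] [DecidableEq X] (π : Equiv.Perm X) (θ : X → ℝ),
    (∀ x, 0 ≤ θ x ∧ θ x ≤ 1) → ∀ (u v : X), u ≠ v →
    0 ≤ Zf π θ u v ∧
    ∀ (m : ℕ), (π ^ (m + 1)) u = v → (∀ i, 1 ≤ i → i ≤ m → (π ^ i) u ≠ u ∧ (π ^ i) u ≠ v) →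
      (∀ i, i ≤ m + 1 → ∀ j, j ≤ m + 1 → (π ^ i) u = (π ^ j) u → i = j) →
      (∏ i ∈ Finset.range m, (1 - θ ((π ^ (i + 1)) u)) / (1 + θ ((π ^ (i + 1)) u))) /
        ((1 + θ u) * (1 + θ v)) * Zp π θ ≤ Zf π θ u v

/-- Replace the probability of the gates for which `S` holds by `0`. -/
def closeG (S : X × X × ℝ → Prop) [DecidablePred S] (l : List (X × X × ℝ)) :
    List (X × X × ℝ) :=
  l.map fun g => if S g then (g.1, g.2.1, 0) else g

/-- C (helper428): closing gates.  `G ≥ 0` any function; for `Zp` the reverse bound. -/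
def CloseStmt : Prop :=
  ∀ (X : Type) [Fintype X] [DecidableEq X] (l : List (X × X × ℝ)) (σ : Equiv.Perm X)
    (S : X × X × ℝ → Prop) [DecidablePred S], OKg l →
    (∀ F : Equiv.Perm X → ℝ, (∀ π, 0 ≤ F π) →
      (l.map fun g => if S g then 1 - g.2.2 else 1).prod * ev (closeG S l) σ F ≤ ev l σ F) ∧
    (∀ θ : X → ℝ, (∀ x, 0 ≤ θ x ∧ θ x ≤ 1) →
      ev l σ (fun π => Zp π θ) ≤
        (l.map fun g => if S g then 1 + g.2.2 else 1).prod *
          ev (closeG S l) σ fun π => Zp π θ)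

/-- Gates with `S` closed, except that the `j`-th gate is open (probability `1`). -/
def pat (S : X × X × ℝ → Prop) [DecidablePred S] (l : List (X × X × ℝ)) (j : ℕ) :
    List (X × X × ℝ) :=
  (closeG S l).modify j fun g => (g.1, g.2.1, 1)

/-- C' (helper428): exactly one open gate (with `H`, where `H` implies `S`). -/
def OneOpenStmt : Prop :=
  ∀ (X : Type) [Fintype X] [DecidableEq X] (l : List (X × X × ℝ)) (σ : Equiv.Perm X)
    (S H : X × X × ℝ → Prop) [DecidablePred S] [DecidablePred H], OKg l →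
    (∀ g, H g → S g) →
    (∀ F : Equiv.Perm X → ℝ, (∀ π, 0 ≤ F π) →
      (l.map fun g => if S g then 1 - g.2.2 else 1).prod *
        (∑ j ∈ Finset.range l.length, if ∃ g, l[j]? = some g ∧ H g then
          ((l[j]?).map fun g => g.2.2).getD 0 * ev (pat S l j) σ F else 0) ≤ ev l σ F) ∧
    (∀ j, ∀ θ : X → ℝ, (∀ x, 0 ≤ θ x ∧ θ x ≤ 1) →
      ev (closeG S l) σ (fun π => Zp π θ) ≤ 2 * ev (pat S l j) σ fun π => Zp π θ)

/-- Final form for the physical circuit: same site. `k < k'` layers. -/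
def LocSame (V : Type) [Fintype V] [DecidableEq V] (L : List (V × V)) (d : ℕ) : Prop :=
  ∀ (β : ℝ) (N : ℕ), 0 < β → β ≤ N → (∀ x : V, (L.countP fun e => e.1 = x ∨ e.2 = x) ≤ d) →
    ∀ θ : Fin (N + 1) × V → ℝ, (∀ z, 0 ≤ θ z ∧ θ z ≤ 1) →
    ∀ (x : V) (k k' : Fin (N + 1)) (τ : ℝ), 0 ≤ τ → τ < 1 → k < k' →
      (∀ i, k < i → i < k' → θ (i, x) ≤ τ) →
      θ (k', x) * θ (k, x) * ((1 / 4) *
        (((1 - β / (2 * N)) / (1 + β / (2 * N))) ^ (d * ((k' : ℕ) - k)) *
          ((1 - τ) / (1 + τ)) ^ ((k' : ℕ) - k))) ≤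
        cc (phys L β N) θ (k', x) (k, x)

/-- Final form: neighbours `x ≠ y`, `(x, y) ∈ L`. -/
def LocNN (V : Type) [Fintype V] [DecidableEq V] (L : List (V × V)) (d : ℕ) : Prop :=
  ∀ (β : ℝ) (N : ℕ), 0 < β → β ≤ N → (∀ x : V, (L.countP fun e => e.1 = x ∨ e.2 = x) ≤ d) →
    ∀ θ : Fin (N + 1) × V → ℝ, (∀ z, 0 ≤ θ z ∧ θ z ≤ 1) →
    ∀ (x y : V) (k k' : Fin (N + 1)) (τ : ℝ), x ≠ y → ((x, y) ∈ L ∨ (y, x) ∈ L) →
      0 ≤ τ → τ < 1 → k < k' →
      (∀ i, k < i → i < k' → θ (i, x) ≤ τ ∧ θ (i, y) ≤ τ) →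
      θ (k', x) * θ (k, y) * ((1 / 8) * (β / (2 * N) * ((k' : ℕ) - k : ℕ)) *
        (((1 - β / (2 * N)) / (1 + β / (2 * N))) ^ (2 * d * ((k' : ℕ) - k)) *
          ((1 - τ) / (1 + τ)) ^ ((k' : ℕ) - k))) ≤
        cc (phys L β N) θ (k', x) (k, y)

/-- Positivity of the conductances and the network form of `K`. -/
def NetStmt : Prop :=
  ∀ (X : Type) [Fintype X] [DecidableEq X] (μ : Equiv.Perm X → ℝ), IsLaw μ →
    ∀ θ : X → ℝ, (∀ x, 0 ≤ θ x ∧ θ x ≤ 1) →
    0 < ZZ μ θ ∧ (∀ u v, u ≠ v → 0 ≤ cc μ θ u v) ∧ (∀ u v, cc μ θ u v = cc μ θ v u) ∧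
    (∀ u, ∑ v ∈ univ.erase u, cc μ θ u v = vv μ θ u) ∧
    (∀ a : X → ℝ, KK μ θ a = (1 / 2) * ∑ u, ∑ v ∈ univ.erase u, cc μ θ u v * (a u - a v) ^ 2) ∧
    (∀ u, vv μ θ u ≤ θ u)

end

end Vale.Agent.P361.LRO.Loc
end

section

/-!
P361, low-temperature order, block LOC (4), part A: Fourier transform on the cycles.
-/

namespace Vale.Agent.P361.LRO.Loc

open Finset Vale.Agent.P361.LRO

noncomputable section

variable {X : Type} [Fintype X] [DecidableEq X]

/-- Characters of `Fin 2`. -/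
def ch (t a : Fin 2) : ℝ := if t = 1 ∧ a = 1 then -1 else 1

theorem sum_ch (t t' : Fin 2) : ∑ a : Fin 2, ch t a * ch t' a = if t = t' then 2 else 0 := by
  fin_cases t <;> fin_cases t' <;> simp [ch, Fin.sum_univ_two] <;> norm_num

theorem fourier_gen (π : Equiv.Perm X) (c : X → Fin 2 → ℝ) (e : X → Fin 2 → Fin 2) :
    ∑ s : X → Fin 2, ∏ x, (1 / 2 * ∑ t, c x t * (ch t (s x) * ch (e x t) (s (π x)))) =
      ∑ t : X → Fin 2, if (∀ x, t (π x) = e x (t x)) then ∏ x, c x (t x) else 0 := by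
  have h1 : ∀ s : X → Fin 2,
      ∏ x, (1 / 2 * ∑ t, c x t * (ch t (s x) * ch (e x t) (s (π x)))) =
        ∑ t : X → Fin 2, (∏ x, c x (t x)) * ∏ x, (1 / 2 * (ch (t x) (s x) *
          ch (e (π.symm x) (t (π.symm x))) (s x))) := by
    intro s
    simp_rw [Finset.mul_sum]
    rw [Finset.prod_univ_sum, Fintype.piFinset_univ]
    refine Finset.sum_congr rfl fun t _ => ?_
    have h2 : ∏ x, ch (e (π.symm x) (t (π.symm x))) (s x) = ∏ x, ch (e x (t x)) (s (π x)) := by
      rw [← Equiv.prod_comp π]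
      simp
    simp only [Finset.prod_mul_distrib]
    rw [h2]
    ring
  rw [Finset.sum_congr rfl fun s _ => h1 s, Finset.sum_comm]
  refine Finset.sum_congr rfl fun t _ => ?_
  rw [← Finset.mul_sum]
  have h3 : ∑ s : X → Fin 2, ∏ x, (1 / 2 * (ch (t x) (s x) *
      ch (e (π.symm x) (t (π.symm x))) (s x))) =
      ∏ x, (1 / 2 * ∑ a : Fin 2, (ch (t x) a * ch (e (π.symm x) (t (π.symm x))) a)) := by
    simp_rw [Finset.mul_sum]
    rw [Finset.prod_univ_sum, Fintype.piFinset_univ]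
  rw [h3]
  simp_rw [sum_ch]
  by_cases h : ∀ x, t (π x) = e x (t x)
  · rw [if_pos h]
    have h4 : ∀ x, t x = e (π.symm x) (t (π.symm x)) := fun x => by
      rw [← h]; simp
    rw [Finset.prod_eq_one (s := Finset.univ)
      (f := fun x => 1 / 2 * if t x = e (π.symm x) (t (π.symm x)) then (2 : ℝ) else 0)]
    · ring
    · intro x _
      rw [if_pos (h4 x)]
      norm_num
  · rw [if_neg h]
    push Not at h
    obtain ⟨x, hx⟩ := h
    have hz : ∏ x, (1 / 2 * if t x = e (π.symm x) (t (π.symm x)) then (2 : ℝ) else 0) = 0 := by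
      refine Finset.prod_eq_zero (Finset.mem_univ (π x)) ?_
      have : ¬ (t (π x) = e (π.symm (π x)) (t (π.symm (π x)))) := by simpa using hx
      rw [if_neg this]
      ring
    rw [hz, mul_zero]

theorem fourierStmt : FourierStmt := by
  intro X _ _ π θ
  refine ⟨?_, ?_, ?_⟩
  · have h := fourier_gen π (fun x t => 1 + θ x * sg t) (fun _ t => t)
    unfold Zp
    rw [← h]
    refine Finset.sum_congr rfl fun s _ => ?_
    unfold wt
    refine Finset.prod_congr rfl fun x _ => ?_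
    generalize s x = a
    generalize s (π x) = b
    fin_cases a <;> fin_cases b <;> simp [ch, sg, Fin.sum_univ_two] <;> ring
  · intro u v huv
    have h := fourier_gen π
      (fun x t => if x = u ∨ x = v then θ x * sg t else 1 + θ x * sg t)
      (fun x t => if x = u ∨ x = v then 1 - t else t)
    have h1 : ∀ s : X → Fin 2, wt θ π s * (jj π s u * jj π s v) =
        ∏ x, (1 / 2 * ∑ t, (if x = u ∨ x = v then θ x * sg t else 1 + θ x * sg t) *
          (ch t (s x) * ch (if x = u ∨ x = v then 1 - t else t) (s (π x)))) := by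
      intro s
      have h2 : jj π s u * jj π s v =
          ∏ x, if x = u ∨ x = v then jj π s x else 1 := by
        rw [Finset.prod_ite, Finset.prod_const_one, mul_one]
        have : Finset.univ.filter (fun x => x = u ∨ x = v) = {u, v} := by
          ext x; simp
        rw [this, Finset.prod_pair huv]
      rw [h2]
      unfold wt
      rw [← Finset.prod_mul_distrib]
      refine Finset.prod_congr rfl fun x _ => ?_
      unfold jj
      generalize s x = a
      generalize s (π x) = b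
      by_cases hx : x = u ∨ x = v
      · simp only [hx, if_true]
        fin_cases a <;> fin_cases b <;> simp [ch, sg, Fin.sum_univ_two] <;> ring
      · simp only [hx, if_false]
        fin_cases a <;> fin_cases b <;> simp [ch, sg, Fin.sum_univ_two] <;> ring
    rw [Finset.sum_congr rfl fun s _ => h1 s, h]
    unfold Zf
    rw [Finset.mul_sum, ← Finset.sum_neg_distrib]
    refine Finset.sum_congr rfl fun t _ => ?_
    have hc : (∀ x, t (π x) = if x = u ∨ x = v then 1 - t x else t x) ↔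
        (∀ x, (t (π x) = t x ↔ (x ≠ u ∧ x ≠ v))) := by
      refine forall_congr' fun x => ?_
      by_cases hx : x = u ∨ x = v
      · have hx' : ¬ (x ≠ u ∧ x ≠ v) := by tauto
        simp only [hx, if_true, hx', iff_false]
        generalize t x = a
        generalize t (π x) = b
        fin_cases a <;> fin_cases b <;> simp
      · have hx' : (x ≠ u ∧ x ≠ v) := by tauto
        simp [hx']
    by_cases hq : ∀ x, (t (π x) = t x ↔ (x ≠ u ∧ x ≠ v))
    · rw [if_pos (hc.2 hq), if_pos hq]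
      -- the spins at `u` and `v` are opposite
      have hne : t u ≠ t v := by
        intro huv'
        have hA : ∀ x, t x ≠ t u → t (π x) ≠ t u := by
          intro x hx
          have : x ≠ u ∧ x ≠ v := ⟨by rintro rfl; exact hx rfl, by rintro rfl; exact hx huv'.symm⟩
          rw [(hq x).2 this]
          exact hx
        have hmap : (Finset.univ.filter fun x => t x ≠ t u).map π.toEmbedding =
            Finset.univ.filter fun x => t x ≠ t u := by
          apply Finset.eq_of_subset_of_card_le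
          · intro y hy
            simp only [Finset.mem_map, Finset.mem_filter, Finset.mem_univ, true_and] at hy ⊢
            obtain ⟨x, hx, rfl⟩ := hy
            exact hA x hx
          · simp
        have h5 : t (π u) ≠ t u := by
          intro h6
          exact ((hq u).1 h6).1 rfl
        have h6 : π u ∈ Finset.univ.filter fun x => t x ≠ t u := by simpa using h5
        rw [← hmap] at h6
        simp at h6
      have hs : sg (t u) * sg (t v) = -1 := by
        revert hne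
        generalize t u = a
        generalize t v = b
        fin_cases a <;> fin_cases b <;> simp [sg]
      have h7 : ∀ x, (if x = u ∨ x = v then θ x * sg (t x) else 1 + θ x * sg (t x)) =
          (if x = u ∨ x = v then θ x * sg (t x) else 1) *
            (if x = u ∨ x = v then 1 else 1 + θ x * sg (t x)) := by
        intro x
        split_ifs <;> ring
      rw [Finset.prod_congr rfl fun x _ => h7 x, Finset.prod_mul_distrib]
      have h8 : ∏ x, (if x = u ∨ x = v then θ x * sg (t x) else 1) =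
          (θ u * sg (t u)) * (θ v * sg (t v)) := by
        rw [Finset.prod_ite, Finset.prod_const_one, mul_one]
        have : Finset.univ.filter (fun x => x = u ∨ x = v) = {u, v} := by
          ext x; simp
        rw [this, Finset.prod_pair huv]
      rw [h8]
      have h9 : θ u * sg (t u) * (θ v * sg (t v)) = θ u * θ v * (sg (t u) * sg (t v)) := by ring
      rw [h9, hs]
      ring
    · rw [if_neg (fun h10 => hq (hc.1 h10)), if_neg hq]
      ring
  · intro u
    have h := fourier_gen π (fun x t => if x = u then θ x * sg t else 1 + θ x * sg t)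
      (fun _ t => t)
    have h1 : ∀ s : X → Fin 2, (if s u = s (π u) then 0 else wt θ π s) =
        ∏ x, (1 / 2 * ∑ t, (if x = u then θ x * sg t else 1 + θ x * sg t) *
          (ch t (s x) * ch t (s (π x)))) := by
      intro s
      have h2 : (if s u = s (π u) then 0 else wt θ π s) =
          ∏ x, if x = u then (if s x = s (π x) then 0 else θ x) else
            (if s x = s (π x) then 1 else θ x) := by
        split_ifs with h0
        · rw [Finset.prod_eq_zero (Finset.mem_univ u)]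
          simp [h0]
        · unfold wt
          refine Finset.prod_congr rfl fun x _ => ?_
          by_cases hx : x = u
          · subst hx
            simp [h0]
          · simp [hx]
      rw [h2]
      refine Finset.prod_congr rfl fun x _ => ?_
      generalize s x = a
      generalize s (π x) = b
      by_cases hx : x = u
      · simp only [hx, if_true]
        fin_cases a <;> fin_cases b <;> simp [ch, sg, Fin.sum_univ_two] <;> ring
      · simp only [hx, if_false]
        fin_cases a <;> fin_cases b <;> simp [ch, sg, Fin.sum_univ_two] <;> ring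
    rw [Finset.sum_congr rfl fun s _ => h1 s, h, Finset.mul_sum]
    refine Finset.sum_congr rfl fun t _ => ?_
    by_cases hq : ∀ x, t (π x) = t x
    · rw [if_pos hq, if_pos hq]
      have h7 : ∀ x, (if x = u then θ x * sg (t x) else 1 + θ x * sg (t x)) =
          (if x = u then θ x else 1) * (if x = u then sg (t x) else 1 + θ x * sg (t x)) := by
        intro x
        split_ifs <;> ring
      rw [Finset.prod_congr rfl fun x _ => h7 x, Finset.prod_mul_distrib]
      simp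
    · rw [if_neg hq, if_neg hq]
      ring

end

end Vale.Agent.P361.LRO.Loc
end

section

/-! P361 / LRO / LOC by loops.
`Zp π θ = ∑_{s ∘ π = s} ∏_v (1 + θ_v s_v)` (weight of a full ring configuration), GKS positivity,
comparison under composition with one transposition, and the flipped weight. -/

namespace Vale.Agent.P361.LRO.Loop

open Finset Equiv

variable {N : Type*} [Fintype N] [DecidableEq N]

/-- real value of a sign -/
noncomputable def sg (e : ℤˣ) : ℝ := ((e : ℤ) : ℝ)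

@[simp] lemma sg_one : sg 1 = 1 := by simp [sg]
@[simp] lemma sg_neg (e : ℤˣ) : sg (-e) = - sg e := by simp [sg]
@[simp] lemma sg_mul (e f : ℤˣ) : sg (e * f) = sg e * sg f := by simp [sg]
lemma sg_cases (e : ℤˣ) : sg e = 1 ∨ sg e = -1 := by
  rcases Int.units_eq_one_or e with h | h <;> simp [h]
lemma sg_prod {ι : Type*} (s : Finset ι) (f : ι → ℤˣ) : sg (∏ i ∈ s, f i) = ∏ i ∈ s, sg (f i) := by
  induction s using Finset.cons_induction with
  | empty => simp
  | cons a s ha ih => rw [prod_cons, prod_cons, sg_mul, ih]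

/-- the set of `π`-invariant spin configurations -/
def inv (π : Perm N) : Finset (N → ℤˣ) := univ.filter fun s => ∀ x, s (π x) = s x

lemma mem_inv {π : Perm N} {s : N → ℤˣ} : s ∈ inv π ↔ ∀ x, s (π x) = s x := by
  simp [inv]

/-- weight of a ring configuration -/
noncomputable def Zp (π : Perm N) (θ : N → ℝ) : ℝ := ∑ s ∈ inv π, ∏ v, (1 + θ v * sg (s v))

/-- character sums are nonnegative -/
lemma char_sum_nonneg (π : Perm N) (χ : (N → ℤˣ) → ℤˣ)
    (hχ : ∀ s t, χ (s * t) = χ s * χ t) : 0 ≤ ∑ s ∈ inv π, sg (χ s) := by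
  by_cases h : ∃ t ∈ inv π, χ t = -1
  · obtain ⟨t, ht, hχt⟩ := h
    have h1 : ∑ s ∈ inv π, sg (χ s) = ∑ s ∈ inv π, sg (χ (s * t)) := by
      refine (Finset.sum_bij' (fun s _ => s * t) (fun s _ => s * t) ?_ ?_ ?_ ?_ ?_).symm
      · intro s hs
        rw [mem_inv] at hs ht ⊢
        intro x; simp [hs x, ht x]
      · intro s hs
        rw [mem_inv] at hs ht ⊢
        intro x; simp [hs x, ht x]
      · intro s _
        funext x
        simp [mul_assoc]
      · intro s _
        funext x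
        simp [mul_assoc]
      · intro s _
        simp
    have h2 : ∑ s ∈ inv π, sg (χ (s * t)) = - ∑ s ∈ inv π, sg (χ s) := by
      rw [← Finset.sum_neg_distrib]
      refine Finset.sum_congr rfl fun s _ => ?_
      rw [hχ, hχt]; simp
    have : ∑ s ∈ inv π, sg (χ s) = 0 := by linarith
    rw [this]
  · push Not at h
    refine Finset.sum_nonneg fun s hs => ?_
    rcases Int.units_eq_one_or (χ s) with h1 | h1
    · simp [h1]
    · exact absurd h1 (h s hs)

/-- GKS -/
lemma gks (π : Perm N) (θ : N → ℝ) (hθ : ∀ v, 0 ≤ θ v) (B : Finset N) :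
    0 ≤ ∑ s ∈ inv π, (∏ v ∈ B, sg (s v)) * ∏ v, (1 + θ v * sg (s v)) := by
  have h : ∀ s : N → ℤˣ, (∏ v ∈ B, sg (s v)) * ∏ v, (1 + θ v * sg (s v)) =
      ∑ A ∈ (univ : Finset N).powerset, (∏ v ∈ A, θ v) * sg ((∏ v ∈ B, s v) * ∏ v ∈ A, s v) := by
    intro s
    rw [Finset.prod_one_add, Finset.mul_sum]
    refine Finset.sum_congr rfl fun A _ => ?_
    rw [Finset.prod_mul_distrib, sg_mul, sg_prod, sg_prod]
    ring
  simp_rw [h]
  rw [Finset.sum_comm]
  refine Finset.sum_nonneg fun A _ => ?_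
  rw [← Finset.mul_sum]
  refine mul_nonneg (Finset.prod_nonneg fun v _ => hθ v) ?_
  refine char_sum_nonneg π (fun s => (∏ v ∈ B, s v) * ∏ v ∈ A, s v) ?_
  intro s t
  simp only [Pi.mul_apply, Finset.prod_mul_distrib]
  rw [mul_mul_mul_comm]

lemma one_add_nonneg {t : ℝ} (h0 : 0 ≤ t) (h1 : t ≤ 1) (e : ℤˣ) : 0 ≤ 1 + t * sg e := by
  rcases sg_cases e with h | h <;> rw [h] <;> linarith

lemma Zp_pos (π : Perm N) (θ : N → ℝ) (h0 : ∀ v, 0 ≤ θ v) (h1 : ∀ v, θ v ≤ 1) : 0 < Zp π θ := by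
  have h : (∏ v, (1 + θ v * sg ((1 : N → ℤˣ) v))) ≤ Zp π θ := by
    refine Finset.single_le_sum (f := fun s : N → ℤˣ => ∏ v, (1 + θ v * sg (s v))) ?_ ?_
    · intro s _
      exact Finset.prod_nonneg fun v _ => one_add_nonneg (h0 v) (h1 v) _
    · rw [mem_inv]; intro x; rfl
  refine lt_of_lt_of_le (Finset.prod_pos fun v _ => ?_) h
  simp only [Pi.one_apply, sg_one, mul_one]
  linarith [h0 v]

/-- configurations invariant under `π` with `s a = s b` -/
noncomputable def Yp (π : Perm N) (θ : N → ℝ) (a b : N) : ℝ :=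
  ∑ s ∈ (inv π).filter (fun s => s a = s b), ∏ v, (1 + θ v * sg (s v))

lemma Yp_swap (π : Perm N) (θ : N → ℝ) (a b : N) : Yp (π * swap a b) θ a b = Yp π θ a b := by
  unfold Yp
  congr 1
  ext s
  simp only [Finset.mem_filter, mem_inv]
  constructor
  · rintro ⟨h, hab⟩
    refine ⟨fun x => ?_, hab⟩
    have h1 := h (swap a b x)
    rw [Perm.mul_apply, swap_apply_self] at h1
    rw [h1]
    by_cases hxa : x = a
    · subst hxa; rw [swap_apply_left]; exact hab.symm
    · by_cases hxb : x = b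
      · subst hxb; rw [swap_apply_right]; exact hab
      · rw [swap_apply_of_ne_of_ne hxa hxb]
  · rintro ⟨h, hab⟩
    refine ⟨fun x => ?_, hab⟩
    rw [Perm.mul_apply, h]
    by_cases hxa : x = a
    · subst hxa; rw [swap_apply_left]; exact hab.symm
    · by_cases hxb : x = b
      · subst hxb; rw [swap_apply_right]; exact hab
      · rw [swap_apply_of_ne_of_ne hxa hxb]

lemma Yp_le_Zp (π : Perm N) (θ : N → ℝ) (h0 : ∀ v, 0 ≤ θ v) (h1 : ∀ v, θ v ≤ 1) (a b : N) :
    Yp π θ a b ≤ Zp π θ := by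
  refine Finset.sum_le_sum_of_subset_of_nonneg (Finset.filter_subset _ _) ?_
  intro s _ _
  exact Finset.prod_nonneg fun v _ => one_add_nonneg (h0 v) (h1 v) _

lemma Zp_le_two_Yp (π : Perm N) (θ : N → ℝ) (h0 : ∀ v, 0 ≤ θ v) (a b : N) :
    Zp π θ ≤ 2 * Yp π θ a b := by
  have hg : 0 ≤ ∑ s ∈ inv π, (sg (s a) * sg (s b)) * ∏ v, (1 + θ v * sg (s v)) := by
    by_cases hab : a = b
    · subst hab
      have := gks π θ h0 ∅
      refine le_of_le_of_eq this (Finset.sum_congr rfl fun s _ => ?_)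
      rcases sg_cases (s a) with h | h <;> rw [h] <;> simp
    · have := gks π θ h0 {a, b}
      refine le_of_le_of_eq this (Finset.sum_congr rfl fun s _ => ?_)
      rw [Finset.prod_pair hab]
  have h2 : Zp π θ + ∑ s ∈ inv π, (sg (s a) * sg (s b)) * ∏ v, (1 + θ v * sg (s v)) =
      2 * Yp π θ a b := by
    unfold Zp Yp
    rw [← Finset.sum_add_distrib, Finset.sum_filter, Finset.mul_sum]
    refine Finset.sum_congr rfl fun s _ => ?_
    by_cases h : s a = s b
    · rw [if_pos h, h]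
      rcases sg_cases (s b) with h' | h' <;> rw [h'] <;> ring
    · rw [if_neg h]
      have : sg (s a) * sg (s b) = -1 := by
        rcases Int.units_eq_one_or (s a) with ha | ha <;>
          rcases Int.units_eq_one_or (s b) with hb | hb
        · exact absurd (ha.trans hb.symm) h
        · rw [ha, hb]; simp
        · rw [ha, hb]; simp
        · exact absurd (ha.trans hb.symm) h
      rw [this]; ring
  linarith

/-- opening (or closing) one gate changes the weight by a factor in `[1/2, 2]` -/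
theorem Zp_mul_swap_le (π : Perm N) (θ : N → ℝ) (h0 : ∀ v, 0 ≤ θ v) (h1 : ∀ v, θ v ≤ 1) (a b : N) :
    Zp (π * swap a b) θ ≤ 2 * Zp π θ := by
  have h2 := Zp_le_two_Yp (π * swap a b) θ h0 a b
  rw [Yp_swap] at h2
  linarith [Yp_le_Zp π θ h0 h1 a b]

theorem Zp_le_mul_swap (π : Perm N) (θ : N → ℝ) (h0 : ∀ v, 0 ≤ θ v) (h1 : ∀ v, θ v ≤ 1) (a b : N) :
    Zp π θ ≤ 2 * Zp (π * swap a b) θ := by
  have h2 := Zp_mul_swap_le (π * swap a b) θ h0 h1 a b
  rwa [mul_assoc, swap_mul_self, mul_one] at h2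

end Vale.Agent.P361.LRO.Loop
end

section

/-! P361 / LRO / LOC by loops, part 2: the flipped weight (two `σ¹` insertions). -/

namespace Vale.Agent.P361.LRO.Loop

open Finset Equiv

variable {N : Type*} [Fintype N] [DecidableEq N]

/-- spin (entering each node) is flipped when passing `u` and when passing `v` -/
def finv (π : Perm N) (u v : N) : Finset (N → ℤˣ) :=
  univ.filter fun s => ∀ x, s (π x) = if x = u ∨ x = v then - s x else s x

lemma mem_finv {π : Perm N} {u v : N} {s : N → ℤˣ} :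
    s ∈ finv π u v ↔ ∀ x, s (π x) = if x = u ∨ x = v then - s x else s x := by
  simp [finv]

/-- weight of a ring configuration with `σ¹` in place of the slices at `u` and `v` -/
noncomputable def Zf (π : Perm N) (θ : N → ℝ) (u v : N) : ℝ :=
  ∑ s ∈ finv π u v, ∏ x ∈ univ \ {u, v}, (1 + θ x * sg (s x))

lemma Zf_nonneg (π : Perm N) (θ : N → ℝ) (h0 : ∀ v, 0 ≤ θ v) (h1 : ∀ v, θ v ≤ 1) (u v : N) :
    0 ≤ Zf π θ u v :=
  Finset.sum_nonneg fun _ _ => Finset.prod_nonneg fun x _ => one_add_nonneg (h0 x) (h1 x) _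

lemma Zf_comm (π : Perm N) (θ : N → ℝ) (u v : N) : Zf π θ u v = Zf π θ v u := by
  unfold Zf finv
  rw [Finset.pair_comm]
  simp_rw [or_comm]

/-- the short arc from `u` to `v = π^m u` -/
def arc (π : Perm N) (u : N) (m : ℕ) : Finset N := (Finset.Icc 1 m).image fun i => (π ^ i) u

lemma mem_arc {π : Perm N} {u : N} {m : ℕ} {x : N} :
    x ∈ arc π u m ↔ ∃ i, 1 ≤ i ∧ i ≤ m ∧ (π ^ i) u = x := by
  simp [arc, and_assoc]

/-- flipping a configuration on a set -/
def flipOn (A : Finset N) (s : N → ℤˣ) : N → ℤˣ := fun x => if x ∈ A then - s x else s x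

lemma flipOn_flipOn (A : Finset N) (s : N → ℤˣ) : flipOn A (flipOn A s) = s := by
  funext x
  unfold flipOn
  by_cases h : x ∈ A <;> simp [h]

lemma arc_step {π : Perm N} {u : N} {m : ℕ} (hm : 1 ≤ m)
    (hu : ∀ i, 1 ≤ i → i ≤ m → (π ^ i) u ≠ u) (x : N) :
    (π x ∈ arc π u m) ↔ (x = u ∨ (x ∈ arc π u m ∧ x ≠ (π ^ m) u)) := by
  constructor
  · intro h
    obtain ⟨i, hi1, him, hi⟩ := mem_arc.1 h
    obtain ⟨j, rfl⟩ : ∃ j, i = j + 1 := ⟨i - 1, by omega⟩
    rw [pow_succ', Perm.mul_apply] at hi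
    have hx : (π ^ j) u = x := π.injective hi
    rcases Nat.eq_zero_or_pos j with hj | hj
    · left; rw [hj] at hx; simpa using hx.symm
    · right
      refine ⟨mem_arc.2 ⟨j, hj, by omega, hx⟩, ?_⟩
      intro hxm
      rw [← hx] at hxm
      -- π^j u = π^m u with j < m gives π^(m-j) u = u
      have : (π ^ (m - j)) u = u := by
        have h2 : (π ^ m) u = (π ^ j) ((π ^ (m - j)) u) := by
          rw [← Perm.mul_apply, ← pow_add]; congr 2; omega
        rw [h2] at hxm
        exact ((π ^ j).injective hxm).symm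
      exact hu (m - j) (by omega) (by omega) this
  · rintro (h | ⟨h, hne⟩)
    · subst h
      exact mem_arc.2 ⟨1, le_refl _, hm, by simp⟩
    · obtain ⟨i, hi1, him, hi⟩ := mem_arc.1 h
      have : i ≠ m := by
        rintro rfl
        exact hne hi.symm
      refine mem_arc.2 ⟨i + 1, by omega, by omega, ?_⟩
      rw [pow_succ', Perm.mul_apply, hi]

lemma u_not_mem_arc {π : Perm N} {u : N} {m : ℕ}
    (hu : ∀ i, 1 ≤ i → i ≤ m → (π ^ i) u ≠ u) : u ∉ arc π u m := by
  intro h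
  obtain ⟨i, h1, h2, h3⟩ := mem_arc.1 h
  exact hu i h1 h2 h3

lemma flipOn_mem_finv {π : Perm N} {u : N} {m : ℕ} (hm : 1 ≤ m)
    (hu : ∀ i, 1 ≤ i → i ≤ m → (π ^ i) u ≠ u) {s : N → ℤˣ} (hs : s ∈ inv π) :
    flipOn (arc π u m) s ∈ finv π u ((π ^ m) u) := by
  rw [mem_inv] at hs
  rw [mem_finv]
  intro x
  have hstep := arc_step hm hu x
  have huA := u_not_mem_arc hu
  have hvA : (π ^ m) u ∈ arc π u m := mem_arc.2 ⟨m, hm, le_refl _, rfl⟩
  unfold flipOn
  by_cases hxu : x = u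
  · subst hxu
    rw [if_pos (hstep.2 (Or.inl rfl)), if_pos (Or.inl rfl), if_neg huA, hs]
  · by_cases hxv : x = (π ^ m) u
    · have h1 : π x ∉ arc π u m := by
        intro h
        rcases hstep.1 h with h | h
        · exact hxu h
        · exact h.2 hxv
      rw [if_neg h1, if_pos (Or.inr hxv), if_pos (hxv ▸ hvA), hs, neg_neg]
    · rw [if_neg (by tauto : ¬ (x = u ∨ x = (π ^ m) u))]
      by_cases hxA : x ∈ arc π u m
      · rw [if_pos (hstep.2 (Or.inr ⟨hxA, hxv⟩)), if_pos hxA, hs]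
      · have h1 : π x ∉ arc π u m := by
          intro h
          rcases hstep.1 h with h | h
          · exact hxu h
          · exact hxA h.1
        rw [if_neg h1, if_neg hxA, hs]

/-- **arc bound**: if `v = π^m u` is reached from `u` along a short arc, the flipped weight is at
least `∏_{arc interior} (1-θ)/(1+θ)` times `Zp / ((1+θ u)(1+θ v))`. -/
theorem Zf_ge (π : Perm N) (θ : N → ℝ) (h0 : ∀ v, 0 ≤ θ v) (h1 : ∀ v, θ v ≤ 1) (u : N) {m : ℕ}
    (hm : 1 ≤ m) (hu : ∀ i, 1 ≤ i → i ≤ m → (π ^ i) u ≠ u) :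
    (∏ x ∈ arc π u m \ {(π ^ m) u}, ((1 - θ x) / (1 + θ x))) * Zp π θ ≤
      (1 + θ u) * (1 + θ ((π ^ m) u)) * Zf π θ u ((π ^ m) u) := by
  set v := (π ^ m) u with hv
  set A := arc π u m with hA
  have huA : u ∉ A := u_not_mem_arc hu
  have hvA : v ∈ A := mem_arc.2 ⟨m, hm, le_refl _, rfl⟩
  have huv : u ≠ v := fun h => huA (h ▸ hvA)
  -- reindex
  have hsub : ∑ s ∈ inv π, ∏ x ∈ univ \ {u, v}, (1 + θ x * sg (flipOn A s x)) ≤ Zf π θ u v := by
    have hinj : Set.InjOn (flipOn A) (inv π : Set (N → ℤˣ)) := by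
      intro s _ t _ h
      have := congrArg (flipOn A) h
      rwa [flipOn_flipOn, flipOn_flipOn] at this
    rw [← Finset.sum_image (f := fun s : N → ℤˣ => ∏ x ∈ univ \ {u, v}, (1 + θ x * sg (s x)))
      (g := flipOn A) hinj]
    refine Finset.sum_le_sum_of_subset_of_nonneg ?_ ?_
    · intro t ht
      obtain ⟨s, hs, rfl⟩ := Finset.mem_image.1 ht
      exact flipOn_mem_finv hm hu hs
    · intro s _ _
      exact Finset.prod_nonneg fun x _ => one_add_nonneg (h0 x) (h1 x) _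
  have hpos : 0 ≤ (1 + θ u) * (1 + θ v) := by
    have := h0 u; have := h0 v; positivity
  refine le_trans ?_ (mul_le_mul_of_nonneg_left hsub hpos)
  unfold Zp
  rw [Finset.mul_sum, Finset.mul_sum]
  refine Finset.sum_le_sum fun s _ => ?_
  -- split the products
  have hsplit1 : ∏ x, (1 + θ x * sg (s x)) =
      (∏ x ∈ A \ {v}, (1 + θ x * sg (s x))) * ((∏ x ∈ univ \ insert u A, (1 + θ x * sg (s x))) *
        ((1 + θ u * sg (s u)) * (1 + θ v * sg (s v)))) := by
    have e1 : (univ : Finset N) = insert u (insert v ((A \ {v}) ∪ (univ \ insert u A))) := by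
      ext x
      simp only [mem_univ, mem_insert, mem_union, mem_sdiff, mem_singleton, true_iff, true_and]
      tauto
    have hd : Disjoint (A \ {v}) (univ \ insert u A) := by
      rw [Finset.disjoint_left]
      intro x hx hx'
      simp only [mem_sdiff, mem_insert, mem_univ, true_and] at hx hx'
      tauto
    have hv' : v ∉ (A \ {v}) ∪ (univ \ insert u A) := by
      simp only [mem_union, mem_sdiff, mem_singleton, mem_insert, mem_univ, true_and]
      tauto
    have hu' : u ∉ insert v ((A \ {v}) ∪ (univ \ insert u A)) := by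
      simp only [mem_union, mem_sdiff, mem_singleton, mem_insert, mem_univ, true_and]
      tauto
    conv_lhs => rw [e1]
    rw [Finset.prod_insert hu', Finset.prod_insert hv', Finset.prod_union hd]
    ring
  have hsplit2 : ∏ x ∈ univ \ {u, v}, (1 + θ x * sg (flipOn A s x)) =
      (∏ x ∈ A \ {v}, (1 - θ x * sg (s x))) * (∏ x ∈ univ \ insert u A, (1 + θ x * sg (s x))) := by
    have e1 : (univ : Finset N) \ {u, v} = (A \ {v}) ∪ (univ \ insert u A) := by
      ext x
      simp only [mem_univ, mem_insert, mem_union, mem_sdiff, mem_singleton, true_and]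
      constructor
      · intro h
        by_cases hx : x ∈ A <;> tauto
      · rintro (h | h)
        · refine fun h' => ?_
          rcases h' with h' | h'
          · exact huA (h' ▸ h.1)
          · exact h.2 h'
        · refine fun h' => ?_
          rcases h' with h' | h'
          · exact h (Or.inl h')
          · exact h (Or.inr (h' ▸ hvA))
    have hd : Disjoint (A \ {v}) (univ \ insert u A) := by
      rw [Finset.disjoint_left]
      intro x hx hx'
      simp only [mem_sdiff, mem_insert, mem_univ, true_and] at hx hx'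
      tauto
    rw [e1, Finset.prod_union hd]
    congr 1
    · refine Finset.prod_congr rfl fun x hx => ?_
      rw [mem_sdiff] at hx
      unfold flipOn
      rw [if_pos hx.1, sg_neg]; ring
    · refine Finset.prod_congr rfl fun x hx => ?_
      simp only [mem_sdiff, mem_insert, mem_univ, true_and] at hx
      unfold flipOn
      rw [if_neg (by tauto)]
  rw [hsplit1, hsplit2]
  set P := ∏ x ∈ univ \ insert u A, (1 + θ x * sg (s x)) with hP
  have hP0 : 0 ≤ P := Finset.prod_nonneg fun x _ => one_add_nonneg (h0 x) (h1 x) _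
  have hA1 : (∏ x ∈ A \ {v}, ((1 - θ x) / (1 + θ x))) * (∏ x ∈ A \ {v}, (1 + θ x * sg (s x))) ≤
      ∏ x ∈ A \ {v}, (1 - θ x * sg (s x)) := by
    rw [← Finset.prod_mul_distrib]
    refine Finset.prod_le_prod ?_ ?_
    · intro x _
      refine mul_nonneg (div_nonneg ?_ ?_) (one_add_nonneg (h0 x) (h1 x) _)
      · linarith [h1 x]
      · linarith [h0 x]
    · intro x _
      have hx0 := h0 x
      have hx1 := h1 x
      rw [div_mul_eq_mul_div, div_le_iff₀ (by linarith)]
      rcases sg_cases (s x) with h | h <;> rw [h] <;> nlinarith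
  have hu1 : (1 + θ u * sg (s u)) * (1 + θ v * sg (s v)) ≤ (1 + θ u) * (1 + θ v) := by
    have a1 : 1 + θ u * sg (s u) ≤ 1 + θ u := by
      have := h0 u
      rcases sg_cases (s u) with h | h <;> rw [h] <;> linarith
    have a2 : 1 + θ v * sg (s v) ≤ 1 + θ v := by
      have := h0 v
      rcases sg_cases (s v) with h | h <;> rw [h] <;> linarith
    exact mul_le_mul a1 a2 (one_add_nonneg (h0 v) (h1 v) _) (by linarith [h0 u])
  have hA0 : 0 ≤ ∏ x ∈ A \ {v}, (1 - θ x * sg (s x)) := by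
    refine Finset.prod_nonneg fun x _ => ?_
    have := one_add_nonneg (h0 x) (h1 x) (-(s x))
    rw [sg_neg] at this; linarith
  calc (∏ x ∈ A \ {v}, ((1 - θ x) / (1 + θ x))) * ((∏ x ∈ A \ {v}, (1 + θ x * sg (s x))) *
        (P * ((1 + θ u * sg (s u)) * (1 + θ v * sg (s v)))))
      = ((∏ x ∈ A \ {v}, ((1 - θ x) / (1 + θ x))) * (∏ x ∈ A \ {v}, (1 + θ x * sg (s x)))) *
        (P * ((1 + θ u * sg (s u)) * (1 + θ v * sg (s v)))) := by ring
    _ ≤ (∏ x ∈ A \ {v}, (1 - θ x * sg (s x))) * (P * ((1 + θ u) * (1 + θ v))) := by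
        refine mul_le_mul hA1 (mul_le_mul_of_nonneg_left hu1 hP0) ?_ hA0
        exact mul_nonneg hP0 (mul_nonneg (one_add_nonneg (h0 u) (h1 u) _)
          (one_add_nonneg (h0 v) (h1 v) _))
    _ = (1 + θ u) * (1 + θ v) * ((∏ x ∈ A \ {v}, (1 - θ x * sg (s x))) * P) := by ring

end Vale.Agent.P361.LRO.Loop
end

section

/-! P361 / LRO / LOC by loops, part 3: change of basis (flips picture <-> `S³` picture). -/

namespace Vale.Agent.P361.LRO.Loop

open Finset Equiv Matrix

variable {X : Type} [Fintype X] [DecidableEq X]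

/-- trace of a product of one-site matrices along the cycles of `π` -/
noncomputable def TT (π : Perm X) (A : X → Matrix (Fin 2) (Fin 2) ℝ) : ℝ :=
  ∑ s : X → Fin 2, ∏ x, A x (s x) (s (π x))

omit [DecidableEq X] in
lemma prod_sum_sum [DecidableEq X] (f : X → Fin 2 → Fin 2 → ℝ) :
    ∏ x, ∑ a, ∑ b, f x a b = ∑ a : X → Fin 2, ∑ b : X → Fin 2, ∏ x, f x (a x) (b x) := by
  rw [Finset.prod_univ_sum, Fintype.piFinset_univ]
  refine Finset.sum_congr rfl fun a _ => ?_
  rw [Finset.prod_univ_sum, Fintype.piFinset_univ]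

theorem TT_conj (π : Perm X) (A : X → Matrix (Fin 2) (Fin 2) ℝ) (U W : Matrix (Fin 2) (Fin 2) ℝ)
    (h : W * U = 1) : TT π (fun x => U * A x * W) = TT π A := by
  unfold TT
  have h1 : ∀ s : X → Fin 2, ∏ x, (U * A x * W) (s x) (s (π x)) =
      ∑ a : X → Fin 2, ∑ b : X → Fin 2, (∏ x, A x (a x) (b x)) *
        ∏ y, (W (b (π.symm y)) (s y) * U (s y) (a y)) := by
    intro s
    have e1 : ∀ x, (U * A x * W) (s x) (s (π x)) =
        ∑ a, ∑ b, U (s x) a * A x a b * W b (s (π x)) := by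
      intro x
      rw [Matrix.mul_apply]
      simp_rw [Matrix.mul_apply, Finset.sum_mul]
      exact Finset.sum_comm
    rw [Finset.prod_congr rfl fun x _ => e1 x,
      prod_sum_sum (fun x a b => U (s x) a * A x a b * W b (s (π x)))]
    refine Finset.sum_congr rfl fun a _ => Finset.sum_congr rfl fun b _ => ?_
    have e2 : ∏ y, W (b (π.symm y)) (s y) = ∏ x, W (b x) (s (π x)) := by
      rw [← Equiv.prod_comp π (fun y => W (b (π.symm y)) (s y))]
      refine Finset.prod_congr rfl fun x _ => ?_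
      rw [Equiv.symm_apply_apply]
    rw [Finset.prod_mul_distrib (f := fun y => W (b (π.symm y)) (s y)), e2,
      ← Finset.prod_mul_distrib, ← Finset.prod_mul_distrib]
    refine Finset.prod_congr rfl fun x _ => ?_
    ring
  simp_rw [h1]
  rw [Finset.sum_comm]
  refine Finset.sum_congr rfl fun a _ => ?_
  rw [Finset.sum_comm]
  have h2 : ∀ b : X → Fin 2, ∑ s : X → Fin 2, (∏ x, A x (a x) (b x)) *
        ∏ y, (W (b (π.symm y)) (s y) * U (s y) (a y)) =
      if b = a ∘ π then ∏ x, A x (a x) (b x) else 0 := by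
    intro b
    rw [← Finset.mul_sum]
    have e3 : ∑ s : X → Fin 2, ∏ y, (W (b (π.symm y)) (s y) * U (s y) (a y)) =
        ∏ y, (if b (π.symm y) = a y then (1:ℝ) else 0) := by
      rw [← Fintype.piFinset_univ,
        ← Finset.prod_univ_sum (fun _ => univ) (fun y c => W (b (π.symm y)) c * U c (a y))]
      refine Finset.prod_congr rfl fun y _ => ?_
      have := congrFun (congrFun h (b (π.symm y))) (a y)
      rw [Matrix.mul_apply, Matrix.one_apply] at this
      exact this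
    rw [e3]
    by_cases hb : b = a ∘ π
    · rw [if_pos hb]
      have : ∏ y, (if b (π.symm y) = a y then (1:ℝ) else 0) = 1 := by
        refine Finset.prod_eq_one fun y _ => ?_
        rw [if_pos]
        rw [hb]; simp
      rw [this, mul_one]
    · rw [if_neg hb]
      have : ∃ y, b (π.symm y) ≠ a y := by
        by_contra hcon
        push Not at hcon
        apply hb
        funext x
        have := hcon (π x)
        rw [Equiv.symm_apply_apply] at this
        simpa using this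
      obtain ⟨y, hy⟩ := this
      have h0 : ∏ y, (if b (π.symm y) = a y then (1:ℝ) else 0) = 0 :=
        Finset.prod_eq_zero (Finset.mem_univ y) (if_neg hy)
      rw [h0, mul_zero]
  rw [Finset.sum_congr rfl fun b _ => h2 b]
  simp

/-- the Hadamard matrix and half of it -/
noncomputable def Hd : Matrix (Fin 2) (Fin 2) ℝ := !![1, 1; 1, -1]
noncomputable def Hh : Matrix (Fin 2) (Fin 2) ℝ := !![1/2, 1/2; 1/2, -1/2]

lemma Hh_Hd : Hh * Hd = 1 := by
  ext i j
  fin_cases i <;> fin_cases j <;> simp [Hh, Hd, Matrix.mul_apply, Fin.sum_univ_two] <;> norm_num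

/-- `1 + t σ¹` -/
noncomputable def Fl (t : ℝ) : Matrix (Fin 2) (Fin 2) ℝ := !![1, t; t, 1]
/-- `1 + t σ³` -/
noncomputable def Dg (t : ℝ) : Matrix (Fin 2) (Fin 2) ℝ := !![1 + t, 0; 0, 1 - t]
/-- jump matrix -/
noncomputable def Jm : Matrix (Fin 2) (Fin 2) ℝ := !![0, -1; 1, 0]
/-- `σ¹` and `σ³` -/
noncomputable def S1 : Matrix (Fin 2) (Fin 2) ℝ := !![0, 1; 1, 0]
noncomputable def S3 : Matrix (Fin 2) (Fin 2) ℝ := !![1, 0; 0, -1]

lemma conj_Dg (t : ℝ) : Hd * Dg t * Hh = Fl t := by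
  ext i j
  fin_cases i <;> fin_cases j <;>
    simp [Hh, Hd, Dg, Fl, Matrix.mul_apply, Fin.sum_univ_two] <;> ring

lemma conj_Jm : Hd * Jm * Hh = -Jm := by
  ext i j
  fin_cases i <;> fin_cases j <;>
    simp [Hh, Hd, Jm, Matrix.mul_apply, Fin.sum_univ_two] <;> norm_num

lemma conj_S3 : Hd * S3 * Hh = S1 := by
  ext i j
  fin_cases i <;> fin_cases j <;>
    simp [Hh, Hd, S3, S1, Matrix.mul_apply, Fin.sum_univ_two] <;> norm_num

/-- sign of a spin: `0 ↦ 1` (up), `1 ↦ -1` (down) -/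
def sgn2 : Fin 2 ≃ ℤˣ where
  toFun i := if i = 0 then 1 else -1
  invFun e := if e = 1 then 0 else 1
  left_inv := by decide
  right_inv := by decide

lemma sgn2_zero : sgn2 0 = 1 := rfl
lemma sgn2_one : sgn2 1 = -1 := rfl

/-- weights in the flips picture = weights in the `S³` picture -/
theorem sum_wt (π : Perm X) (θ : X → ℝ) : ∑ s, wt θ π s = Zp π θ := by
  have h1 : ∑ s, wt θ π s = TT π (fun x => Fl (θ x)) := by
    unfold wt TT
    refine Finset.sum_congr rfl fun s _ => Finset.prod_congr rfl fun x _ => ?_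
    generalize s x = a
    generalize s (π x) = b
    fin_cases a <;> fin_cases b <;> simp [Fl]
  have h2 : TT π (fun x => Fl (θ x)) = TT π (fun x => Dg (θ x)) := by
    rw [← TT_conj π (fun x => Dg (θ x)) Hd Hh Hh_Hd]
    simp_rw [conj_Dg]
  rw [h1, h2]
  unfold TT Zp inv
  rw [Finset.sum_filter]
  rw [← Equiv.sum_comp (Equiv.arrowCongr (Equiv.refl X) sgn2)]
  refine Finset.sum_congr rfl fun s _ => ?_
  by_cases h : ∀ x, s (π x) = s x
  · rw [if_pos (by intro x; simp [Equiv.arrowCongr, h x])]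
    refine Finset.prod_congr rfl fun x _ => ?_
    rw [h x]
    have : (Equiv.arrowCongr (Equiv.refl X) sgn2) s x = sgn2 (s x) := by simp [Equiv.arrowCongr]
    rw [this]
    generalize s x = a
    fin_cases a
    · simp [Dg, sgn2_zero]
    · simp [Dg, sgn2_one]; ring
  · rw [if_neg]
    · push Not at h
      obtain ⟨x, hx⟩ := h
      refine Finset.prod_eq_zero (Finset.mem_univ x) ?_
      generalize s x = a at hx
      generalize s (π x) = b at hx
      fin_cases a <;> fin_cases b <;> simp_all [Dg]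
    · intro h'
      apply h
      intro x
      have := h' x
      simpa [Equiv.arrowCongr] using this

lemma finv_opp {N : Type*} [Fintype N] [DecidableEq N] (π : Perm N) {u v : N} (_huv : u ≠ v)
    {s : N → ℤˣ} (hs : s ∈ finv π u v) :
    s v = - s u := by
  classical
  rw [mem_finv] at hs
  have hex : ∃ m, 1 ≤ m ∧ ((π ^ m) u = u ∨ (π ^ m) u = v) :=
    ⟨orderOf π, orderOf_pos π, Or.inl (by rw [pow_orderOf_eq_one]; rfl)⟩
  set m := Nat.find hex with hm
  obtain ⟨hm1, hmu⟩ := Nat.find_spec hex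
  have hlt : ∀ i, 1 ≤ i → i < m → (π ^ i) u ≠ u ∧ (π ^ i) u ≠ v := by
    intro i hi him
    have := Nat.find_min hex him
    push Not at this
    exact this hi
  have hind : ∀ i, 1 ≤ i → i ≤ m → s ((π ^ i) u) = - s u := by
    intro i hi
    induction i, hi using Nat.le_induction with
    | base =>
      intro _
      rw [pow_one, hs u, if_pos (Or.inl rfl)]
    | succ i hi ih =>
      intro him
      have hne := hlt i hi (by omega)
      rw [pow_succ', Perm.mul_apply, hs, if_neg (by tauto), ih (by omega)]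
  have hm' := hind m hm1 le_rfl
  rcases hmu with h | h
  · rw [h] at hm'
    rcases Int.units_eq_one_or (s u) with h1 | h1 <;> rw [h1] at hm' <;>
      exact absurd hm' (by decide)
  · rw [h] at hm'; exact hm'

/-- the numerator of the conductance in the `S³` picture -/
theorem sum_wt_jj (π : Perm X) (θ : X → ℝ) {u v : X} (huv : u ≠ v) :
    ∑ s, wt θ π s * (jj π s u * jj π s v) = - (θ u * θ v * Zf π θ u v) := by
  set B : X → Matrix (Fin 2) (Fin 2) ℝ := fun x => if x = u ∨ x = v then Jm else Fl (θ x) with hB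
  set B' : X → Matrix (Fin 2) (Fin 2) ℝ := fun x => if x = u ∨ x = v then -Jm else Dg (θ x) with hB'
  have hsplit : ∀ f : X → ℝ, ∏ x, f x = f u * f v * ∏ x ∈ univ \ {u, v}, f x := by
    intro f
    rw [← Finset.prod_sdiff (Finset.subset_univ {u, v}), Finset.prod_pair huv]
    ring
  have hne : ∀ x ∈ (univ : Finset X) \ {u, v}, ¬ (x = u ∨ x = v) := by
    intro x hx
    simpa using hx
  have h1 : ∑ s, wt θ π s * (jj π s u * jj π s v) = θ u * θ v * TT π B := by
    unfold wt TT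
    rw [Finset.mul_sum]
    refine Finset.sum_congr rfl fun s _ => ?_
    rw [hsplit (fun x => if s x = s (π x) then 1 else θ x),
      hsplit (fun x => B x (s x) (s (π x)))]
    have e1 : ∏ x ∈ univ \ {u, v}, (if s x = s (π x) then (1:ℝ) else θ x) =
        ∏ x ∈ univ \ {u, v}, B x (s x) (s (π x)) := by
      refine Finset.prod_congr rfl fun x hx => ?_
      simp only [hB, if_neg (hne x hx)]
      generalize s x = a
      generalize s (π x) = b
      fin_cases a <;> fin_cases b <;> simp [Fl]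
    have e2 : (if s u = s (π u) then (1:ℝ) else θ u) * jj π s u = θ u * B u (s u) (s (π u)) := by
      simp only [hB, true_or, if_true, jj]
      generalize s u = a
      generalize s (π u) = b
      fin_cases a <;> fin_cases b <;> simp [Jm]
    have e3 : (if s v = s (π v) then (1:ℝ) else θ v) * jj π s v = θ v * B v (s v) (s (π v)) := by
      simp only [hB, or_true, if_true, jj]
      generalize s v = a
      generalize s (π v) = b
      fin_cases a <;> fin_cases b <;> simp [Jm]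
    rw [e1]
    calc (if s u = s (π u) then (1:ℝ) else θ u) * (if s v = s (π v) then (1:ℝ) else θ v) *
          (∏ x ∈ univ \ {u, v}, B x (s x) (s (π x))) * (jj π s u * jj π s v)
        = ((if s u = s (π u) then (1:ℝ) else θ u) * jj π s u) *
          ((if s v = s (π v) then (1:ℝ) else θ v) * jj π s v) *
          (∏ x ∈ univ \ {u, v}, B x (s x) (s (π x))) := by ring
      _ = _ := by rw [e2, e3]; ring
  have h2 : TT π B = TT π B' := by
    rw [← TT_conj π B' Hd Hh Hh_Hd]
    congr 1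
    funext x
    by_cases hx : x = u ∨ x = v
    · simp only [hB, hB', if_pos hx, mul_neg, neg_mul, conj_Jm, neg_neg]
    · simp only [hB, hB', if_neg hx, conj_Dg]
  have h3 : TT π B' = - Zf π θ u v := by
    unfold TT Zf finv
    rw [Finset.sum_filter, ← Finset.sum_neg_distrib]
    rw [← Equiv.sum_comp (Equiv.arrowCongr (Equiv.refl X) sgn2)]
    refine Finset.sum_congr rfl fun s _ => ?_
    have hval : ∀ x, (Equiv.arrowCongr (Equiv.refl X) sgn2) s x = sgn2 (s x) := by
      intro x; simp [Equiv.arrowCongr]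
    by_cases h : ∀ x, (Equiv.arrowCongr (Equiv.refl X) sgn2) s (π x) =
        if x = u ∨ x = v then - (Equiv.arrowCongr (Equiv.refl X) sgn2) s x
          else (Equiv.arrowCongr (Equiv.refl X) sgn2) s x
    · rw [if_pos h]
      rw [hsplit (fun x => B' x (s x) (s (π x)))]
      have hopp := finv_opp π huv (mem_finv.2 h)
      rw [hval, hval] at hopp
      have hu := h u
      have hv := h v
      rw [if_pos (Or.inl rfl), hval, hval] at hu
      rw [if_pos (Or.inr rfl), hval, hval] at hv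
      have e4 : ∏ x ∈ univ \ {u, v}, B' x (s x) (s (π x)) =
          ∏ x ∈ univ \ {u, v}, (1 + θ x * sg ((Equiv.arrowCongr (Equiv.refl X) sgn2) s x)) := by
        refine Finset.prod_congr rfl fun x hx => ?_
        have hx' := h x
        rw [if_neg (hne x hx), hval, hval] at hx'
        have hx'' : s (π x) = s x := sgn2.injective hx'
        rw [hx'', hval]
        simp only [hB', if_neg (hne x hx)]
        generalize s x = a
        fin_cases a
        · simp [Dg, sgn2_zero]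
        · simp [Dg, sgn2_one]; ring
      rw [e4]
      have e5 : B' u (s u) (s (π u)) * B' v (s v) (s (π v)) = -1 := by
        simp only [hB', true_or, or_true, if_true]
        generalize s u = a at hopp hu ⊢
        generalize s v = b at hopp hv ⊢
        generalize s (π u) = a' at hu ⊢
        generalize s (π v) = b' at hv ⊢
        fin_cases a <;> fin_cases b <;> fin_cases a' <;> fin_cases b' <;>
          first
          | exact absurd hopp (by decide)
          | exact absurd hu (by decide)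
          | exact absurd hv (by decide)
          | simp [Jm]
      rw [e5]; ring
    · rw [if_neg h, neg_zero]
      push Not at h
      obtain ⟨x, hx⟩ := h
      rw [hval, hval] at hx
      refine Finset.prod_eq_zero (Finset.mem_univ x) ?_
      by_cases hxuv : x = u ∨ x = v
      · rw [if_pos hxuv] at hx
        simp only [hB', if_pos hxuv]
        generalize s x = a at hx ⊢
        generalize s (π x) = b at hx ⊢
        fin_cases a <;> fin_cases b <;>
          first
          | exact absurd rfl hx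
          | exact absurd (by decide) hx
          | simp [Jm]
      · rw [if_neg hxuv] at hx
        simp only [hB', if_neg hxuv]
        generalize s x = a at hx ⊢
        generalize s (π x) = b at hx ⊢
        fin_cases a <;> fin_cases b <;>
          first
          | exact absurd rfl hx
          | simp [Dg]
  rw [h1, h2, h3]; ring

end Vale.Agent.P361.LRO.Loop
end

section

/-! P361 LRO LOC: bridge between `Loop` (spins in `ℤˣ`) and the interface `Loc` (spins in `Fin 2`). -/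

namespace Vale.Agent.P361.LRO.Loc

open Finset Vale.Agent.P361.LRO

variable {X : Type} [Fintype X] [DecidableEq X]

lemma sg_eq (a : Fin 2) : sg a = Loop.sg (Loop.sgn2 a) := by
  fin_cases a <;> simp [sg, Loop.sg, Loop.sgn2]

lemma arrow_apply (s : X → Fin 2) (x : X) :
    (Equiv.arrowCongr (Equiv.refl X) Loop.sgn2) s x = Loop.sgn2 (s x) := by
  simp [Equiv.arrowCongr]

lemma Zp_eq (π : Equiv.Perm X) (θ : X → ℝ) : Zp π θ = Loop.Zp π θ := by
  unfold Zp Loop.Zp Loop.inv
  rw [Finset.sum_filter, ← Equiv.sum_comp (Equiv.arrowCongr (Equiv.refl X) Loop.sgn2)]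
  refine Finset.sum_congr rfl fun t _ => ?_
  simp only [arrow_apply, Loop.sgn2.injective.eq_iff, sg_eq]

lemma sgn2_neg_iff (a b : Fin 2) : (¬ a = b) ↔ Loop.sgn2 a = - Loop.sgn2 b := by
  revert a b; decide

lemma Zf_eq (π : Equiv.Perm X) (θ : X → ℝ) (u v : X) : Zf π θ u v = Loop.Zf π θ u v := by
  unfold Zf Loop.Zf Loop.finv
  rw [Finset.sum_filter, ← Equiv.sum_comp (Equiv.arrowCongr (Equiv.refl X) Loop.sgn2)]
  refine Finset.sum_congr rfl fun t _ => ?_
  have hiff : (∀ x, (t (π x) = t x ↔ (x ≠ u ∧ x ≠ v))) ↔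
      (∀ x, (Equiv.arrowCongr (Equiv.refl X) Loop.sgn2) t (π x) =
        if x = u ∨ x = v then - (Equiv.arrowCongr (Equiv.refl X) Loop.sgn2) t x
        else (Equiv.arrowCongr (Equiv.refl X) Loop.sgn2) t x) := by
    refine forall_congr' fun x => ?_
    rw [arrow_apply, arrow_apply]
    by_cases hx : x = u ∨ x = v
    · rw [if_pos hx, ← sgn2_neg_iff]
      constructor
      · intro h h'
        have := h.1 h'
        tauto
      · intro h
        constructor
        · intro h'; exact absurd h' h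
        · intro h'; tauto
    · rw [if_neg hx, Loop.sgn2.injective.eq_iff]
      constructor
      · intro h; exact h.2 (by tauto)
      · intro h; exact ⟨fun _ => by tauto, fun _ => h⟩
  by_cases h : ∀ x, (t (π x) = t x ↔ (x ≠ u ∧ x ≠ v))
  · rw [if_pos h, if_pos (hiff.1 h)]
    rw [← Finset.prod_sdiff (Finset.subset_univ ({u, v} : Finset X))]
    have h1 : ∏ x ∈ ({u, v} : Finset X), (if x = u ∨ x = v then (1:ℝ) else 1 + θ x * sg (t x)) = 1 := by
      refine Finset.prod_eq_one fun x hx => ?_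
      rw [if_pos]; simpa using hx
    rw [h1, mul_one]
    refine Finset.prod_congr rfl fun x hx => ?_
    rw [if_neg (by simpa using hx), arrow_apply, sg_eq]
  · rw [if_neg h, if_neg (fun h' => h (hiff.2 h'))]

end Vale.Agent.P361.LRO.Loc
end

section

/-!
P361 LRO, block (4), final form: from `LocSame` and `LocNN` to windows of unit time length.
-/

namespace Vale.Agent.P361.LRO

open Finset

noncomputable section

/-- number of entries of `L` touching `x` -/
def deg {V : Type} [DecidableEq V] (L : List (V × V)) (x : V) : ℕ :=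
  (L.filter fun e => e.1 = x ∨ e.2 = x).length

namespace Loc.Final

open Vale.Agent.P361.LRO.Loc

lemma pow_lower {p : ℝ} (h0 : 0 ≤ p) (h1 : p ≤ 1 / 4) (m : ℕ) :
    Real.exp (-(4 * p * m)) ≤ ((1 - p) / (1 + p)) ^ m := by
  have h2 : Real.exp (-(4 * p)) ≤ (1 - p) / (1 + p) := by
    have h3 : 1 + 4 * p ≤ Real.exp (4 * p) := by
      have := Real.add_one_le_exp (4 * p); linarith
    rw [Real.exp_neg, inv_eq_one_div, div_le_div_iff₀ (Real.exp_pos _) (by linarith)]
    nlinarith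
  calc Real.exp (-(4 * p * m)) = Real.exp (-(4 * p)) ^ m := by
        rw [← Real.exp_nat_mul]; ring_nf
    _ ≤ _ := pow_le_pow_left₀ (Real.exp_pos _).le h2 m

variable {V : Type} [Fintype V] [DecidableEq V]

lemma cc_comm' {X : Type} [Fintype X] [DecidableEq X] (μ : Equiv.Perm X → ℝ) (θ : X → ℝ)
    (u v : X) : cc μ θ u v = cc μ θ v u := by
  unfold cc
  congr 2
  funext π s
  exact mul_comm _ _

lemma countP_le {L : List (V × V)} (hL : ∀ x, deg L x ≤ 6) (x : V) :
    (L.countP fun e => e.1 = x ∨ e.2 = x) ≤ 6 := by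
  rw [List.countP_eq_length_filter]
  exact hL x

lemma th_mem {β : ℝ} {N : ℕ} (h1 : 1 ≤ β) (hN : 8 * β ≤ N) {h T : V → ℝ}
    (hh : ∀ x, 0 ≤ h x ∧ h x ≤ 1) (hT : ∀ x, 0 ≤ T x ∧ T x ≤ 1) (z : Fin (N + 1) × V) :
    0 ≤ th β N h T z ∧ th β N h T z ≤ 1 := by
  have hN0 : (0 : ℝ) < N := by linarith
  unfold th
  split_ifs
  · exact hT _
  · refine ⟨div_nonneg (mul_nonneg (by linarith) (hh _).1) (by linarith), ?_⟩
    rw [div_le_one (by linarith)]
    nlinarith [(hh z.2).2, (hh z.2).1]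

lemma th_le {β : ℝ} {N : ℕ} (h1 : 1 ≤ β) (hN : 8 * β ≤ N) {h T : V → ℝ}
    (hh : ∀ x, 0 ≤ h x ∧ h x ≤ 1) {k i : Fin (N + 1)} (hi : k < i) (x : V) :
    th β N h T (i, x) ≤ β / (2 * N) := by
  have hN0 : (0 : ℝ) < N := by linarith
  unfold th
  have : i ≠ 0 := fun h => absurd hi (by rw [h]; exact Fin.not_lt_zero k)
  rw [if_neg this]
  refine div_le_div_of_nonneg_right ?_ (by linarith)
  nlinarith [(hh x).2]

lemma th_eq {β : ℝ} {N : ℕ} {h T : V → ℝ} {k i : Fin (N + 1)} (hi : k < i) (x : V) :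
    th β N h T (i, x) = β * h x / (2 * N) := by
  unfold th
  have : i ≠ 0 := fun h => absurd hi (by rw [h]; exact Fin.not_lt_zero k)
  rw [if_neg this]

lemma same (hS : ∀ L : List (V × V), LocSame V L 6) (L : List (V × V))
    (hL : ∀ x, deg L x ≤ 6) {β : ℝ} (h1 : 1 ≤ β) {N : ℕ} (hN : 8 * β ≤ N) {h T : V → ℝ}
    (hh : ∀ x, 0 ≤ h x ∧ h x ≤ 1) (hT : ∀ x, 0 ≤ T x ∧ T x ≤ 1)
    (k k' : Fin (N + 1)) (x : V) (hk : k < k') (ht : ((k' : ℝ) - (k : ℝ)) * β / N ≤ 1) :
    Real.exp (-26) / 64 * (th β N h T (k, x) * th β N h T (k', x)) ≤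
      cc (phys L β N) (th β N h T) (k, x) (k', x) := by
  have hN0 : (0 : ℝ) < N := by linarith
  have hβ0 : (0 : ℝ) < β := by linarith
  set p : ℝ := β / (2 * N) with hp
  have hp0 : 0 ≤ p := by positivity
  have hp1 : p ≤ 1 / 16 := by
    rw [hp, div_le_div_iff₀ (by positivity) (by norm_num)]
    linarith
  have hθ := th_mem h1 hN hh hT
  have key := hS L β N hβ0 (by linarith) (countP_le hL) (th β N h T) hθ x k k' p hp0
    (by linarith) hk (fun i hi _ => th_le h1 hN hh hi x)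
  rw [cc_comm']
  refine le_trans ?_ key
  rw [← pow_add]
  have hkk : (k : ℕ) ≤ (k' : ℕ) := le_of_lt hk
  set n : ℕ := (k' : ℕ) - (k : ℕ) with hn
  have hnr : (n : ℝ) = (k' : ℝ) - (k : ℝ) := by rw [hn]; push_cast [hkk]; ring
  have hpn : 2 * p * n ≤ 1 := by
    rw [hnr, hp]
    refine le_trans (le_of_eq ?_) ht
    field_simp
  have hpow := pow_lower hp0 (by linarith) (6 * n + n)
  have hexp : Real.exp (-26) ≤ Real.exp (-(4 * p * ((6 * n + n : ℕ) : ℝ))) := by
    apply Real.exp_le_exp.2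
    push_cast
    nlinarith
  have hab : 0 ≤ th β N h T (k', x) * th β N h T (k, x) := mul_nonneg (hθ _).1 (hθ _).1
  have e0 : Real.exp (-26) / 64 ≤ 1 / 4 * ((1 - p) / (1 + p)) ^ (6 * n + n) := by
    have := Real.exp_pos (-26)
    linarith [hexp.trans hpow]
  calc Real.exp (-26) / 64 * (th β N h T (k, x) * th β N h T (k', x))
      = (th β N h T (k', x) * th β N h T (k, x)) * (Real.exp (-26) / 64) := by ring
    _ ≤ _ := mul_le_mul_of_nonneg_left e0 hab

lemma nn (hS : ∀ L : List (V × V), LocNN V L 6) (L : List (V × V))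
    (hL : ∀ x, deg L x ≤ 6) {β : ℝ} (h1 : 1 ≤ β) {N : ℕ} (hN : 8 * β ≤ N) {h T : V → ℝ}
    (hh : ∀ x, 0 ≤ h x ∧ h x ≤ 1) (hT : ∀ x, 0 ≤ T x ∧ T x ≤ 1)
    (k k' : Fin (N + 1)) (x y : V) (hk : k < k') (ht : ((k' : ℝ) - (k : ℝ)) * β / N ≤ 1)
    (ht' : 1 / 4 ≤ ((k' : ℝ) - (k : ℝ)) * β / N) (hxy : (x, y) ∈ L ∨ (y, x) ∈ L) (hne : x ≠ y) :
    Real.exp (-26) / 64 * (th β N h T (k, x) * th β N h T (k', y)) ≤
      cc (phys L β N) (th β N h T) (k, x) (k', y) := by
  have hN0 : (0 : ℝ) < N := by linarith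
  have hβ0 : (0 : ℝ) < β := by linarith
  set p : ℝ := β / (2 * N) with hp
  have hp0 : 0 ≤ p := by positivity
  have hp1 : p ≤ 1 / 16 := by
    rw [hp, div_le_div_iff₀ (by positivity) (by norm_num)]
    linarith
  have hθ := th_mem h1 hN hh hT
  have key := hS L β N hβ0 (by linarith) (countP_le hL) (th β N h T) hθ y x k k' p hne.symm
    (hxy.symm) hp0 (by linarith) hk (fun i hi _ => ⟨th_le h1 hN hh hi y, th_le h1 hN hh hi x⟩)
  rw [cc_comm']
  refine le_trans ?_ key
  rw [← pow_add]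
  have hkk : (k : ℕ) ≤ (k' : ℕ) := le_of_lt hk
  set n : ℕ := (k' : ℕ) - (k : ℕ) with hn
  have hnr : (n : ℝ) = (k' : ℝ) - (k : ℝ) := by rw [hn]; push_cast [hkk]; ring
  have e2 : 2 * p * n = ((k' : ℝ) - (k : ℝ)) * β / N := by
    rw [hnr, hp]
    field_simp
  have hpn : 2 * p * n ≤ 1 := by rw [e2]; exact ht
  have hpn' : 1 / 4 ≤ 2 * p * n := by rw [e2]; exact ht'
  have hpow := pow_lower hp0 (by linarith) (2 * 6 * n + n)
  have hexp : Real.exp (-26) ≤ Real.exp (-(4 * p * ((2 * 6 * n + n : ℕ) : ℝ))) := by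
    apply Real.exp_le_exp.2
    push_cast
    nlinarith
  have hab : 0 ≤ th β N h T (k', y) * th β N h T (k, x) := mul_nonneg (hθ _).1 (hθ _).1
  have hE := Real.exp_pos (-26)
  have e0 : Real.exp (-26) / 64 ≤
      1 / 8 * (p * (n : ℝ)) * ((1 - p) / (1 + p)) ^ (2 * 6 * n + n) := by
    have h3 : 1 / 64 ≤ 1 / 8 * (p * (n : ℝ)) := by linarith
    calc Real.exp (-26) / 64 = 1 / 64 * Real.exp (-26) := by ring
      _ ≤ 1 / 8 * (p * (n : ℝ)) * ((1 - p) / (1 + p)) ^ (2 * 6 * n + n) :=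
        mul_le_mul h3 (hexp.trans hpow) hE.le (by linarith)
  calc Real.exp (-26) / 64 * (th β N h T (k, x) * th β N h T (k', y))
      = (th β N h T (k', y) * th β N h T (k, x)) * (Real.exp (-26) / 64) := by ring
    _ ≤ _ := mul_le_mul_of_nonneg_left e0 hab

end Loc.Final

theorem loc_of (hS : ∀ (V : Type) [Fintype V] [DecidableEq V] (L : List (V × V)),
      Loc.LocSame V L 6)
    (hNN : ∀ (V : Type) [Fintype V] [DecidableEq V] (L : List (V × V)), Loc.LocNN V L 6) :
    ∃ c0 : ℝ, 0 < c0 ∧ ∀ {V : Type} [Fintype V] [DecidableEq V] (L : List (V × V)),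
    (∀ x, deg L x ≤ 6) → ∀ (β : ℝ), 1 ≤ β → ∀ N : ℕ, 8 * β ≤ N → ∀ h T : V → ℝ,
    (∀ x, 0 ≤ h x ∧ h x ≤ 1) → (∀ x, 0 ≤ T x ∧ T x ≤ 1) →
    (∀ (k k' : Fin (N + 1)) (x : V), 0 < k → k < k' → ((k' : ℝ) - (k : ℝ)) * β / N ≤ 1 →
      c0 * (β * h x / (2 * N)) ^ 2 ≤ cc (phys L β N) (th β N h T) (k, x) (k', x)) ∧
    (∀ (k k' : Fin (N + 1)) (x y : V), 0 < k → k < k' → 1 / 4 ≤ ((k' : ℝ) - (k : ℝ)) * β / N →
      ((k' : ℝ) - (k : ℝ)) * β / N ≤ 1 → ((x, y) ∈ L ∨ (y, x) ∈ L) → x ≠ y →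
      c0 * (β * h x / (2 * N)) * (β * h y / (2 * N)) ≤
        cc (phys L β N) (th β N h T) (k, x) (k', y)) ∧
    (∀ (k : Fin (N + 1)) (x : V), 0 < k → (k : ℝ) * β / N ≤ 1 →
      c0 * T x * (β * h x / (2 * N)) ≤ cc (phys L β N) (th β N h T) (0, x) (k, x)) := by
  refine ⟨Real.exp (-26) / 64, by positivity, ?_⟩
  intro V _ _ L hL β h1 N hN h T hh hT
  refine ⟨?_, ?_, ?_⟩
  · intro k k' x hk hkk ht
    have := Loc.Final.same (hS V) L hL h1 hN hh hT k k' x hkk ht
    rw [Loc.Final.th_eq hk, Loc.Final.th_eq hkk] at this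
    refine le_trans (le_of_eq ?_) this
    ring
  · intro k k' x y hk hkk ht' ht hxy hne
    have := Loc.Final.nn (hNN V) L hL h1 hN hh hT k k' x y hkk ht ht' hxy hne
    rw [Loc.Final.th_eq hk, Loc.Final.th_eq hkk] at this
    refine le_trans (le_of_eq ?_) this
    ring
  · intro k x hk ht
    have := Loc.Final.same (hS V) L hL h1 hN hh hT 0 k x hk (by
      have e : (((0 : Fin (N + 1)) : ℕ) : ℝ) = 0 := by simp
      rw [e, sub_zero]; exact ht)
    rw [Loc.Final.th_eq hk] at this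
    refine le_trans (le_of_eq ?_) this
    simp only [th, if_true]
    ring

end

end Vale.Agent.P361.LRO
end

section

/-!
P361, low-temperature order, block LOC (4): the charge law is an electrical network.
-/

namespace Vale.Agent.P361.LRO.Loc

open Finset Vale.Agent.P361.LRO

noncomputable section

variable {X : Type} [Fintype X] [DecidableEq X]

omit [Fintype X] [DecidableEq X] in
theorem Pr_of_law {l : List (X × X × ℝ)} (hl : ∀ g ∈ l, 0 ≤ g.2.2 ∧ g.2.2 ≤ 1 / 2) : Pr l :=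
  fun g hg => ⟨(hl g hg).1, by linarith [(hl g hg).2]⟩

theorem law_nonneg_of_Pr {l : List (X × X × ℝ)} (hl : Pr l) (σ π : Equiv.Perm X) : 0 ≤ law l σ π := by
  induction l generalizing π with
  | nil =>
    simp only [law, Pi.single_apply]
    split_ifs <;> norm_num
  | cons g l ih =>
    have hp := hl.head
    simp only [law]
    exact add_nonneg (mul_nonneg (by linarith [hp.2]) (ih hl.tail _))
      (mul_nonneg hp.1 (ih hl.tail _))

theorem law_sum_one (l : List (X × X × ℝ)) (σ : Equiv.Perm X) : ∑ π, law l σ π = 1 := by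
  have h := sum_law σ l (fun _ => 1)
  simp only [mul_one] at h
  rw [h]
  induction l with
  | nil => rfl
  | cons g l ih =>
    simp only [EL]
    rw [ih (by rw [← sum_law]; simp)]
    ring

theorem isLaw_nonneg {μ : Equiv.Perm X → ℝ} (h : IsLaw μ) (π : Equiv.Perm X) : 0 ≤ μ π := by
  obtain ⟨l, σ, hl, rfl⟩ := h
  exact law_nonneg_of_Pr (Pr_of_law hl) σ π

theorem isLaw_sum_one {μ : Equiv.Perm X → ℝ} (h : IsLaw μ) : ∑ π, μ π = 1 := by
  obtain ⟨l, σ, hl, rfl⟩ := h
  exact law_sum_one l σ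

theorem ZZ_eq (hF : FourierStmt) (μ : Equiv.Perm X → ℝ) (θ : X → ℝ) :
    ZZ μ θ = ∑ π, μ π * Zp π θ := by
  unfold ZZ
  refine Finset.sum_congr rfl fun π _ => ?_
  rw [← (hF X π θ).1, Finset.mul_sum]

theorem ZZ_pos (hF : FourierStmt) (hR : RingStmt) {μ : Equiv.Perm X → ℝ} (hμ : IsLaw μ)
    {θ : X → ℝ} (hθ : ∀ x, 0 ≤ θ x ∧ θ x ≤ 1) : 0 < ZZ μ θ := by
  rw [ZZ_eq hF]
  have h1 : ∃ π ∈ (Finset.univ : Finset (Equiv.Perm X)), μ π ≠ 0 := by
    apply Finset.exists_ne_zero_of_sum_ne_zero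
    rw [isLaw_sum_one hμ]
    norm_num
  obtain ⟨π, _, hπ⟩ := h1
  exact Finset.sum_pos' (fun π _ => mul_nonneg (isLaw_nonneg hμ π) ((hR X π θ hθ).1).le)
    ⟨π, Finset.mem_univ π,
      mul_pos (lt_of_le_of_ne (isLaw_nonneg hμ π) (Ne.symm hπ)) (hR X π θ hθ).1⟩

theorem cc_eq_Zf (hF : FourierStmt) (μ : Equiv.Perm X → ℝ) (θ : X → ℝ) {u v : X} (huv : u ≠ v) :
    cc μ θ u v = (∑ π, μ π * (θ u * θ v * Zf π θ u v)) / ZZ μ θ := by
  unfold cc EE
  rw [← neg_div]
  congr 1
  rw [← Finset.sum_neg_distrib]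
  refine Finset.sum_congr rfl fun π _ => ?_
  rw [← (hF X π θ).2.1 u v huv, mul_neg, Finset.mul_sum]
  congr 1
  refine Finset.sum_congr rfl fun s _ => ?_
  ring

omit [DecidableEq X] in
theorem jj_sum (π : Equiv.Perm X) (s : X → Fin 2) : ∑ x, jj π s x = 0 := by
  unfold jj
  rw [Finset.sum_sub_distrib, sub_eq_zero]
  exact (Equiv.sum_comp π fun x => ((s x : ℕ) : ℝ)).symm

theorem sq_eq_pairs (a j : X → ℝ) (hj : ∑ x, j x = 0) :
    (∑ x, a x * j x) ^ 2 =
      -((1 / 2) * ∑ u, ∑ v ∈ Finset.univ.erase u, (j u * j v) * (a u - a v) ^ 2) := by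
  have h1 : ∀ u, ∑ v ∈ Finset.univ.erase u, (j u * j v) * (a u - a v) ^ 2 =
      ∑ v, (j u * j v) * (a u - a v) ^ 2 := by
    intro u
    rw [← Finset.add_sum_erase Finset.univ _ (Finset.mem_univ u)]
    simp
  simp_rw [h1]
  have h2 : ∀ u v, (j u * j v) * (a u - a v) ^ 2 =
      (a u ^ 2 * j u) * j v - 2 * ((a u * j u) * (a v * j v)) + j u * (a v ^ 2 * j v) := by
    intro u v; ring
  simp_rw [h2, Finset.sum_add_distrib, Finset.sum_sub_distrib, ← Finset.mul_sum, hj,
    ← Finset.sum_mul, hj]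
  ring

theorem EE_add (μ : Equiv.Perm X → ℝ) (θ : X → ℝ) (f g : Equiv.Perm X → (X → Fin 2) → ℝ) :
    EE μ θ (fun π s => f π s + g π s) = EE μ θ f + EE μ θ g := by
  unfold EE
  rw [← add_div]
  congr 1
  simp only [mul_add, Finset.sum_add_distrib]

theorem EE_mul (μ : Equiv.Perm X → ℝ) (θ : X → ℝ) (c : ℝ)
    (f : Equiv.Perm X → (X → Fin 2) → ℝ) :
    EE μ θ (fun π s => c * f π s) = c * EE μ θ f := by
  unfold EE
  rw [← mul_div_assoc]
  congr 1
  simp only [Finset.mul_sum]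
  refine Finset.sum_congr rfl fun π _ => Finset.sum_congr rfl fun s _ => ?_
  ring

theorem EE_zero (μ : Equiv.Perm X → ℝ) (θ : X → ℝ) :
    EE μ θ (fun _ _ => 0) = 0 := by
  simp [EE]

theorem EE_sum (μ : Equiv.Perm X → ℝ) (θ : X → ℝ) {ι : Type*} (t : Finset ι)
    (f : ι → Equiv.Perm X → (X → Fin 2) → ℝ) :
    EE μ θ (fun π s => ∑ i ∈ t, f i π s) = ∑ i ∈ t, EE μ θ (f i) := by
  classical
  induction t using Finset.induction_on with
  | empty => simp [EE_zero]
  | insert i t hi ih =>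
    simp only [Finset.sum_insert hi]
    rw [EE_add, ih]

theorem cc_symm (μ : Equiv.Perm X → ℝ) (θ : X → ℝ) (u v : X) : cc μ θ u v = cc μ θ v u := by
  unfold cc
  simp only [mul_comm (jj _ _ u)]

theorem cc_sum (μ : Equiv.Perm X → ℝ) (θ : X → ℝ) (u : X) :
    ∑ v ∈ univ.erase u, cc μ θ u v = vv μ θ u := by
  unfold cc vv
  rw [Finset.sum_neg_distrib, ← EE_sum]
  have h : ∀ (π : Equiv.Perm X) (s : X → Fin 2),
      ∑ v ∈ univ.erase u, jj π s u * jj π s v = (-1) * jj π s u ^ 2 := by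
    intro π s
    have h1 := jj_sum π s
    rw [← Finset.add_sum_erase Finset.univ _ (Finset.mem_univ u)] at h1
    rw [← Finset.mul_sum]
    have h2 : ∑ v ∈ univ.erase u, jj π s v = - jj π s u := by linarith
    rw [h2]
    ring
  simp_rw [h]
  rw [EE_mul]
  ring

theorem KK_eq (μ : Equiv.Perm X → ℝ) (θ : X → ℝ) (a : X → ℝ) :
    KK μ θ a = (1 / 2) * ∑ u, ∑ v ∈ univ.erase u, cc μ θ u v * (a u - a v) ^ 2 := by
  unfold KK
  have h : ∀ (π : Equiv.Perm X) (s : X → Fin 2), (∑ x, a x * jj π s x) ^ 2 =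
      (-(1 / 2)) * ∑ u, ∑ v ∈ univ.erase u, ((a u - a v) ^ 2) * (jj π s u * jj π s v) := by
    intro π s
    rw [sq_eq_pairs a _ (jj_sum π s)]
    rw [neg_mul]
    congr 2
    refine Finset.sum_congr rfl fun u _ => Finset.sum_congr rfl fun v _ => ?_
    ring
  simp_rw [h]
  rw [EE_mul, EE_sum]
  simp_rw [EE_sum, EE_mul]
  rw [neg_mul, ← mul_neg, ← Finset.sum_neg_distrib]
  congr 1
  refine Finset.sum_congr rfl fun u _ => ?_
  rw [← Finset.sum_neg_distrib]
  refine Finset.sum_congr rfl fun v _ => ?_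
  unfold cc
  ring

omit [Fintype X] [DecidableEq X] in
theorem jj_sq (π : Equiv.Perm X) (s : X → Fin 2) (u : X) :
    jj π s u ^ 2 = if s u = s (π u) then 0 else 1 := by
  unfold jj
  generalize s u = a
  generalize s (π u) = b
  fin_cases a <;> fin_cases b <;> simp

theorem node_le (π : Equiv.Perm X) {θ : X → ℝ} (hθ : ∀ x, 0 ≤ θ x ∧ θ x ≤ 1) (u : X) :
    (∑ t : X → Fin 2, if (∀ x, t (π x) = t x) then
        ∏ x, (if x = u then sg (t x) else 1 + θ x * sg (t x)) else 0) ≤ Zp π θ := by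
  unfold Zp
  refine Finset.sum_le_sum fun t _ => ?_
  by_cases hq : ∀ x, t (π x) = t x
  · rw [if_pos hq, if_pos hq]
    rw [← Finset.mul_prod_erase Finset.univ _ (Finset.mem_univ u),
      ← Finset.mul_prod_erase Finset.univ (fun x => 1 + θ x * sg (t x)) (Finset.mem_univ u)]
    rw [if_pos rfl]
    have h1 : ∏ x ∈ univ.erase u, (if x = u then sg (t x) else 1 + θ x * sg (t x)) =
        ∏ x ∈ univ.erase u, (1 + θ x * sg (t x)) := by
      refine Finset.prod_congr rfl fun x hx => ?_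
      rw [if_neg (Finset.ne_of_mem_erase hx)]
    rw [h1]
    have hsg : ∀ a : Fin 2, sg a = 1 ∨ sg a = -1 := by
      intro a
      fin_cases a <;> simp [sg]
    refine mul_le_mul_of_nonneg_right ?_ (Finset.prod_nonneg fun x _ => ?_)
    · have := hθ u
      rcases hsg (t u) with h | h <;> rw [h] <;> linarith [this.1, this.2]
    · have := hθ x
      rcases hsg (t x) with h | h <;> rw [h] <;> linarith [this.1, this.2]
  · rw [if_neg hq, if_neg hq]

theorem vv_le (hF : FourierStmt) (hR : RingStmt) {μ : Equiv.Perm X → ℝ} (hμ : IsLaw μ)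
    {θ : X → ℝ} (hθ : ∀ x, 0 ≤ θ x ∧ θ x ≤ 1) (u : X) : vv μ θ u ≤ θ u := by
  have hZ := ZZ_pos hF hR hμ hθ
  unfold vv EE
  rw [div_le_iff₀ hZ, ZZ_eq hF, Finset.mul_sum]
  refine Finset.sum_le_sum fun π _ => ?_
  have h1 : ∑ s, μ π * wt θ π s * jj π s u ^ 2 =
      μ π * ∑ s, (if s u = s (π u) then 0 else wt θ π s) := by
    rw [Finset.mul_sum]
    refine Finset.sum_congr rfl fun s _ => ?_
    rw [jj_sq]
    split_ifs <;> ring
  rw [h1, (hF X π θ).2.2 u]
  have h2 := node_le π hθ u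
  have h3 := mul_le_mul_of_nonneg_left h2 (mul_nonneg (isLaw_nonneg hμ π) (hθ u).1)
  calc μ π * (θ u * ∑ t : X → Fin 2, if (∀ x, t (π x) = t x) then
        ∏ x, (if x = u then sg (t x) else 1 + θ x * sg (t x)) else 0)
      = μ π * θ u * ∑ t : X → Fin 2, (if (∀ x, t (π x) = t x) then
        ∏ x, (if x = u then sg (t x) else 1 + θ x * sg (t x)) else 0) := by ring
    _ ≤ μ π * θ u * Zp π θ := h3
    _ = θ u * (μ π * Zp π θ) := by ring

theorem netStmt (hF : FourierStmt) (hR : RingStmt) (hA : ArcStmt) : NetStmt := by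
  intro X _ _ μ hμ θ hθ
  have hZ := ZZ_pos hF hR hμ hθ
  refine ⟨hZ, ?_, cc_symm μ θ, cc_sum μ θ, KK_eq μ θ, vv_le hF hR hμ hθ⟩
  intro u v huv
  rw [cc_eq_Zf hF μ θ huv]
  refine div_nonneg (Finset.sum_nonneg fun π _ => ?_) hZ.le
  exact mul_nonneg (isLaw_nonneg hμ π)
    (mul_nonneg (mul_nonneg (hθ u).1 (hθ v).1) (hA X π θ hθ u v huv).1)

end

end Vale.Agent.P361.LRO.Loc
end

section

/-! P361 LRO, dictionary: thermal ratios with an extra slice, and the statement of the limit of the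
magnetisation at the nodes of the circuit. -/

namespace Vale.Agent.P361.LRO

open Finset Matrix

noncomputable section

variable {V : Type} [Fintype V] [DecidableEq V]

/-- The extra slice `∏ (1 + T_x σ³_x)`. -/
def layT (T : V → ℝ) : Matrix (V → Fin 2) (V → Fin 2) ℝ :=
  Matrix.diagonal fun σ => ∏ x, (1 + T x * (if σ x = 0 then 1 else -1))

/-- The magnetisation at `x` at time `t` (`s + t = β`) with the extra slice `T` at time `0`. -/
def mT (L : List (V × V)) (h T : V → ℝ) (s t : ℝ) (x : V) : ℝ :=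
  trace (layT T * NormedSpace.exp (-s • ham L h) * szM x * NormedSpace.exp (-t • ham L h)) /
    trace (layT T * NormedSpace.exp (-s • ham L h) * NormedSpace.exp (-t • ham L h))

/-- (D3) The limit of the magnetisation at the nodes, uniformly in the fields. -/
def MagLim (L : List (V × V)) (β : ℝ) : Prop :=
  ∃ (C : ℝ) (N0 : ℕ), ∀ N : ℕ, N0 ≤ N → ∀ h T : V → ℝ, (∀ x, 0 ≤ h x ∧ h x ≤ 1) →
    (∀ x, 0 ≤ T x ∧ T x ≤ 1) → ∀ z : Fin (N + 1) × V, z.1 ≠ 0 →
      |mag (phys L β N) (th β N h T) z -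
        mT L h T (β * (1 - ((z.1 : ℕ) : ℝ) / N)) (β * (((z.1 : ℕ) : ℝ) / N)) z.2| ≤ C / N

end

end Vale.Agent.P361.LRO
end

section

/-!
P361, step (5): the extra slice `T` changes the density of down spins by a bounded factor only
(Jensen).
-/

namespace Vale.Agent.P361.LRO

open Finset Matrix

theorem tilt_gen {Ω : Type*} [Fintype Ω] (w f N : Ω → ℝ) (hw : ∀ ω, 0 ≤ w ω)
    (hf : ∀ ω, 0 ≤ f ω) (hN : ∀ ω, 0 ≤ N ω) {k : ℝ} (hk : 0 ≤ k) (hW : 0 < ∑ ω, w ω) :
    (∑ ω, w ω * Real.exp (-(k * N ω)) * f ω) / (∑ ω, w ω * Real.exp (-(k * N ω))) ≤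
      Real.exp (k * ((∑ ω, w ω * N ω) / ∑ ω, w ω)) * ((∑ ω, w ω * f ω) / ∑ ω, w ω) := by
  set W := ∑ ω, w ω with hWd
  set m := (∑ ω, w ω * N ω) / W with hm
  -- Jensen
  have hJ : W * Real.exp (-(k * m)) ≤ ∑ ω, w ω * Real.exp (-(k * N ω)) := by
    have h1 : ∀ ω, w ω * (Real.exp (-(k * m)) * (1 + (k * m - k * N ω))) ≤
        w ω * Real.exp (-(k * N ω)) := by
      intro ω
      refine mul_le_mul_of_nonneg_left ?_ (hw ω)
      have h2 := Real.add_one_le_exp (k * m - k * N ω)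
      have h3 : Real.exp (-(k * N ω)) = Real.exp (-(k * m)) * Real.exp (k * m - k * N ω) := by
        rw [← Real.exp_add]; congr 1; ring
      rw [h3]
      exact mul_le_mul_of_nonneg_left (by linarith) (Real.exp_pos _).le
    have h4 := Finset.sum_le_sum fun ω (_ : ω ∈ (univ : Finset Ω)) => h1 ω
    have h5 : ∑ ω, w ω * (Real.exp (-(k * m)) * (1 + (k * m - k * N ω))) =
        W * Real.exp (-(k * m)) := by
      have h6 : ∀ ω, w ω * (Real.exp (-(k * m)) * (1 + (k * m - k * N ω))) =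
          Real.exp (-(k * m)) * ((1 + k * m) * w ω - k * (w ω * N ω)) := fun ω => by ring
      rw [Finset.sum_congr rfl fun ω _ => h6 ω, ← Finset.mul_sum, Finset.sum_sub_distrib,
        ← Finset.mul_sum, ← Finset.mul_sum]
      have h7 : ∑ ω, w ω * N ω = m * W := by
        rw [hm, div_mul_cancel₀ _ hW.ne']
      rw [h7, ← hWd]; ring
    rwa [h5] at h4
  have hD : 0 < ∑ ω, w ω * Real.exp (-(k * N ω)) :=
    lt_of_lt_of_le (mul_pos hW (Real.exp_pos _)) hJ
  have hnum : ∑ ω, w ω * Real.exp (-(k * N ω)) * f ω ≤ ∑ ω, w ω * f ω := by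
    refine Finset.sum_le_sum fun ω _ => ?_
    refine mul_le_mul_of_nonneg_right ?_ (hf ω)
    have : Real.exp (-(k * N ω)) ≤ 1 := Real.exp_le_one_iff.2 (by
      have := mul_nonneg hk (hN ω); linarith)
    calc w ω * Real.exp (-(k * N ω)) ≤ w ω * 1 := mul_le_mul_of_nonneg_left this (hw ω)
      _ = w ω := mul_one _
  have hF : 0 ≤ ∑ ω, w ω * f ω := Finset.sum_nonneg fun ω _ => mul_nonneg (hw ω) (hf ω)
  rw [div_le_iff₀ hD]
  calc ∑ ω, w ω * Real.exp (-(k * N ω)) * f ω ≤ ∑ ω, w ω * f ω := hnum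
    _ = Real.exp (k * m) * ((∑ ω, w ω * f ω) / W) * (W * Real.exp (-(k * m))) := by
        rw [Real.exp_neg]
        field_simp
    _ ≤ _ := mul_le_mul_of_nonneg_left hJ
        (mul_nonneg (Real.exp_pos _).le (div_nonneg hF hW.le))

variable {ι : Type*} [Fintype ι] [DecidableEq ι]

theorem trace_diag4 (e d : ι → ℝ) (A B : Matrix ι ι ℝ) :
    trace (diagonal e * A * diagonal d * B) = ∑ p : ι × ι, (A p.1 p.2 * B p.2 p.1) * e p.1 * d p.2 := by
  rw [Fintype.sum_prod_type, Matrix.trace]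
  refine Finset.sum_congr rfl fun i _ => ?_
  rw [Matrix.diag_apply, Matrix.mul_apply]
  refine Finset.sum_congr rfl fun j _ => ?_
  rw [Matrix.mul_diagonal, Matrix.diagonal_mul]
  ring

/-- Matrix form of the tilt bound: `A`, `B` entrywise nonnegative, `N` the number of down spins of
the block at the extra slice, `d` the observable at any other slice. -/
theorem tilt_matrix (A B : Matrix ι ι ℝ) (hA : ∀ i j, 0 ≤ A i j) (hB : ∀ i j, 0 ≤ B i j)
    (N d : ι → ℝ) (hN : ∀ i, 0 ≤ N i) (hd : ∀ i, 0 ≤ d i) {k : ℝ} (hk : 0 ≤ k)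
    (hAB : 0 < trace (A * B)) :
    trace (diagonal (fun i => Real.exp (-(k * N i))) * A * diagonal d * B) /
        trace (diagonal (fun i => Real.exp (-(k * N i))) * A * B) ≤
      Real.exp (k * (trace (diagonal N * A * B) / trace (A * B))) *
        (trace (A * diagonal d * B) / trace (A * B)) := by
  have h1 : ∀ e : ι → ℝ, trace (diagonal e * A * B) = ∑ p : ι × ι, (A p.1 p.2 * B p.2 p.1) * e p.1 := by
    intro e
    have := trace_diag4 e (fun _ => 1) A B
    rw [Matrix.diagonal_one, Matrix.mul_one] at this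
    rw [this]
    exact Finset.sum_congr rfl fun p _ => by ring
  have h2 : trace (A * B) = ∑ p : ι × ι, (A p.1 p.2 * B p.2 p.1) := by
    have := h1 (fun _ => 1)
    rw [Matrix.diagonal_one, Matrix.one_mul] at this
    rw [this]
    exact Finset.sum_congr rfl fun p _ => by ring
  have h3 : trace (A * diagonal d * B) = ∑ p : ι × ι, (A p.1 p.2 * B p.2 p.1) * d p.2 := by
    have := trace_diag4 (fun _ => 1) d A B
    rw [Matrix.diagonal_one, Matrix.one_mul] at this
    rw [this]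
    exact Finset.sum_congr rfl fun p _ => by ring
  rw [trace_diag4, h1, h1, h2, h3]
  have := tilt_gen (fun p : ι × ι => A p.1 p.2 * B p.2 p.1) (fun p => d p.2) (fun p => N p.1)
    (fun p => mul_nonneg (hA _ _) (hB _ _)) (fun p => hd _) (fun p => hN _) hk (by rwa [← h2])
  exact this

end Vale.Agent.P361.LRO
end

section

/-!
P361, step (5): lower bound for the magnetization in the presence of the extra slice `T`, in the
limit `N → ∞` and for the circuit (from the Trotter limit `D3`).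
-/

namespace Vale.Agent.P361.LRO

open Finset Matrix

noncomputable section

section Exp

variable {α : Type*} [Fintype α] [DecidableEq α]

theorem exp_entry_hasSum (A : Matrix α α ℝ) (a a' : α) :
    HasSum (fun m : ℕ => ((m.factorial : ℝ)⁻¹) * (A ^ m) a a') ((NormedSpace.exp A) a a') := by
  have h : HasSum (fun m : ℕ => ((m.factorial : ℝ)⁻¹) • A ^ m) (NormedSpace.exp A) := by
    open scoped Norms.Operator in exact NormedSpace.exp_series_hasSum_exp' A
  have h1 := Pi.hasSum.1 h a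
  have h2 := Pi.hasSum.1 h1 a'
  exact h2

theorem pow_entry_nonneg {A : Matrix α α ℝ} (h : ∀ a a', 0 ≤ A a a') (m : ℕ) (a a' : α) :
    0 ≤ (A ^ m) a a' := by
  induction m generalizing a a' with
  | zero => rw [pow_zero, Matrix.one_apply]; split_ifs <;> norm_num
  | succ m ih =>
    rw [pow_succ, Matrix.mul_apply]
    exact sum_nonneg fun b _ => mul_nonneg (ih _ _) (h _ _)

theorem exp_entry_ge_one {A : Matrix α α ℝ} (h : ∀ a a', 0 ≤ A a a') (a a' : α) :
    (1 : Matrix α α ℝ) a a' ≤ (NormedSpace.exp A) a a' := by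
  have h1 := exp_entry_hasSum A a a'
  have h2 := le_hasSum h1 0 fun m _ => mul_nonneg (by positivity) (pow_entry_nonneg h m a a')
  simpa using h2

theorem exp_add_const (A : Matrix α α ℝ) (s : ℝ) :
    NormedSpace.exp (s • (1 : Matrix α α ℝ) + A) = Real.exp s • NormedSpace.exp A := by
  have hc : Commute (s • (1 : Matrix α α ℝ)) A := (Commute.one_left A).smul_left s
  rw [Matrix.exp_add_of_commute _ _ hc]
  have h1 : (s • (1 : Matrix α α ℝ)) = diagonal fun _ => s := by
    rw [Matrix.smul_one_eq_diagonal]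
  have h2 : NormedSpace.exp (fun _ : α => s) = fun _ => Real.exp s := by
    rw [Pi.exp_def]; funext i; rw [Real.exp_eq_exp_ℝ]
  rw [h1, Matrix.exp_diagonal, h2, ← Matrix.smul_one_eq_diagonal, Matrix.smul_mul, Matrix.one_mul]

/-- Exponentials of matrices with nonnegative off-diagonal entries. -/
theorem exp_offdiag {A : Matrix α α ℝ} (h : ∀ a a', a ≠ a' → 0 ≤ A a a') :
    (∀ a a', 0 ≤ NormedSpace.exp A a a') ∧ ∀ a, 0 < NormedSpace.exp A a a := by
  set c : ℝ := ∑ a, |A a a| with hc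
  have h1 : ∀ a a', 0 ≤ (c • (1 : Matrix α α ℝ) + A) a a' := by
    intro a a'
    rw [Matrix.add_apply, Matrix.smul_apply]
    by_cases e : a = a'
    · subst e
      rw [Matrix.one_apply_eq, smul_eq_mul, mul_one]
      have h4 : |A a a| ≤ c := Finset.single_le_sum (f := fun a => |A a a|)
        (fun a _ => abs_nonneg _) (Finset.mem_univ a)
      have h3 := neg_abs_le (A a a)
      linarith
    · rw [Matrix.one_apply_ne e, smul_zero, zero_add]
      exact h a a' e
  have h2 : NormedSpace.exp A = Real.exp (-c) • NormedSpace.exp (c • (1 : Matrix α α ℝ) + A) := by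
    rw [exp_add_const, smul_smul, ← Real.exp_add, neg_add_cancel, Real.exp_zero, one_smul]
  have h3 := exp_entry_ge_one h1
  constructor
  · intro a a'
    rw [h2, Matrix.smul_apply]
    refine mul_nonneg (Real.exp_pos _).le (le_trans ?_ (h3 a a'))
    rw [Matrix.one_apply]; split_ifs <;> norm_num
  · intro a
    rw [h2, Matrix.smul_apply]
    refine mul_pos (Real.exp_pos _) (lt_of_lt_of_le ?_ (h3 a a))
    rw [Matrix.one_apply_eq]; norm_num

end Exp

variable {V : Type} [Fintype V] [DecidableEq V]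

theorem hM_offdiag (x y : V) {σ τ : V → Fin 2} (hne : σ ≠ τ) : hM x y σ τ ≤ 0 := by
  unfold hM swapM
  rw [Matrix.smul_apply, Matrix.sub_apply, Matrix.one_apply_ne hne, Matrix.of_apply, smul_eq_mul]
  split_ifs <;> norm_num

theorem ham_offdiag (L : List (V × V)) (h : V → ℝ) {σ τ : V → Fin 2} (hne : σ ≠ τ) :
    ham L h σ τ ≤ 0 := by
  unfold ham
  rw [Matrix.sub_apply]
  have h1 : ∀ L : List (V × V), (L.map fun e => hM e.1 e.2).sum σ τ ≤ 0 := by
    intro L
    induction L with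
    | nil => simp
    | cons e L ih =>
      rw [List.map_cons, List.sum_cons, Matrix.add_apply]
      have := hM_offdiag e.1 e.2 hne
      linarith
  have h2 : (∑ x, (h x / 2) • szM x) σ τ = 0 := by
    rw [Matrix.sum_apply]
    refine Finset.sum_eq_zero fun x _ => ?_
    rw [Matrix.smul_apply, szM, Matrix.diagonal_apply_ne _ hne, smul_zero]
  rw [h2, sub_zero]
  exact h1 L

theorem exp_ham (L : List (V × V)) (h : V → ℝ) {s : ℝ} (hs : 0 ≤ s) :
    (∀ σ τ, 0 ≤ NormedSpace.exp (-s • ham L h) σ τ) ∧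
      ∀ σ, 0 < NormedSpace.exp (-s • ham L h) σ σ := by
  refine exp_offdiag fun σ τ hne => ?_
  rw [Matrix.smul_apply, smul_eq_mul]
  have := ham_offdiag L h hne
  nlinarith

/-- Number of down spins in `b`. -/
def nb (b : Finset V) (σ : V → Fin 2) : ℝ := ∑ x ∈ b, if σ x = 0 then 0 else 1

omit [Fintype V] [DecidableEq V] in
theorem nb_nonneg (b : Finset V) (σ : V → Fin 2) : 0 ≤ nb b σ :=
  Finset.sum_nonneg fun x _ => by split_ifs <;> norm_num

theorem one_sub_tanh (u : ℝ) : 1 - Real.tanh u = (1 + Real.tanh u) * Real.exp (-(2 * u)) := by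
  rw [Real.tanh_eq_sinh_div_cosh]
  have hc : Real.cosh u ≠ 0 := (Real.cosh_pos u).ne'
  have h1 : (1 + Real.sinh u / Real.cosh u) = Real.exp u / Real.cosh u := by
    rw [← Real.cosh_add_sinh]; field_simp
  have h2 : (1 - Real.sinh u / Real.cosh u) = Real.exp (-u) / Real.cosh u := by
    rw [← Real.cosh_sub_sinh]; field_simp
  rw [h1, h2, div_mul_eq_mul_div, ← Real.exp_add]
  congr 2
  ring

theorem layT_blk (K : ℝ) (b : Finset V) (hb : b.Nonempty) :
    layT (blk K b) = (1 + Real.tanh (K / (2 * b.card))) ^ b.card •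
      diagonal fun σ => Real.exp (-(K / b.card * nb b σ)) := by
  have hb0 : (b.card : ℝ) ≠ 0 := by exact_mod_cast hb.card_pos.ne'
  set θ := Real.tanh (K / (2 * b.card)) with hθ
  have h1 : 1 - θ = (1 + θ) * Real.exp (-(K / b.card)) := by
    rw [hθ, one_sub_tanh]
    congr 2
    field_simp
  unfold layT
  rw [← Matrix.diagonal_smul]
  congr 1
  funext σ
  rw [Pi.smul_apply, smul_eq_mul]
  have h2 : ∀ x, (1 + blk K b x * (if σ x = 0 then (1 : ℝ) else -1)) =
      if x ∈ b then (1 + θ) * Real.exp (-(K / b.card * if σ x = 0 then 0 else 1)) else 1 := by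
    intro x
    unfold blk
    by_cases hx : x ∈ b
    · rw [if_pos hx, if_pos hx]
      by_cases h3 : σ x = 0
      · rw [if_pos h3, if_pos h3, mul_one, mul_zero, neg_zero, Real.exp_zero, mul_one]
      · rw [if_neg h3, if_neg h3, mul_one, ← h1]; ring
    · rw [if_neg hx, if_neg hx]; ring
  rw [Finset.prod_congr rfl fun x _ => h2 x, Finset.prod_ite_mem, Finset.univ_inter,
    Finset.prod_mul_distrib, Finset.prod_const, ← Real.exp_sum]
  congr 2
  unfold nb
  rw [Finset.mul_sum, ← Finset.sum_neg_distrib]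

/-- projection on down at `x` -/
def dn (x : V) (σ : V → Fin 2) : ℝ := if σ x = 0 then 0 else 1

omit [DecidableEq V] in
theorem szM_eq (x : V) : szM x = 1 - (2 : ℝ) • diagonal (dn x) := by
  unfold szM dn
  rw [← Matrix.diagonal_one, ← Matrix.diagonal_smul, Matrix.diagonal_sub]
  congr 1
  funext σ
  rw [Pi.smul_apply, smul_eq_mul]
  split_ifs <;> norm_num

omit [DecidableEq V] in
theorem half_eq (x : V) : (1 / 2 : ℝ) • (1 - szM x) = diagonal (dn x) := by
  rw [szM_eq, sub_sub_cancel, smul_smul]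
  norm_num

theorem rho_eq (L : List (V × V)) (β : ℝ) (h : V → ℝ) (x : V) :
    rho L β h x = trace (NormedSpace.exp (-β • ham L h) * diagonal (dn x)) /
      trace (NormedSpace.exp (-β • ham L h)) := by
  unfold rho gib
  rw [half_eq]

theorem exp_split (L : List (V × V)) (h : V → ℝ) {s t β : ℝ} (e : s + t = β) :
    NormedSpace.exp (-s • ham L h) * NormedSpace.exp (-t • ham L h) =
      NormedSpace.exp (-β • ham L h) := by
  rw [← Matrix.exp_add_of_commute, ← add_smul]
  · congr 2; linarith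
  · exact ((Commute.refl (ham L h)).smul_left _).smul_right _

/-- Main bound in the limit `N = ∞`. -/
theorem mT_ge (L : List (V × V)) {β K η : ℝ} (h : V → ℝ) (b : Finset V) (hb : b.Nonempty)
    (hK : 0 ≤ K) {s t : ℝ} (hs : 0 ≤ s) (ht : 0 ≤ t) (e : s + t = β)
    (hr : ∀ x, rho L β h x ≤ η) (x : V) :
    1 - 2 * (Real.exp (K * η) * η) ≤ mT L h (blk K b) s t x := by
  have hb0 : (0 : ℝ) < b.card := by exact_mod_cast hb.card_pos
  set A := NormedSpace.exp (-s • ham L h) with hA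
  set B := NormedSpace.exp (-t • ham L h) with hB
  set k := K / (b.card : ℝ) with hk
  have hk0 : 0 ≤ k := div_nonneg hK hb0.le
  have hA0 := exp_ham L h hs
  have hB0 := exp_ham L h ht
  rw [← hA] at hA0
  rw [← hB] at hB0
  have hβ : 0 ≤ β := by linarith
  have hE0 := exp_ham L h hβ
  set c := (1 + Real.tanh (K / (2 * b.card))) ^ b.card with hc
  have hc0 : 0 < c := pow_pos (by have := Real.neg_one_lt_tanh (K / (2 * b.card)); linarith) _
  set D := diagonal fun σ : V → Fin 2 => Real.exp (-(k * nb b σ)) with hD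
  have hlay : layT (blk K b) = c • D := layT_blk K b hb
  -- positivity
  have hpos : 0 < trace (D * A * B) := by
    have := trace_diag4 (fun σ : V → Fin 2 => Real.exp (-(k * nb b σ))) (fun _ => 1) A B
    rw [Matrix.diagonal_one, Matrix.mul_one] at this
    rw [hD, this]
    refine Finset.sum_pos' (fun p _ => ?_) ⟨(fun _ => 0, fun _ => 0), Finset.mem_univ _, ?_⟩
    · exact mul_nonneg (mul_nonneg (mul_nonneg (hA0.1 _ _) (hB0.1 _ _)) (Real.exp_pos _).le)
        zero_le_one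
    · exact mul_pos (mul_pos (mul_pos (hA0.2 _) (hB0.2 _)) (Real.exp_pos _)) zero_lt_one
  have hAB : A * B = NormedSpace.exp (-β • ham L h) := exp_split L h e
  have hABpos : 0 < trace (A * B) := by
    rw [hAB]
    exact Finset.sum_pos (fun σ _ => hE0.2 σ) Finset.univ_nonempty
  -- the ratio
  have h1 : mT L h (blk K b) s t x =
      1 - 2 * (trace (D * A * diagonal (dn x) * B) / trace (D * A * B)) := by
    unfold mT
    rw [← hA, ← hB, hlay, szM_eq]
    have e1 : c • D * A * (1 - (2 : ℝ) • diagonal (dn x)) * B =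
        c • (D * A * B) - (2 * c) • (D * A * diagonal (dn x) * B) := by
      rw [Matrix.mul_sub, Matrix.sub_mul, Matrix.mul_one]
      simp only [Matrix.smul_mul, Matrix.mul_smul, smul_smul]
    have e2 : c • D * A * B = c • (D * A * B) := by simp only [Matrix.smul_mul]
    rw [e1, e2, Matrix.trace_sub, Matrix.trace_smul, Matrix.trace_smul, smul_eq_mul, smul_eq_mul]
    field_simp
  have h2 := tilt_matrix A B hA0.1 hB0.1 (nb b) (dn x) (nb_nonneg b)
    (fun σ => by unfold dn; split_ifs <;> norm_num) hk0 hABpos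
  have h3 : trace (A * diagonal (dn x) * B) / trace (A * B) = rho L β h x := by
    have e1 : B * A = A * B := by
      rw [hAB, hA, hB, exp_split L h (β := β) (by linarith)]
    rw [rho_eq, ← hAB, Matrix.trace_mul_comm (A * diagonal (dn x)) B, ← Matrix.mul_assoc, e1]
  have h4 : trace (diagonal (nb b) * A * B) / trace (A * B) ≤ b.card * η := by
    have e1 : diagonal (nb b) = ∑ y ∈ b, diagonal (dn y) := by
      ext σ τ
      rw [Matrix.sum_apply]
      by_cases hst : σ = τ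
      · subst hst
        simp only [Matrix.diagonal_apply_eq]
        rfl
      · simp only [Matrix.diagonal_apply_ne _ hst, Finset.sum_const_zero]
    have e2 : trace (diagonal (nb b) * A * B) = ∑ y ∈ b, trace (A * B * diagonal (dn y)) := by
      rw [Matrix.mul_assoc, e1, Finset.sum_mul, Matrix.trace_sum]
      exact Finset.sum_congr rfl fun y _ => Matrix.trace_mul_comm _ _
    rw [e2, Finset.sum_div]
    calc ∑ y ∈ b, trace (A * B * diagonal (dn y)) / trace (A * B) = ∑ y ∈ b, rho L β h y := by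
          refine Finset.sum_congr rfl fun y _ => ?_
          rw [rho_eq, hAB]
      _ ≤ ∑ _y ∈ b, η := Finset.sum_le_sum fun y _ => hr y
      _ = b.card * η := by rw [Finset.sum_const, nsmul_eq_mul]
  have h5 : 0 ≤ rho L β h x := by
    rw [← h3]
    refine div_nonneg ?_ hABpos.le
    have := trace_diag4 (fun _ : V → Fin 2 => 1) (dn x) A B
    rw [Matrix.diagonal_one, Matrix.one_mul] at this
    rw [this]
    refine Finset.sum_nonneg fun p _ => ?_
    refine mul_nonneg (mul_nonneg (mul_nonneg (hA0.1 _ _) (hB0.1 _ _)) zero_le_one) ?_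
    unfold dn; split_ifs <;> norm_num
  have h6 : k * (trace (diagonal (nb b) * A * B) / trace (A * B)) ≤ K * η := by
    calc k * (trace (diagonal (nb b) * A * B) / trace (A * B)) ≤ k * (b.card * η) :=
          mul_le_mul_of_nonneg_left h4 hk0
      _ = K * η := by rw [hk]; field_simp
  have h7 : trace (D * A * diagonal (dn x) * B) / trace (D * A * B) ≤ Real.exp (K * η) * η := by
    refine h2.trans ?_
    rw [h3]
    exact mul_le_mul (Real.exp_le_exp.2 h6) (hr x) h5 (Real.exp_pos _).le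
  rw [h1]
  linarith

omit [Fintype V] in
theorem blk_mem {K : ℝ} (hK : 0 ≤ K) (b : Finset V) (x : V) : 0 ≤ blk K b x ∧ blk K b x ≤ 1 := by
  unfold blk
  split_ifs
  · refine ⟨?_, (Real.tanh_lt_one _).le⟩
    rw [Real.tanh_eq_sinh_div_cosh]
    exact div_nonneg (Real.sinh_nonneg_iff.2 (by positivity)) (Real.cosh_pos _).le
  · norm_num

theorem trMag_of {L : List (V × V)} {β K : ℝ} {b : Finset V} (hD : MagLim L β) (hβ : 0 < β)
    (hb : b.Nonempty) (hK : 0 ≤ K) {η : ℝ} (hη : 0 < η) :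
    ∃ N0 : ℕ, ∀ N : ℕ, N0 ≤ N → ∀ h : V → ℝ, (∀ x, 0 ≤ h x ∧ h x ≤ 1) →
      (∀ x, rho L β h x ≤ η) → ∀ z : Fin (N + 1) × V, z.1 ≠ 0 →
        1 - 4 * Real.exp (K * η) * η ≤ mag (phys L β N) (th β N h (blk K b)) z := by
  obtain ⟨C, N1, hC⟩ := hD
  have hδ : 0 < 2 * (Real.exp (K * η) * η) := by positivity
  obtain ⟨N0, hN0⟩ := exists_nat_gt (C / (2 * (Real.exp (K * η) * η)))
  refine ⟨N1 + N0 + 1, fun N hN h hh hr z hz => ?_⟩
  have hNpos : (0 : ℝ) < N := by exact_mod_cast (by omega : 0 < N)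
  have h1 := hC N (by omega) h (blk K b) hh (blk_mem hK b) z hz
  have hs : 0 ≤ β * (((z.1 : ℕ) : ℝ) / N) := by positivity
  have hz1 : ((z.1 : ℕ) : ℝ) / N ≤ 1 := by
    rw [div_le_one hNpos]
    exact_mod_cast Nat.lt_succ_iff.1 z.1.2
  have ht : 0 ≤ β * (1 - ((z.1 : ℕ) : ℝ) / N) := mul_nonneg hβ.le (by linarith)
  have e : β * (1 - ((z.1 : ℕ) : ℝ) / N) + β * (((z.1 : ℕ) : ℝ) / N) = β := by ring
  have h2 := mT_ge L h b hb hK ht hs e hr z.2
  have h3 : C / N ≤ 2 * (Real.exp (K * η) * η) := by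
    rw [div_le_iff₀ hNpos]
    rw [div_lt_iff₀ hδ] at hN0
    have h4 : (N0 : ℝ) ≤ N := by exact_mod_cast (by omega : N0 ≤ N)
    nlinarith
  have h5 := (abs_le.1 h1).1
  nlinarith

end

end Vale.Agent.P361.LRO
end

section

/-!
P361 LRO, dictionary: the quantities of the charge network as loop sums `NZ`, in the charge picture
and in the `S³`-picture.
-/

namespace Vale.Agent.P361.LRO.Dict

open Finset Matrix

noncomputable section

set_option linter.unusedSectionVars false

/-! ### One-site matrices -/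

section mats

variable {R : Type*} [CommRing R]

/-- `σ³`. -/
def m3 : Matrix (Fin 2) (Fin 2) R := !![1, 0; 0, -1]

/-- `σ¹`. -/
def m1 : Matrix (Fin 2) (Fin 2) R := !![0, 1; 1, 0]

/-- `s - s'`. -/
def mJ : Matrix (Fin 2) (Fin 2) R := !![0, -1; 1, 0]

/-- Slice in the charge picture. -/
def chM (θ : R) : Matrix (Fin 2) (Fin 2) R := !![1, θ; θ, 1]

/-- Slice in the `S³`-picture. -/
def dgM (θ : R) : Matrix (Fin 2) (Fin 2) R := !![1 + θ, 0; 0, 1 - θ]

theorem chM_apply (θ : R) (a b : Fin 2) : chM θ a b = if a = b then 1 else θ := by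
  fin_cases a <;> fin_cases b <;> simp [chM]

theorem m1_apply (a b : Fin 2) : (m1 : Matrix (Fin 2) (Fin 2) R) a b = if a = b then 0 else 1 := by
  fin_cases a <;> fin_cases b <;> simp [m1]

theorem mJ_apply (a b : Fin 2) : (mJ : Matrix (Fin 2) (Fin 2) ℝ) a b = ((a : ℕ) : ℝ) - ((b : ℕ) : ℝ) := by
  fin_cases a <;> fin_cases b <;> simp [mJ]

theorem dgM_ne (θ : R) {a b : Fin 2} (h : a ≠ b) : dgM θ a b = 0 := by
  fin_cases a <;> fin_cases b <;> simp_all [dgM]

/-- Hadamard. -/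
def mH : Matrix (Fin 2) (Fin 2) ℝ := !![1, 1; 1, -1]

def mW : Matrix (Fin 2) (Fin 2) ℝ := !![1 / 2, 1 / 2; 1 / 2, -(1 / 2)]

theorem mW_mH : mW * mH = 1 := by
  ext a b
  fin_cases a <;> fin_cases b <;> simp [mW, mH, Matrix.mul_apply, Fin.sum_univ_two] <;> norm_num

theorem mH_mW : mH * mW = 1 := by
  ext a b
  fin_cases a <;> fin_cases b <;> simp [mW, mH, Matrix.mul_apply, Fin.sum_univ_two] <;> norm_num

theorem conj_chM (θ : ℝ) : mH * chM θ * mW = dgM θ := by
  ext a b
  fin_cases a <;> fin_cases b <;>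
    simp [mW, mH, chM, dgM, Matrix.mul_apply, Fin.sum_univ_two] <;> ring

theorem conj_m1 : mH * m1 * mW = m3 := by
  ext a b
  fin_cases a <;> fin_cases b <;>
    simp [mW, mH, m1, m3, Matrix.mul_apply, Fin.sum_univ_two] <;> norm_num

theorem conj_one : mH * 1 * mW = 1 := by
  rw [Matrix.mul_one, mH_mW]

theorem conj_mJ : mH * mJ * mW = -mJ := by
  ext a b
  fin_cases a <;> fin_cases b <;>
    simp [mW, mH, mJ, Matrix.mul_apply, Fin.sum_univ_two] <;> norm_num

end mats

variable {X : Type} [Fintype X] [DecidableEq X]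

section gen

variable {R : Type*} [CommRing R] [Algebra ℝ R]

/-- **Change of basis.** -/
theorem NZ_conj (μ : Equiv.Perm X → ℝ) (A : X → Matrix (Fin 2) (Fin 2) R)
    {U W : Matrix (Fin 2) (Fin 2) R} (h : W * U = 1) :
    NZ μ (fun x => U * A x * W) = NZ μ A := Br.NZ_conj μ A h

theorem prod_mul_at (A : X → Matrix (Fin 2) (Fin 2) R) (u : X) (ρ M : Matrix (Fin 2) (Fin 2) R)
    (hM : ∀ a b, A u a b * ρ a b = M a b) (s : X → Fin 2) (π : Equiv.Perm X) :
    (∏ z, A z (s z) (s (π z))) * ρ (s u) (s (π u)) =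
      ∏ z, (Function.update A u M) z (s z) (s (π z)) := by
  rw [← Finset.mul_prod_erase _ _ (Finset.mem_univ u),
    ← Finset.mul_prod_erase (a := u) Finset.univ
      (fun z => (Function.update A u M) z (s z) (s (π z))) (Finset.mem_univ u),
    Function.update_self, ← hM, mul_right_comm]
  congr 1
  refine Finset.prod_congr rfl fun z hz => ?_
  rw [Function.update_of_ne (Finset.ne_of_mem_erase hz)]

theorem NZ_update_smul (μ : Equiv.Perm X → ℝ) (A : X → Matrix (Fin 2) (Fin 2) R) (u : X)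
    (c : R) (M : Matrix (Fin 2) (Fin 2) R) :
    NZ μ (Function.update A u (c • M)) = c * NZ μ (Function.update A u M) := by
  unfold NZ
  rw [Finset.mul_sum]
  refine Finset.sum_congr rfl fun π _ => ?_
  rw [mul_smul_comm, Finset.mul_sum]
  congr 1
  refine Finset.sum_congr rfl fun s _ => ?_
  have h : Function.update A u (c • M) =
      Function.update (Function.update A u M) u (c • M) := by
    rw [Function.update_idem]
  rw [h, ← prod_mul_at (Function.update A u M) u (fun _ _ => c) (c • M) (fun a b => by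
    rw [Function.update_self, Matrix.smul_apply, smul_eq_mul, mul_comm])]
  rw [mul_comm]

theorem conj_update (A : X → Matrix (Fin 2) (Fin 2) R) (u : X) (M U W : Matrix (Fin 2) (Fin 2) R) :
    (fun x => U * Function.update A u M x * W) =
      Function.update (fun x => U * A x * W) u (U * M * W) := by
  funext x
  exact Function.apply_update (fun _ (B : Matrix (Fin 2) (Fin 2) R) => U * B * W) A u M x

end gen

/-! ### Charge picture -/

variable (μ : Equiv.Perm X → ℝ) (θ : X → ℝ)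

theorem wt_eq (π : Equiv.Perm X) (s : X → Fin 2) :
    wt θ π s = ∏ z, chM (θ z) (s z) (s (π z)) := by
  unfold wt
  exact Finset.prod_congr rfl fun z _ => (chM_apply _ _ _).symm

theorem ZZ_eq : ZZ μ θ = NZ μ fun z => chM (θ z) := by
  unfold ZZ NZ
  refine Finset.sum_congr rfl fun π _ => ?_
  rw [smul_eq_mul, Finset.mul_sum]
  exact Finset.sum_congr rfl fun s _ => by rw [wt_eq]

/-- General insertion at one node. -/
theorem ins_one (u : X) (ρ M : Matrix (Fin 2) (Fin 2) ℝ)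
    (hM : ∀ a b, chM (θ u) a b * ρ a b = M a b) :
    ∑ π, ∑ s, μ π * wt θ π s * ρ (s u) (s (π u)) =
      NZ μ (Function.update (fun z => chM (θ z)) u M) := by
  unfold NZ
  refine Finset.sum_congr rfl fun π _ => ?_
  rw [smul_eq_mul, Finset.mul_sum]
  refine Finset.sum_congr rfl fun s _ => ?_
  rw [wt_eq, mul_assoc, prod_mul_at _ u ρ M hM]

/-- Insertion at two nodes. -/
theorem ins_two {u v : X} (huv : u ≠ v) (ρ ρ' M M' : Matrix (Fin 2) (Fin 2) ℝ)
    (hM : ∀ a b, chM (θ u) a b * ρ a b = M a b) (hM' : ∀ a b, chM (θ v) a b * ρ' a b = M' a b) :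
    ∑ π, ∑ s, μ π * wt θ π s * (ρ (s u) (s (π u)) * ρ' (s v) (s (π v))) =
      NZ μ (Function.update (Function.update (fun z => chM (θ z)) u M) v M') := by
  unfold NZ
  refine Finset.sum_congr rfl fun π _ => ?_
  rw [smul_eq_mul, Finset.mul_sum]
  refine Finset.sum_congr rfl fun s _ => ?_
  rw [wt_eq, mul_assoc, ← mul_assoc (∏ z, _), prod_mul_at _ u ρ M hM,
    prod_mul_at _ v ρ' M' fun a b => ?_]
  rw [Function.update_of_ne huv.symm]
  exact hM' a b

theorem mag_num (z : X) :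
    (∑ π, ∑ s, if s z = s (π z) then 0 else μ π * wt (Function.update θ z 1) π s) =
      NZ μ (Function.update (fun x => chM (θ x)) z m1) := by
  have h := ins_one μ (Function.update θ z 1) z m1 m1 fun a b => by
    rw [Function.update_self, chM_apply, m1_apply]
    split_ifs <;> simp
  have e : Function.update (fun x => chM (Function.update θ z 1 x)) z m1 =
      Function.update (fun x => chM (θ x)) z m1 := by
    funext x
    by_cases hx : x = z
    · subst hx
      rw [Function.update_self, Function.update_self]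
    · rw [Function.update_of_ne hx, Function.update_of_ne hx, Function.update_of_ne hx]
  rw [← e, ← h]
  refine Finset.sum_congr rfl fun π _ => Finset.sum_congr rfl fun s _ => ?_
  rw [m1_apply]
  split_ifs <;> simp

theorem mag_den (z : X) :
    (∑ π, ∑ s, if s z = s (π z) then μ π * wt θ π s else 0) =
      NZ μ (Function.update (fun x => chM (θ x)) z 1) := by
  have h := ins_one μ θ z 1 1 fun a b => by
    rw [chM_apply, Matrix.one_apply]
    split_ifs <;> simp
  rw [← h]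
  refine Finset.sum_congr rfl fun π _ => Finset.sum_congr rfl fun s _ => ?_
  rw [Matrix.one_apply]
  split_ifs <;> simp

theorem jj_sq_num (z : X) :
    ∑ π, ∑ s, μ π * wt θ π s * jj π s z ^ 2 =
      θ z * NZ μ (Function.update (fun x => chM (θ x)) z m1) := by
  have h := ins_one μ θ z (fun a b => (((a : ℕ) : ℝ) - ((b : ℕ) : ℝ)) ^ 2) (θ z • m1)
    fun a b => by
      rw [chM_apply, Matrix.smul_apply, m1_apply]
      fin_cases a <;> fin_cases b <;> simp
  rw [NZ_update_smul] at h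
  exact h

theorem jj_jj_num {u v : X} (huv : u ≠ v) :
    ∑ π, ∑ s, μ π * wt θ π s * (jj π s u * jj π s v) =
      θ u * θ v * NZ μ (Function.update (Function.update (fun x => chM (θ x)) u mJ) v mJ) := by
  have h := ins_two μ θ huv mJ mJ (θ u • mJ) (θ v • mJ)
    (fun a b => by
      rw [chM_apply, Matrix.smul_apply, mJ_apply]
      fin_cases a <;> fin_cases b <;> simp)
    (fun a b => by
      rw [chM_apply, Matrix.smul_apply, mJ_apply]
      fin_cases a <;> fin_cases b <;> simp)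
  rw [NZ_update_smul, Function.update_comm huv, NZ_update_smul, Function.update_comm huv.symm,
    ← mul_assoc, mul_comm (θ v)] at h
  rw [← h]
  refine Finset.sum_congr rfl fun π _ => Finset.sum_congr rfl fun s _ => ?_
  rw [mJ_apply, mJ_apply]
  rfl

/-! ### `S³`-picture -/

theorem ZZ_eq3 : ZZ μ θ = NZ μ fun z => dgM (θ z) := by
  rw [ZZ_eq, ← NZ_conj μ _ mW_mH]
  simp only [conj_chM]

theorem NZ_up1 (u : X) (M : Matrix (Fin 2) (Fin 2) ℝ) :
    NZ μ (Function.update (fun x => chM (θ x)) u M) =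
      NZ μ (Function.update (fun x => dgM (θ x)) u (mH * M * mW)) := by
  rw [← NZ_conj μ _ mW_mH, conj_update]
  simp only [conj_chM]

theorem NZ_up2 (u v : X) (M M' : Matrix (Fin 2) (Fin 2) ℝ) :
    NZ μ (Function.update (Function.update (fun x => chM (θ x)) u M) v M') =
      NZ μ (Function.update (Function.update (fun x => dgM (θ x)) u (mH * M * mW)) v
        (mH * M' * mW)) := by
  rw [← NZ_conj μ _ mW_mH, conj_update, conj_update]
  simp only [conj_chM]

/-- The magnetisation. -/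
theorem mag_eq3 (z : X) : mag μ θ z =
    NZ μ (Function.update (fun x => dgM (θ x)) z m3) /
      NZ μ (Function.update (fun x => dgM (θ x)) z 1) := by
  unfold mag
  rw [mag_num, mag_den, NZ_up1, NZ_up1, conj_m1, conj_one]

theorem vv_eq3 (z : X) : vv μ θ z =
    θ z * NZ μ (Function.update (fun x => dgM (θ x)) z m3) / NZ μ fun x => dgM (θ x) := by
  unfold vv EE
  rw [jj_sq_num, NZ_up1, conj_m1, ZZ_eq3]

/-- Conservation of the magnetisation. -/
theorem flip_two {u v : X} (huv : u ≠ v) :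
    NZ μ (Function.update (Function.update (fun x => dgM (θ x)) u (-mJ)) v (-mJ)) =
      - NZ μ (Function.update (Function.update (fun x => dgM (θ x)) u m1) v m1) := by
  unfold NZ
  rw [← Finset.sum_neg_distrib]
  refine Finset.sum_congr rfl fun π _ => ?_
  rw [← smul_neg, ← Finset.sum_neg_distrib]
  congr 1
  refine Finset.sum_congr rfl fun s _ => ?_
  by_cases h : ∃ z, z ≠ u ∧ z ≠ v ∧ s z ≠ s (π z)
  · obtain ⟨z, hu, hv, hz⟩ := h
    rw [Finset.prod_eq_zero (Finset.mem_univ z), Finset.prod_eq_zero (Finset.mem_univ z), neg_zero]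
    · rw [Function.update_of_ne hv, Function.update_of_ne hu, dgM_ne _ hz]
    · rw [Function.update_of_ne hv, Function.update_of_ne hu, dgM_ne _ hz]
  · push Not at h
    set D := fun x => dgM (θ x) with hD
    -- the charges
    have hJ : ∀ a b : Fin 2, (m1 : Matrix (Fin 2) (Fin 2) ℝ) a b *
        (((b : ℕ) : ℝ) - ((a : ℕ) : ℝ)) = (-mJ : Matrix (Fin 2) (Fin 2) ℝ) a b := by
      intro a b
      rw [m1_apply, Matrix.neg_apply, mJ_apply]
      fin_cases a <;> fin_cases b <;> simp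
    have e1 := prod_mul_at (Function.update (Function.update D u m1) v m1) u
      (fun a b => ((b : ℕ) : ℝ) - ((a : ℕ) : ℝ)) (-mJ) (fun a b => by
        rw [Function.update_of_ne huv, Function.update_self]
        exact hJ a b) s π
    have e2 := prod_mul_at (Function.update (Function.update (Function.update D u m1) v m1) u (-mJ))
      v (fun a b => ((b : ℕ) : ℝ) - ((a : ℕ) : ℝ)) (-mJ) (fun a b => by
        rw [Function.update_of_ne huv.symm, Function.update_self]
        exact hJ a b) s π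
    have e3 : Function.update (Function.update (Function.update (Function.update D u m1) v m1) u
        (-mJ)) v (-mJ) = Function.update (Function.update D u (-mJ)) v (-mJ) := by
      funext x
      by_cases hxv : x = v
      · subst hxv
        rw [Function.update_self, Function.update_self]
      · rw [Function.update_of_ne hxv, Function.update_of_ne hxv]
        by_cases hxu : x = u
        · subst hxu
          rw [Function.update_self, Function.update_self]
        · rw [Function.update_of_ne hxu, Function.update_of_ne hxv, Function.update_of_ne hxu,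
            Function.update_of_ne hxu]
    rw [e3] at e2
    rw [← e2, ← e1, mul_assoc]
    set P := ∏ z, Function.update (Function.update D u m1) v m1 z (s z) (s (π z)) with hP
    -- the sum of the charges
    have hs : ∑ z, ((((s z : Fin 2) : ℕ) : ℝ) - (((s (π z) : Fin 2) : ℕ) : ℝ)) = 0 := by
      rw [Finset.sum_sub_distrib, sub_eq_zero]
      exact (Equiv.sum_comp π fun z => (((s z : Fin 2) : ℕ) : ℝ)).symm
    have hs2 : (((s u : Fin 2) : ℕ) : ℝ) - (((s (π u) : Fin 2) : ℕ) : ℝ) +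
        ((((s v : Fin 2) : ℕ) : ℝ) - (((s (π v) : Fin 2) : ℕ) : ℝ)) = 0 := by
      rw [← hs, ← Finset.sum_pair huv
        (f := fun z => ((((s z : Fin 2) : ℕ) : ℝ) - (((s (π z) : Fin 2) : ℕ) : ℝ)))]
      refine Finset.sum_subset (Finset.subset_univ _) fun z _ hz => ?_
      rw [Finset.mem_insert, Finset.mem_singleton, not_or] at hz
      rw [h z hz.1 hz.2, sub_self]
    by_cases hu : s u = s (π u)
    · have : P = 0 := by
        rw [hP]
        refine Finset.prod_eq_zero (Finset.mem_univ u) ?_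
        rw [Function.update_of_ne huv, Function.update_self, m1_apply, if_pos hu]
      rw [this, zero_mul, neg_zero]
    · have h1 : ((((s (π u) : Fin 2) : ℕ) : ℝ) - (((s u : Fin 2) : ℕ) : ℝ)) ^ 2 = 1 := by
        generalize s u = a at hu ⊢
        generalize s (π u) = b at hu ⊢
        fin_cases a <;> fin_cases b <;> simp_all
      have h2 : (((s (π v) : Fin 2) : ℕ) : ℝ) - (((s v : Fin 2) : ℕ) : ℝ) =
          - ((((s (π u) : Fin 2) : ℕ) : ℝ) - (((s u : Fin 2) : ℕ) : ℝ)) := by linarith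
      rw [h2, mul_neg, ← sq, h1]
      ring

/-- **The conductances.** -/
theorem cc_eq3 {u v : X} (huv : u ≠ v) : cc μ θ u v =
    θ u * θ v * NZ μ (Function.update (Function.update (fun x => dgM (θ x)) u m1) v m1) /
      NZ μ fun x => dgM (θ x) := by
  unfold cc EE
  rw [jj_jj_num μ θ huv, NZ_up2, conj_mJ, flip_two μ θ huv, ZZ_eq3]
  ring

theorem NZ_nonneg (hμ : ∀ π, 0 ≤ μ π) {A : X → Matrix (Fin 2) (Fin 2) ℝ}
    (hA : ∀ z a b, 0 ≤ A z a b) : 0 ≤ NZ μ A := by
  unfold NZ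
  refine Finset.sum_nonneg fun π _ => ?_
  rw [smul_eq_mul]
  exact mul_nonneg (hμ π) (Finset.sum_nonneg fun s _ => Finset.prod_nonneg fun z _ => hA _ _ _)

theorem dgM_nonneg {t : ℝ} (h0 : 0 ≤ t) (h1 : t ≤ 1) (a b : Fin 2) : 0 ≤ dgM t a b := by
  fin_cases a <;> fin_cases b <;> simp [dgM] <;> linarith

theorem m1_nonneg (a b : Fin 2) : 0 ≤ (m1 : Matrix (Fin 2) (Fin 2) ℝ) a b := by
  rw [m1_apply]
  split_ifs <;> norm_num

theorem cc_nonneg (hμ : ∀ π, 0 ≤ μ π) (h0 : ∀ x, 0 ≤ θ x) (h1 : ∀ x, θ x ≤ 1) {u v : X}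
    (huv : u ≠ v) : 0 ≤ cc μ θ u v := by
  rw [cc_eq3 μ θ huv]
  refine div_nonneg (mul_nonneg (mul_nonneg (h0 u) (h0 v)) (NZ_nonneg μ hμ fun z a b => ?_))
    (NZ_nonneg μ hμ fun z a b => dgM_nonneg (h0 z) (h1 z) a b)
  by_cases hv : z = v
  · subst hv
    rw [Function.update_self]
    exact m1_nonneg a b
  · rw [Function.update_of_ne hv]
    by_cases hu : z = u
    · subst hu
      rw [Function.update_self]
      exact m1_nonneg a b
    · rw [Function.update_of_ne hu]
      exact dgM_nonneg (h0 z) (h1 z) a b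

/-! ### The generating polynomial -/

theorem gen_eq (ζ : X → ℂ) : gen μ θ ζ =
    NZ μ fun z => (!![ζ z, (θ z : ℂ); (θ z : ℂ) * ζ z ^ 2, ζ z] : Matrix (Fin 2) (Fin 2) ℂ) := by
  unfold gen NZ
  refine Finset.sum_congr rfl fun π _ => ?_
  rw [Finset.smul_sum]
  refine Finset.sum_congr rfl fun s _ => ?_
  rw [Complex.real_smul, Complex.ofReal_mul, mul_assoc]
  congr 1
  unfold wt
  rw [Complex.ofReal_prod, ← Finset.prod_mul_distrib]
  refine Finset.prod_congr rfl fun z _ => ?_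
  generalize s z = a
  generalize s (π z) = b
  fin_cases a <;> fin_cases b <;> simp

/-! ### Rotated slices -/

/-- `1 + θ (cos φ σ³ + sin φ σ¹)`. -/
def rotM (θ φ : ℝ) : Matrix (Fin 2) (Fin 2) ℝ :=
  !![1 + θ * Real.cos φ, θ * Real.sin φ; θ * Real.sin φ, 1 - θ * Real.cos φ]

/-- The same in the charge picture. -/
def twM (θ φ : ℝ) : Matrix (Fin 2) (Fin 2) ℂ :=
  !![1, θ * Complex.exp (-(φ * Complex.I)); θ * Complex.exp (φ * Complex.I), 1]

def cU : Matrix (Fin 2) (Fin 2) ℂ := !![1, 1; Complex.I, -Complex.I]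

def cW : Matrix (Fin 2) (Fin 2) ℂ := !![1 / 2, -(Complex.I / 2); 1 / 2, Complex.I / 2]

theorem cW_cU : cW * cU = 1 := by
  have h := Complex.I_mul_I
  ext a b
  fin_cases a <;> fin_cases b <;> simp [cW, cU, Matrix.mul_apply, Fin.sum_univ_two] <;>
    first
      | linear_combination (-(1 / 2)) * h
      | linear_combination (1 / 2) * h

theorem conj_twM (θ φ : ℝ) : cU * twM θ φ * cW = (rotM θ φ).map (algebraMap ℝ ℂ) := by
  have h := Complex.I_mul_I
  have hc : Complex.exp (φ * Complex.I) = Real.cos φ + Real.sin φ * Complex.I := by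
    rw [Complex.exp_mul_I, Complex.ofReal_cos, Complex.ofReal_sin]
  have hc' : Complex.exp (-(φ * Complex.I)) = Real.cos φ - Real.sin φ * Complex.I := by
    rw [← neg_mul, Complex.exp_mul_I, Complex.cos_neg, Complex.sin_neg, Complex.ofReal_cos,
      Complex.ofReal_sin]
    ring
  ext a b
  fin_cases a <;> fin_cases b
  · simp [cW, cU, twM, rotM, Matrix.mul_apply, Fin.sum_univ_two, hc, hc']
    ring
  · simp [cW, cU, twM, rotM, Matrix.mul_apply, Fin.sum_univ_two, hc, hc']
    ring_nf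
    rw [Complex.I_sq]
    ring
  · simp [cW, cU, twM, rotM, Matrix.mul_apply, Fin.sum_univ_two, hc, hc']
    ring_nf
    rw [Complex.I_sq]
    ring
  · simp [cW, cU, twM, rotM, Matrix.mul_apply, Fin.sum_univ_two, hc, hc']
    ring_nf
    rw [Complex.I_sq]
    ring

theorem NZ_map (A : X → Matrix (Fin 2) (Fin 2) ℝ) :
    NZ μ (fun z => (A z).map (algebraMap ℝ ℂ)) = ((NZ μ A : ℝ) : ℂ) := by
  unfold NZ
  rw [Complex.ofReal_sum]
  refine Finset.sum_congr rfl fun π _ => ?_
  rw [Complex.real_smul, smul_eq_mul, Complex.ofReal_mul, Complex.ofReal_sum]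
  congr 1
  refine Finset.sum_congr rfl fun s _ => ?_
  rw [Complex.ofReal_prod]
  rfl

/-- **Rotated slices**: the characteristic function of the charges. -/
theorem twist_num (φ : X → ℝ) :
    ∑ π, ∑ s, μ π * wt θ π s * Real.cos (∑ x, φ x * jj π s x) =
      NZ μ fun z => rotM (θ z) (φ z) := by
  have h1 : ∑ π, ∑ s, ((μ π * wt θ π s : ℝ) : ℂ) *
      Complex.exp (((∑ x, φ x * jj π s x : ℝ) : ℂ) * Complex.I) =
      ((NZ μ fun z => rotM (θ z) (φ z) : ℝ) : ℂ) := by
    rw [← NZ_map]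
    simp only [← conj_twM]
    rw [NZ_conj μ _ cW_cU]
    unfold NZ
    refine Finset.sum_congr rfl fun π _ => ?_
    rw [Finset.smul_sum]
    refine Finset.sum_congr rfl fun s _ => ?_
    rw [Complex.real_smul, Complex.ofReal_mul, mul_assoc]
    congr 1
    unfold wt
    rw [Complex.ofReal_prod, Complex.ofReal_sum, Finset.sum_mul, Complex.exp_sum,
      ← Finset.prod_mul_distrib]
    refine Finset.prod_congr rfl fun z _ => ?_
    unfold jj twM
    generalize s z = a
    generalize s (π z) = b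
    fin_cases a <;> fin_cases b <;> simp
  have h2 := congrArg Complex.re h1
  rw [Complex.ofReal_re, Complex.re_sum] at h2
  rw [← h2]
  refine Finset.sum_congr rfl fun π _ => ?_
  rw [Complex.re_sum]
  refine Finset.sum_congr rfl fun s _ => ?_
  rw [Complex.re_ofReal_mul, Complex.exp_ofReal_mul_I_re]

/-- `E cos (φ · j)`. -/
theorem EE_cos (φ : X → ℝ) :
    EE μ θ (fun π s => Real.cos (∑ x, φ x * jj π s x)) =
      (NZ μ fun z => rotM (θ z) (φ z)) / NZ μ fun z => dgM (θ z) := by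
  unfold EE
  rw [twist_num, ZZ_eq3]

end

end Vale.Agent.P361.LRO.Dict
end

section

/-!
# P361 LRO, block (6), package GEOA: points and cubes of the torus (helper515)
-/

namespace Vale.Agent.P361.LRO.Ind

open Finset Vale.Agent.P361.LRO _root_.P361.LRO

/-- the three offsets as natural numbers -/
private theorem gA_eq {n : ℕ} (o : Tor n) (r : ℕ) (y : Fin 3 → Fin r) :
    (o + fun i => ((y i : ℕ) : ZMod n)) = pt n o (y 0) (y 1) (y 2) := by
  unfold pt
  congr 1
  funext i
  fin_cases i <;> simp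

theorem mem_cube_iff {n : ℕ} [NeZero n] (o x : Tor n) (r : ℕ) :
    x ∈ cube n o r ↔ ∃ a < r, ∃ b < r, ∃ c < r, x = pt n o a b c := by
  unfold cube
  constructor
  · intro h
    rw [Finset.mem_image] at h
    obtain ⟨y, -, rfl⟩ := h
    exact ⟨y 0, (y 0).isLt, y 1, (y 1).isLt, y 2, (y 2).isLt, gA_eq o r y⟩
  · rintro ⟨a, ha, b, hb, c, hc, rfl⟩
    rw [Finset.mem_image]
    refine ⟨![⟨a, ha⟩, ⟨b, hb⟩, ⟨c, hc⟩], Finset.mem_univ _, ?_⟩
    rw [gA_eq]
    simp

theorem pt_inj {n : ℕ} [NeZero n] (o : Tor n) {a b c a' b' c' : ℕ} (ha : a < n) (hb : b < n)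
    (hc : c < n) (ha' : a' < n) (hb' : b' < n) (hc' : c' < n)
    (h : pt n o a b c = pt n o a' b' c') : a = a' ∧ b = b' ∧ c = c' := by
  unfold pt at h
  have h' := add_left_cancel h
  have key : ∀ {u v : ℕ}, u < n → v < n → ((u : ZMod n) = (v : ZMod n)) → u = v := by
    intro u v hu hv e
    have := congrArg ZMod.val e
    rwa [ZMod.val_natCast_of_lt hu, ZMod.val_natCast_of_lt hv] at this
  refine ⟨key ha ha' ?_, key hb hb' ?_, key hc hc' ?_⟩
  · have := congrFun h' 0
    simpa using this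
  · have := congrFun h' 1
    simpa using this
  · have := congrFun h' 2
    simpa using this

/-- the parametrization of a cube is injective -/
theorem gA_cube_eq {n : ℕ} [NeZero n] (o : Tor n) (r : ℕ) :
    cube n o r = (range r ×ˢ range r ×ˢ range r).image fun t => pt n o t.1 t.2.1 t.2.2 := by
  ext x
  rw [mem_cube_iff, Finset.mem_image]
  constructor
  · rintro ⟨a, ha, b, hb, c, hc, rfl⟩
    exact ⟨(a, b, c), by simp [ha, hb, hc], rfl⟩
  · rintro ⟨⟨a, b, c⟩, ht, rfl⟩
    simp only [Finset.mem_product, Finset.mem_range] at ht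
    exact ⟨a, ht.1, b, ht.2.1, c, ht.2.2, rfl⟩

theorem gA_injOn {n : ℕ} [NeZero n] (o : Tor n) (r : ℕ) (hr : r ≤ n) :
    Set.InjOn (fun t : ℕ × ℕ × ℕ => pt n o t.1 t.2.1 t.2.2)
      ((range r ×ˢ range r ×ˢ range r : Finset (ℕ × ℕ × ℕ)) : Set (ℕ × ℕ × ℕ)) := by
  rintro ⟨a, b, c⟩ ht ⟨a', b', c'⟩ ht' h
  simp only [Finset.coe_product, Finset.coe_range, Set.mem_prod, Set.mem_Iio] at ht ht'
  obtain ⟨h1, h2, h3⟩ := pt_inj o (lt_of_lt_of_le ht.1 hr) (lt_of_lt_of_le ht.2.1 hr)
    (lt_of_lt_of_le ht.2.2 hr) (lt_of_lt_of_le ht'.1 hr) (lt_of_lt_of_le ht'.2.1 hr)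
    (lt_of_lt_of_le ht'.2.2 hr) h
  rw [h1, h2, h3]

theorem sum_cube {n : ℕ} [NeZero n] (o : Tor n) (r : ℕ) (hr : r ≤ n) (f : Tor n → ℝ) :
    ∑ x ∈ cube n o r, f x = ∑ a ∈ range r, ∑ b ∈ range r, ∑ c ∈ range r, f (pt n o a b c) := by
  rw [gA_cube_eq, Finset.sum_image (gA_injOn o r hr), Finset.sum_product]
  refine Finset.sum_congr rfl fun a _ => ?_
  rw [Finset.sum_product]

theorem card_cube {n : ℕ} [NeZero n] (o : Tor n) (r : ℕ) (hr : r ≤ n) :
    (cube n o r).card = r ^ 3 := by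
  rw [gA_cube_eq, Finset.card_image_of_injOn (gA_injOn o r hr), Finset.card_product,
    Finset.card_product, Finset.card_range]
  ring

theorem pt_succ {n : ℕ} (o : Tor n) (a b c : ℕ) :
    pt n o (a + 1) b c = pt n o a b c + Pi.single 0 1 ∧
    pt n o a (b + 1) c = pt n o a b c + Pi.single 1 1 ∧
    pt n o a b (c + 1) = pt n o a b c + Pi.single 2 1 := by
  unfold pt
  refine ⟨?_, ?_, ?_⟩ <;>
  · rw [add_assoc]
    congr 1
    funext i
    fin_cases i <;> simp

theorem pt_pt {n : ℕ} (o : Tor n) (a b c a' b' c' : ℕ) :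
    pt n (pt n o a b c) a' b' c' = pt n o (a + a') (b + b') (c + c') := by
  unfold pt
  rw [add_assoc]
  congr 1
  funext i
  fin_cases i <;> simp

/-- the coordinates of a point -/
theorem gA_sub {n : ℕ} (o : Tor n) (a b c : ℕ) :
    (pt n o a b c) 0 - o 0 = a ∧ (pt n o a b c) 1 - o 1 = b ∧ (pt n o a b c) 2 - o 2 = c := by
  unfold pt
  simp

end Vale.Agent.P361.LRO.Ind
end

section

/-!
# P361 LRO, block (6), package E1: energies of the window averages
-/

namespace Vale.Agent.P361.LRO.Ind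

open Finset Vale.Agent.P361.LRO _root_.P361.LRO

/-- Sum over an injective family. -/
private theorem enA_inj {ι X : Type} [Fintype X] (s : Finset ι) (g : ι → X)
    (hg : Set.InjOn g s) (F : X → ℝ) (hF : ∀ x, 0 ≤ F x) : ∑ i ∈ s, F (g i) ≤ ∑ x, F x := by
  classical
  rw [← Finset.sum_image (f := F) hg]
  exact Finset.sum_le_univ_sum_of_nonneg hF

private theorem enA_pt {n : ℕ} [NeZero n] (o : Tor n) {a b c a' b' c' : ℕ} (ha : a < n)
    (hb : b < n) (hc : c < n) (ha' : a' < n) (hb' : b' < n) (hc' : c' < n)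
    (h : pt n o a b c = pt n o a' b' c') : a = a' ∧ b = b' ∧ c = c' := by
  have h1 : (![(a : ZMod n), (b : ZMod n), (c : ZMod n)] : Fin 3 → ZMod n) =
      ![(a' : ZMod n), (b' : ZMod n), (c' : ZMod n)] := by
    unfold pt at h
    exact add_left_cancel h
  have key : ∀ {u v : ℕ}, u < n → v < n → (u : ZMod n) = v → u = v := by
    intro u v hu hv h
    have := congrArg ZMod.val h
    rwa [ZMod.val_natCast_of_lt hu, ZMod.val_natCast_of_lt hv] at this
  exact ⟨key ha ha' (congrFun h1 0), key hb hb' (congrFun h1 1), key hc hc' (congrFun h1 2)⟩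

private theorem enA_site {n : ℕ} [NeZero n] (o : Tor n) {A B C : ℕ} (hA : A ≤ n) (hB : B ≤ n)
    (hC : C ≤ n) (H : Tor n → ℝ) (hH : ∀ p, 0 ≤ H p) :
    ∑ x ∈ range A, ∑ y ∈ range B, ∑ z ∈ range C, H (pt n o x y z) ≤ ∑ p, H p := by
  have h1 : ∑ x ∈ range A, ∑ y ∈ range B, ∑ z ∈ range C, H (pt n o x y z) =
      ∑ q ∈ range A ×ˢ (range B ×ˢ range C), H (pt n o q.1 q.2.1 q.2.2) := by
    rw [Finset.sum_product]
    refine Finset.sum_congr rfl fun x _ => ?_
    rw [Finset.sum_product]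
  rw [h1]
  refine enA_inj (X := Tor n) _ (fun q : ℕ × ℕ × ℕ => pt n o q.1 q.2.1 q.2.2) ?_ H hH
  rintro ⟨x, y, z⟩ hq ⟨x', y', z'⟩ hq' h
  simp only [Finset.coe_product, Set.mem_prod, Finset.mem_coe, Finset.mem_range] at hq hq'
  replace h : pt n o x y z = pt n o x' y' z' := h
  obtain ⟨h1, h2, h3⟩ := enA_pt o (by omega) (by omega) (by omega) (by omega) (by omega)
    (by omega) h
  subst h1 h2 h3
  rfl

private theorem enA_lay {N W m w j : ℕ} (hN : N = m * W) (hw : w < m) (hj : j < W) :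
    ((lay N W w j : Fin (N + 1)) : ℕ) = 1 + w * W + j := by
  have h : 1 + w * W + j < N + 1 := by
    have : (w + 1) * W ≤ m * W := Nat.mul_le_mul_right _ hw
    rw [hN]
    nlinarith
  unfold lay
  rw [dif_pos h]

private theorem enA_lay_inj {W w j w' j' : ℕ} (hj : j < W) (hj' : j' < W)
    (h : 1 + w * W + j = 1 + w' * W + j') : w = w' ∧ j = j' := by
  have h1 : w * W + j = w' * W + j' := by omega
  have hW : 0 < W := by omega
  have h2 : (w * W + j) / W = w := by
    rw [mul_comm, Nat.mul_add_div hW, Nat.div_eq_of_lt hj, add_zero]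
  have h3 : (w' * W + j') / W = w' := by
    rw [mul_comm, Nat.mul_add_div hW, Nat.div_eq_of_lt hj', add_zero]
  have h4 : w = w' := by rw [← h2, ← h3, h1]
  subst h4
  exact ⟨rfl, by omega⟩

private theorem enA_layer {N W m : ℕ} (hN : N = m * W) (T : ℕ) (hT : T ≤ m) (f : ℕ → ℕ)
    (hf : ∀ w < T, f w < m) (G : Fin (N + 1) → Fin (N + 1) → ℝ) (hG : ∀ k l, 0 ≤ G k l) :
    ∑ w ∈ range T, ∑ j ∈ range W, ∑ i ∈ range W, G (lay N W (f w) j) (lay N W w i) ≤
      ∑ k, ∑ l, G k l := by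
  have h1 : ∑ w ∈ range T, ∑ j ∈ range W, ∑ i ∈ range W, G (lay N W (f w) j) (lay N W w i) =
      ∑ q ∈ range T ×ˢ (range W ×ˢ range W),
        G (lay N W (f q.1) q.2.1) (lay N W q.1 q.2.2) := by
    rw [Finset.sum_product]
    refine Finset.sum_congr rfl fun x _ => ?_
    rw [Finset.sum_product]
  have h2 : ∑ k, ∑ l, G k l = ∑ q : Fin (N + 1) × Fin (N + 1), G q.1 q.2 := by
    rw [Fintype.sum_prod_type]
  rw [h1, h2]
  refine enA_inj (X := Fin (N + 1) × Fin (N + 1)) _
    (fun q : ℕ × ℕ × ℕ => (lay N W (f q.1) q.2.1, lay N W q.1 q.2.2)) ?_ (fun q => G q.1 q.2)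
    (fun q => hG _ _)
  rintro ⟨w, j, i⟩ hq ⟨w', j', i'⟩ hq' h
  simp only [Finset.coe_product, Set.mem_prod, Finset.mem_coe, Finset.mem_range] at hq hq'
  obtain ⟨hw, hj, hi⟩ := hq
  obtain ⟨hw', hj', hi'⟩ := hq'
  simp only [Prod.mk.injEq] at h
  obtain ⟨ha, hb⟩ := h
  have hb' := congrArg Fin.val hb
  rw [enA_lay hN (lt_of_lt_of_le hw hT) hi, enA_lay hN (lt_of_lt_of_le hw' hT) hi'] at hb'
  obtain ⟨e1, e2⟩ := enA_lay_inj hi hi' hb'
  subst e1 e2
  have ha' := congrArg Fin.val ha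
  rw [enA_lay hN (hf w hw) hj, enA_lay hN (hf w hw) hj'] at ha'
  obtain ⟨-, e3⟩ := enA_lay_inj hj hj' ha'
  subst e3
  rfl

private theorem enA_jensen (W : ℕ) (hW : 0 < W) (A B : ℕ → ℝ) :
    (∑ j ∈ range W, A j - ∑ i ∈ range W, B i) ^ 2 ≤
      ∑ j ∈ range W, ∑ i ∈ range W, (A j - B i) ^ 2 := by
  have hW' : (0 : ℝ) < W := by exact_mod_cast hW
  have h1 : ∑ q ∈ range W ×ˢ range W, (A q.1 - B q.2) =
      W * (∑ j ∈ range W, A j - ∑ i ∈ range W, B i) := by
    rw [Finset.sum_product]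
    simp only [Finset.sum_sub_distrib, Finset.sum_const, Finset.card_range, nsmul_eq_mul]
    rw [← Finset.mul_sum]
    ring
  have h2 := sq_sum_le_card_mul_sum_sq (s := range W ×ˢ range W)
    (f := fun q : ℕ × ℕ => A q.1 - B q.2)
  rw [h1, Finset.card_product, Finset.card_range] at h2
  have h3 : ∑ q ∈ range W ×ˢ range W, (A q.1 - B q.2) ^ 2 =
      ∑ j ∈ range W, ∑ i ∈ range W, (A j - B i) ^ 2 := by
    rw [Finset.sum_product]
  rw [h3] at h2
  push_cast at h2
  have h4 : ((W : ℝ) * W) * (∑ j ∈ range W, A j - ∑ i ∈ range W, B i) ^ 2 ≤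
      (W * W) * ∑ j ∈ range W, ∑ i ∈ range W, (A j - B i) ^ 2 := by
    calc ((W : ℝ) * W) * (∑ j ∈ range W, A j - ∑ i ∈ range W, B i) ^ 2
        = (W * (∑ j ∈ range W, A j - ∑ i ∈ range W, B i)) ^ 2 := by ring
      _ ≤ _ := h2
  exact le_of_mul_le_mul_left h4 (by positivity)

/-- One pair of windows. -/
private theorem enA_win {n N W m : ℕ} [NeZero n] {β c1 : ℝ} {c : Nd n N → Nd n N → ℝ}
    (hW : 0 < W) (hm : 0 < m) (hN : N = m * W) (hc1 : 0 < c1) (o : Tor n) (a : Nd n N → ℝ)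
    (x y z w x' y' z' w' : ℕ)
    (h : ∀ j < W, ∀ i < W, c1 * (β / N) ^ 2 ≤
      c (lay N W w j, pt n o x y z) (lay N W w' i, pt n o x' y' z')) :
    c1 * (β / m) ^ 2 * (UU n N W o a x y z w - UU n N W o a x' y' z' w') ^ 2 ≤
      ∑ j ∈ range W, ∑ i ∈ range W,
        c (lay N W w j, pt n o x y z) (lay N W w' i, pt n o x' y' z') *
          (a (lay N W w j, pt n o x y z) - a (lay N W w' i, pt n o x' y' z')) ^ 2 := by
  have hW' : (0 : ℝ) < W := by exact_mod_cast hW
  have hm' : (0 : ℝ) < m := by exact_mod_cast hm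
  have hN' : (N : ℝ) = m * W := by rw [hN]; push_cast; ring
  have hJ := enA_jensen W hW (fun j => a (lay N W w j, pt n o x y z))
    (fun i => a (lay N W w' i, pt n o x' y' z'))
  have e1 : c1 * (β / m) ^ 2 * (UU n N W o a x y z w - UU n N W o a x' y' z' w') ^ 2 =
      c1 * (β / N) ^ 2 * (∑ j ∈ range W, a (lay N W w j, pt n o x y z) -
        ∑ i ∈ range W, a (lay N W w' i, pt n o x' y' z')) ^ 2 := by
    unfold UU
    rw [hN']
    field_simp
  rw [e1]
  calc c1 * (β / N) ^ 2 * (∑ j ∈ range W, a (lay N W w j, pt n o x y z) -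
        ∑ i ∈ range W, a (lay N W w' i, pt n o x' y' z')) ^ 2
      ≤ c1 * (β / N) ^ 2 * ∑ j ∈ range W, ∑ i ∈ range W,
          (a (lay N W w j, pt n o x y z) - a (lay N W w' i, pt n o x' y' z')) ^ 2 :=
        mul_le_mul_of_nonneg_left hJ (by positivity)
    _ = ∑ j ∈ range W, ∑ i ∈ range W, c1 * (β / N) ^ 2 *
          (a (lay N W w j, pt n o x y z) - a (lay N W w' i, pt n o x' y' z')) ^ 2 := by
        rw [Finset.mul_sum]
        refine Finset.sum_congr rfl fun j _ => ?_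
        rw [Finset.mul_sum]
    _ ≤ _ := by
        refine Finset.sum_le_sum fun j hj => Finset.sum_le_sum fun i hi => ?_
        exact mul_le_mul_of_nonneg_right (h j (Finset.mem_range.1 hj) i (Finset.mem_range.1 hi))
          (sq_nonneg _)

/-- The energy between two sites. -/
private noncomputable def enA_Q {n N : ℕ} (c : Nd n N → Nd n N → ℝ) (a : Nd n N → ℝ)
    (p q : Tor n) : ℝ :=
  ∑ k, ∑ l, c (k, p) (l, q) * (a (k, p) - a (l, q)) ^ 2

private theorem enA_Q_nonneg {n N : ℕ} {c : Nd n N → Nd n N → ℝ} (hc : ∀ u v, 0 ≤ c u v)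
    (a : Nd n N → ℝ) (p q : Tor n) : 0 ≤ enA_Q c a p q :=
  Finset.sum_nonneg fun _ _ => Finset.sum_nonneg fun _ _ => mul_nonneg (hc _ _) (sq_nonneg _)

private theorem enA_total {n N : ℕ} [NeZero n] (c : Nd n N → Nd n N → ℝ) (a : Nd n N → ℝ) :
    ∑ p, ∑ q, enA_Q c a p q = 2 * netK c a := by
  have h : 2 * netK c a = ∑ u : Nd n N, ∑ v : Nd n N, c u v * (a u - a v) ^ 2 := by
    unfold netK
    ring
  rw [h, Fintype.sum_prod_type_right]
  refine Finset.sum_congr rfl fun p _ => ?_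
  have h2 : ∀ k : Fin (N + 1), ∑ v : Nd n N, c (k, p) v * (a (k, p) - a v) ^ 2 =
      ∑ q, ∑ l, c (k, p) (l, q) * (a (k, p) - a (l, q)) ^ 2 := by
    intro k
    rw [Fintype.sum_prod_type_right]
  simp only [h2]
  rw [Finset.sum_comm]
  rfl

private theorem enA_mem {n : ℕ} [NeZero n] (o : Tor n) {S x y z : ℕ} (hx : x < S) (hy : y < S)
    (hz : z < S) : pt n o x y z ∈ cube n o S := by
  unfold cube pt
  refine Finset.mem_image.2 ⟨![⟨x, hx⟩, ⟨y, hy⟩, ⟨z, hz⟩], Finset.mem_univ _, ?_⟩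
  congr 1
  funext i
  fin_cases i <;> rfl

private theorem enA_pt_succ {n : ℕ} (o : Tor n) (a b c : ℕ) :
    pt n o (a + 1) b c = pt n o a b c + Pi.single 0 1 ∧
    pt n o a (b + 1) c = pt n o a b c + Pi.single 1 1 ∧
    pt n o a b (c + 1) = pt n o a b c + Pi.single 2 1 := by
  unfold pt
  refine ⟨?_, ?_, ?_⟩ <;>
  · rw [add_assoc]
    congr 1
    funext i
    fin_cases i <;> simp

/-- Sum over sites of the energy of a site with a shifted copy. -/
private theorem enA_sum_shift {n N : ℕ} [NeZero n] {c : Nd n N → Nd n N → ℝ}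
    (hc : ∀ u v, 0 ≤ c u v) (a : Nd n N → ℝ) (o : Tor n) {A B C : ℕ} (hA : A ≤ n) (hB : B ≤ n)
    (hC : C ≤ n) (e : Tor n) :
    ∑ x ∈ range A, ∑ y ∈ range B, ∑ z ∈ range C,
      enA_Q c a (pt n o x y z) (pt n o x y z + e) ≤ 2 * netK c a := by
  rw [← enA_total]
  refine (enA_site o hA hB hC (fun p => enA_Q c a p (p + e))
    (fun p => enA_Q_nonneg hc a _ _)).trans ?_
  refine Finset.sum_le_sum fun p _ => ?_
  exact Finset.single_le_sum (f := fun q => enA_Q c a p q)
    (fun q _ => enA_Q_nonneg hc a p q) (Finset.mem_univ (p + e))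

/-- Sum over the windows for a pair of sites. -/
private theorem enA_windows {n N W m : ℕ} [NeZero n] {β c1 : ℝ} {c : Nd n N → Nd n N → ℝ}
    (hnn : ∀ u v, 0 ≤ c u v)
    (hW : 0 < W) (hm : 0 < m) (hN : N = m * W) (hc1 : 0 < c1) (o : Tor n) (a : Nd n N → ℝ)
    (T : ℕ) (hT : T ≤ m) (f : ℕ → ℕ) (hf : ∀ w < T, f w < m) (x y z x' y' z' : ℕ)
    (h : ∀ w < T, ∀ j < W, ∀ i < W, c1 * (β / N) ^ 2 ≤
      c (lay N W (f w) j, pt n o x y z) (lay N W w i, pt n o x' y' z')) :
    c1 * (β / m) ^ 2 * ∑ w ∈ range T,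
        (UU n N W o a x y z (f w) - UU n N W o a x' y' z' w) ^ 2 ≤
      enA_Q c a (pt n o x y z) (pt n o x' y' z') := by
  rw [Finset.mul_sum]
  refine (Finset.sum_le_sum fun w hw =>
    enA_win hW hm hN hc1 o a x y z (f w) x' y' z' w (h w (Finset.mem_range.1 hw))).trans ?_
  exact enA_layer hN T hT f hf
    (fun k l => c (k, pt n o x y z) (l, pt n o x' y' z') *
      (a (k, pt n o x y z) - a (l, pt n o x' y' z')) ^ 2)
    (fun k l => mul_nonneg (hnn _ _) (sq_nonneg _))

/-- The partner window. -/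
private def enA_f (m w : ℕ) : ℕ := if w + 2 < m then w + 2 else w - 2

private theorem enA_f_lt {m w : ℕ} (hw : w < m) : enA_f m w < m := by
  unfold enA_f
  split_ifs <;> omega

private theorem enA_f_cases {m w : ℕ} (hm : 4 ≤ m) (hw : w < m) :
    enA_f m w = w + 2 ∨ w = enA_f m w + 2 := by
  unfold enA_f
  split_ifs <;> omega

section main

variable {n N W m : ℕ} [NeZero n] {β K c1 : ℝ} {b : Finset (Tor n)} {h : Tor n → ℝ}
    {c : Nd n N → Nd n N → ℝ}

private theorem enA_same_le (hm : 4 ≤ m) (hN : N = m * W)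
    (hc : Local n N W β K c1 b h c) {w w' j i : ℕ} (hw : w < m) (hw' : w' < m) (hj : j < W)
    (hi : i < W) (hd : w < w' ∧ w' ≤ w + 2) (x : Tor n) (hx : h x = 1) :
    c1 * (β / N) ^ 2 ≤ c (lay N W w j, x) (lay N W w' i, x) := by
  have e1 := enA_lay hN hw hj
  have e2 := enA_lay hN hw' hi
  have h3 : (w + 1) * W ≤ w' * W := Nat.mul_le_mul_right _ hd.1
  have h4 : w' * W ≤ (w + 2) * W := Nat.mul_le_mul_right _ hd.2
  refine hc.same _ _ x ?_ ?_ ?_ hx
  · intro h0
    rw [h0] at e1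
    simp at e1
    omega
  · rw [Fin.lt_def, e1, e2]
    nlinarith
  · rw [e1, e2]
    nlinarith

private theorem enA_same_f (hm : 4 ≤ m) (hN : N = m * W)
    (hc : Local n N W β K c1 b h c) {w j i : ℕ} (hw : w < m) (hj : j < W)
    (hi : i < W) (x : Tor n) (hx : h x = 1) :
    c1 * (β / N) ^ 2 ≤ c (lay N W (enA_f m w) j, x) (lay N W w i, x) := by
  rcases enA_f_cases hm hw with h1 | h1
  · rw [hc.symm]
    exact enA_same_le hm hN hc hw (enA_f_lt hw) hi hj ⟨by omega, by omega⟩ x hx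
  · exact enA_same_le hm hN hc (enA_f_lt hw) hw hj hi ⟨by omega, by omega⟩ x hx

private theorem enA_nbr_f (hm : 4 ≤ m) (hN : N = m * W)
    (hc : Local n N W β K c1 b h c) {w j i : ℕ} (hw : w < m) (hj : j < W)
    (hi : i < W) (x : Tor n) (e : Fin 3) (hx : h x = 1) (hx' : h (x + Pi.single e 1) = 1) :
    c1 * (β / N) ^ 2 ≤
      c (lay N W (enA_f m w) j, x) (lay N W w i, x + Pi.single e 1) := by
  have e1 := enA_lay hN (enA_f_lt hw) hj
  have e2 := enA_lay hN hw hi
  refine hc.nbr _ _ x e ?_ ?_ ?_ ?_ ?_ hx hx'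
  · intro h0
    rw [h0] at e1
    simp at e1
    omega
  · intro h0
    rw [h0] at e2
    simp at e2
    omega
  · rw [e1, e2]
    rcases enA_f_cases hm hw with h1 | h1
    · right
      rw [h1]
      nlinarith
    · left
      have : w * W = (enA_f m w + 2) * W := by rw [← h1]
      rw [this]
      nlinarith
  · rw [e1, e2]
    rcases enA_f_cases hm hw with h1 | h1
    · rw [h1]
      nlinarith
    · have : w * W = (enA_f m w + 2) * W := by rw [← h1]
      rw [this]
      nlinarith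
  · rw [e1, e2]
    rcases enA_f_cases hm hw with h1 | h1
    · rw [h1]
      nlinarith
    · have : w * W = (enA_f m w + 2) * W := by rw [← h1]
      rw [this]
      nlinarith

/-- One space edge, all windows. -/
private theorem enA_edge (hW : 0 < W) (hm : 4 ≤ m) (hN : N = m * W)
    (hc1 : 0 < c1) (hc : Local n N W β K c1 b h c) (o : Tor n) (a : Nd n N → ℝ)
    (x y z x' y' z' : ℕ) (e : Fin 3) (hp : pt n o x' y' z' = pt n o x y z + Pi.single e 1)
    (hx : h (pt n o x y z) = 1) (hx' : h (pt n o x' y' z') = 1) :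
    c1 * (β / m) ^ 2 * ∑ w ∈ range m,
        (UU n N W o a x' y' z' w - UU n N W o a x y z w) ^ 2 ≤
      2 * enA_Q c a (pt n o x y z) (pt n o x y z + Pi.single e 1) +
      2 * enA_Q c a (pt n o x y z) (pt n o x y z + 0) := by
  have hm0 : 0 < m := by omega
  have A1 := enA_windows (β := β) (c1 := c1) hc.nonneg hW hm0 hN hc1 o a m le_rfl (enA_f m)
    (fun w hw => enA_f_lt hw) x y z x' y' z' (by
      intro w hw j hj i hi
      rw [hp]
      exact enA_nbr_f hm hN hc hw hj hi _ e hx (by rw [← hp]; exact hx'))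
  have A2 := enA_windows (β := β) (c1 := c1) hc.nonneg hW hm0 hN hc1 o a m le_rfl (enA_f m)
    (fun w hw => enA_f_lt hw) x y z x y z (by
      intro w hw j hj i hi
      exact enA_same_f hm hN hc hw hj hi _ hx)
  rw [add_zero, ← hp]
  have hpos : 0 ≤ c1 * (β / m) ^ 2 := by positivity
  have key : ∑ w ∈ range m, (UU n N W o a x' y' z' w - UU n N W o a x y z w) ^ 2 ≤
      2 * ∑ w ∈ range m, (UU n N W o a x y z (enA_f m w) - UU n N W o a x' y' z' w) ^ 2 +
      2 * ∑ w ∈ range m, (UU n N W o a x y z (enA_f m w) - UU n N W o a x y z w) ^ 2 := by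
    rw [Finset.mul_sum, Finset.mul_sum, ← Finset.sum_add_distrib]
    refine Finset.sum_le_sum fun w _ => ?_
    nlinarith [sq_nonneg ((UU n N W o a x y z (enA_f m w) - UU n N W o a x' y' z' w) +
      (UU n N W o a x y z (enA_f m w) - UU n N W o a x y z w))]
  have := mul_le_mul_of_nonneg_left key hpos
  linarith

end main

/-- time and space edges of the window averages (`τ = β / m = β W / N`): same site pairs in the
windows `w, w + 1`; neighbour pairs in the windows `w, w + 2` (or `w, w - 2` at the end). -/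
theorem E4_le {n N W m : ℕ} [NeZero n] {β K c1 : ℝ} {b : Finset (Tor n)} {h : Tor n → ℝ}
    {c : Nd n N → Nd n N → ℝ} (hW : 0 < W) (hm : 4 ≤ m) (hN : N = m * W) (hβ : 0 < β)
    (hc1 : 0 < c1) (hc : Local n N W β K c1 b h c) (o : Tor n) (S : ℕ) (hS : S < n)
    (h1 : ∀ x ∈ cube n o S, h x = 1) (a : Nd n N → ℝ) :
    c1 * (β / m) ^ 2 * E4 S m (UU n N W o a) ≤ 100 * netK c a := by
  have hm0 : 0 < m := by omega
  have hnn : 0 ≤ netK c a := netK_nonneg hc.nonneg a
  have hone : ∀ x y z : ℕ, x < S → y < S → z < S → h (pt n o x y z) = 1 :=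
    fun x y z hx hy hz => h1 _ (enA_mem o hx hy hz)
  -- time
  have Ht : c1 * (β / m) ^ 2 * Eti S m (UU n N W o a) ≤ 2 * netK c a := by
    refine le_trans ?_ (enA_sum_shift hc.nonneg a o hS.le hS.le hS.le 0)
    unfold Eti
    simp only [Finset.mul_sum (s := range S)]
    refine Finset.sum_le_sum fun x hx => Finset.sum_le_sum fun y hy =>
      Finset.sum_le_sum fun z hz => ?_
    rw [Finset.mem_range] at hx hy hz
    rw [add_zero]
    refine enA_windows hc.nonneg hW hm0 hN hc1 o a (m - 1) (by omega) (fun w => w + 1)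
      (fun w hw => by omega) x y z x y z ?_
    intro w hw j hj i hi
    rw [hc.symm]
    exact enA_same_le hm hN hc (by omega) (by omega) hi hj ⟨by omega, by omega⟩ _
      (hone x y z hx hy hz)
  -- space
  have hS1 : S - 1 ≤ n := by omega
  have Hs1 : c1 * (β / m) ^ 2 * (∑ x ∈ range (S - 1), ∑ y ∈ range S, ∑ z ∈ range S,
      ∑ w ∈ range m, (UU n N W o a (x + 1) y z w - UU n N W o a x y z w) ^ 2) ≤
      8 * netK c a := by
    have B1 := enA_sum_shift hc.nonneg a o hS1 hS.le hS.le (Pi.single 0 1)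
    have B2 := enA_sum_shift hc.nonneg a o hS1 hS.le hS.le 0
    have B3 : c1 * (β / m) ^ 2 * (∑ x ∈ range (S - 1), ∑ y ∈ range S, ∑ z ∈ range S,
        ∑ w ∈ range m, (UU n N W o a (x + 1) y z w - UU n N W o a x y z w) ^ 2) ≤
        ∑ x ∈ range (S - 1), ∑ y ∈ range S, ∑ z ∈ range S,
          (2 * enA_Q c a (pt n o x y z) (pt n o x y z + Pi.single 0 1) +
            2 * enA_Q c a (pt n o x y z) (pt n o x y z + 0)) := by
      simp only [Finset.mul_sum (s := range S), Finset.mul_sum (s := range (S - 1))]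
      refine Finset.sum_le_sum fun x hx => Finset.sum_le_sum fun y hy =>
        Finset.sum_le_sum fun z hz => ?_
      rw [Finset.mem_range] at hx hy hz
      exact enA_edge hW hm hN hc1 hc o a x y z (x + 1) y z 0 (enA_pt_succ o x y z).1
        (hone _ _ _ (by omega) hy hz) (hone _ _ _ (by omega) hy hz)
    simp only [Finset.sum_add_distrib, ← Finset.mul_sum] at B3
    linarith
  have Hs2 : c1 * (β / m) ^ 2 * (∑ x ∈ range S, ∑ y ∈ range (S - 1), ∑ z ∈ range S,
      ∑ w ∈ range m, (UU n N W o a x (y + 1) z w - UU n N W o a x y z w) ^ 2) ≤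
      8 * netK c a := by
    have B1 := enA_sum_shift hc.nonneg a o hS.le hS1 hS.le (Pi.single 1 1)
    have B2 := enA_sum_shift hc.nonneg a o hS.le hS1 hS.le 0
    have B3 : c1 * (β / m) ^ 2 * (∑ x ∈ range S, ∑ y ∈ range (S - 1), ∑ z ∈ range S,
        ∑ w ∈ range m, (UU n N W o a x (y + 1) z w - UU n N W o a x y z w) ^ 2) ≤
        ∑ x ∈ range S, ∑ y ∈ range (S - 1), ∑ z ∈ range S,
          (2 * enA_Q c a (pt n o x y z) (pt n o x y z + Pi.single 1 1) +
            2 * enA_Q c a (pt n o x y z) (pt n o x y z + 0)) := by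
      simp only [Finset.mul_sum (s := range S), Finset.mul_sum (s := range (S - 1))]
      refine Finset.sum_le_sum fun x hx => Finset.sum_le_sum fun y hy =>
        Finset.sum_le_sum fun z hz => ?_
      rw [Finset.mem_range] at hx hy hz
      exact enA_edge hW hm hN hc1 hc o a x y z x (y + 1) z 1 (enA_pt_succ o x y z).2.1
        (hone _ _ _ hx (by omega) hz) (hone _ _ _ hx (by omega) hz)
    simp only [Finset.sum_add_distrib, ← Finset.mul_sum] at B3
    linarith
  have Hs3 : c1 * (β / m) ^ 2 * (∑ x ∈ range S, ∑ y ∈ range S, ∑ z ∈ range (S - 1),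
      ∑ w ∈ range m, (UU n N W o a x y (z + 1) w - UU n N W o a x y z w) ^ 2) ≤
      8 * netK c a := by
    have B1 := enA_sum_shift hc.nonneg a o hS.le hS.le hS1 (Pi.single 2 1)
    have B2 := enA_sum_shift hc.nonneg a o hS.le hS.le hS1 0
    have B3 : c1 * (β / m) ^ 2 * (∑ x ∈ range S, ∑ y ∈ range S, ∑ z ∈ range (S - 1),
        ∑ w ∈ range m, (UU n N W o a x y (z + 1) w - UU n N W o a x y z w) ^ 2) ≤
        ∑ x ∈ range S, ∑ y ∈ range S, ∑ z ∈ range (S - 1),
          (2 * enA_Q c a (pt n o x y z) (pt n o x y z + Pi.single 2 1) +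
            2 * enA_Q c a (pt n o x y z) (pt n o x y z + 0)) := by
      simp only [Finset.mul_sum (s := range S), Finset.mul_sum (s := range (S - 1))]
      refine Finset.sum_le_sum fun x hx => Finset.sum_le_sum fun y hy =>
        Finset.sum_le_sum fun z hz => ?_
      rw [Finset.mem_range] at hx hy hz
      exact enA_edge hW hm hN hc1 hc o a x y z x y (z + 1) 2 (enA_pt_succ o x y z).2.2
        (hone _ _ _ hx hy (by omega)) (hone _ _ _ hx hy (by omega))
    simp only [Finset.sum_add_distrib, ← Finset.mul_sum] at B3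
    linarith
  unfold E4 Esp
  rw [mul_add, mul_add, mul_add]
  linarith

end Vale.Agent.P361.LRO.Ind
end

section

/-!
# P361 LRO, block (6): test functions

`test_le` uses the test function `1` on `E'` and `min (2 a, 1)` elsewhere; `LBn_of_trunc` clips a
potential to `[0, 1]`; `LBn_of_RBn` passes from resistance to conductance.
-/

namespace Vale.Agent.P361.LRO.Ind

open Finset Vale.Agent.P361.LRO _root_.P361.LRO

noncomputable section

theorem test_minsq (s t : ℝ) : (min (2 * s) 1 - min (2 * t) 1) ^ 2 ≤ 4 * (s - t) ^ 2 := by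
  rw [show 4 * (s - t) ^ 2 = (2 * s - 2 * t) ^ 2 by ring, sq_le_sq]
  exact (abs_min_sub_min_le_max (2 * s) 1 (2 * t) 1).trans (by simp)

theorem test_clipsq (s t : ℝ) :
    (max 0 (min s 1) - max 0 (min t 1)) ^ 2 ≤ (s - t) ^ 2 := by
  rw [sq_le_sq]
  refine (abs_max_sub_max_le_max 0 (min s 1) 0 (min t 1)).trans ?_
  simp only [sub_self, abs_zero]
  refine max_le (abs_nonneg _) ?_
  exact (abs_min_sub_min_le_max s 1 t 1).trans (by simp)

/-- Test function `1` on `E'`, `min (2 a, 1)` elsewhere. -/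
theorem test_le {X : Type} [Fintype X] [DecidableEq X] {c : X → X → ℝ} (hs : ∀ u v, c u v = c v u)
    (hc : ∀ u v, 0 ≤ c u v) {E E' G : Finset X} {A : ℝ} (hA : LBn c E' G A)
    (hd : Disjoint E' G) {a : X → ℝ} (h0 : ∀ x, 0 ≤ a x)
    (hE : ∀ x ∈ E, a x = 1) (hG : ∀ x ∈ G, a x = 0) :
    A ≤ 4 * netK c a + ∑ z ∈ (E' \ E).filter (fun z => a z < 1 / 2), ∑ v, c z v := by
  set B : Finset X := (E' \ E).filter (fun z => a z < 1 / 2) with hB
  set b : X → ℝ := fun x => if x ∈ E' then 1 else min (2 * a x) 1 with hb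
  have h1 : A ≤ netK c b := by
    refine hA b (fun x hx => by simp [hb, hx]) (fun x hx => ?_)
    have hx' : x ∉ E' := fun h => (Finset.disjoint_left.mp hd) h hx
    simp [hb, hx', hG x hx]
  have hb01 : ∀ x, 0 ≤ b x ∧ b x ≤ 1 := by
    intro x
    by_cases hx : x ∈ E'
    · simp [hb, hx]
    · simp only [hb, hx, if_false]
      exact ⟨le_min (by linarith [h0 x]) zero_le_one, min_le_right _ _⟩
  have hbm : ∀ x, x ∉ B → b x = min (2 * a x) 1 := by
    intro x hx
    by_cases hx' : x ∈ E'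
    · by_cases hxE : x ∈ E
      · simp only [hb, hx', if_true, hE x hxE]
        norm_num
      · have : ¬ a x < 1 / 2 := fun h => hx (by simp [hB, hx', hxE] ; linarith)
        simp only [hb, hx', if_true]
        rw [min_eq_right]
        push Not at this
        linarith
    · simp [hb, hx']
  have hpt : ∀ x y, (b x - b y) ^ 2 ≤ 4 * (a x - a y) ^ 2 + (if x ∈ B then 1 else 0)
      + (if y ∈ B then 1 else 0) := by
    intro x y
    have hle1 : (b x - b y) ^ 2 ≤ 1 := by
      have hx := hb01 x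
      have hy := hb01 y
      nlinarith [hx.1, hx.2, hy.1, hy.2]
    have hsq : 0 ≤ 4 * (a x - a y) ^ 2 := by positivity
    by_cases hx : x ∈ B
    · rw [if_pos hx]
      have : (0 : ℝ) ≤ if y ∈ B then 1 else 0 := by split_ifs <;> norm_num
      linarith
    · by_cases hy : y ∈ B
      · rw [if_neg hx, if_pos hy]
        linarith
      · rw [if_neg hx, if_neg hy, hbm x hx, hbm y hy]
        linarith [test_minsq (a x) (a y)]
  have hfirst : ∑ x, ∑ y, c x y * (if x ∈ B then (1 : ℝ) else 0) = ∑ z ∈ B, ∑ v, c z v := by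
    rw [← Finset.sum_filter_add_sum_filter_not univ (fun x => x ∈ B)]
    have h2 : ∑ x ∈ univ.filter (fun x => x ∉ B), ∑ y, c x y * (if x ∈ B then (1 : ℝ) else 0) = 0 := by
      refine Finset.sum_eq_zero fun x hx => Finset.sum_eq_zero fun y _ => ?_
      rw [if_neg (Finset.mem_filter.mp hx).2, mul_zero]
    rw [h2, add_zero]
    have h3 : univ.filter (fun x => x ∈ B) = B := by ext x; simp
    rw [h3]
    refine Finset.sum_congr rfl fun x hx => Finset.sum_congr rfl fun y _ => ?_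
    rw [if_pos hx, mul_one]
  have hsecond : ∑ x, ∑ y, c x y * (if y ∈ B then (1 : ℝ) else 0) = ∑ z ∈ B, ∑ v, c z v := by
    rw [Finset.sum_comm, ← hfirst]
    exact Finset.sum_congr rfl fun y _ => Finset.sum_congr rfl fun x _ => by rw [hs x y]
  have hsum : ∑ x, ∑ y, c x y * (b x - b y) ^ 2 ≤
      4 * ∑ x, ∑ y, c x y * (a x - a y) ^ 2 + ∑ x, ∑ y, c x y * (if x ∈ B then (1 : ℝ) else 0)
        + ∑ x, ∑ y, c x y * (if y ∈ B then (1 : ℝ) else 0) := by
    rw [Finset.mul_sum, ← Finset.sum_add_distrib, ← Finset.sum_add_distrib]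
    refine Finset.sum_le_sum fun x _ => ?_
    rw [Finset.mul_sum, ← Finset.sum_add_distrib, ← Finset.sum_add_distrib]
    refine Finset.sum_le_sum fun y _ => ?_
    calc c x y * (b x - b y) ^ 2 ≤ c x y * (4 * (a x - a y) ^ 2 + (if x ∈ B then 1 else 0)
      + (if y ∈ B then 1 else 0)) := mul_le_mul_of_nonneg_left (hpt x y) (hc x y)
      _ = _ := by ring
  rw [hfirst, hsecond] at hsum
  unfold netK at h1 ⊢
  linarith

/-- Reduction to `0 ≤ a ≤ 1`. -/
theorem LBn_of_trunc {X : Type} [Fintype X] [DecidableEq X] {c : X → X → ℝ}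
    (hc : ∀ u v, 0 ≤ c u v) {E G : Finset X} {A : ℝ}
    (h : ∀ a : X → ℝ, (∀ x, 0 ≤ a x ∧ a x ≤ 1) → (∀ x ∈ E, a x = 1) → (∀ x ∈ G, a x = 0) →
      A ≤ netK c a) : LBn c E G A := by
  intro a hE hG
  have h1 : A ≤ netK c (fun x => max 0 (min (a x) 1)) := by
    refine h _ (fun x => ⟨le_max_left _ _, max_le zero_le_one (min_le_right _ _)⟩)
      (fun x hx => ?_) (fun x hx => ?_)
    · simp [hE x hx]
    · simp [hG x hx]
  refine h1.trans ?_
  unfold netK
  refine mul_le_mul_of_nonneg_left ?_ (by norm_num)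
  refine Finset.sum_le_sum fun x _ => Finset.sum_le_sum fun y _ => ?_
  exact mul_le_mul_of_nonneg_left (test_clipsq _ _) (hc x y)

/-- From resistance to conductance. -/
theorem LBn_of_RBn {X : Type} [Fintype X] [DecidableEq X] {c : X → X → ℝ} {E G : Finset X}
    {q : X → ℝ} {R : ℝ} (hR : 0 < R) (hq : ∀ x, x ∉ G → q x = 0) (h : RBn c E q R) :
    LBn c E G (1 / R) := by
  intro a hE hG
  have h1 := h a hE
  have h2 : ∑ x, q x * a x = 0 := by
    refine Finset.sum_eq_zero fun x _ => ?_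
    by_cases hx : x ∈ G
    · rw [hG x hx, mul_zero]
    · rw [hq x hx, zero_mul]
  rw [h2] at h1
  rw [div_le_iff₀ hR]
  linarith

end

end Vale.Agent.P361.LRO.Ind
end

section

/-!
# P361 LRO, block (6), E2: deviation from the window averages (helper155)
-/

namespace Vale.Agent.P361.LRO.Ind

open Finset Vale.Agent.P361.LRO _root_.P361.LRO

namespace E155

lemma pt_injE {n : ℕ} [NeZero n] (o : Tor n) {a b c a' b' c' : ℕ} (ha : a < n) (hb : b < n)
    (hc : c < n) (ha' : a' < n) (hb' : b' < n) (hc' : c' < n)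
    (h : pt n o a b c = pt n o a' b' c') : a = a' ∧ b = b' ∧ c = c' := by
  have h1 := add_left_cancel h
  have key : ∀ {p q : ℕ}, p < n → q < n → ((p : ZMod n) = (q : ZMod n)) → p = q := by
    intro p q hp hq hpq
    have h2 := (ZMod.natCast_eq_natCast_iff' p q n).1 hpq
    rwa [Nat.mod_eq_of_lt hp, Nat.mod_eq_of_lt hq] at h2
  refine ⟨key ha ha' ?_, key hb hb' ?_, key hc hc' ?_⟩
  · have := congrFun h1 0
    simpa using this
  · have := congrFun h1 1
    simpa using this
  · have := congrFun h1 2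
    simpa using this

lemma lay_val {N W m w j : ℕ} (hN : N = m * W) (hw : w < m) (hj : j < W) :
    ((lay N W w j : Fin (N + 1)) : ℕ) = 1 + w * W + j := by
  have h : w * W + j < N := by
    rw [hN]
    calc w * W + j < w * W + W := by omega
      _ = (w + 1) * W := by ring
      _ ≤ m * W := Nat.mul_le_mul_right W (by omega)
  unfold lay
  rw [dif_pos (by omega)]

lemma lay_inj {N W m w j w' j' : ℕ} (hN : N = m * W) (hw : w < m) (hj : j < W) (hw' : w' < m) (hj' : j' < W)
    (h : lay N W w j = lay N W w' j') : w = w' ∧ j = j' := by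
  have h1 := congrArg (fun k : Fin (N + 1) => (k : ℕ)) h
  simp only [lay_val hN hw hj, lay_val hN hw' hj'] at h1
  have hW : 0 < W := by omega
  have h2 : w * W + j = w' * W + j' := by omega
  have h3 : w = w' := by
    have e1 : (w * W + j) / W = w := by
      rw [Nat.mul_comm, Nat.mul_add_div hW, Nat.div_eq_of_lt hj, add_zero]
    have e2 : (w' * W + j') / W = w' := by
      rw [Nat.mul_comm, Nat.mul_add_div hW, Nat.div_eq_of_lt hj', add_zero]
    rw [← e1, ← e2, h2]
  refine ⟨h3, ?_⟩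
  subst h3
  omega

/-- variance identity -/
lemma var_eq (W : ℕ) (hW : 0 < W) (g : ℕ → ℝ) :
    (1 / 2 : ℝ) * ∑ j ∈ range W, ∑ l ∈ range W, (g j - g l) ^ 2 =
      W * ∑ j ∈ range W, (g j - (1 / W : ℝ) * ∑ l ∈ range W, g l) ^ 2 := by
  have hW' : (W : ℝ) ≠ 0 := Nat.cast_ne_zero.2 hW.ne'
  set s := ∑ l ∈ range W, g l with hs
  set q := ∑ l ∈ range W, g l ^ 2 with hq
  have e1 : ∑ j ∈ range W, ∑ l ∈ range W, (g j - g l) ^ 2 = 2 * W * q - 2 * s ^ 2 := by
    have : ∀ j ∈ range W, ∑ l ∈ range W, (g j - g l) ^ 2 = W * g j ^ 2 - 2 * g j * s + q := by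
      intro j _
      have h1 : ∀ l ∈ range W, (g j - g l) ^ 2 = g j ^ 2 - 2 * g j * g l + g l ^ 2 := fun l _ => by ring
      rw [Finset.sum_congr rfl h1, Finset.sum_add_distrib, Finset.sum_sub_distrib, Finset.sum_const, card_range,
        nsmul_eq_mul, ← Finset.mul_sum]
    rw [Finset.sum_congr rfl this, Finset.sum_add_distrib, Finset.sum_sub_distrib, ← Finset.mul_sum, Finset.sum_const,
      card_range, nsmul_eq_mul, ← Finset.sum_mul, ← Finset.mul_sum, ← hs, ← hq]
    ring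
  have e2 : ∑ j ∈ range W, (g j - (1 / W : ℝ) * s) ^ 2 = q - (1 / W) * s ^ 2 := by
    have : ∀ j ∈ range W, (g j - (1 / W : ℝ) * s) ^ 2 = g j ^ 2 - 2 * ((1 / W) * s) * g j + ((1 / W) * s) ^ 2 :=
      fun j _ => by ring
    rw [Finset.sum_congr rfl this, Finset.sum_add_distrib, Finset.sum_sub_distrib, ← Finset.mul_sum, Finset.sum_const,
      card_range, nsmul_eq_mul, ← hs, ← hq]
    field_simp
    ring
  rw [e1, e2]
  field_simp

/-- restriction to an injective family of nodes -/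
lemma sum_inj_le {ι X : Type} [Fintype X] [DecidableEq X] (s : Finset ι) (f : ι → X)
    (hf : ∀ i ∈ s, ∀ j ∈ s, f i = f j → i = j) (g : X → ℝ) (hg : ∀ x, 0 ≤ g x) :
    ∑ i ∈ s, g (f i) ≤ ∑ x, g x := by
  classical
  rw [← Finset.sum_image (g := f) hf]
  exact Finset.sum_le_sum_of_subset_of_nonneg (Finset.subset_univ _) fun x _ _ => hg x

end E155

open E155

/-- deviation from the window averages. -/
theorem dev_le {n N W m : ℕ} [NeZero n] {β K c1 : ℝ} {b : Finset (Tor n)} {h : Tor n → ℝ}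
    {c : Nd n N → Nd n N → ℝ} (hW : 0 < W) (_hm : 4 ≤ m) (hN : N = m * W) (hβ : 0 < β)
    (hc1 : 0 < c1) (hc : Local n N W β K c1 b h c) (o : Tor n) (S : ℕ) (hS : S < n)
    (h1 : ∀ x ∈ cube n o S, h x = 1) (a : Nd n N → ℝ) :
    c1 * (β / m) * (β / N) * (∑ x ∈ range S, ∑ y ∈ range S, ∑ z ∈ range S, ∑ w ∈ range m,
      ∑ j ∈ range W, (a (lay N W w j, pt n o x y z) - UU n N W o a x y z w) ^ 2) ≤ netK c a := by
  classical
  have hm0 : 0 < m := by omega
  have hWr : (0 : ℝ) < W := Nat.cast_pos.2 hW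
  have hmr : (0 : ℝ) < m := Nat.cast_pos.2 hm0
  have hNr : (N : ℝ) = m * W := by rw [hN]; push_cast; ring
  -- the nodes
  let nd : ℕ × ℕ × ℕ × ℕ → ℕ → Nd n N := fun p j => (lay N W p.2.2.2 j, pt n o p.1 p.2.1 p.2.2.1)
  let P : Finset (ℕ × ℕ × ℕ × ℕ) := range S ×ˢ range S ×ˢ range S ×ˢ range m
  have hmem : ∀ p ∈ P, p.1 < S ∧ p.2.1 < S ∧ p.2.2.1 < S ∧ p.2.2.2 < m := by
    intro p hp
    simpa [P, Finset.mem_product] using hp
  have hndinj : ∀ q ∈ P ×ˢ range W, ∀ q' ∈ P ×ˢ range W, nd q.1 q.2 = nd q'.1 q'.2 → q = q' := by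
    rintro ⟨⟨x, y, z, w⟩, j⟩ hq ⟨⟨x', y', z', w'⟩, j'⟩ hq' he
    obtain ⟨hp, hj⟩ := Finset.mem_product.1 hq
    obtain ⟨hp', hj'⟩ := Finset.mem_product.1 hq'
    obtain ⟨h1, h2, h3, h4⟩ := hmem _ hp
    obtain ⟨h1', h2', h3', h4'⟩ := hmem _ hp'
    simp only [Finset.mem_range] at hj hj'
    obtain ⟨e1, e2⟩ := Prod.ext_iff.1 he
    obtain ⟨f1, f2, f3⟩ := pt_injE o (lt_trans h1 hS) (lt_trans h2 hS) (lt_trans h3 hS) (lt_trans h1' hS)
      (lt_trans h2' hS) (lt_trans h3' hS) e2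
    obtain ⟨g1, g2⟩ := lay_inj hN h4 hj h4' hj' e1
    simp only at f1 f2 f3 g1 g2
    rw [f1, f2, f3, g1, g2]
  -- lower bound by pairs in the same window
  have hcube : ∀ p ∈ P, h (pt n o p.1 p.2.1 p.2.2.1) = 1 := by
    intro p hp
    obtain ⟨h1', h2, h3, -⟩ := hmem p hp
    refine h1 _ ?_
    unfold cube pt
    refine Finset.mem_image.2 ⟨![⟨p.1, h1'⟩, ⟨p.2.1, h2⟩, ⟨p.2.2.1, h3⟩], Finset.mem_univ _, ?_⟩
    congr 1
    funext i
    fin_cases i <;> simp
  have hF : ∀ u v, 0 ≤ c u v * (a u - a v) ^ 2 := fun u v => mul_nonneg (hc.nonneg u v) (sq_nonneg _)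
  have hin : ∀ p ∈ P, ∀ j ∈ range W, ∀ l ∈ range W,
      c1 * (β / N) ^ 2 * (a (nd p j) - a (nd p l)) ^ 2 ≤ c (nd p j) (nd p l) * (a (nd p j) - a (nd p l)) ^ 2 := by
    intro p hp j hj l hl
    obtain ⟨-, -, -, hw⟩ := hmem p hp
    rw [Finset.mem_range] at hj hl
    have vj := lay_val hN hw hj
    have vl := lay_val hN hw hl
    rcases lt_trichotomy j l with hjl | hjl | hjl
    · refine mul_le_mul_of_nonneg_right ?_ (sq_nonneg _)
      refine hc.same _ _ _ ?_ ?_ ?_ (hcube p hp)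
      · intro h0
        rw [h0] at vj
        simp only [Fin.val_zero] at vj
        omega
      · rw [Fin.lt_def, vj, vl]
        omega
      · rw [vj, vl]
        omega
    · rw [hjl]
      simp
    · rw [hc.symm (nd p j) (nd p l)]
      refine mul_le_mul_of_nonneg_right ?_ (sq_nonneg _)
      refine hc.same _ _ _ ?_ ?_ ?_ (hcube p hp)
      · intro h0
        rw [h0] at vl
        simp only [Fin.val_zero] at vl
        omega
      · rw [Fin.lt_def, vj, vl]
        omega
      · rw [vj, vl]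
        omega
  have step1 : ∑ p ∈ P, ∑ j ∈ range W, ∑ l ∈ range W, c1 * (β / N) ^ 2 * (a (nd p j) - a (nd p l)) ^ 2 ≤
      ∑ u, ∑ v, c u v * (a u - a v) ^ 2 := by
    have s1 : ∑ p ∈ P, ∑ j ∈ range W, ∑ l ∈ range W, c1 * (β / N) ^ 2 * (a (nd p j) - a (nd p l)) ^ 2 ≤
        ∑ p ∈ P, ∑ j ∈ range W, ∑ v, c (nd p j) v * (a (nd p j) - a v) ^ 2 := by
      refine Finset.sum_le_sum fun p hp => Finset.sum_le_sum fun j hj => ?_
      refine (Finset.sum_le_sum fun l hl => hin p hp j hj l hl).trans ?_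
      refine sum_inj_le (range W) (fun l => nd p l) ?_ (fun v => c (nd p j) v * (a (nd p j) - a v) ^ 2)
        (fun v => hF _ v)
      intro l hl l' hl' he
      have := hndinj (p, l) (Finset.mem_product.2 ⟨hp, hl⟩) (p, l') (Finset.mem_product.2 ⟨hp, hl'⟩) he
      exact (Prod.ext_iff.1 this).2
    refine s1.trans ?_
    rw [← Finset.sum_product (f := fun q : (ℕ × ℕ × ℕ × ℕ) × ℕ =>
      ∑ v, c (nd q.1 q.2) v * (a (nd q.1 q.2) - a v) ^ 2)]
    exact sum_inj_le (P ×ˢ range W) (fun q => nd q.1 q.2) hndinj (fun u => ∑ v, c u v * (a u - a v) ^ 2)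
      (fun u => Finset.sum_nonneg fun v _ => hF u v)
  have step2 : ∀ p ∈ P, (1 / 2 : ℝ) * ∑ j ∈ range W, ∑ l ∈ range W, c1 * (β / N) ^ 2 * (a (nd p j) - a (nd p l)) ^ 2 =
      c1 * (β / m) * (β / N) * ∑ j ∈ range W, (a (lay N W p.2.2.2 j, pt n o p.1 p.2.1 p.2.2.1) -
        UU n N W o a p.1 p.2.1 p.2.2.1 p.2.2.2) ^ 2 := by
    intro p _
    have h2 := var_eq W hW fun j => a (nd p j)
    have h3 : (1 / 2 : ℝ) * ∑ j ∈ range W, ∑ l ∈ range W, c1 * (β / N) ^ 2 * (a (nd p j) - a (nd p l)) ^ 2 =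
        c1 * (β / N) ^ 2 * ((1 / 2 : ℝ) * ∑ j ∈ range W, ∑ l ∈ range W, (a (nd p j) - a (nd p l)) ^ 2) := by
      simp only [← Finset.mul_sum]
      ring
    rw [h3, h2]
    have h4 : c1 * (β / N) ^ 2 * (W * ∑ j ∈ range W, (a (nd p j) - (1 / W : ℝ) * ∑ l ∈ range W, a (nd p l)) ^ 2) =
        (c1 * (β / N) ^ 2 * W) * ∑ j ∈ range W, (a (nd p j) - (1 / W : ℝ) * ∑ l ∈ range W, a (nd p l)) ^ 2 := by ring
    rw [h4]
    congr 1
    rw [hNr]
    field_simp
  have step3 : c1 * (β / m) * (β / N) * (∑ x ∈ range S, ∑ y ∈ range S, ∑ z ∈ range S, ∑ w ∈ range m,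
      ∑ j ∈ range W, (a (lay N W w j, pt n o x y z) - UU n N W o a x y z w) ^ 2) =
      (1 / 2) * ∑ p ∈ P, ∑ j ∈ range W, ∑ l ∈ range W, c1 * (β / N) ^ 2 * (a (nd p j) - a (nd p l)) ^ 2 := by
    have s3 : (1 / 2 : ℝ) * ∑ p ∈ P, ∑ j ∈ range W, ∑ l ∈ range W, c1 * (β / N) ^ 2 * (a (nd p j) - a (nd p l)) ^ 2 =
        ∑ p ∈ P, (1 / 2 : ℝ) * ∑ j ∈ range W, ∑ l ∈ range W, c1 * (β / N) ^ 2 * (a (nd p j) - a (nd p l)) ^ 2 :=
      Finset.mul_sum _ _ _
    rw [s3, Finset.sum_congr rfl step2, ← Finset.mul_sum]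
    congr 1
    simp only [P, Finset.sum_product]
  rw [step3]
  unfold netK
  linarith [step1]

end Vale.Agent.P361.LRO.Ind
end

section

/-!
# P361 LRO, block (6), V1: the number of nodes with `a < 1/2` over a cube (helper655)
-/

namespace Vale.Agent.P361.LRO.Ind

open Finset Vale.Agent.P361.LRO _root_.P361.LRO

/-- every physical node over the cube is a window node -/
theorem va655_node {n N W m : ℕ} [NeZero n] (hW : 0 < W) (hN : N = m * W) (o : Tor n) (S : ℕ)
    {z : Nd n N} (hz : z ∈ ((univ.filter fun k => k ≠ 0) ×ˢ cube n o S : Finset (Nd n N))) :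
    ∃ x < S, ∃ y < S, ∃ c < S, ∃ w < m, ∃ j < W, z = (lay N W w j, pt n o x y c) := by
  obtain ⟨k, p⟩ := z
  rw [Finset.mem_product] at hz
  obtain ⟨hk, hp⟩ := hz
  have hk0 : k ≠ 0 := by simpa using hk
  have hk1 : 1 ≤ (k : ℕ) := Nat.one_le_iff_ne_zero.2 fun h => hk0 (Fin.ext h)
  have hkN : (k : ℕ) ≤ m * W := by
    have := k.isLt
    omega
  have hp' : p ∈ cube n o S := hp
  unfold cube at hp'
  rw [Finset.mem_image] at hp'
  obtain ⟨y, -, hy⟩ := hp'
  have hmod := Nat.div_add_mod ((k : ℕ) - 1) W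
  have hlt : ((k : ℕ) - 1) / W < m := by
    rw [Nat.div_lt_iff_lt_mul hW]
    omega
  have hj : ((k : ℕ) - 1) % W < W := Nat.mod_lt _ hW
  have he : 1 + ((k : ℕ) - 1) / W * W + ((k : ℕ) - 1) % W = k := by
    rw [mul_comm (((k : ℕ) - 1) / W) W]
    omega
  refine ⟨y 0, (y 0).isLt, y 1, (y 1).isLt, y 2, (y 2).isLt, ((k : ℕ) - 1) / W, hlt, ((k : ℕ) - 1) % W, hj, ?_⟩
  refine Prod.ext ?_ ?_
  · unfold lay
    rw [dif_pos (by rw [he]; exact k.isLt)]
    exact Fin.ext he.symm
  · change p = pt n o (y 0) (y 1) (y 2)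
    rw [← hy]
    unfold pt
    congr 1
    funext i
    fin_cases i <;> rfl

theorem va655_pt {α U : ℝ} : (if α < 1 / 2 then (1 : ℝ) else 0) ≤ 64 * (α - U) ^ 2 + if U < 5 / 8 then 1 else 0 := by
  by_cases h1 : α < 1 / 2
  · rw [if_pos h1]
    by_cases h2 : U < 5 / 8
    · rw [if_pos h2]
      have := sq_nonneg (α - U)
      linarith
    · rw [if_neg h2]
      push Not at h2
      nlinarith
  · rw [if_neg h1]
    have := sq_nonneg (α - U)
    split_ifs <;> positivity

/-- The number of nodes with `a < 1/2` over a cube. -/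
theorem card_low_le {n N W m : ℕ} [NeZero n] (hW : 0 < W) (hm : 0 < m) (hN : N = m * W)
    (o : Tor n) (S : ℕ) (hS : S ≤ n) (a : Nd n N → ℝ) :
    ((((univ.filter fun k => k ≠ 0) ×ˢ cube n o S : Finset (Nd n N)).filter
      fun z => a z < 1 / 2).card : ℝ) ≤
    64 * (∑ x ∈ range S, ∑ y ∈ range S, ∑ z ∈ range S, ∑ w ∈ range m,
      ∑ j ∈ range W, (a (lay N W w j, pt n o x y z) - UU n N W o a x y z w) ^ 2) +
    W * cnt S m (5 / 8) (UU n N W o a) := by
  classical
  set I : Finset (ℕ × ℕ × ℕ × ℕ × ℕ) := range S ×ˢ range S ×ˢ range S ×ˢ range m ×ˢ range W with hI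
  set F : ℕ × ℕ × ℕ × ℕ × ℕ → Nd n N := fun p => (lay N W p.2.2.2.1 p.2.2.2.2, pt n o p.1 p.2.1 p.2.2.1) with hF
  have hsub : (((univ.filter fun k => k ≠ 0) ×ˢ cube n o S : Finset (Nd n N)).filter fun z => a z < 1 / 2) ⊆
      (I.filter fun p => a (F p) < 1 / 2).image F := by
    intro z hz
    rw [Finset.mem_filter] at hz
    obtain ⟨x, hx, y, hy, c, hc, w, hw, j, hj, rfl⟩ := va655_node hW hN o S hz.1
    rw [Finset.mem_image]
    refine ⟨(x, y, c, w, j), ?_, rfl⟩
    rw [Finset.mem_filter]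
    refine ⟨?_, hz.2⟩
    simp only [hI, Finset.mem_product, Finset.mem_range]
    exact ⟨hx, hy, hc, hw, hj⟩
  have hcard : ((((univ.filter fun k => k ≠ 0) ×ˢ cube n o S : Finset (Nd n N)).filter
      fun z => a z < 1 / 2).card : ℝ) ≤ ∑ p ∈ I, if a (F p) < 1 / 2 then (1 : ℝ) else 0 := by
    have h1 := (Finset.card_le_card hsub).trans Finset.card_image_le
    rw [Finset.sum_boole]
    exact_mod_cast h1
  refine hcard.trans ?_
  have hle : ∑ p ∈ I, (if a (F p) < 1 / 2 then (1 : ℝ) else 0) ≤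
      ∑ p ∈ I, (64 * (a (F p) - UU n N W o a p.1 p.2.1 p.2.2.1 p.2.2.2.1) ^ 2 +
        if UU n N W o a p.1 p.2.1 p.2.2.1 p.2.2.2.1 < 5 / 8 then 1 else 0) :=
    Finset.sum_le_sum fun p _ => va655_pt
  refine hle.trans (le_of_eq ?_)
  rw [hI, Finset.sum_product]
  simp only [Finset.sum_product]
  unfold cnt
  rw [Finset.mul_sum, Finset.mul_sum, ← Finset.sum_add_distrib]
  refine Finset.sum_congr rfl fun x _ => ?_
  rw [Finset.mul_sum, Finset.mul_sum, ← Finset.sum_add_distrib]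
  refine Finset.sum_congr rfl fun y _ => ?_
  rw [Finset.mul_sum, Finset.mul_sum, ← Finset.sum_add_distrib]
  refine Finset.sum_congr rfl fun z _ => ?_
  rw [Finset.mul_sum, Finset.mul_sum, ← Finset.sum_add_distrib]
  refine Finset.sum_congr rfl fun w _ => ?_
  rw [Finset.sum_add_distrib, Finset.mul_sum]
  congr 1
  by_cases h : UU n N W o a x y z w < 5 / 8
  · simp [h]
  · simp [h]

end Vale.Agent.P361.LRO.Ind
end

section

/-!
# P361, block GEO, part 1: block averages in one direction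

Everything here is finite combinatorics: `pav s g a` is the average of `g` over the block of
length `s` containing `a`, and tripling the block length costs at most `9 s ^ 2` times the
Dirichlet energy of the line.
-/

namespace Vale.Agent.P361.LRO.Geo

open Finset

/-- average of `g` over the block of length `s` containing `a` -/
noncomputable def pav (s : ℕ) (g : ℕ → ℝ) (a : ℕ) : ℝ :=
  (∑ j ∈ range s, g (s * (a / s) + j)) / s

/-- energy of the line `0, .., n - 1` -/
noncomputable def len (n : ℕ) (g : ℕ → ℝ) : ℝ :=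
  ∑ a ∈ range n, if a + 1 < n then (g (a + 1) - g a) ^ 2 else 0

/-- oscillation on a segment is controlled by its energy -/
lemma osc_le (g : ℕ → ℝ) (c m i j : ℕ) (hij : i ≤ j) (hj : j < m) :
    (g (c + j) - g (c + i)) ^ 2 ≤
      m * ∑ r ∈ range m, if r + 1 < m then (g (c + r + 1) - g (c + r)) ^ 2 else 0 := by
  have h1 : g (c + j) - g (c + i) = ∑ r ∈ Ico i j, (g (c + r + 1) - g (c + r)) := by
    have := Finset.sum_Ico_consecutive (fun r => (g (c + r + 1) - g (c + r)))
      (Nat.zero_le i) hij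
    have h2 : ∀ k, ∑ r ∈ Ico 0 k, (g (c + r + 1) - g (c + r)) = g (c + k) - g c := by
      intro k
      rw [← Finset.range_eq_Ico]
      have := Finset.sum_range_sub (fun r => g (c + r)) k
      simpa [add_assoc] using this
    rw [h2, h2] at this
    linarith
  rw [h1]
  have hcard : ((Ico i j).card : ℝ) ≤ m := by
    rw [Nat.card_Ico]
    exact_mod_cast (Nat.sub_le j i).trans hj.le
  calc (∑ r ∈ Ico i j, (g (c + r + 1) - g (c + r))) ^ 2
      ≤ (Ico i j).card * ∑ r ∈ Ico i j, (g (c + r + 1) - g (c + r)) ^ 2 :=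
        sq_sum_le_card_mul_sum_sq
    _ ≤ m * ∑ r ∈ range m, if r + 1 < m then (g (c + r + 1) - g (c + r)) ^ 2 else 0 := by
        refine mul_le_mul hcard ?_ (Finset.sum_nonneg fun _ _ => sq_nonneg _) (Nat.cast_nonneg _)
        have h3 : ∑ r ∈ Ico i j, (g (c + r + 1) - g (c + r)) ^ 2
            = ∑ r ∈ Ico i j, if r + 1 < m then (g (c + r + 1) - g (c + r)) ^ 2 else 0 := by
          refine Finset.sum_congr rfl fun r hr => ?_
          rw [Finset.mem_Ico] at hr
          rw [if_pos (by omega)]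
        rw [h3]
        refine Finset.sum_le_sum_of_subset_of_nonneg ?_ fun r _ _ => ?_
        · intro r hr
          rw [Finset.mem_Ico] at hr
          rw [Finset.mem_range]
          omega
        · split_ifs
          · exact sq_nonneg _
          · exact le_rfl

lemma avg_sub_sq_le {m n : ℕ} (hm : 0 < m) (hn : 0 < n) (u v : ℕ → ℝ) (B : ℝ)
    (h : ∀ i < m, ∀ j < n, (u i - v j) ^ 2 ≤ B) :
    ((∑ i ∈ range m, u i) / m - (∑ j ∈ range n, v j) / n) ^ 2 ≤ B := by
  have hB : 0 ≤ B := le_trans (sq_nonneg _) (h 0 hm 0 hn)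
  have hm' : (0 : ℝ) < m := by exact_mod_cast hm
  have hn' : (0 : ℝ) < n := by exact_mod_cast hn
  have key : (∑ i ∈ range m, u i) / m - (∑ j ∈ range n, v j) / n
      = (∑ i ∈ range m, ∑ j ∈ range n, (u i - v j)) / (m * n) := by
    have : ∑ i ∈ range m, ∑ j ∈ range n, (u i - v j)
        = n * ∑ i ∈ range m, u i - m * ∑ j ∈ range n, v j := by
      simp only [Finset.sum_sub_distrib, Finset.sum_const, card_range, nsmul_eq_mul,
        Finset.mul_sum]
    rw [this]
    field_simp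
  rw [key]
  have habs : |(∑ i ∈ range m, ∑ j ∈ range n, (u i - v j)) / ((m : ℝ) * n)| ≤ √B := by
    rw [abs_div, abs_of_pos (mul_pos hm' hn'), div_le_iff₀ (mul_pos hm' hn')]
    calc |∑ i ∈ range m, ∑ j ∈ range n, (u i - v j)|
        ≤ ∑ i ∈ range m, |∑ j ∈ range n, (u i - v j)| := Finset.abs_sum_le_sum_abs _ _
      _ ≤ ∑ i ∈ range m, ∑ j ∈ range n, |u i - v j| :=
          Finset.sum_le_sum fun i _ => Finset.abs_sum_le_sum_abs _ _
      _ ≤ ∑ i ∈ range m, ∑ j ∈ range n, √B := by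
          refine Finset.sum_le_sum fun i hi => Finset.sum_le_sum fun j hj => ?_
          rw [Finset.mem_range] at hi hj
          exact Real.abs_le_sqrt (h i hi j hj)
      _ = √B * (m * n) := by
          simp only [Finset.sum_const, card_range, nsmul_eq_mul]
          ring
  calc ((∑ i ∈ range m, ∑ j ∈ range n, (u i - v j)) / ((m : ℝ) * n)) ^ 2
      = |(∑ i ∈ range m, ∑ j ∈ range n, (u i - v j)) / ((m : ℝ) * n)| ^ 2 := (sq_abs _).symm
    _ ≤ (√B) ^ 2 := pow_le_pow_left₀ (abs_nonneg _) habs 2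
    _ = B := Real.sq_sqrt hB

/-- pointwise bound for tripling a block -/
lemma pav_step_pt {s : ℕ} (hs : 0 < s) (g : ℕ → ℝ) (a : ℕ) :
    (pav (3 * s) g a - pav s g a) ^ 2 ≤
      (3 * s : ℕ) * ∑ r ∈ range (3 * s), if r + 1 < 3 * s then
        (g (3 * s * (a / (3 * s)) + r + 1) - g (3 * s * (a / (3 * s)) + r)) ^ 2 else 0 := by
  unfold pav
  set c := 3 * s * (a / (3 * s)) with hc
  have h3s : 0 < 3 * s := by omega
  -- the small block starts at `c + k`
  obtain ⟨k, hk, hk2⟩ : ∃ k, s * (a / s) = c + k ∧ k + s ≤ 3 * s := by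
    have h1 : a / (3 * s) = a / s / 3 := by
      rw [mul_comm, Nat.div_div_eq_div_mul]
    have h2 : a / s = 3 * (a / s / 3) + (a / s) % 3 := (Nat.div_add_mod _ _).symm
    have h4 : (a / s) % 3 < 3 := Nat.mod_lt _ (by norm_num)
    refine ⟨s * ((a / s) % 3), ?_, ?_⟩
    · rw [hc, h1]
      conv_lhs => rw [h2]
      ring
    · have : s * (a / s % 3) ≤ s * 2 := Nat.mul_le_mul_left _ (by omega)
      omega
  rw [hk]
  refine avg_sub_sq_le h3s hs (fun i => g (c + i)) (fun j => g (c + k + j)) _ ?_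
  intro i hi j hj
  rw [add_assoc c k j]
  rcases le_total i (k + j) with h | h
  · have := osc_le g c (3 * s) i (k + j) h (by omega)
    rw [← neg_sq, neg_sub]
    exact this
  · exact osc_le g c (3 * s) (k + j) i h hi

/-- sum over a range of a block function -/
lemma sum_range_blocks (m q : ℕ) (F : ℕ → ℝ) :
    ∑ a ∈ range (m * q), F a = ∑ t ∈ range q, ∑ r ∈ range m, F (m * t + r) := by
  induction q with
  | zero => simp
  | succ q ih =>
      rw [Nat.mul_succ, Finset.sum_range_succ, ← ih, Finset.sum_range_add]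

lemma sum_pav {s : ℕ} (hs : 0 < s) (q : ℕ) (g : ℕ → ℝ) :
    ∑ a ∈ range (s * q), pav s g a = ∑ a ∈ range (s * q), g a := by
  rw [sum_range_blocks, sum_range_blocks]
  refine Finset.sum_congr rfl fun t _ => ?_
  have hs' : (0 : ℝ) < s := by exact_mod_cast hs
  have : ∀ r ∈ range s, pav s g (s * t + r) = (∑ j ∈ range s, g (s * t + j)) / s := by
    intro r hr
    rw [Finset.mem_range] at hr
    unfold pav
    have : (s * t + r) / s = t := by
      rw [Nat.mul_add_div hs, Nat.div_eq_of_lt hr, add_zero]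
    rw [this]
  rw [Finset.sum_congr rfl this, Finset.sum_const, card_range, nsmul_eq_mul]
  field_simp

lemma pav_sq_le {s : ℕ} (hs : 0 < s) (g : ℕ → ℝ) (a : ℕ) :
    (pav s g a) ^ 2 ≤ pav s (fun x => g x ^ 2) a := by
  unfold pav
  have hs' : (0 : ℝ) < s := by exact_mod_cast hs
  rw [div_pow, div_le_div_iff₀ (by positivity) hs']
  have := sq_sum_le_card_mul_sum_sq (s := range s) (f := fun j => g (s * (a / s) + j))
  rw [card_range] at this
  nlinarith [this, hs']

/-- tripling the block length: the one dimensional estimate -/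
lemma pav_step_sum {s : ℕ} (hs : 0 < s) (q : ℕ) (g : ℕ → ℝ) :
    ∑ a ∈ range (3 * s * q), (pav (3 * s) g a - pav s g a) ^ 2 ≤
      9 * (s : ℝ) ^ 2 * len (3 * s * q) g := by
  set m := 3 * s with hm
  have hm0 : 0 < m := by omega
  have h1 : ∑ a ∈ range (m * q), (pav m g a - pav s g a) ^ 2 ≤
      ∑ a ∈ range (m * q), (m : ℝ) * ∑ r ∈ range m, (if r + 1 < m then
        (g (m * (a / m) + r + 1) - g (m * (a / m) + r)) ^ 2 else 0) := by
    refine Finset.sum_le_sum fun a _ => ?_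
    have := pav_step_pt hs g a
    simpa [hm] using this
  refine h1.trans ?_
  rw [sum_range_blocks]
  have h2 : ∀ t ∈ range q, ∑ r' ∈ range m, (m : ℝ) * ∑ r ∈ range m, (if r + 1 < m then
        (g (m * ((m * t + r') / m) + r + 1) - g (m * ((m * t + r') / m) + r)) ^ 2 else 0)
      = (m : ℝ) * m * ∑ r ∈ range m, (if r + 1 < m then
        (g (m * t + r + 1) - g (m * t + r)) ^ 2 else 0) := by
    intro t _
    have : ∀ r' ∈ range m, (m : ℝ) * ∑ r ∈ range m, (if r + 1 < m then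
        (g (m * ((m * t + r') / m) + r + 1) - g (m * ((m * t + r') / m) + r)) ^ 2 else 0)
        = (m : ℝ) * ∑ r ∈ range m, (if r + 1 < m then
        (g (m * t + r + 1) - g (m * t + r)) ^ 2 else 0) := by
      intro r' hr'
      rw [Finset.mem_range] at hr'
      have : (m * t + r') / m = t := by
        rw [Nat.mul_add_div hm0, Nat.div_eq_of_lt hr', add_zero]
      rw [this]
    rw [Finset.sum_congr rfl this, Finset.sum_const, card_range, nsmul_eq_mul]
    ring
  rw [Finset.sum_congr rfl h2, ← Finset.mul_sum]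
  have h3 : ∑ t ∈ range q, ∑ r ∈ range m, (if r + 1 < m then
        (g (m * t + r + 1) - g (m * t + r)) ^ 2 else 0) ≤ len (m * q) g := by
    unfold len
    rw [sum_range_blocks]
    refine Finset.sum_le_sum fun t ht => Finset.sum_le_sum fun r hr => ?_
    rw [Finset.mem_range] at ht hr
    by_cases h : r + 1 < m
    · rw [if_pos h]
      have : m * t + r + 1 < m * q := by
        have : m * (t + 1) ≤ m * q := Nat.mul_le_mul_left _ ht
        rw [Nat.mul_succ] at this
        omega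
      rw [if_pos this]
    · rw [if_neg h]
      split_ifs
      · exact sq_nonneg _
      · exact le_rfl
  have h4 : (m : ℝ) * m = 9 * (s : ℝ) ^ 2 := by
    rw [hm]; push_cast; ring
  rw [h4]
  exact mul_le_mul_of_nonneg_left h3 (by positivity)

end Vale.Agent.P361.LRO.Geo
end

section

/-!
# P361, block GEO, part 2: block averages in four directions
-/

namespace Vale.Agent.P361.LRO.Geo

open Finset Function

/-- space-time points: coordinates `0, 1, 2` space, `3` the number of the time window -/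
abbrev Pt := Fin 4 → ℕ

/-- the box with side vector `N` -/
def box (N : Fin 4 → ℕ) : Finset Pt := Fintype.piFinset fun i => range (N i)

lemma mem_box {N : Fin 4 → ℕ} {x : Pt} : x ∈ box N ↔ ∀ i, x i < N i := by
  simp [box, Fintype.mem_piFinset]

lemma update_mem_box {N : Fin 4 → ℕ} {x : Pt} (hx : x ∈ box N) {i : Fin 4} {a : ℕ}
    (ha : a < N i) : update x i a ∈ box N := by
  rw [mem_box] at hx ⊢
  intro j
  by_cases h : j = i
  · subst h; simpa using ha
  · simpa [update_of_ne h] using hx j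

/-- block average in direction `i` -/
noncomputable def P (i : Fin 4) (s : ℕ) (f : Pt → ℝ) : Pt → ℝ :=
  fun x => pav s (fun a => f (update x i a)) (x i)

/-- Dirichlet energy in direction `i` -/
noncomputable def en (i : Fin 4) (N : Fin 4 → ℕ) (f : Pt → ℝ) : ℝ :=
  ∑ x ∈ box N, if x i + 1 < N i then (f (update x i (x i + 1)) - f x) ^ 2 else 0

lemma en_nonneg (i : Fin 4) (N : Fin 4 → ℕ) (f : Pt → ℝ) : 0 ≤ en i N f := by
  refine Finset.sum_nonneg fun x _ => ?_
  split_ifs
  · exact sq_nonneg _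
  · exact le_rfl

lemma sum_lines (N : Fin 4 → ℕ) (i : Fin 4) (F : Pt → ℝ) :
    (N i : ℝ) * ∑ x ∈ box N, F x = ∑ x ∈ box N, ∑ a ∈ range (N i), F (update x i a) := by
  rw [← Finset.sum_product']
  have h1 : (N i : ℝ) * ∑ x ∈ box N, F x = ∑ p ∈ box N ×ˢ range (N i), F p.1 := by
    rw [Finset.sum_product]
    simp only [Finset.sum_const, card_range, nsmul_eq_mul, Finset.mul_sum]
  rw [h1]
  refine Finset.sum_bij' (fun p _ => (update p.1 i p.2, p.1 i))
    (fun p _ => (update p.1 i p.2, p.1 i)) ?_ ?_ ?_ ?_ ?_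
  · intro p hp
    rw [Finset.mem_product, Finset.mem_range] at hp ⊢
    exact ⟨update_mem_box hp.1 hp.2, (mem_box.1 hp.1) i⟩
  · intro p hp
    rw [Finset.mem_product, Finset.mem_range] at hp ⊢
    exact ⟨update_mem_box hp.1 hp.2, (mem_box.1 hp.1) i⟩
  · intro p hp
    simp
  · intro p hp
    simp
  · intro p hp
    simp

lemma sum_le_of_lines (N : Fin 4 → ℕ) (i : Fin 4) (F G : Pt → ℝ)
    (h : ∀ x ∈ box N, ∑ a ∈ range (N i), F (update x i a) ≤
      ∑ a ∈ range (N i), G (update x i a)) :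
    ∑ x ∈ box N, F x ≤ ∑ x ∈ box N, G x := by
  rcases Nat.eq_zero_or_pos (N i) with h0 | h0
  · have : box N = ∅ := by
      rw [Finset.eq_empty_iff_forall_notMem]
      intro x hx
      have := (mem_box.1 hx) i
      omega
    rw [this]; simp
  · have h1 : (0 : ℝ) < N i := by exact_mod_cast h0
    have h2 := Finset.sum_le_sum h
    rw [← sum_lines, ← sum_lines] at h2
    exact le_of_mul_le_mul_left h2 h1

lemma P_update (i : Fin 4) (s : ℕ) (f : Pt → ℝ) (x : Pt) (a : ℕ) :
    P i s f (update x i a) = pav s (fun b => f (update x i b)) a := by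
  simp [P]

lemma P_step_sum (N : Fin 4 → ℕ) (i : Fin 4) {s : ℕ} (hs : 0 < s) (hN : 3 * s ∣ N i)
    (g : Pt → ℝ) :
    ∑ x ∈ box N, (P i (3 * s) g x - P i s g x) ^ 2 ≤ 9 * (s : ℝ) ^ 2 * en i N g := by
  unfold en
  rw [Finset.mul_sum]
  refine sum_le_of_lines N i _ _ fun x _ => ?_
  simp only [P_update, update_self, update_idem]
  obtain ⟨q, hq⟩ := hN
  have := pav_step_sum hs q (fun b => g (update x i b))
  rw [hq, ← Finset.mul_sum]
  unfold len at this
  exact this

lemma P_diff (i j : Fin 4) (hij : i ≠ j) (s : ℕ) (f : Pt → ℝ) (x : Pt) :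
    P j s f (update x i (x i + 1)) - P j s f x =
      P j s (fun y => f (update y i (y i + 1)) - f y) x := by
  unfold P pav
  simp only [update_of_ne hij, update_of_ne hij.symm, ← sub_div, ← Finset.sum_sub_distrib]
  congr 1
  refine Finset.sum_congr rfl fun a _ => ?_
  rw [update_comm hij]

lemma P_sq_le (j : Fin 4) {s : ℕ} (hs : 0 < s) (g : Pt → ℝ) (x : Pt) :
    (P j s g x) ^ 2 ≤ P j s (fun y => g y ^ 2) x :=
  pav_sq_le hs _ _

/-- averaging in another direction does not increase the energy -/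
lemma en_P_le (N : Fin 4 → ℕ) (i j : Fin 4) (hij : i ≠ j) {s : ℕ} (hs : 0 < s)
    (hN : s ∣ N j) (f : Pt → ℝ) : en i N (P j s f) ≤ en i N f := by
  unfold en
  have h1 : ∀ x ∈ box N, (if x i + 1 < N i then
        (P j s f (update x i (x i + 1)) - P j s f x) ^ 2 else 0) ≤
      if x i + 1 < N i then P j s (fun y => (f (update y i (y i + 1)) - f y) ^ 2) x else 0 := by
    intro x _
    split_ifs
    · rw [P_diff i j hij]
      exact P_sq_le j hs _ x
    · exact le_rfl
  refine (Finset.sum_le_sum h1).trans ?_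
  refine sum_le_of_lines N j _ _ fun x _ => ?_
  simp only [P_update, update_of_ne hij]
  obtain ⟨q, hq⟩ := hN
  by_cases h : x i + 1 < N i
  · simp only [if_pos h]
    rw [hq, sum_pav hs q (fun b => (f (update (update x j b) i (x i + 1))
      - f (update x j b)) ^ 2)]
  · simp only [if_neg h]
    exact le_rfl

lemma P_comm (i j : Fin 4) (hij : i ≠ j) (s t : ℕ) (f : Pt → ℝ) :
    P i s (P j t f) = P j t (P i s f) := by
  funext x
  unfold P pav
  simp only [update_of_ne hij, update_of_ne hij.symm, Finset.sum_div]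
  rw [Finset.sum_comm]
  refine Finset.sum_congr rfl fun a _ => Finset.sum_congr rfl fun b _ => ?_
  rw [update_comm hij, div_right_comm]

/-- invariance of `f` under changes of coordinate `i` inside blocks of length `s` -/
def Inv (i : Fin 4) (s : ℕ) (f : Pt → ℝ) : Prop :=
  ∀ x c, c / s = x i / s → f (update x i c) = f x

lemma Inv_P (i : Fin 4) (s : ℕ) (f : Pt → ℝ) : Inv i s (P i s f) := by
  intro x c h
  unfold P pav
  simp only [update_self, update_idem, h]

lemma Inv_P_other {i j : Fin 4} (hij : i ≠ j) {s : ℕ} (t : ℕ) {f : Pt → ℝ} (h : Inv i s f) :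
    Inv i s (P j t f) := by
  intro x c hc
  unfold P pav
  simp only [update_of_ne hij.symm]
  congr 1
  refine Finset.sum_congr rfl fun a _ => ?_
  rw [update_comm hij]
  exact h _ _ (by rw [update_of_ne hij]; exact hc)

lemma Inv_sub {i : Fin 4} {s : ℕ} {f g : Pt → ℝ} (hf : Inv i s f) (hg : Inv i s g) :
    Inv i s (fun x => f x - g x) := by
  intro x c hc
  simp only
  rw [hf x c hc, hg x c hc]

lemma Inv_mono {i : Fin 4} {s t : ℕ} {f : Pt → ℝ} (hf : Inv i (t * s) f) :
    Inv i s f := by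
  intro x c hc
  refine hf x c ?_
  rw [mul_comm, ← Nat.div_div_eq_div_mul, ← Nat.div_div_eq_div_mul, hc]

lemma Inv_all {κ : Fin 4 → ℕ} {f : Pt → ℝ} (h : ∀ i, Inv i (κ i) f) {x y : Pt}
    (hxy : ∀ i, y i / κ i = x i / κ i) : f y = f x := by
  have h1 : y = update (update (update (update x 0 (y 0)) 1 (y 1)) 2 (y 2)) 3 (y 3) := by
    funext j
    fin_cases j <;> simp [update]
  rw [h1, h 3 _ _ (by simpa [update] using hxy 3), h 2 _ _ (by simpa [update] using hxy 2),
    h 1 _ _ (by simpa [update] using hxy 1), h 0 _ _ (by simpa [update] using hxy 0)]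

/-- sup bound for a function which is constant on the blocks -/
lemma sq_le_of_Inv {N κ : Fin 4 → ℕ} (hκ : ∀ i, 0 < κ i) (hN : ∀ i, κ i ∣ N i) {D : Pt → ℝ}
    (h : ∀ i, Inv i (κ i) D) {x : Pt} (hx : x ∈ box N) :
    (D x) ^ 2 * (∏ i, (κ i : ℝ)) ≤ ∑ y ∈ box N, (D y) ^ 2 := by
  set B : Finset Pt := Fintype.piFinset fun i => Ico (κ i * (x i / κ i)) (κ i * (x i / κ i) + κ i)
    with hB
  have hcard : (B.card : ℝ) = ∏ i, (κ i : ℝ) := by
    rw [hB, Fintype.card_piFinset]
    simp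
  have hsub : B ⊆ box N := by
    intro y hy
    rw [hB, Fintype.mem_piFinset] at hy
    rw [mem_box]
    intro i
    have h1 := hy i
    rw [Finset.mem_Ico] at h1
    obtain ⟨q, hq⟩ := hN i
    have h2 := (mem_box.1 hx) i
    have h3 : x i / κ i < q := by
      rw [Nat.div_lt_iff_lt_mul (hκ i), mul_comm, ← hq]
      exact h2
    have h4 : κ i * (x i / κ i) + κ i ≤ N i := by
      rw [hq, ← Nat.mul_succ]
      exact Nat.mul_le_mul_left _ h3
    omega
  have hval : ∀ y ∈ B, (D y) ^ 2 = (D x) ^ 2 := by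
    intro y hy
    rw [hB, Fintype.mem_piFinset] at hy
    rw [Inv_all h (x := x) (y := y)]
    intro i
    have h1 := hy i
    rw [Finset.mem_Ico] at h1
    rw [Nat.div_eq_iff (hκ i)]
    have := hκ i
    constructor
    · rw [mul_comm]; exact h1.1
    · rw [mul_comm (x i / κ i)]; omega
  calc (D x) ^ 2 * (∏ i, (κ i : ℝ)) = ∑ y ∈ B, (D y) ^ 2 := by
        rw [Finset.sum_congr rfl hval, Finset.sum_const, nsmul_eq_mul, hcard, mul_comm]
    _ ≤ ∑ y ∈ box N, (D y) ^ 2 :=
        Finset.sum_le_sum_of_subset_of_nonneg hsub fun _ _ _ => sq_nonneg _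

/-- block average with side vector `κ` -/
noncomputable def A (κ : Fin 4 → ℕ) (f : Pt → ℝ) : Pt → ℝ :=
  P 0 (κ 0) (P 1 (κ 1) (P 2 (κ 2) (P 3 (κ 3) f)))

lemma A_split (κ : Fin 4 → ℕ) (f : Pt → ℝ) (i : Fin 4) :
    ∃ g : Pt → ℝ, (∀ t, A (update κ i t) f = P i t g) ∧
      (∀ N : Fin 4 → ℕ, (∀ j, 0 < κ j) → (∀ j, j ≠ i → κ j ∣ N j) → en i N g ≤ en i N f) := by
  fin_cases i
  · refine ⟨P 1 (κ 1) (P 2 (κ 2) (P 3 (κ 3) f)), fun t => ?_, fun N h0 h => ?_⟩
    · simp [A, update]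
    · refine (en_P_le N 0 1 (by decide) (h0 1) (h 1 (by decide)) _).trans ?_
      refine (en_P_le N 0 2 (by decide) (h0 2) (h 2 (by decide)) _).trans ?_
      exact en_P_le N 0 3 (by decide) (h0 3) (h 3 (by decide)) _
  · refine ⟨P 0 (κ 0) (P 2 (κ 2) (P 3 (κ 3) f)), fun t => ?_, fun N h0 h => ?_⟩
    · simp only [A]
      simp only [update, Fin.reduceEq, Fin.isValue, Fin.mk_one, dite_true, dite_false,
        eq_rec_constant]
      rw [P_comm 0 1 (by decide)]
    · refine (en_P_le N 1 0 (by decide) (h0 0) (h 0 (by decide)) _).trans ?_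
      refine (en_P_le N 1 2 (by decide) (h0 2) (h 2 (by decide)) _).trans ?_
      exact en_P_le N 1 3 (by decide) (h0 3) (h 3 (by decide)) _
  · refine ⟨P 0 (κ 0) (P 1 (κ 1) (P 3 (κ 3) f)), fun t => ?_, fun N h0 h => ?_⟩
    · simp only [A]
      simp only [update, Fin.reduceEq, Fin.isValue, Fin.reduceFinMk, dite_true, dite_false,
        eq_rec_constant]
      rw [P_comm 1 2 (by decide), P_comm 0 2 (by decide)]
    · refine (en_P_le N 2 0 (by decide) (h0 0) (h 0 (by decide)) _).trans ?_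
      refine (en_P_le N 2 1 (by decide) (h0 1) (h 1 (by decide)) _).trans ?_
      exact en_P_le N 2 3 (by decide) (h0 3) (h 3 (by decide)) _
  · refine ⟨P 0 (κ 0) (P 1 (κ 1) (P 2 (κ 2) f)), fun t => ?_, fun N h0 h => ?_⟩
    · simp only [A]
      simp only [update, Fin.reduceEq, Fin.isValue, Fin.reduceFinMk, dite_true, dite_false,
        eq_rec_constant]
      rw [P_comm 2 3 (by decide), P_comm 1 3 (by decide), P_comm 0 3 (by decide)]
    · refine (en_P_le N 3 0 (by decide) (h0 0) (h 0 (by decide)) _).trans ?_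
      refine (en_P_le N 3 1 (by decide) (h0 1) (h 1 (by decide)) _).trans ?_
      exact en_P_le N 3 2 (by decide) (h0 2) (h 2 (by decide)) _

lemma A_Inv (κ : Fin 4 → ℕ) (f : Pt → ℝ) (i : Fin 4) : Inv i (κ i) (A κ f) := by
  obtain ⟨g, hg, -⟩ := A_split κ f i
  have := hg (κ i)
  rw [update_eq_self] at this
  rw [this]
  exact Inv_P i (κ i) g

/-- one tripling step, `L²` bound -/
lemma A_step_sum (N κ : Fin 4 → ℕ) (i : Fin 4) (h0 : ∀ j, 0 < κ j)
    (hN : ∀ j, j ≠ i → κ j ∣ N j) (hi : 3 * κ i ∣ N i) (f : Pt → ℝ) :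
    ∑ x ∈ box N, (A (update κ i (3 * κ i)) f x - A κ f x) ^ 2 ≤
      9 * (κ i : ℝ) ^ 2 * en i N f := by
  obtain ⟨g, hg, hen⟩ := A_split κ f i
  have h1 := hg (3 * κ i)
  have h2 := hg (κ i)
  rw [update_eq_self] at h2
  rw [h1, h2]
  refine (P_step_sum N i (h0 i) hi g).trans ?_
  exact mul_le_mul_of_nonneg_left (hen N h0 hN) (by positivity)

/-- one tripling step, pointwise bound -/
lemma A_step_pt (N κ : Fin 4 → ℕ) (i : Fin 4) (h0 : ∀ j, 0 < κ j)
    (hN : ∀ j, j ≠ i → κ j ∣ N j) (hi : 3 * κ i ∣ N i) (f : Pt → ℝ) {x : Pt} (hx : x ∈ box N) :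
    (A (update κ i (3 * κ i)) f x - A κ f x) ^ 2 * (∏ j, (κ j : ℝ)) ≤
      9 * (κ i : ℝ) ^ 2 * en i N f := by
  have h1 : ∀ j, Inv j (κ j) (fun x => A (update κ i (3 * κ i)) f x - A κ f x) := by
    intro j
    refine Inv_sub ?_ (A_Inv κ f j)
    have := A_Inv (update κ i (3 * κ i)) f j
    by_cases h : j = i
    · subst h
      rw [update_self] at this
      exact Inv_mono this
    · rwa [update_of_ne h] at this
  have h2 : ∀ j, κ j ∣ N j := by
    intro j
    by_cases h : j = i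
    · subst h
      exact (Dvd.intro_left 3 rfl).trans hi
    · exact hN j h
  exact (sq_le_of_Inv h0 h2 h1 hx).trans (A_step_sum N κ i h0 hN hi f)

end Vale.Agent.P361.LRO.Geo
end

section

/-!
# P361, block GEO, part 3: Poincaré inequality on boxes, chaining of block averages, and the
count of points where a function of small energy exceeds its mean.
-/

namespace Vale.Agent.P361.LRO.Geo

open Finset Function

/-! ## One dimensional Poincaré inequality -/

lemma pav_sub_pt {s : ℕ} (hs : 0 < s) (g : ℕ → ℝ) (a : ℕ) :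
    (pav s g a - g a) ^ 2 ≤ s * ∑ r ∈ range s, if r + 1 < s then
        (g (s * (a / s) + r + 1) - g (s * (a / s) + r)) ^ 2 else 0 := by
  unfold pav
  set c := s * (a / s) with hc
  have ha : a = c + a % s := (Nat.div_add_mod a s).symm
  have hmod := Nat.mod_lt a hs
  have key : ∀ i < s, ∀ j < 1, (g (c + i) - (fun _ : ℕ => g a) j) ^ 2 ≤
      s * ∑ r ∈ range s, if r + 1 < s then (g (c + r + 1) - g (c + r)) ^ 2 else 0 := by
    intro i hi j _
    rcases le_total i (a % s) with h | h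
    · have := osc_le g c s i (a % s) h hmod
      rw [← ha] at this
      rw [← neg_sq, neg_sub]
      exact this
    · have := osc_le g c s (a % s) i h hi
      rw [← ha] at this
      exact this
  have := avg_sub_sq_le hs (n := 1) one_pos (fun i => g (c + i)) (fun _ => g a) _ key
  simpa using this

lemma sum_block_energy {m : ℕ} (hm0 : 0 < m) (q : ℕ) (g : ℕ → ℝ) :
    ∑ a ∈ range (m * q), ((m : ℝ) * ∑ r ∈ range m, if r + 1 < m then
        (g (m * (a / m) + r + 1) - g (m * (a / m) + r)) ^ 2 else 0) ≤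
      (m : ℝ) ^ 2 * len (m * q) g := by
  rw [sum_range_blocks]
  have h2 : ∀ t ∈ range q, ∑ r' ∈ range m, ((m : ℝ) * ∑ r ∈ range m, if r + 1 < m then
        (g (m * ((m * t + r') / m) + r + 1) - g (m * ((m * t + r') / m) + r)) ^ 2 else 0)
      = (m : ℝ) ^ 2 * ∑ r ∈ range m, (if r + 1 < m then
        (g (m * t + r + 1) - g (m * t + r)) ^ 2 else 0) := by
    intro t _
    have : ∀ r' ∈ range m, ((m : ℝ) * ∑ r ∈ range m, if r + 1 < m then
        (g (m * ((m * t + r') / m) + r + 1) - g (m * ((m * t + r') / m) + r)) ^ 2 else 0)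
        = (m : ℝ) * ∑ r ∈ range m, (if r + 1 < m then
        (g (m * t + r + 1) - g (m * t + r)) ^ 2 else 0) := by
      intro r' hr'
      rw [Finset.mem_range] at hr'
      have : (m * t + r') / m = t := by
        rw [Nat.mul_add_div hm0, Nat.div_eq_of_lt hr', add_zero]
      rw [this]
    rw [Finset.sum_congr rfl this, Finset.sum_const, card_range, nsmul_eq_mul]
    ring
  rw [Finset.sum_congr rfl h2, ← Finset.mul_sum]
  refine mul_le_mul_of_nonneg_left ?_ (by positivity)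
  unfold len
  rw [sum_range_blocks]
  refine Finset.sum_le_sum fun t ht => Finset.sum_le_sum fun r hr => ?_
  rw [Finset.mem_range] at ht hr
  by_cases h : r + 1 < m
  · rw [if_pos h]
    have : m * t + r + 1 < m * q := by
      have : m * (t + 1) ≤ m * q := Nat.mul_le_mul_left _ ht
      rw [Nat.mul_succ] at this
      omega
    rw [if_pos this]
  · rw [if_neg h]
    split_ifs
    · exact sq_nonneg _
    · exact le_rfl

lemma pav_sub_sum {s : ℕ} (hs : 0 < s) (q : ℕ) (g : ℕ → ℝ) :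
    ∑ a ∈ range (s * q), (pav s g a - g a) ^ 2 ≤ (s : ℝ) ^ 2 * len (s * q) g :=
  (Finset.sum_le_sum fun a _ => pav_sub_pt hs g a).trans (sum_block_energy hs q g)

/-! ## Four directions -/

lemma P_sub_sum (N : Fin 4 → ℕ) (i : Fin 4) {s : ℕ} (hs : 0 < s) (hN : s ∣ N i)
    (g : Pt → ℝ) :
    ∑ x ∈ box N, (P i s g x - g x) ^ 2 ≤ (s : ℝ) ^ 2 * en i N g := by
  unfold en
  rw [Finset.mul_sum]
  refine sum_le_of_lines N i _ _ fun x _ => ?_
  simp only [P_update, update_self, update_idem]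
  obtain ⟨q, hq⟩ := hN
  have := pav_sub_sum hs q (fun b => g (update x i b))
  rw [hq, ← Finset.mul_sum]
  unfold len at this
  exact this

/-- total Dirichlet energy of `f` on the box with side vector `N` -/
noncomputable def En (N : Fin 4 → ℕ) (f : Pt → ℝ) : ℝ := ∑ i, en i N f

lemma En_nonneg (N : Fin 4 → ℕ) (f : Pt → ℝ) : 0 ≤ En N f :=
  Finset.sum_nonneg fun i _ => en_nonneg i N f

lemma four_sq (a b c d : ℝ) :
    (a + b + c + d) ^ 2 ≤ 4 * (a ^ 2 + b ^ 2 + c ^ 2 + d ^ 2) := by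
  nlinarith [sq_nonneg (a - b), sq_nonneg (a - c), sq_nonneg (a - d), sq_nonneg (b - c),
    sq_nonneg (b - d), sq_nonneg (c - d)]

/-- Poincaré inequality: replacing `f` by its block averages -/
lemma A_sub_sum (N κ : Fin 4 → ℕ) (s : ℕ) (h0 : ∀ j, 0 < κ j) (hN : ∀ j, κ j ∣ N j)
    (hs : ∀ j, κ j ≤ s) (f : Pt → ℝ) :
    ∑ x ∈ box N, (A κ f x - f x) ^ 2 ≤ 4 * (s : ℝ) ^ 2 * En N f := by
  set g3 := P 3 (κ 3) f with hg3
  set g2 := P 2 (κ 2) g3 with hg2
  set g1 := P 1 (κ 1) g2 with hg1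
  have hA : A κ f = P 0 (κ 0) g1 := rfl
  have e3 : ∑ x ∈ box N, (g3 x - f x) ^ 2 ≤ (s : ℝ) ^ 2 * en 3 N f := by
    refine (P_sub_sum N 3 (h0 3) (hN 3) f).trans ?_
    have := en_nonneg 3 N f
    have := hs 3
    gcongr
  have e2 : ∑ x ∈ box N, (g2 x - g3 x) ^ 2 ≤ (s : ℝ) ^ 2 * en 2 N f := by
    refine (P_sub_sum N 2 (h0 2) (hN 2) g3).trans ?_
    have h1 : en 2 N g3 ≤ en 2 N f := en_P_le N 2 3 (by decide) (h0 3) (hN 3) f
    have := en_nonneg 2 N g3
    have := hs 2
    gcongr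
  have e1 : ∑ x ∈ box N, (g1 x - g2 x) ^ 2 ≤ (s : ℝ) ^ 2 * en 1 N f := by
    refine (P_sub_sum N 1 (h0 1) (hN 1) g2).trans ?_
    have h1 : en 1 N g2 ≤ en 1 N f :=
      (en_P_le N 1 2 (by decide) (h0 2) (hN 2) g3).trans
        (en_P_le N 1 3 (by decide) (h0 3) (hN 3) f)
    have := en_nonneg 1 N g2
    have := hs 1
    gcongr
  have e0 : ∑ x ∈ box N, (A κ f x - g1 x) ^ 2 ≤ (s : ℝ) ^ 2 * en 0 N f := by
    rw [hA]
    refine (P_sub_sum N 0 (h0 0) (hN 0) g1).trans ?_
    have h1 : en 0 N g1 ≤ en 0 N f :=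
      (en_P_le N 0 1 (by decide) (h0 1) (hN 1) g2).trans
        ((en_P_le N 0 2 (by decide) (h0 2) (hN 2) g3).trans
          (en_P_le N 0 3 (by decide) (h0 3) (hN 3) f))
    have := en_nonneg 0 N g1
    have := hs 0
    gcongr
  have hpt : ∀ x ∈ box N, (A κ f x - f x) ^ 2 ≤
      4 * ((A κ f x - g1 x) ^ 2 + (g1 x - g2 x) ^ 2 + (g2 x - g3 x) ^ 2 + (g3 x - f x) ^ 2) := by
    intro x _
    have := four_sq (A κ f x - g1 x) (g1 x - g2 x) (g2 x - g3 x) (g3 x - f x)
    have e : A κ f x - f x = (A κ f x - g1 x) + (g1 x - g2 x) + (g2 x - g3 x) + (g3 x - f x) := by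
      ring
    rw [e]
    exact this
  refine (Finset.sum_le_sum hpt).trans ?_
  rw [← Finset.mul_sum, Finset.sum_add_distrib, Finset.sum_add_distrib, Finset.sum_add_distrib]
  unfold En
  rw [Fin.sum_univ_four]
  nlinarith

lemma A_step_one (N κ : Fin 4 → ℕ) (i : Fin 4) (s t : ℕ) (h0 : ∀ j, 0 < κ j)
    (hN : ∀ j, κ j ∣ N j) (ht : t = κ i ∨ (t = 3 * κ i ∧ κ i ≤ s)) (htN : t ∣ N i)
    (f : Pt → ℝ) :
    ∑ x ∈ box N, (A (update κ i t) f x - A κ f x) ^ 2 ≤ 9 * (s : ℝ) ^ 2 * en i N f := by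
  have hen := en_nonneg i N f
  rcases ht with ht | ⟨ht, hs⟩
  · rw [ht, update_eq_self]
    simp only [sub_self]
    simp only [ne_eq, OfNat.ofNat_ne_zero, not_false_eq_true, zero_pow, sum_const_zero]
    positivity
  · subst ht
    refine (A_step_sum N κ i h0 (fun j _ => hN j) htN f).trans ?_
    gcongr

/-- one step of the chain: some sides are tripled -/
lemma A_quad (N κ κ' : Fin 4 → ℕ) (s : ℕ) (h0 : ∀ j, 0 < κ j) (hN : ∀ j, κ j ∣ N j)
    (h : ∀ j, κ' j = κ j ∨ (κ' j = 3 * κ j ∧ κ j ≤ s)) (hN' : ∀ j, κ' j ∣ N j)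
    (f : Pt → ℝ) :
    ∑ x ∈ box N, (A κ' f x - A κ f x) ^ 2 ≤ 36 * (s : ℝ) ^ 2 * En N f := by
  have h0' : ∀ j, 0 < κ' j := by
    intro j
    have := h0 j
    rcases h j with h1 | ⟨h1, -⟩ <;> omega
  set κ1 := update κ 0 (κ' 0) with hκ1
  set κ2 := update κ1 1 (κ' 1) with hκ2
  set κ3 := update κ2 2 (κ' 2) with hκ3
  have hκ4 : κ' = update κ3 3 (κ' 3) := by
    funext j
    fin_cases j <;> simp [hκ1, hκ2, hκ3, update]
  have u1 : ∀ (g : Fin 4 → ℕ) (i : Fin 4), (∀ j, 0 < g j) → ∀ j, 0 < update g i (κ' i) j := by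
    intro g i hg j
    by_cases hj : j = i
    · subst hj; simpa using h0' j
    · rw [update_of_ne hj]; exact hg j
  have u2 : ∀ (g : Fin 4 → ℕ) (i : Fin 4), (∀ j, g j ∣ N j) → ∀ j, update g i (κ' i) j ∣ N j := by
    intro g i hg j
    by_cases hj : j = i
    · subst hj; simpa using hN' j
    · rw [update_of_ne hj]; exact hg j
  have s1 := A_step_one N κ 0 s (κ' 0) h0 hN (h 0) (hN' 0) f
  have s2 := A_step_one N κ1 1 s (κ' 1) (u1 κ 0 h0) (u2 κ 0 hN)
    (by have := h 1; simpa [hκ1, update] using this) (hN' 1) f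
  have s3 := A_step_one N κ2 2 s (κ' 2) (u1 κ1 1 (u1 κ 0 h0)) (u2 κ1 1 (u2 κ 0 hN))
    (by have := h 2; simpa [hκ1, hκ2, update] using this) (hN' 2) f
  have s4 := A_step_one N κ3 3 s (κ' 3) (u1 κ2 2 (u1 κ1 1 (u1 κ 0 h0)))
    (u2 κ2 2 (u2 κ1 1 (u2 κ 0 hN)))
    (by have := h 3; simpa [hκ1, hκ2, hκ3, update] using this) (hN' 3) f
  rw [← hκ1] at s1
  rw [← hκ2] at s2
  rw [← hκ3] at s3
  rw [← hκ4] at s4
  have hpt : ∀ x ∈ box N, (A κ' f x - A κ f x) ^ 2 ≤
      4 * ((A κ' f x - A κ3 f x) ^ 2 + (A κ3 f x - A κ2 f x) ^ 2 + (A κ2 f x - A κ1 f x) ^ 2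
        + (A κ1 f x - A κ f x) ^ 2) := by
    intro x _
    have := four_sq (A κ' f x - A κ3 f x) (A κ3 f x - A κ2 f x) (A κ2 f x - A κ1 f x)
      (A κ1 f x - A κ f x)
    have e : A κ' f x - A κ f x = (A κ' f x - A κ3 f x) + (A κ3 f x - A κ2 f x)
        + (A κ2 f x - A κ1 f x) + (A κ1 f x - A κ f x) := by
      ring
    rw [e]
    exact this
  refine (Finset.sum_le_sum hpt).trans ?_
  rw [← Finset.mul_sum, Finset.sum_add_distrib, Finset.sum_add_distrib, Finset.sum_add_distrib]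
  unfold En
  rw [Fin.sum_univ_four]
  nlinarith

/-- one step of the chain, pointwise bound -/
lemma A_pt (N κ κ' : Fin 4 → ℕ) (s : ℕ) (h0 : ∀ j, 0 < κ j) (hN : ∀ j, κ j ∣ N j)
    (h : ∀ j, κ' j = κ j ∨ (κ' j = 3 * κ j ∧ κ j ≤ s)) (hN' : ∀ j, κ' j ∣ N j)
    (f : Pt → ℝ) {x : Pt} (hx : x ∈ box N) :
    (A κ' f x - A κ f x) ^ 2 * (∏ j, (κ j : ℝ)) ≤ 36 * (s : ℝ) ^ 2 * En N f := by
  have h1 : ∀ j, Inv j (κ j) (fun x => A κ' f x - A κ f x) := by
    intro j
    refine Inv_sub ?_ (A_Inv κ f j)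
    have := A_Inv κ' f j
    rcases h j with h2 | ⟨h2, -⟩
    · rwa [h2] at this
    · rw [h2] at this
      exact Inv_mono this
  exact (sq_le_of_Inv h0 hN h1 hx).trans (A_quad N κ κ' s h0 hN h hN' f)

/-! ## Telescoping -/

lemma abs_tele (F φ : ℕ → ℝ) (m n : ℕ) (hmn : m ≤ n)
    (h : ∀ k, m ≤ k → k < n → |F (k + 1) - F k| ≤ φ k - φ (k + 1)) :
    |F n - F m| ≤ φ m - φ n := by
  induction n, hmn using Nat.le_induction with
  | base => simp
  | succ n hmn ih =>
      have h1 := ih fun k hk hkn => h k hk (by omega)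
      have h2 := h n hmn (by omega)
      have h3 : F (n + 1) - F m = (F (n + 1) - F n) + (F n - F m) := by ring
      rw [h3]
      refine (abs_add_le _ _).trans ?_
      linarith

/-- chaining over space cubes, time side `T` fixed -/
lemma chain3 (N : Fin 4 → ℕ) (f : Pt → ℝ) (m n T : ℕ) (hmn : m ≤ n) (hT : 0 < T)
    (hn : ∀ i, i ≠ 3 → 3 ^ n ∣ N i) (hTN : T ∣ N 3) {x : Pt} (hx : x ∈ box N) :
    |A ![3 ^ n, 3 ^ n, 3 ^ n, T] f x - A ![3 ^ m, 3 ^ m, 3 ^ m, T] f x| ≤
      15 * √(En N f / (3 ^ m * T)) := by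
  set S := √(En N f / T) with hS
  have hS0 : 0 ≤ S := Real.sqrt_nonneg _
  set q := √(1 / 3 : ℝ) with hq
  have hq0 : 0 ≤ q := Real.sqrt_nonneg _
  have hq2 : q ^ 2 = 1 / 3 := Real.sq_sqrt (by norm_num)
  have hq1 : q ≤ 3 / 5 := by nlinarith
  have hTr : (0 : ℝ) < T := by exact_mod_cast hT
  have hE := En_nonneg N f
  have hS2 : S ^ 2 = En N f / T := Real.sq_sqrt (by positivity)
  have key := abs_tele (fun k => A ![3 ^ k, 3 ^ k, 3 ^ k, T] f x) (fun k => 15 * S * q ^ k) m n
    hmn ?_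
  · refine key.trans ?_
    have h1 : √(En N f / (3 ^ m * T)) = S * q ^ m := by
      have h2 : En N f / (3 ^ m * T) = (S * q ^ m) ^ 2 := by
        rw [mul_pow, hS2, ← pow_mul, mul_comm m 2, pow_mul, hq2, div_pow, one_pow]
        field_simp
      rw [h2]
      exact Real.sqrt_sq (by positivity)
    rw [h1]
    have : 0 ≤ 15 * S * q ^ n := by positivity
    linarith
  · intro k hk hkn
    have hdiv : ∀ i, i ≠ 3 → 3 ^ (k + 1) ∣ N i := fun i hi =>
      (pow_dvd_pow 3 hkn).trans (hn i hi)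
    have hdiv' : ∀ i, i ≠ 3 → 3 ^ k ∣ N i := fun i hi =>
      (pow_dvd_pow 3 hkn.le).trans (hn i hi)
    have h1 := A_pt N ![3 ^ k, 3 ^ k, 3 ^ k, T] ![3 ^ (k + 1), 3 ^ (k + 1), 3 ^ (k + 1), T] (3 ^ k)
      (by intro j; fin_cases j <;> simp [hT])
      (by
        intro j
        fin_cases j
        · exact hdiv' 0 (by decide)
        · exact hdiv' 1 (by decide)
        · exact hdiv' 2 (by decide)
        · exact hTN)
      (by
        intro j
        fin_cases j
        · right; simp [pow_succ, mul_comm]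
        · right; simp [pow_succ, mul_comm]
        · right; simp [pow_succ, mul_comm]
        · left; simp)
      (by
        intro j
        fin_cases j
        · exact hdiv 0 (by decide)
        · exact hdiv 1 (by decide)
        · exact hdiv 2 (by decide)
        · exact hTN) f hx
    set D := A ![3 ^ (k + 1), 3 ^ (k + 1), 3 ^ (k + 1), T] f x
      - A ![3 ^ k, 3 ^ k, 3 ^ k, T] f x with hD
    have h2 : (∏ j, (((![3 ^ k, 3 ^ k, 3 ^ k, T] : Fin 4 → ℕ) j : ℕ) : ℝ))
        = (3 ^ k) ^ 3 * T := by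
      rw [Fin.prod_univ_four]
      change ((3 ^ k : ℕ) : ℝ) * ((3 ^ k : ℕ) : ℝ) * ((3 ^ k : ℕ) : ℝ) * (T : ℝ) = _
      push_cast
      ring
    rw [h2] at h1
    have h3 : D ^ 2 ≤ (6 * S * q ^ k) ^ 2 := by
      have h4 : (6 * S * q ^ k) ^ 2 = 36 * (En N f / T) / 3 ^ k := by
        rw [mul_pow, mul_pow, hS2, ← pow_mul, mul_comm k 2, pow_mul, hq2, div_pow, one_pow]
        ring
      rw [h4, le_div_iff₀ (by positivity)]
      have h5 : (0 : ℝ) < (3 ^ k) ^ 2 * T := by positivity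
      have h6 : D ^ 2 * 3 ^ k * ((3 ^ k) ^ 2 * T) ≤ 36 * (En N f / T) * ((3 ^ k) ^ 2 * T) := by
        have : 36 * (En N f / T) * ((3 ^ k) ^ 2 * T) = 36 * (3 ^ k) ^ 2 * En N f := by
          field_simp
        rw [this]
        push_cast at h1
        calc D ^ 2 * 3 ^ k * ((3 ^ k) ^ 2 * T) = D ^ 2 * ((3 ^ k) ^ 3 * T) := by ring
          _ ≤ _ := h1
      exact le_of_mul_le_mul_right h6 h5
    have h7 : |D| ≤ 6 * S * q ^ k := abs_le_of_sq_le_sq h3 (by positivity)
    refine h7.trans ?_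
    have h8 : 15 * S * q ^ k - 15 * S * q ^ (k + 1) = 15 * (S * q ^ k) * (1 - q) := by ring
    rw [h8]
    have h9 : 0 ≤ S * q ^ k := by positivity
    nlinarith

/-- chaining over space-time cubes -/
lemma chain4 (N : Fin 4 → ℕ) (f : Pt → ℝ) (m n : ℕ) (hmn : m ≤ n)
    (hn : ∀ i, 3 ^ n ∣ N i) {x : Pt} (hx : x ∈ box N) :
    |A ![3 ^ n, 3 ^ n, 3 ^ n, 3 ^ n] f x - A ![3 ^ m, 3 ^ m, 3 ^ m, 3 ^ m] f x| ≤
      9 * √(En N f) / 3 ^ m := by
  set S := √(En N f) with hS
  have hS0 : 0 ≤ S := Real.sqrt_nonneg _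
  have hE := En_nonneg N f
  have hS2 : S ^ 2 = En N f := Real.sq_sqrt hE
  have key := abs_tele (fun k => A ![3 ^ k, 3 ^ k, 3 ^ k, 3 ^ k] f x) (fun k => 9 * S / 3 ^ k) m n
    hmn ?_
  · refine key.trans ?_
    have : 0 ≤ 9 * S / 3 ^ n := by positivity
    linarith
  · intro k hk hkn
    have hdiv : ∀ i, 3 ^ (k + 1) ∣ N i := fun i => (pow_dvd_pow 3 hkn).trans (hn i)
    have hdiv' : ∀ i, 3 ^ k ∣ N i := fun i => (pow_dvd_pow 3 hkn.le).trans (hn i)
    have h1 := A_pt N ![3 ^ k, 3 ^ k, 3 ^ k, 3 ^ k]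
      ![3 ^ (k + 1), 3 ^ (k + 1), 3 ^ (k + 1), 3 ^ (k + 1)] (3 ^ k)
      (by intro j; fin_cases j <;> simp)
      (by
        intro j
        fin_cases j
        · exact hdiv' 0
        · exact hdiv' 1
        · exact hdiv' 2
        · exact hdiv' 3)
      (by
        intro j
        fin_cases j
        · right; simp [pow_succ, mul_comm]
        · right; simp [pow_succ, mul_comm]
        · right; simp [pow_succ, mul_comm]
        · right; simp [pow_succ, mul_comm])
      (by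
        intro j
        fin_cases j
        · exact hdiv 0
        · exact hdiv 1
        · exact hdiv 2
        · exact hdiv 3) f hx
    set D := A ![3 ^ (k + 1), 3 ^ (k + 1), 3 ^ (k + 1), 3 ^ (k + 1)] f x
      - A ![3 ^ k, 3 ^ k, 3 ^ k, 3 ^ k] f x with hD
    have h2 : (∏ j, (((![3 ^ k, 3 ^ k, 3 ^ k, 3 ^ k] : Fin 4 → ℕ) j : ℕ) : ℝ))
        = (3 ^ k) ^ 4 := by
      rw [Fin.prod_univ_four]
      simp
      ring
    rw [h2] at h1
    have h3 : D ^ 2 ≤ (6 * S / 3 ^ k) ^ 2 := by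
      rw [div_pow, mul_pow, hS2, le_div_iff₀ (by positivity)]
      have h5 : (0 : ℝ) < (3 ^ k) ^ 2 := by positivity
      have h6 : D ^ 2 * (3 ^ k) ^ 2 * (3 ^ k) ^ 2 ≤ 6 ^ 2 * En N f * (3 ^ k) ^ 2 := by
        push_cast at h1
        calc D ^ 2 * (3 ^ k) ^ 2 * (3 ^ k) ^ 2 = D ^ 2 * (3 ^ k) ^ 4 := by ring
          _ ≤ 36 * (3 ^ k) ^ 2 * En N f := h1
          _ = 6 ^ 2 * En N f * (3 ^ k) ^ 2 := by ring
      exact le_of_mul_le_mul_right h6 h5
    have h7 : |D| ≤ 6 * S / 3 ^ k := abs_le_of_sq_le_sq h3 (by positivity)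
    refine h7.trans (le_of_eq ?_)
    rw [pow_succ]
    field_simp
    ring

/-- chaining in time only, space side `3 ^ a` fixed -/
lemma chainT (N : Fin 4 → ℕ) (f : Pt → ℝ) (a n : ℕ)
    (ha : ∀ i, i ≠ 3 → 3 ^ a ∣ N i) (hn : 3 ^ n ∣ N 3) {x : Pt} (hx : x ∈ box N) :
    |A ![3 ^ a, 3 ^ a, 3 ^ a, 3 ^ n] f x - A ![3 ^ a, 3 ^ a, 3 ^ a, 1] f x| ≤
      9 * √(3 ^ n * En N f / 27 ^ a) := by
  set S := √(En N f / 27 ^ a) with hS
  have hS0 : 0 ≤ S := Real.sqrt_nonneg _
  set q := √(3 : ℝ) with hq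
  have hq0 : 0 ≤ q := Real.sqrt_nonneg _
  have hq2 : q ^ 2 = 3 := Real.sq_sqrt (by norm_num)
  have hq1 : 5 / 3 ≤ q := by nlinarith
  have hE := En_nonneg N f
  have hS2 : S ^ 2 = En N f / 27 ^ a := Real.sq_sqrt (by positivity)
  have key := abs_tele (fun k => A ![3 ^ a, 3 ^ a, 3 ^ a, 3 ^ k] f x)
    (fun k => - (9 * S * q ^ k)) 0 n (Nat.zero_le n) ?_
  · simp only [pow_zero] at key
    refine key.trans ?_
    have h1 : √(3 ^ n * En N f / 27 ^ a) = S * q ^ n := by
      have h2 : 3 ^ n * En N f / 27 ^ a = (S * q ^ n) ^ 2 := by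
        rw [mul_pow, hS2, ← pow_mul, mul_comm n 2, pow_mul, hq2]
        ring
      rw [h2]
      exact Real.sqrt_sq (by positivity)
    rw [h1]
    linarith
  · intro k _ hkn
    have hdiv : 3 ^ (k + 1) ∣ N 3 := (pow_dvd_pow 3 hkn).trans hn
    have hdiv' : 3 ^ k ∣ N 3 := (pow_dvd_pow 3 hkn.le).trans hn
    have h1 := A_pt N ![3 ^ a, 3 ^ a, 3 ^ a, 3 ^ k]
      ![3 ^ a, 3 ^ a, 3 ^ a, 3 ^ (k + 1)] (3 ^ k)
      (by intro j; fin_cases j <;> simp)
      (by
        intro j
        fin_cases j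
        · exact ha 0 (by decide)
        · exact ha 1 (by decide)
        · exact ha 2 (by decide)
        · exact hdiv')
      (by
        intro j
        fin_cases j
        · left; simp
        · left; simp
        · left; simp
        · right; simp [pow_succ, mul_comm])
      (by
        intro j
        fin_cases j
        · exact ha 0 (by decide)
        · exact ha 1 (by decide)
        · exact ha 2 (by decide)
        · exact hdiv) f hx
    set D := A ![3 ^ a, 3 ^ a, 3 ^ a, 3 ^ (k + 1)] f x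
      - A ![3 ^ a, 3 ^ a, 3 ^ a, 3 ^ k] f x with hD
    have h27 : ((27 : ℝ) ^ a) = (3 ^ a) ^ 3 := by
      rw [← pow_mul, mul_comm, pow_mul]; norm_num
    have h2 : (∏ j, (((![3 ^ a, 3 ^ a, 3 ^ a, 3 ^ k] : Fin 4 → ℕ) j : ℕ) : ℝ))
        = 27 ^ a * 3 ^ k := by
      rw [Fin.prod_univ_four, h27]
      simp
      ring
    rw [h2] at h1
    have h3 : D ^ 2 ≤ (6 * S * q ^ k) ^ 2 := by
      have h4 : (6 * S * q ^ k) ^ 2 = 36 * 3 ^ k * En N f / 27 ^ a := by
        rw [mul_pow, mul_pow, hS2, ← pow_mul, mul_comm k 2, pow_mul, hq2]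
        ring
      rw [h4, le_div_iff₀ (by positivity)]
      have h5 : (0 : ℝ) < 3 ^ k := by positivity
      have h6 : D ^ 2 * 27 ^ a * 3 ^ k ≤ 36 * 3 ^ k * En N f * 3 ^ k := by
        push_cast at h1
        calc D ^ 2 * 27 ^ a * 3 ^ k = D ^ 2 * (27 ^ a * 3 ^ k) := by ring
          _ ≤ 36 * (3 ^ k) ^ 2 * En N f := h1
          _ = 36 * 3 ^ k * En N f * 3 ^ k := by ring
      exact le_of_mul_le_mul_right h6 h5
    have h7 : |D| ≤ 6 * S * q ^ k := abs_le_of_sq_le_sq h3 (by positivity)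
    refine h7.trans ?_
    have h8 : -(9 * S * q ^ k) - -(9 * S * q ^ (k + 1)) = 9 * (S * q ^ k) * (q - 1) := by ring
    rw [h8]
    have h9 : 0 ≤ S * q ^ k := by positivity
    nlinarith

end Vale.Agent.P361.LRO.Geo
end

section

/-!
# P361, block GEO, part 4: the block average as a sum over a box, and the count of points where a
function exceeds its mean by `1 / 8`.
-/

namespace Vale.Agent.P361.LRO.Geo

open Finset Function

/-- the block average, written out -/
lemma A_eq (κ : Fin 4 → ℕ) (f : Pt → ℝ) (x : Pt) :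
    A κ f x = (∑ a ∈ range (κ 0), ∑ b ∈ range (κ 1), ∑ c ∈ range (κ 2), ∑ d ∈ range (κ 3),
      f ![κ 0 * (x 0 / κ 0) + a, κ 1 * (x 1 / κ 1) + b, κ 2 * (x 2 / κ 2) + c,
        κ 3 * (x 3 / κ 3) + d]) / (κ 0 * κ 1 * κ 2 * κ 3) := by
  have hup : ∀ a b c d : ℕ, update (update (update (update x 0 a) 1 b) 2 c) 3 d
      = ![a, b, c, d] := by
    intro a b c d
    funext j
    fin_cases j <;> simp [update]
  have h1 : ∀ y : Pt, ∀ a, update y 0 a 1 = y 1 := fun y a => by simp [update]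
  have h2 : ∀ y : Pt, ∀ a, update y 0 a 2 = y 2 := fun y a => by simp [update]
  have h3 : ∀ y : Pt, ∀ a, update y 0 a 3 = y 3 := fun y a => by simp [update]
  have h4 : ∀ y : Pt, ∀ a, update y 1 a 2 = y 2 := fun y a => by simp [update]
  have h5 : ∀ y : Pt, ∀ a, update y 1 a 3 = y 3 := fun y a => by simp [update]
  have h6 : ∀ y : Pt, ∀ a, update y 2 a 3 = y 3 := fun y a => by simp [update]
  unfold A P pav
  simp only [h1, h2, h3, h4, h5, h6, hup, Finset.sum_div]
  refine Finset.sum_congr rfl fun a _ => Finset.sum_congr rfl fun b _ =>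
    Finset.sum_congr rfl fun c _ => Finset.sum_congr rfl fun d _ => ?_
  simp only [div_div]
  congr 1
  ring

lemma A_congr (κ : Fin 4 → ℕ) (f : Pt → ℝ) {x y : Pt} (h : ∀ i, y i / κ i = x i / κ i) :
    A κ f y = A κ f x := Inv_all (A_Inv κ f) h

/-- count of the points where `f` exceeds a number close to its averages on blocks of side
at most `s` -/
lemma count_block (N κ : Fin 4 → ℕ) (s : ℕ) (h0 : ∀ j, 0 < κ j) (hN : ∀ j, κ j ∣ N j)
    (hs : ∀ j, κ j ≤ s) (f : Pt → ℝ) (v : ℝ)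
    (hv : ∀ x ∈ box N, |A κ f x - v| ≤ 1 / 16) :
    (((box N).filter fun x => v + 1 / 8 ≤ f x).card : ℝ) ≤ 1024 * (s : ℝ) ^ 2 * En N f := by
  have h1 := A_sub_sum N κ s h0 hN hs f
  have h2 : ∑ x ∈ (box N).filter (fun x => v + 1 / 8 ≤ f x), (1 / 256 : ℝ) ≤
      ∑ x ∈ box N, (A κ f x - f x) ^ 2 := by
    refine (Finset.sum_le_sum fun x hx => ?_).trans
      (Finset.sum_le_sum_of_subset_of_nonneg (Finset.filter_subset _ _)
        fun _ _ _ => sq_nonneg _)
    rw [Finset.mem_filter] at hx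
    have h3 := (abs_le.1 (hv x hx.1)).2
    nlinarith [hx.2]
  rw [Finset.sum_const, nsmul_eq_mul] at h2
  nlinarith

end Vale.Agent.P361.LRO.Geo
end

section

/-!
# P361, block GEO, part 5: the two chaining lemmas in three dimensions

* `vol3`: if the mean of `f` over one `3`-adic subcube of side `3 ^ m` is at most `1 / 16` and the
  Dirichlet energy `E` of `f` on the cube of side `3 ^ M` is at most `3 ^ m / 57600`, then `f` is at
  least `1 / 4` on at most `1024 * E * (1 + 9 * (57600 * E) ^ 2)` points.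
* `mean3_sub`: the means over two `3`-adic subcubes of side `3 ^ m` differ by at most
  `30 * √(E / 3 ^ m)`.
-/

namespace Vale.Agent.P361.LRO.Geo

open Finset Function

/-- Dirichlet energy on the cube `{0, .., n - 1} ^ 3` -/
noncomputable def E3 (n : ℕ) (f : ℕ → ℕ → ℕ → ℝ) : ℝ :=
  ∑ x ∈ range n, ∑ y ∈ range n, ∑ z ∈ range n,
    ((if x + 1 < n then (f (x + 1) y z - f x y z) ^ 2 else 0) +
      (if y + 1 < n then (f x (y + 1) z - f x y z) ^ 2 else 0) +
      (if z + 1 < n then (f x y (z + 1) - f x y z) ^ 2 else 0))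

/-- mean over the `3`-adic cube of side `3 ^ m` with corner `3 ^ m * (a, b, c)` -/
noncomputable def mean3 (m : ℕ) (f : ℕ → ℕ → ℕ → ℝ) (a b c : ℕ) : ℝ :=
  (∑ x ∈ range (3 ^ m), ∑ y ∈ range (3 ^ m), ∑ z ∈ range (3 ^ m),
    f (3 ^ m * a + x) (3 ^ m * b + y) (3 ^ m * c + z)) / 27 ^ m

/-- `f` as a function on space-time points -/
def lift3 (f : ℕ → ℕ → ℕ → ℝ) : Pt → ℝ := fun p => f (p 0) (p 1) (p 2)

lemma sum_box (N : Fin 4 → ℕ) (G : Pt → ℝ) :
    ∑ p ∈ box N, G p = ∑ a ∈ range (N 0), ∑ b ∈ range (N 1), ∑ c ∈ range (N 2),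
      ∑ d ∈ range (N 3), G ![a, b, c, d] := by
  have h1 : ∑ p ∈ box N, G p = ∑ q ∈ range (N 0) ×ˢ range (N 1) ×ˢ range (N 2) ×ˢ range (N 3),
      G ![q.1, q.2.1, q.2.2.1, q.2.2.2] := by
    refine Finset.sum_bij' (fun p _ => (p 0, p 1, p 2, p 3))
      (fun q _ => ![q.1, q.2.1, q.2.2.1, q.2.2.2]) ?_ ?_ ?_ ?_ ?_
    · intro p hp
      rw [mem_box] at hp
      simp only [Finset.mem_product, Finset.mem_range]
      exact ⟨hp 0, hp 1, hp 2, hp 3⟩
    · intro q hq
      simp only [Finset.mem_product, Finset.mem_range] at hq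
      rw [mem_box]
      intro i
      fin_cases i
      · exact hq.1
      · exact hq.2.1
      · exact hq.2.2.1
      · exact hq.2.2.2
    · intro p _
      funext i
      fin_cases i <;> rfl
    · intro q _
      rfl
    · intro p _
      congr 1
      funext i
      fin_cases i <;> rfl
  rw [h1, Finset.sum_product]
  refine Finset.sum_congr rfl fun a _ => ?_
  rw [Finset.sum_product]
  refine Finset.sum_congr rfl fun b _ => ?_
  rw [Finset.sum_product]

lemma En_lift3 (n : ℕ) (f : ℕ → ℕ → ℕ → ℝ) : En ![n, n, n, 1] (lift3 f) = E3 n f := by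
  unfold En en
  rw [Fin.sum_univ_four, ← Finset.sum_add_distrib, ← Finset.sum_add_distrib,
    ← Finset.sum_add_distrib, sum_box]
  unfold E3
  refine Finset.sum_congr rfl fun a _ => Finset.sum_congr rfl fun b _ =>
    Finset.sum_congr rfl fun c _ => ?_
  have hr : range ((![n, n, n, 1] : Fin 4 → ℕ) 3) = {0} := rfl
  rw [hr, Finset.sum_singleton]
  simp [lift3, update]

lemma A_mean3 (m : ℕ) (f : ℕ → ℕ → ℕ → ℝ) (x : Pt) (a b c : ℕ)
    (ha : x 0 / 3 ^ m = a) (hb : x 1 / 3 ^ m = b) (hc : x 2 / 3 ^ m = c) :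
    A ![3 ^ m, 3 ^ m, 3 ^ m, 1] (lift3 f) x = mean3 m f a b c := by
  rw [A_eq]
  unfold mean3
  have e0 : (![3 ^ m, 3 ^ m, 3 ^ m, 1] : Fin 4 → ℕ) 0 = 3 ^ m := rfl
  have e1 : (![3 ^ m, 3 ^ m, 3 ^ m, 1] : Fin 4 → ℕ) 1 = 3 ^ m := rfl
  have e2 : (![3 ^ m, 3 ^ m, 3 ^ m, 1] : Fin 4 → ℕ) 2 = 3 ^ m := rfl
  have e3 : (![3 ^ m, 3 ^ m, 3 ^ m, 1] : Fin 4 → ℕ) 3 = 1 := rfl
  rw [e0, e1, e2, e3, ha, hb, hc]
  have h27 : ((27 : ℝ) ^ m) = (3 ^ m) ^ 3 := by
    rw [← pow_mul, mul_comm, pow_mul]; norm_num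
  rw [h27]
  push_cast
  congr 1
  · refine Finset.sum_congr rfl fun i _ => Finset.sum_congr rfl fun j _ =>
      Finset.sum_congr rfl fun k _ => ?_
    rw [Finset.range_one, Finset.sum_singleton]
    rfl
  · ring

lemma E3_nonneg (n : ℕ) (f : ℕ → ℕ → ℕ → ℝ) : 0 ≤ E3 n f := by
  rw [← En_lift3]
  exact En_nonneg _ _

lemma cube_dvd (M k : ℕ) (hk : k ≤ M) :
    ∀ i : Fin 4, i ≠ 3 → 3 ^ k ∣ (![3 ^ M, 3 ^ M, 3 ^ M, 1] : Fin 4 → ℕ) i := by
  intro i hi
  fin_cases i
  · exact pow_dvd_pow 3 hk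
  · exact pow_dvd_pow 3 hk
  · exact pow_dvd_pow 3 hk
  · exact absurd rfl hi

/-- chaining in three dimensions: from a subcube to the whole cube -/
lemma mean3_sub_top (M m : ℕ) (hm : m ≤ M) (f : ℕ → ℕ → ℕ → ℝ) (a b c : ℕ)
    (ha : 3 ^ m * a < 3 ^ M) (hb : 3 ^ m * b < 3 ^ M) (hc : 3 ^ m * c < 3 ^ M) :
    |mean3 M f 0 0 0 - mean3 m f a b c| ≤ 15 * √(E3 (3 ^ M) f / 3 ^ m) := by
  set x : Pt := ![3 ^ m * a, 3 ^ m * b, 3 ^ m * c, 0] with hx
  have h3 : 0 < 3 ^ m := by positivity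
  have hxb : x ∈ box ![3 ^ M, 3 ^ M, 3 ^ M, 1] := by
    rw [mem_box]
    intro i
    fin_cases i
    · exact ha
    · exact hb
    · exact hc
    · exact one_pos
  have h1 := chain3 ![3 ^ M, 3 ^ M, 3 ^ M, 1] (lift3 f) m M 1 hm one_pos
    (cube_dvd M M le_rfl) (one_dvd _) hxb
  rw [A_mean3 m f x a b c (Nat.mul_div_cancel_left a h3) (Nat.mul_div_cancel_left b h3)
    (Nat.mul_div_cancel_left c h3),
    A_mean3 M f x 0 0 0 (Nat.div_eq_of_lt ha) (Nat.div_eq_of_lt hb) (Nat.div_eq_of_lt hc),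
    En_lift3] at h1
  simpa using h1

/-- means over two `3`-adic subcubes of the same side -/
theorem mean3_sub (M m : ℕ) (hm : m ≤ M) (f : ℕ → ℕ → ℕ → ℝ) (a b c a' b' c' : ℕ)
    (ha : 3 ^ m * a < 3 ^ M) (hb : 3 ^ m * b < 3 ^ M) (hc : 3 ^ m * c < 3 ^ M)
    (ha' : 3 ^ m * a' < 3 ^ M) (hb' : 3 ^ m * b' < 3 ^ M) (hc' : 3 ^ m * c' < 3 ^ M) :
    |mean3 m f a b c - mean3 m f a' b' c'| ≤ 30 * √(E3 (3 ^ M) f / 3 ^ m) := by
  have h1 := mean3_sub_top M m hm f a b c ha hb hc
  have h2 := mean3_sub_top M m hm f a' b' c' ha' hb' hc'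
  rw [abs_le] at *
  constructor <;> linarith [h1.1, h1.2, h2.1, h2.2]

/-- there is a good scale -/
lemma exists_scale (M : ℕ) (t : ℝ) :
    ∃ k ≤ M, (t ≤ 3 ^ k ∨ k = M) ∧ (k = 0 ∨ (3 : ℝ) ^ k ≤ 3 * t) := by
  classical
  have hex : ∃ k, t ≤ 3 ^ k ∨ k = M := ⟨M, Or.inr rfl⟩
  refine ⟨Nat.find hex, Nat.find_min' hex (Or.inr rfl), Nat.find_spec hex, ?_⟩
  rcases Nat.eq_zero_or_pos (Nat.find hex) with h | h
  · exact Or.inl h
  · right
    have h1 := Nat.find_min hex (m := Nat.find hex - 1) (by omega)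
    rw [not_or, not_le] at h1
    have h2 : (3 : ℝ) ^ Nat.find hex = 3 * 3 ^ (Nat.find hex - 1) := by
      conv_lhs => rw [show Nat.find hex = (Nat.find hex - 1) + 1 by omega]
      rw [pow_succ]
      ring
    rw [h2]
    linarith [h1.1]

/-- the volume lemma, relative to the mean over the whole cube -/
theorem vol3_mean (M : ℕ) (f : ℕ → ℕ → ℕ → ℝ) :
    (((range (3 ^ M) ×ˢ range (3 ^ M) ×ˢ range (3 ^ M)).filter
        fun p => mean3 M f 0 0 0 + 1 / 8 ≤ f p.1 p.2.1 p.2.2).card : ℝ) ≤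
      1024 * E3 (3 ^ M) f * (1 + 9 * (57600 * E3 (3 ^ M) f) ^ 2) := by
  set E := E3 (3 ^ M) f with hE
  have hE0 : 0 ≤ E := E3_nonneg _ _
  set v := mean3 M f 0 0 0 with hv
  obtain ⟨k, hkM, hk1, hk2⟩ := exists_scale M (57600 * E)
  have hN : ∀ j, (![3 ^ k, 3 ^ k, 3 ^ k, 1] : Fin 4 → ℕ) j ∣
      (![3 ^ M, 3 ^ M, 3 ^ M, 1] : Fin 4 → ℕ) j := by
    intro j
    fin_cases j
    · exact pow_dvd_pow 3 hkM
    · exact pow_dvd_pow 3 hkM
    · exact pow_dvd_pow 3 hkM
    · exact one_dvd _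
  have h3k : 0 < 3 ^ k := by positivity
  have hs : ∀ j, (![3 ^ k, 3 ^ k, 3 ^ k, 1] : Fin 4 → ℕ) j ≤ 3 ^ k := by
    intro j
    fin_cases j
    · exact le_rfl
    · exact le_rfl
    · exact le_rfl
    · exact h3k
  have hpos : ∀ j, 0 < (![3 ^ k, 3 ^ k, 3 ^ k, 1] : Fin 4 → ℕ) j := by
    intro j
    fin_cases j
    · exact h3k
    · exact h3k
    · exact h3k
    · exact one_pos
  have hdist : ∀ x ∈ box ![3 ^ M, 3 ^ M, 3 ^ M, 1],
      |A ![3 ^ k, 3 ^ k, 3 ^ k, 1] (lift3 f) x - v| ≤ 1 / 16 := by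
    intro x hx
    have h0 := (mem_box.1 hx) 0
    have h1 := (mem_box.1 hx) 1
    have h2 := (mem_box.1 hx) 2
    have hvx : A ![3 ^ M, 3 ^ M, 3 ^ M, 1] (lift3 f) x = v :=
      A_mean3 M f x 0 0 0 (Nat.div_eq_of_lt h0) (Nat.div_eq_of_lt h1) (Nat.div_eq_of_lt h2)
    rcases hk1 with hk1 | hk1
    · have hc := chain3 ![3 ^ M, 3 ^ M, 3 ^ M, 1] (lift3 f) k M 1 hkM one_pos
        (cube_dvd M M le_rfl) (one_dvd _) hx
      rw [hvx, En_lift3, ← hE, abs_sub_comm] at hc
      refine hc.trans ?_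
      have h4 : √(E / (3 ^ k * ((1 : ℕ) : ℝ))) ≤ 1 / 240 := by
        rw [Real.sqrt_le_left (by norm_num)]
        rw [div_le_iff₀ (by positivity)]
        push_cast
        linarith
      linarith
    · rw [hk1, hvx]
      norm_num
  have hcount := count_block ![3 ^ M, 3 ^ M, 3 ^ M, 1] ![3 ^ k, 3 ^ k, 3 ^ k, 1] (3 ^ k)
    hpos hN hs (lift3 f) v hdist
  rw [En_lift3, ← hE] at hcount
  have hcard : ((range (3 ^ M) ×ˢ range (3 ^ M) ×ˢ range (3 ^ M)).filter
        fun p => v + 1 / 8 ≤ f p.1 p.2.1 p.2.2).card ≤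
      ((box ![3 ^ M, 3 ^ M, 3 ^ M, 1]).filter fun x => v + 1 / 8 ≤ lift3 f x).card := by
    refine Finset.card_le_card_of_injOn (fun p => ![p.1, p.2.1, p.2.2, 0]) ?_ ?_
    · intro p hp
      rw [Finset.mem_coe, Finset.mem_filter] at hp ⊢
      simp only [Finset.mem_product, Finset.mem_range] at hp
      refine ⟨?_, hp.2⟩
      rw [mem_box]
      intro i
      fin_cases i
      · exact hp.1.1
      · exact hp.1.2.1
      · exact hp.1.2.2
      · exact one_pos
    · intro p _ q _ hpq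
      have e0 := congrFun hpq 0
      have e1 := congrFun hpq 1
      have e2 := congrFun hpq 2
      exact Prod.ext e0 (Prod.ext e1 e2)
  have hcard' : (((range (3 ^ M) ×ˢ range (3 ^ M) ×ˢ range (3 ^ M)).filter
        fun p => v + 1 / 8 ≤ f p.1 p.2.1 p.2.2).card : ℝ) ≤
      (((box ![3 ^ M, 3 ^ M, 3 ^ M, 1]).filter fun x => v + 1 / 8 ≤ lift3 f x).card : ℝ) := by
    exact_mod_cast hcard
  refine hcard'.trans (hcount.trans ?_)
  have hsq : (((3 ^ k : ℕ) : ℝ)) ^ 2 ≤ 1 + 9 * (57600 * E) ^ 2 := by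
    push_cast
    rcases hk2 with hk2 | hk2
    · rw [hk2]
      have : 0 ≤ (57600 * E) ^ 2 := sq_nonneg _
      norm_num
      positivity
    · have h5 : (0 : ℝ) < 3 ^ k := by positivity
      have h6 : ((3 : ℝ) ^ k) ^ 2 ≤ (3 * (57600 * E)) ^ 2 := pow_le_pow_left₀ h5.le hk2 2
      nlinarith
  calc 1024 * (((3 ^ k : ℕ) : ℝ)) ^ 2 * E = 1024 * E * (((3 ^ k : ℕ) : ℝ)) ^ 2 := by ring
    _ ≤ 1024 * E * (1 + 9 * (57600 * E) ^ 2) :=
      mul_le_mul_of_nonneg_left hsq (by positivity)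

/-- the volume lemma -/
theorem vol3 (M m : ℕ) (hm : m ≤ M) (f : ℕ → ℕ → ℕ → ℝ) (a b c : ℕ)
    (ha : 3 ^ m * a < 3 ^ M) (hb : 3 ^ m * b < 3 ^ M) (hc : 3 ^ m * c < 3 ^ M)
    (hmean : mean3 m f a b c ≤ 1 / 16) (hE : 57600 * E3 (3 ^ M) f ≤ 3 ^ m) :
    (((range (3 ^ M) ×ˢ range (3 ^ M) ×ˢ range (3 ^ M)).filter
        fun p => 1 / 4 ≤ f p.1 p.2.1 p.2.2).card : ℝ) ≤
      1024 * E3 (3 ^ M) f * (1 + 9 * (57600 * E3 (3 ^ M) f) ^ 2) := by
  have h1 := mean3_sub_top M m hm f a b c ha hb hc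
  have h2 : √(E3 (3 ^ M) f / 3 ^ m) ≤ 1 / 240 := by
    rw [Real.sqrt_le_left (by norm_num), div_le_iff₀ (by positivity)]
    linarith
  have h3 : mean3 M f 0 0 0 ≤ 1 / 8 := by
    have := (abs_le.1 h1).2
    linarith
  refine le_trans ?_ (vol3_mean M f)
  have h4 : ((range (3 ^ M) ×ˢ range (3 ^ M) ×ˢ range (3 ^ M)).filter
        fun p => 1 / 4 ≤ f p.1 p.2.1 p.2.2) ⊆
      ((range (3 ^ M) ×ˢ range (3 ^ M) ×ˢ range (3 ^ M)).filter
        fun p => mean3 M f 0 0 0 + 1 / 8 ≤ f p.1 p.2.1 p.2.2) := by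
    intro p hp
    rw [Finset.mem_filter] at hp ⊢
    exact ⟨hp.1, by linarith [hp.2]⟩
  exact_mod_cast Finset.card_le_card h4

/-- Cauchy-Schwarz for the mean -/
lemma mean3_sq_le (m : ℕ) (f : ℕ → ℕ → ℕ → ℝ) (a b c : ℕ) :
    (mean3 m f a b c) ^ 2 ≤ mean3 m (fun x y z => f x y z ^ 2) a b c := by
  unfold mean3
  have h27 : (0 : ℝ) < 27 ^ m := by positivity
  have h3 : ((27 : ℝ) ^ m) = (3 ^ m) * (3 ^ m) * (3 ^ m) := by
    rw [show (27 : ℝ) = 3 * 3 * 3 by norm_num, mul_pow, mul_pow]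
  have hcs : (∑ x ∈ range (3 ^ m), ∑ y ∈ range (3 ^ m), ∑ z ∈ range (3 ^ m),
      f (3 ^ m * a + x) (3 ^ m * b + y) (3 ^ m * c + z)) ^ 2 ≤
      27 ^ m * ∑ x ∈ range (3 ^ m), ∑ y ∈ range (3 ^ m), ∑ z ∈ range (3 ^ m),
      f (3 ^ m * a + x) (3 ^ m * b + y) (3 ^ m * c + z) ^ 2 := by
    have h4 := sq_sum_le_card_mul_sum_sq
      (s := range (3 ^ m) ×ˢ range (3 ^ m) ×ˢ range (3 ^ m))
      (f := fun p => f (3 ^ m * a + p.1) (3 ^ m * b + p.2.1) (3 ^ m * c + p.2.2))
    rw [Finset.sum_product, Finset.sum_product] at h4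
    simp only [Finset.sum_product] at h4
    rw [Finset.card_product, Finset.card_product, Finset.card_range] at h4
    push_cast at h4
    rw [h3, mul_assoc (3 ^ m : ℝ)]
    exact h4
  rw [div_pow, div_le_div_iff₀ (by positivity) h27]
  nlinarith

end Vale.Agent.P361.LRO.Geo
end

section

/-!
# P361 LRO, block (6): time means and the volume lemma on window averages

`U x y z w` = window averages, `ub` = mean over the `T` windows.
-/

namespace Vale.Agent.P361.LRO.Ind

open Finset Vale.Agent.P361.LRO Vale.Agent.P361.LRO.Geo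

/-- time mean over `T` windows -/
noncomputable def ub (T : ℕ) (U : ℕ → ℕ → ℕ → ℕ → ℝ) (x y z : ℕ) : ℝ :=
  (1 / T : ℝ) * ∑ w ∈ range T, U x y z w

lemma sum_if_lt (S : ℕ) (g : ℕ → ℝ) :
    ∑ x ∈ range S, (if x + 1 < S then g x else 0) = ∑ x ∈ range (S - 1), g x := by
  rcases S with _ | S
  · simp
  · rw [Finset.sum_range_succ]
    simp only [Nat.add_lt_add_iff_right, lt_self_iff_false, if_false, add_zero,
      Nat.add_sub_cancel]
    refine Finset.sum_congr rfl fun x hx => ?_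
    rw [Finset.mem_range] at hx
    rw [if_pos hx]

lemma E3_eq (S : ℕ) (f : ℕ → ℕ → ℕ → ℝ) :
    E3 S f =
      (∑ x ∈ range (S - 1), ∑ y ∈ range S, ∑ z ∈ range S, (f (x + 1) y z - f x y z) ^ 2) +
      (∑ x ∈ range S, ∑ y ∈ range (S - 1), ∑ z ∈ range S, (f x (y + 1) z - f x y z) ^ 2) +
      (∑ x ∈ range S, ∑ y ∈ range S, ∑ z ∈ range (S - 1), (f x y (z + 1) - f x y z) ^ 2) := by
  unfold E3
  simp only [Finset.sum_add_distrib]
  congr 1
  · congr 1
    · rw [← sum_if_lt S fun x => ∑ y ∈ range S, ∑ z ∈ range S, (f (x + 1) y z - f x y z) ^ 2]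
      refine Finset.sum_congr rfl fun x _ => ?_
      by_cases h : x + 1 < S
      · simp only [if_pos h]
      · simp only [if_neg h, Finset.sum_const_zero]
    · refine Finset.sum_congr rfl fun x _ => ?_
      rw [← sum_if_lt S fun y => ∑ z ∈ range S, (f x (y + 1) z - f x y z) ^ 2]
      refine Finset.sum_congr rfl fun y _ => ?_
      by_cases h : y + 1 < S
      · simp only [if_pos h]
      · simp only [if_neg h, Finset.sum_const_zero]
  · refine Finset.sum_congr rfl fun x _ => Finset.sum_congr rfl fun y _ => ?_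
    rw [← sum_if_lt S fun z => (f x y (z + 1) - f x y z) ^ 2]

lemma avg_sq (T : ℕ) (g : ℕ → ℝ) :
    ((1 / T : ℝ) * ∑ w ∈ range T, g w) ^ 2 ≤ (1 / T : ℝ) * ∑ w ∈ range T, g w ^ 2 := by
  rcases Nat.eq_zero_or_pos T with h | h
  · subst h; simp
  · have hT : (0 : ℝ) < T := by exact_mod_cast h
    have h1 := sq_sum_le_card_mul_sum_sq (s := range T) (f := g)
    rw [Finset.card_range] at h1
    rw [mul_pow, one_div, inv_pow, ← one_div, ← one_div, div_mul_eq_mul_div, one_mul,
      div_mul_eq_mul_div, one_mul, div_le_div_iff₀ (by positivity) hT]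
    nlinarith

lemma ub_sub_sq (T : ℕ) (U : ℕ → ℕ → ℕ → ℕ → ℝ) (x y z x' y' z' : ℕ) :
    (ub T U x y z - ub T U x' y' z') ^ 2 ≤
      (1 / T : ℝ) * ∑ w ∈ range T, (U x y z w - U x' y' z' w) ^ 2 := by
  unfold ub
  rw [← mul_sub, ← Finset.sum_sub_distrib]
  exact avg_sq T _

/-- (T1) -/
theorem E3_ub_le (S T : ℕ) (U : ℕ → ℕ → ℕ → ℕ → ℝ) : E3 S (ub T U) ≤ Esp S T U / T := by
  rw [E3_eq, div_eq_mul_one_div, mul_comm]
  unfold Esp
  rw [mul_add, mul_add]
  simp only [Finset.mul_sum (a := (1 / T : ℝ))]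
  refine add_le_add (add_le_add ?_ ?_) ?_
  · refine Finset.sum_le_sum fun x _ => Finset.sum_le_sum fun y _ => Finset.sum_le_sum fun z _ => ?_
    rw [← Finset.mul_sum]
    exact ub_sub_sq T U _ _ _ _ _ _
  · refine Finset.sum_le_sum fun x _ => Finset.sum_le_sum fun y _ => Finset.sum_le_sum fun z _ => ?_
    rw [← Finset.mul_sum]
    exact ub_sub_sq T U _ _ _ _ _ _
  · refine Finset.sum_le_sum fun x _ => Finset.sum_le_sum fun y _ => Finset.sum_le_sum fun z _ => ?_
    rw [← Finset.mul_sum]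
    exact ub_sub_sq T U _ _ _ _ _ _

lemma pav_full (T : ℕ) (g : ℕ → ℝ) {a : ℕ} (ha : a < T) :
    pav T g a = (1 / T : ℝ) * ∑ w ∈ range T, g w := by
  unfold pav
  rw [Nat.div_eq_of_lt ha]
  simp only [mul_zero, zero_add]
  ring

lemma len_eq (T : ℕ) (g : ℕ → ℝ) : len T g = ∑ w ∈ range (T - 1), (g (w + 1) - g w) ^ 2 := by
  unfold len
  exact sum_if_lt T fun w => (g (w + 1) - g w) ^ 2

lemma time_poincare (T : ℕ) (g : ℕ → ℝ) :
    ∑ w ∈ range T, (g w - (1 / T : ℝ) * ∑ v ∈ range T, g v) ^ 2 ≤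
      (T : ℝ) ^ 2 * ∑ w ∈ range (T - 1), (g (w + 1) - g w) ^ 2 := by
  rcases Nat.eq_zero_or_pos T with h | h
  · subst h; simp
  · have h1 := pav_sub_sum h 1 g
    rw [mul_one, len_eq] at h1
    refine le_trans (le_of_eq ?_) h1
    refine Finset.sum_congr rfl fun w hw => ?_
    rw [Finset.mem_range] at hw
    rw [pav_full T g hw, ← neg_sq, neg_sub]

lemma time_poincare_zero {T : ℕ} (hT : 0 < T) (g : ℕ → ℝ) :
    (g 0 - (1 / T : ℝ) * ∑ v ∈ range T, g v) ^ 2 ≤
      (T : ℝ) * ∑ w ∈ range (T - 1), (g (w + 1) - g w) ^ 2 := by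
  have h1 := pav_sub_pt hT g 0
  rw [pav_full T g hT, Nat.zero_div, mul_zero] at h1
  simp only [zero_add] at h1
  rw [sum_if_lt T fun w => (g (w + 1) - g w) ^ 2] at h1
  rw [← neg_sq, neg_sub]
  exact h1

/-- (T2) -/
theorem sum_sub_ub_sq (S T : ℕ) (U : ℕ → ℕ → ℕ → ℕ → ℝ) :
    ∑ x ∈ range S, ∑ y ∈ range S, ∑ z ∈ range S, ∑ w ∈ range T,
      (U x y z w - ub T U x y z) ^ 2 ≤ (T : ℝ) ^ 2 * Eti S T U := by
  unfold Eti
  simp only [Finset.mul_sum (a := (T : ℝ) ^ 2)]
  refine Finset.sum_le_sum fun x _ => Finset.sum_le_sum fun y _ => Finset.sum_le_sum fun z _ => ?_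
  rw [← Finset.mul_sum]
  exact time_poincare T (U x y z)

/-- (T3) -/
theorem sum_zero_sub_ub_sq (S : ℕ) {T : ℕ} (hT : 0 < T) (U : ℕ → ℕ → ℕ → ℕ → ℝ) :
    ∑ x ∈ range S, ∑ y ∈ range S, ∑ z ∈ range S,
      (U x y z 0 - ub T U x y z) ^ 2 ≤ (T : ℝ) * Eti S T U := by
  unfold Eti
  simp only [Finset.mul_sum (a := (T : ℝ))]
  refine Finset.sum_le_sum fun x _ => Finset.sum_le_sum fun y _ => Finset.sum_le_sum fun z _ => ?_
  rw [← Finset.mul_sum]
  exact time_poincare_zero hT (U x y z)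

lemma Esp_nonneg (S T : ℕ) (U : ℕ → ℕ → ℕ → ℕ → ℝ) : 0 ≤ Esp S T U := by
  unfold Esp
  positivity

lemma Eti_nonneg (S T : ℕ) (U : ℕ → ℕ → ℕ → ℕ → ℝ) : 0 ≤ Eti S T U := by
  unfold Eti
  positivity

lemma Eti_mono {S S' : ℕ} (h : S ≤ S') (T : ℕ) (U : ℕ → ℕ → ℕ → ℕ → ℝ) :
    Eti S T U ≤ Eti S' T U := by
  unfold Eti
  have hs : range S ⊆ range S' := Finset.range_mono h
  refine (Finset.sum_le_sum_of_subset_of_nonneg hs fun _ _ _ => by positivity).trans ?_
  refine Finset.sum_le_sum fun x _ => ?_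
  refine (Finset.sum_le_sum_of_subset_of_nonneg hs fun _ _ _ => by positivity).trans ?_
  refine Finset.sum_le_sum fun y _ => ?_
  exact Finset.sum_le_sum_of_subset_of_nonneg hs fun _ _ _ => by positivity

lemma E3_one_sub (S : ℕ) (f : ℕ → ℕ → ℕ → ℝ) :
    E3 S (fun x y z => 1 - f x y z) = E3 S f := by
  unfold E3
  refine Finset.sum_congr rfl fun x _ => Finset.sum_congr rfl fun y _ =>
    Finset.sum_congr rfl fun z _ => ?_
  have e : ∀ a b : ℝ, (1 - a - (1 - b)) ^ 2 = (a - b) ^ 2 := fun a b => by ring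
  rw [e, e, e]

lemma sum_ite_card (S : ℕ) (p : ℕ → ℕ → ℕ → Prop) [∀ x y z, Decidable (p x y z)] :
    ∑ x ∈ range S, ∑ y ∈ range S, ∑ z ∈ range S, (if p x y z then (1 : ℝ) else 0) =
      (((range S ×ˢ range S ×ˢ range S).filter fun q => p q.1 q.2.1 q.2.2).card : ℝ) := by
  rw [Finset.card_filter]
  push_cast
  rw [Finset.sum_product]
  refine Finset.sum_congr rfl fun x _ => ?_
  rw [Finset.sum_product]

/-- (T4) the volume lemma on window averages -/
theorem cnt_le (M m : ℕ) (hm : m ≤ M) {T : ℕ} (hT : 0 < T) (U : ℕ → ℕ → ℕ → ℕ → ℝ)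
    (a b c : ℕ) (ha : 3 ^ m * a < 3 ^ M) (hb : 3 ^ m * b < 3 ^ M) (hc : 3 ^ m * c < 3 ^ M)
    (hmean : mean3 m (fun x y z => 1 - ub T U x y z) a b c ≤ 1 / 16)
    (hE : 57600 * (Esp (3 ^ M) T U / T) ≤ 3 ^ m) :
    cnt (3 ^ M) T (5 / 8) U ≤
      1024 * Esp (3 ^ M) T U * (1 + 9 * (57600 * (Esp (3 ^ M) T U / T)) ^ 2) +
        64 * ((T : ℝ) ^ 2 * Eti (3 ^ M) T U) := by
  have hT' : (0 : ℝ) < T := by exact_mod_cast hT
  set e := Esp (3 ^ M) T U / T with he
  have he0 : 0 ≤ e := div_nonneg (Esp_nonneg _ _ _) hT'.le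
  have hE3 : E3 (3 ^ M) (fun x y z => 1 - ub T U x y z) ≤ e := by
    rw [E3_one_sub]
    exact E3_ub_le _ _ _
  have hE30 : 0 ≤ E3 (3 ^ M) (fun x y z => 1 - ub T U x y z) := E3_nonneg _ _
  have hvol := vol3 M m hm (fun x y z => 1 - ub T U x y z) a b c ha hb hc hmean
    ((mul_le_mul_of_nonneg_left hE3 (by norm_num)).trans hE)
  set F := E3 (3 ^ M) (fun x y z => 1 - ub T U x y z) with hF
  have hvol' : (((range (3 ^ M) ×ˢ range (3 ^ M) ×ˢ range (3 ^ M)).filter
        fun p => 1 / 4 ≤ 1 - ub T U p.1 p.2.1 p.2.2).card : ℝ) ≤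
      1024 * e * (1 + 9 * (57600 * e) ^ 2) := by
    refine hvol.trans ?_
    gcongr
  have hpt : ∀ x y z w : ℕ, (if U x y z w < 5 / 8 then (1 : ℝ) else 0) ≤
      (if 1 / 4 ≤ 1 - ub T U x y z then (1 : ℝ) else 0) + 64 * (U x y z w - ub T U x y z) ^ 2 := by
    intro x y z w
    by_cases h1 : U x y z w < 5 / 8
    · rw [if_pos h1]
      by_cases h2 : 1 / 4 ≤ 1 - ub T U x y z
      · rw [if_pos h2]
        nlinarith [sq_nonneg (U x y z w - ub T U x y z)]
      · rw [if_neg h2]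
        have h3 : 1 / 8 ≤ ub T U x y z - U x y z w := by linarith
        nlinarith
    · rw [if_neg h1]
      have : 0 ≤ (if 1 / 4 ≤ 1 - ub T U x y z then (1 : ℝ) else 0) := by split_ifs <;> norm_num
      positivity
  unfold cnt
  calc ∑ x ∈ range (3 ^ M), ∑ y ∈ range (3 ^ M), ∑ z ∈ range (3 ^ M), ∑ w ∈ range T,
        (if U x y z w < 5 / 8 then (1 : ℝ) else 0)
      ≤ ∑ x ∈ range (3 ^ M), ∑ y ∈ range (3 ^ M), ∑ z ∈ range (3 ^ M), ∑ w ∈ range T,
        ((if 1 / 4 ≤ 1 - ub T U x y z then (1 : ℝ) else 0)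
          + 64 * (U x y z w - ub T U x y z) ^ 2) :=
        Finset.sum_le_sum fun x _ => Finset.sum_le_sum fun y _ => Finset.sum_le_sum fun z _ =>
          Finset.sum_le_sum fun w _ => hpt x y z w
    _ = (T : ℝ) * (∑ x ∈ range (3 ^ M), ∑ y ∈ range (3 ^ M), ∑ z ∈ range (3 ^ M),
          (if 1 / 4 ≤ 1 - ub T U x y z then (1 : ℝ) else 0)) +
        64 * ∑ x ∈ range (3 ^ M), ∑ y ∈ range (3 ^ M), ∑ z ∈ range (3 ^ M), ∑ w ∈ range T,
          (U x y z w - ub T U x y z) ^ 2 := by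
        simp only [Finset.sum_add_distrib, Finset.sum_const, Finset.card_range, nsmul_eq_mul,
          Finset.mul_sum]
    _ ≤ (T : ℝ) * (1024 * e * (1 + 9 * (57600 * e) ^ 2)) +
        64 * ((T : ℝ) ^ 2 * Eti (3 ^ M) T U) := by
        refine add_le_add (mul_le_mul_of_nonneg_left ?_ hT'.le)
          (mul_le_mul_of_nonneg_left (sum_sub_ub_sq _ _ _) (by norm_num))
        rw [sum_ite_card (3 ^ M) fun x y z => 1 / 4 ≤ 1 - ub T U x y z]
        exact hvol'
    _ = 1024 * Esp (3 ^ M) T U * (1 + 9 * (57600 * e) ^ 2) +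
        64 * ((T : ℝ) ^ 2 * Eti (3 ^ M) T U) := by
        have : (T : ℝ) * e = Esp (3 ^ M) T U := by
          rw [he]; field_simp
        rw [← this]; ring

/-- the mean of `1 - ub` over a cube is small if the time mean is close to `U` in window `0` and
`U` is close to `1` there -/
lemma mean3_one_sub_ub (m : ℕ) {T : ℕ} (hT : 0 < T) (U : ℕ → ℕ → ℕ → ℕ → ℝ)
    (h0 : ∑ x ∈ range (3 ^ m), ∑ y ∈ range (3 ^ m), ∑ z ∈ range (3 ^ m),
      (1 - U x y z 0) ^ 2 ≤ 27 ^ m / 1024)
    (h1 : (T : ℝ) * Eti (3 ^ m) T U ≤ 27 ^ m / 1024) :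
    mean3 m (fun x y z => 1 - ub T U x y z) 0 0 0 ≤ 1 / 16 := by
  have h27 : (0 : ℝ) < 27 ^ m := by positivity
  have h2 := mean3_sq_le m (fun x y z => 1 - ub T U x y z) 0 0 0
  have h3 : mean3 m (fun x y z => (1 - ub T U x y z) ^ 2) 0 0 0 ≤ 1 / 256 := by
    unfold mean3
    simp only [mul_zero, zero_add]
    rw [div_le_iff₀ h27]
    have h4 := sum_zero_sub_ub_sq (3 ^ m) hT U
    calc ∑ x ∈ range (3 ^ m), ∑ y ∈ range (3 ^ m), ∑ z ∈ range (3 ^ m),
          (1 - ub T U x y z) ^ 2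
        ≤ ∑ x ∈ range (3 ^ m), ∑ y ∈ range (3 ^ m), ∑ z ∈ range (3 ^ m),
          (2 * (1 - U x y z 0) ^ 2 + 2 * (U x y z 0 - ub T U x y z) ^ 2) := by
          refine Finset.sum_le_sum fun x _ => Finset.sum_le_sum fun y _ =>
            Finset.sum_le_sum fun z _ => ?_
          nlinarith [sq_nonneg ((1 - U x y z 0) - (U x y z 0 - ub T U x y z))]
      _ = 2 * (∑ x ∈ range (3 ^ m), ∑ y ∈ range (3 ^ m), ∑ z ∈ range (3 ^ m),
            (1 - U x y z 0) ^ 2) +
          2 * ∑ x ∈ range (3 ^ m), ∑ y ∈ range (3 ^ m), ∑ z ∈ range (3 ^ m),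
            (U x y z 0 - ub T U x y z) ^ 2 := by
          simp only [Finset.sum_add_distrib, Finset.mul_sum]
      _ ≤ 1 / 256 * 27 ^ m := by linarith
  have h5 : (mean3 m (fun x y z => 1 - ub T U x y z) 0 0 0) ^ 2 ≤ (1 / 16) ^ 2 := by
    refine h2.trans (h3.trans (by norm_num))
  exact le_trans (le_abs_self _) (abs_le_of_sq_le_sq h5 (by norm_num))

/-- (T5) volume lemma, start from the window `0` on a cube -/
theorem cnt_le_start (M m : ℕ) (hm : m ≤ M) {T : ℕ} (hT : 0 < T) (U : ℕ → ℕ → ℕ → ℕ → ℝ)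
    (h0 : ∑ x ∈ range (3 ^ m), ∑ y ∈ range (3 ^ m), ∑ z ∈ range (3 ^ m),
      (1 - U x y z 0) ^ 2 ≤ 27 ^ m / 1024)
    (h1 : (T : ℝ) * Eti (3 ^ M) T U ≤ 27 ^ m / 1024)
    (hE : 57600 * (Esp (3 ^ M) T U / T) ≤ 3 ^ m) :
    cnt (3 ^ M) T (5 / 8) U ≤
      1024 * Esp (3 ^ M) T U * (1 + 9 * (57600 * (Esp (3 ^ M) T U / T)) ^ 2) +
        64 * ((T : ℝ) ^ 2 * Eti (3 ^ M) T U) := by
  have hS : 3 ^ m ≤ 3 ^ M := Nat.pow_le_pow_right (by norm_num) hm
  have h3 : 3 ^ m * 0 < 3 ^ M := by rw [mul_zero]; positivity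
  refine cnt_le M m hm hT U 0 0 0 h3 h3 h3 (mean3_one_sub_ub m hT U h0 ?_) hE
  refine le_trans (mul_le_mul_of_nonneg_left (Eti_mono hS T U) (Nat.cast_nonneg _)) h1

/-- (T4') volume lemma, start from a cube where `U = 1` in all windows -/
theorem cnt_le_one (M m : ℕ) (hm : m ≤ M) {T : ℕ} (hT : 0 < T) (U : ℕ → ℕ → ℕ → ℕ → ℝ)
    (h0 : ∀ x < 3 ^ m, ∀ y < 3 ^ m, ∀ z < 3 ^ m, ∀ w < T, U x y z w = 1)
    (hE : 57600 * (Esp (3 ^ M) T U / T) ≤ 3 ^ m) :
    cnt (3 ^ M) T (5 / 8) U ≤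
      1024 * Esp (3 ^ M) T U * (1 + 9 * (57600 * (Esp (3 ^ M) T U / T)) ^ 2) +
        64 * ((T : ℝ) ^ 2 * Eti (3 ^ M) T U) := by
  have h3 : 3 ^ m * 0 < 3 ^ M := by rw [mul_zero]; positivity
  have hT' : (T : ℝ) ≠ 0 := by exact_mod_cast hT.ne'
  refine cnt_le M m hm hT U 0 0 0 h3 h3 h3 (le_of_eq_of_le ?_ (by norm_num : (0 : ℝ) ≤ 1 / 16)) hE
  unfold mean3
  simp only [mul_zero, zero_add]
  rw [div_eq_zero_iff]
  left
  refine Finset.sum_eq_zero fun x hx => Finset.sum_eq_zero fun y hy =>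
    Finset.sum_eq_zero fun z hz => ?_
  rw [Finset.mem_range] at hx hy hz
  unfold ub
  rw [Finset.sum_congr rfl fun w hw => h0 x hx y hy z hz w (Finset.mem_range.1 hw)]
  simp [hT']

/-- (T6) time means over two subcubes of side `3 ^ m` -/
theorem mean3_ub_sub (M m : ℕ) (hm : m ≤ M) {T : ℕ} (hT : 0 < T) (U : ℕ → ℕ → ℕ → ℕ → ℝ)
    (a b c a' b' c' : ℕ)
    (ha : 3 ^ m * a < 3 ^ M) (hb : 3 ^ m * b < 3 ^ M) (hc : 3 ^ m * c < 3 ^ M)
    (ha' : 3 ^ m * a' < 3 ^ M) (hb' : 3 ^ m * b' < 3 ^ M) (hc' : 3 ^ m * c' < 3 ^ M) :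
    |mean3 m (ub T U) a b c - mean3 m (ub T U) a' b' c'| ≤
      30 * √(Esp (3 ^ M) T U / (T * 3 ^ m)) := by
  refine (mean3_sub M m hm (ub T U) a b c a' b' c' ha hb hc ha' hb' hc').trans ?_
  have h3 : (0 : ℝ) < 3 ^ m := by positivity
  refine mul_le_mul_of_nonneg_left (Real.sqrt_le_sqrt ?_) (by norm_num)
  rw [← div_div]
  exact div_le_div_of_nonneg_right (E3_ub_le _ _ _) h3.le

end Vale.Agent.P361.LRO.Ind
end

section

/-!
# P361 LRO, block (6), package C2 (helper494): `chain3`, `start3`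

Wrappers of the volume lemma of `TimeMean.lean` (helper358) in the form of PLAN.txt.
-/

namespace Vale.Agent.P361.LRO.Ind

open Finset Vale.Agent.P361.LRO Vale.Agent.P361.LRO.Geo

private lemma mean3_ub_le (r T : ℕ) (U : ℕ → ℕ → ℕ → ℕ → ℝ)
    (h : (∑ x ∈ range (3 ^ r), ∑ y ∈ range (3 ^ r), ∑ z ∈ range (3 ^ r),
      (1 - (1 / (T : ℝ)) * ∑ w ∈ range T, U x y z w) ≤ 27 ^ r / 16)) :
    mean3 r (fun x y z => 1 - ub T U x y z) 0 0 0 ≤ 1 / 16 := by
  have h27 : (0 : ℝ) < 27 ^ r := by positivity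
  unfold mean3 ub
  simp only [mul_zero, zero_add]
  rw [div_le_iff₀ h27]
  linarith

/-- time average + Poincaré in time: `U < 5/8` forces `|U - Ubar| > 1/8` or `1 - Ubar ≥ 1/4`. -/
theorem chain3 : ∃ C : ℝ, 0 < C ∧ ∀ (r s T : ℕ), 0 < T → r ≤ s → ∀ U : ℕ → ℕ → ℕ → ℕ → ℝ,
    (∑ x ∈ range (3 ^ r), ∑ y ∈ range (3 ^ r), ∑ z ∈ range (3 ^ r),
      (1 - (1 / (T : ℝ)) * ∑ w ∈ range T, U x y z w) ≤ 27 ^ r / 16) →
    C * E4 (3 ^ s) T U ≤ T * 3 ^ r →
    cnt (3 ^ s) T (5 / 8) U ≤
      C * (T ^ 2 * E4 (3 ^ s) T U + (E4 (3 ^ s) T U) ^ 3 / T ^ 2) := by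
  refine ⟨40000000000000, by norm_num, fun r s T hT hrs U hmean hE => ?_⟩
  have hT' : (0 : ℝ) < T := by exact_mod_cast hT
  have hT1 : (1 : ℝ) ≤ T := by exact_mod_cast hT
  have h3 : 3 ^ r * 0 < 3 ^ s := by rw [mul_zero]; positivity
  have hsp := Esp_nonneg (3 ^ s) T U
  have hti := Eti_nonneg (3 ^ s) T U
  have hE4 : E4 (3 ^ s) T U = Esp (3 ^ s) T U + Eti (3 ^ s) T U := rfl
  set A := Esp (3 ^ s) T U with hA
  set B := Eti (3 ^ s) T U with hB
  rw [hE4] at hE ⊢
  have hcond : 57600 * (A / T) ≤ 3 ^ r := by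
    rw [← mul_div_assoc, div_le_iff₀ hT']
    nlinarith
  have hmain := cnt_le s r hrs hT U 0 0 0 h3 h3 h3 (mean3_ub_le r T U hmean) hcond
  rw [← hA, ← hB] at hmain
  refine hmain.trans ?_
  have hT2 : (1 : ℝ) ≤ T ^ 2 := one_le_pow₀ hT1
  have e1 : 1024 * A * (1 + 9 * (57600 * (A / T)) ^ 2) + 64 * ((T : ℝ) ^ 2 * B) =
      1024 * A + 64 * ((T : ℝ) ^ 2 * B) + 30576476160000 * (A ^ 3 / T ^ 2) := by
    field_simp
    ring
  rw [e1]
  have h4 : A ^ 3 / T ^ 2 ≤ (A + B) ^ 3 / T ^ 2 := by gcongr; linarith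
  have h5 : A ≤ T ^ 2 * A := le_mul_of_one_le_left hsp hT2
  have h6 : 0 ≤ (A + B) ^ 3 / (T : ℝ) ^ 2 := by positivity
  have h7 : 0 ≤ (T : ℝ) ^ 2 * B := by positivity
  have h8 : 0 ≤ (T : ℝ) ^ 2 * A := by positivity
  have h9 : (T : ℝ) ^ 2 * (A + B) = T ^ 2 * A + T ^ 2 * B := by ring
  rw [h9]
  linarith

/-- start from the time window `0` (used with `3 ^ r = w`). -/
theorem start3 : ∃ C : ℝ, 0 < C ∧ ∀ (r s T : ℕ), 0 < T → r ≤ s → ∀ U : ℕ → ℕ → ℕ → ℕ → ℝ,
    C * (∑ x ∈ range (3 ^ r), ∑ y ∈ range (3 ^ r), ∑ z ∈ range (3 ^ r), (1 - U x y z 0) ^ 2)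
      ≤ 27 ^ r →
    C * T * E4 (3 ^ s) T U ≤ 27 ^ r →
    (∑ x ∈ range (3 ^ r), ∑ y ∈ range (3 ^ r), ∑ z ∈ range (3 ^ r),
      (1 - (1 / (T : ℝ)) * ∑ w ∈ range T, U x y z w) ≤ 27 ^ r / 16) := by
  refine ⟨1024, by norm_num, fun r s T hT hrs U h0 hE => ?_⟩
  have h27 : (0 : ℝ) < 27 ^ r := by positivity
  have hsp := Esp_nonneg (3 ^ s) T U
  have hS : 3 ^ r ≤ 3 ^ s := Nat.pow_le_pow_right (by norm_num) hrs
  have hti : Eti (3 ^ r) T U ≤ E4 (3 ^ s) T U :=
    (Eti_mono hS T U).trans (by unfold E4; linarith)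
  have h1 : (T : ℝ) * Eti (3 ^ r) T U ≤ 27 ^ r / 1024 := by
    have : (T : ℝ) * Eti (3 ^ r) T U ≤ T * E4 (3 ^ s) T U :=
      mul_le_mul_of_nonneg_left hti (Nat.cast_nonneg _)
    linarith
  have h := mean3_one_sub_ub r hT U (by linarith) h1
  unfold mean3 ub at h
  simp only [mul_zero, zero_add] at h
  rw [div_le_iff₀ h27] at h
  linarith

end Vale.Agent.P361.LRO.Ind
end

section

/-!
P361 LRO, block (6), leaf S2: one step of the induction over scales, before lowering.
-/

namespace Vale.Agent.P361.LRO.Ind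

open Finset Vale.Agent.P361.LRO _root_.P361.LRO

theorem sm_lay_ne_zero {N W m w j : ℕ} (hN : N = m * W) (hw : w < m) (hj : j < W) :
    lay N W w j ≠ 0 := by
  have h : 1 + w * W + j < N + 1 := by
    have h1 : (w + 1) * W ≤ m * W := Nat.mul_le_mul_right W hw
    have h2 : (w + 1) * W = w * W + W := by ring
    omega
  unfold lay
  rw [dif_pos h]
  intro h0
  have h1 := congrArg Fin.val h0
  simp only [Fin.val_zero] at h1
  omega

theorem sm_mem_EE6 {n N : ℕ} [NeZero n] {o : Tor n} {b : Finset (Tor n)} {r : ℕ}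
    {k : Fin (N + 1)} {x : Tor n} (hk : k ≠ 0) (hx : x ∈ cube n o r) :
    (k, x) ∈ EE6 n N o b r := by
  unfold EE6
  refine Finset.mem_union_right _ ?_
  simp [hk, hx]

theorem sm_UU_one {n N W m : ℕ} [NeZero n] (hW : 0 < W) (hN : N = m * W) {o : Tor n}
    {b : Finset (Tor n)} {r : ℕ} {a : Nd n N → ℝ} (ha : ∀ z ∈ EE6 n N o b r, a z = 1)
    {x y z w : ℕ} (hx : x < r) (hy : y < r) (hz : z < r) (hw : w < m) :
    UU n N W o a x y z w = 1 := by
  unfold UU
  have h1 : ∀ j ∈ range W, a (lay N W w j, pt n o x y z) = 1 := by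
    intro j hj
    refine ha _ (sm_mem_EE6 (sm_lay_ne_zero hN hw (mem_range.1 hj)) ?_)
    exact (mem_cube_iff o _ r).2 ⟨x, hx, y, hy, z, hz, rfl⟩
  rw [Finset.sum_congr rfl h1]
  simp only [Finset.sum_const, Finset.card_range, nsmul_eq_mul, mul_one]
  have : (W : ℝ) ≠ 0 := by exact_mod_cast hW.ne'
  field_simp

theorem sm_E4_nonneg (S T : ℕ) (U : ℕ → ℕ → ℕ → ℕ → ℝ) : 0 ≤ E4 S T U := by
  unfold E4 Esp Eti
  have h : ∀ (A B C D : Finset ℕ) (f : ℕ → ℕ → ℕ → ℕ → ℝ),
      0 ≤ ∑ x ∈ A, ∑ y ∈ B, ∑ z ∈ C, ∑ w ∈ D, (f x y z w) ^ 2 := fun A B C D f =>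
    Finset.sum_nonneg fun _ _ => Finset.sum_nonneg fun _ _ => Finset.sum_nonneg fun _ _ =>
      Finset.sum_nonneg fun _ _ => sq_nonneg _
  exact add_nonneg (add_nonneg (add_nonneg
    (h _ _ _ _ fun x y z w => U (x + 1) y z w - U x y z w)
    (h _ _ _ _ fun x y z w => U x (y + 1) z w - U x y z w))
    (h _ _ _ _ fun x y z w => U x y (z + 1) w - U x y z w))
    (h _ _ _ _ fun x y z w => U x y z (w + 1) - U x y z w)

theorem sm_energy {c1 D β m k E : ℝ} (hc1 : 0 < c1)
    (hD : D = 1600 / c1) (hlo : 1 / 4 ≤ β / m) (hE0 : 0 ≤ E)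
    (h1 : c1 * (β / m) ^ 2 * E ≤ 100 * k) : E ≤ D * k := by
  have h7 : (1 / 4 : ℝ) ^ 2 ≤ (β / m) ^ 2 := pow_le_pow_left₀ (by norm_num) hlo 2
  have h8 : c1 * (1 / 4 : ℝ) ^ 2 * E ≤ 100 * k :=
    le_trans (mul_le_mul_of_nonneg_right (mul_le_mul_of_nonneg_left h7 hc1.le) hE0) h1
  rw [hD, div_mul_eq_mul_div, le_div_iff₀ hc1]
  linarith

theorem sm_dev {c1 D β m N k dev : ℝ} (hc1 : 0 < c1)
    (hD : D = 1600 / c1) (hβ : 0 < β) (hN : 0 < N) (hlo : 1 / 4 ≤ β / m) (hdev0 : 0 ≤ dev)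
    (h2 : c1 * (β / m) * (β / N) * dev ≤ k) : (β / N) * dev ≤ D * k / 400 := by
  have hX0 : 0 ≤ (β / N) * dev := by positivity
  have h8 : c1 * (1 / 4) ≤ c1 * (β / m) := mul_le_mul_of_nonneg_left hlo hc1.le
  have h7 : c1 * (1 / 4) * ((β / N) * dev) ≤ k := by
    have h9 := mul_le_mul_of_nonneg_right h8 hX0
    have h10 : c1 * (β / m) * ((β / N) * dev) = c1 * (β / m) * (β / N) * dev := by ring
    linarith
  have h11 : D * k / 400 = 4 * k / c1 := by rw [hD]; ring
  rw [h11, le_div_iff₀ hc1]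
  linarith

theorem sm_count {C' D β m k E cn : ℝ} (hC' : 0 < C') (hD0 : 0 < D)
    (hβ : 0 < β) (hm : 0 < m) (hm1 : 3 * β ≤ m) (hm2 : m ≤ 4 * β) (hE0 : 0 ≤ E) (hk0 : 0 ≤ k)
    (hE : E ≤ D * k) (h3 : cn ≤ C' * (m ^ 2 * E + E ^ 3 / m ^ 2)) :
    cn ≤ C' * (16 * β ^ 2 * (D * k) + (D * k) ^ 3 / (9 * β ^ 2)) := by
  refine h3.trans (mul_le_mul_of_nonneg_left ?_ hC'.le)
  refine add_le_add ?_ ?_
  · have h7 : m ^ 2 ≤ (4 * β) ^ 2 := pow_le_pow_left₀ hm.le hm2 2
    have h7' : m ^ 2 ≤ 16 * β ^ 2 := by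
      have e : (4 * β) ^ 2 = 16 * β ^ 2 := by ring
      rw [← e]; exact h7
    exact mul_le_mul h7' hE hE0 (by positivity)
  · have h7 : (3 * β) ^ 2 ≤ m ^ 2 := pow_le_pow_left₀ (by positivity) hm1 2
    have h7' : 9 * β ^ 2 ≤ m ^ 2 := by
      have e : (3 * β) ^ 2 = 9 * β ^ 2 := by ring
      rw [← e]; exact h7
    have h8 : E ^ 3 ≤ (D * k) ^ 3 := pow_le_pow_left₀ hE0 hE 3
    exact div_le_div₀ (by positivity) h8 (by positivity) h7'

theorem sm_sum {D β m N W k dev cn crd S Y : ℝ}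
    (hβ : 0 < β) (hm : 0 < m) (hhi : β / m ≤ 1 / 3)
    (hW : 0 < W) (hN : N = m * W)
    (h4 : crd ≤ 64 * dev + W * cn) (h6 : S ≤ crd * (β / (2 * N))) (hY0 : 0 ≤ Y)
    (hX2 : (β / N) * dev ≤ D * k / 400) (hcn0 : cn ≤ Y) :
    S ≤ 32 * (D * k / 400) + Y / 6 := by
  have hN0 : 0 < N := by rw [hN]; positivity
  have h7 : crd * (β / (2 * N)) ≤ (64 * dev + W * cn) * (β / (2 * N)) :=
    mul_le_mul_of_nonneg_right h4 (by positivity)
  have h8 : (64 * dev + W * cn) * (β / (2 * N)) = 32 * ((β / N) * dev) + (β / m) / 2 * cn := by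
    rw [hN]; field_simp; ring
  have h9 : (β / m) / 2 * cn ≤ (β / m) / 2 * Y := mul_le_mul_of_nonneg_left hcn0 (by positivity)
  have h10 : (β / m) / 2 * Y ≤ (1 / 6) * Y := mul_le_mul_of_nonneg_right (by linarith) hY0
  linarith

theorem sm_collect {C' D β k A S : ℝ} (hC' : 0 < C') (hD0 : 0 < D) (hβ : 10 ≤ β) (hk0 : 0 ≤ k)
    (h5 : A ≤ 4 * k + S)
    (hS : S ≤ 32 * (D * k / 400) + C' * (16 * β ^ 2 * (D * k) + (D * k) ^ 3 / (9 * β ^ 2)) / 6) :
    A ≤ (4 + D + 3 * C' * D) * β ^ 2 * k + C' * D ^ 3 * (k ^ 3 / β ^ 2) := by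
  have hβ0 : 0 < β := by linarith
  have hβ2 : 1 ≤ β ^ 2 := one_le_pow₀ (by linarith)
  have e1 : (D * k) ^ 3 / (9 * β ^ 2) = D ^ 3 * (k ^ 3 / β ^ 2) / 9 := by
    field_simp
  rw [e1] at hS
  have e3 : 0 ≤ C' * (D ^ 3 * (k ^ 3 / β ^ 2)) := by positivity
  have e4 : (4 + D) * k * 1 ≤ (4 + D) * k * β ^ 2 :=
    mul_le_mul_of_nonneg_left hβ2 (by positivity)
  have e5 : 0 ≤ C' * D * β ^ 2 * k := by positivity
  have e6 : 0 ≤ D * k := by positivity
  have e7 : (4 + D + 3 * C' * D) * β ^ 2 * k + C' * D ^ 3 * (k ^ 3 / β ^ 2) =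
      (4 + D) * k * β ^ 2 + 3 * (C' * D * β ^ 2 * k) + C' * (D ^ 3 * (k ^ 3 / β ^ 2)) := by ring
  have e8 : C' * (16 * β ^ 2 * (D * k) + D ^ 3 * (k ^ 3 / β ^ 2) / 9) / 6 =
      (16 / 6) * (C' * D * β ^ 2 * k) + (1 / 54) * (C' * (D ^ 3 * (k ^ 3 / β ^ 2))) := by ring
  rw [e7]
  rw [e8] at hS
  linarith

theorem sm_last {C' D β k A B : ℝ} (hC' : 0 < C') (hD0 : 0 < D) (hβ : 10 ≤ β) (hk0 : 0 ≤ k)
    (hfin : A ≤ (4 + D + 3 * C' * D) * β ^ 2 * k + C' * D ^ 3 * (k ^ 3 / β ^ 2))
    (hA1 : 2 * (4 + D + 3 * C' * D) * β ^ 2 * B ≤ A)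
    (hA2 : 2 * (C' * D ^ 3) * B ^ 3 ≤ A * β ^ 2) : B ≤ k := by
  by_contra hlt
  have hlt' : k < B := not_le.1 hlt
  have hβ0 : 0 < β := by linarith
  have hβ2' : 0 < β ^ 2 := by positivity
  have e1 : 0 < (4 + D + 3 * C' * D) * β ^ 2 := by positivity
  have e2 : k ^ 3 / β ^ 2 ≤ B ^ 3 / β ^ 2 :=
    div_le_div_of_nonneg_right (pow_le_pow_left₀ hk0 hlt'.le 3) hβ2'.le
  have e3 := mul_lt_mul_of_pos_left hlt' e1
  have e4 := mul_le_mul_of_nonneg_left e2 (show 0 ≤ C' * D ^ 3 by positivity)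
  have hA2' : 2 * (C' * D ^ 3) * (B ^ 3 / β ^ 2) ≤ A := by
    rw [← mul_div_assoc, div_le_iff₀ hβ2']
    exact hA2
  linarith

/-- The numerical part of the step. -/
theorem sm_arith {c1 C' D β m N W k A B E dev cn crd S : ℝ} (hc1 : 0 < c1) (hC' : 0 < C')
    (hD : D = 1600 / c1) (hβ : 10 ≤ β) (hm : 0 < m) (hlo : 1 / 4 ≤ β / m) (hhi : β / m ≤ 1 / 3)
    (hW : 0 < W) (hN : N = m * W) (hE0 : 0 ≤ E) (hdev0 : 0 ≤ dev) (hk0 : 0 ≤ k)
    (h1 : c1 * (β / m) ^ 2 * E ≤ 100 * k) (h2 : c1 * (β / m) * (β / N) * dev ≤ k)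
    (h3 : cn ≤ C' * (m ^ 2 * E + E ^ 3 / m ^ 2)) (h4 : crd ≤ 64 * dev + W * cn)
    (h5 : A ≤ 4 * k + S) (h6 : S ≤ crd * (β / (2 * N)))
    (hA1 : 2 * (4 + D + 3 * C' * D) * β ^ 2 * B ≤ A)
    (hA2 : 2 * (C' * D ^ 3) * B ^ 3 ≤ A * β ^ 2) : B ≤ k := by
  have hβ0 : 0 < β := by linarith
  have hD0 : 0 < D := by rw [hD]; positivity
  have hN0 : 0 < N := by rw [hN]; positivity
  have hm1 : 3 * β ≤ m := by
    have h := (div_le_iff₀ hm).1 hhi
    linarith
  have hm2 : m ≤ 4 * β := by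
    have h := (le_div_iff₀ hm).1 hlo
    linarith
  have hE := sm_energy hc1 hD hlo hE0 h1
  have hX := sm_dev hc1 hD hβ0 hN0 hlo hdev0 h2
  have hcn := sm_count hC' hD0 hβ0 hm hm1 hm2 hE0 hk0 hE h3
  have hS := sm_sum hβ0 hm hhi hW hN h4 h6 (by positivity) hX hcn
  exact sm_last hC' hD0 hβ hk0 (sm_collect hC' hD0 hβ hk0 h5 hS) hA1 hA2

theorem sm_total {n N W : ℕ} [NeZero n] {β K c1 : ℝ} {o : Tor n} {b : Finset (Tor n)}
    {h : Tor n → ℝ} {c : Nd n N → Nd n N → ℝ} {s : ℕ} (hloc : Local n N W β K c1 b h c)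
    (hh1 : ∀ x ∈ cube n o s, h x = 1) (a : Nd n N → ℝ) (F : Finset (Nd n N))
    (hF : hatb N b ⊆ F) :
    (∑ z ∈ (EE6 n N o b s \ F).filter (fun z => a z < 1 / 2), ∑ v, c z v) ≤
      ((((univ.filter fun k => k ≠ 0) ×ˢ cube n o s : Finset (Nd n N)).filter
        fun z => a z < 1 / 2).card : ℝ) * (β / (2 * N)) := by
  have hsub : (EE6 n N o b s \ F).filter (fun z => a z < 1 / 2) ⊆
      (((univ.filter fun k => k ≠ 0) ×ˢ cube n o s : Finset (Nd n N)).filter
      fun z => a z < 1 / 2) := by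
    intro z hz
    rw [Finset.mem_filter, Finset.mem_sdiff] at hz
    rw [Finset.mem_filter]
    refine ⟨?_, hz.2⟩
    obtain ⟨⟨hz1, hz2⟩, _⟩ := hz
    unfold EE6 at hz1
    rw [Finset.mem_union] at hz1
    rcases hz1 with hz1 | hz1
    · exact absurd (hF hz1) hz2
    · exact hz1
  have hterm : ∀ z ∈ (((univ.filter fun k => k ≠ 0) ×ˢ cube n o s :
      Finset (Nd n N)).filter fun z => a z < 1 / 2), ∑ v, c z v ≤ β / (2 * N) := by
    intro z hz
    rw [Finset.mem_filter, Finset.mem_product, Finset.mem_filter] at hz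
    have h1 := hloc.tot z.1 z.2 hz.1.1.2
    rw [hh1 z.2 hz.1.2, mul_one] at h1
    exact h1
  refine (Finset.sum_le_sum_of_subset_of_nonneg hsub
    (fun z _ _ => Finset.sum_nonneg fun v _ => hloc.nonneg _ _)).trans ?_
  refine (Finset.sum_le_sum hterm).trans (le_of_eq ?_)
  rw [Finset.sum_const, nsmul_eq_mul]

theorem sm_netK_nonneg {X : Type} [Fintype X] {c : X → X → ℝ} (hc : ∀ u v, 0 ≤ c u v)
    (a : X → ℝ) : 0 ≤ netK c a := by
  unfold netK
  refine mul_nonneg (by norm_num) (Finset.sum_nonneg fun x _ => Finset.sum_nonneg fun y _ => ?_)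
  exact mul_nonneg (hc _ _) (sq_nonneg _)

theorem sm_start {n N W m r : ℕ} [NeZero n] (hm : 0 < m) (hW : 0 < W) (hN : N = m * W)
    {o : Tor n} {b : Finset (Tor n)} {a : Nd n N → ℝ}
    (haE : ∀ z ∈ EE6 n N o b (3 ^ r), a z = 1) :
    (∑ x ∈ range (3 ^ r), ∑ y ∈ range (3 ^ r), ∑ z ∈ range (3 ^ r),
      (1 - (1 / (m : ℝ)) * ∑ w ∈ range m, UU n N W o a x y z w)) ≤ (27 : ℝ) ^ r / 16 := by
  have hm0 : (m : ℝ) ≠ 0 := by exact_mod_cast hm.ne'
  have hz : ∀ x ∈ range (3 ^ r), ∀ y ∈ range (3 ^ r), ∀ z ∈ range (3 ^ r),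
      (1 - (1 / (m : ℝ)) * ∑ w ∈ range m, UU n N W o a x y z w) = 0 := by
    intro x hx y hy z hz
    have h1 : ∀ w ∈ range m, UU n N W o a x y z w = 1 := fun w hw =>
      sm_UU_one hW hN haE (mem_range.1 hx) (mem_range.1 hy) (mem_range.1 hz) (mem_range.1 hw)
    rw [Finset.sum_congr rfl h1]
    simp only [Finset.sum_const, Finset.card_range, nsmul_eq_mul, mul_one]
    rw [one_div, inv_mul_cancel₀ hm0, sub_self]
  rw [Finset.sum_eq_zero fun x hx => Finset.sum_eq_zero fun y hy =>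
    Finset.sum_eq_zero fun z hz' => hz x hx y hy z hz']
  positivity

/-- (6b), before lowering: small radius `3 ^ r`, large radius `3 ^ s`. -/
theorem step_mid (c1 : ℝ) (hc1 : 0 < c1) : ∃ C : ℝ, 0 < C ∧ ∀ (n N W m : ℕ) [NeZero n]
    (β K : ℝ) (o : Tor n) (b : Finset (Tor n)) (h : Tor n → ℝ) (c : Nd n N → Nd n N → ℝ)
    (r s : ℕ) (G : Finset (Nd n N)) (A B : ℝ),
    10 ≤ β → 0 < W → N = m * W → Win β m → r ≤ s → 3 ^ s < n →
    (∀ x, h x ≤ 1) → (∀ x ∈ cube n o (3 ^ s), h x = 1) →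
    Local n N W β K c1 b h c → Disjoint (EE6 n N o b (3 ^ s)) G →
    LBn c (EE6 n N o b (3 ^ s)) G A →
    0 ≤ B → C * B ≤ β * 3 ^ r → C * β ^ 2 * B ≤ A → C * B ^ 3 ≤ A * β ^ 2 →
    LBn c (EE6 n N o b (3 ^ r)) G B := by
  obtain ⟨C', hC'0, hC'⟩ := chain3
  set D : ℝ := 1600 / c1 with hD
  have hD0 : 0 < D := by positivity
  refine ⟨2 * (4 + D + 3 * C' * D) + 2 * (C' * D ^ 3) + C' * D, by positivity, ?_⟩
  intro n N W m _ β K o b h c r s G A B hβ hW hN hwin hrs hsn hh hh1 hloc hdisj hA hB0 hB1 hB2 hB3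
  have hβ0 : 0 < β := by linarith
  have hm0 : 0 < (m : ℝ) := by exact_mod_cast hwin.pos
  have hm3 : 3 * β ≤ m := by
    have h := (div_le_iff₀ hm0).1 hwin.hi
    linarith
  have hm4 : 4 ≤ m := by
    have : (4 : ℝ) ≤ m := by linarith
    exact_mod_cast this
  have hW0 : (0 : ℝ) < W := by exact_mod_cast hW
  have hNR : (N : ℝ) = m * W := by rw [hN]; push_cast; ring
  refine LBn_of_trunc hloc.nonneg ?_
  intro a ha01 haE haG
  by_contra hlt
  have hlt' : netK c a < B := not_le.1 hlt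
  apply hlt
  have hk0 : 0 ≤ netK c a := sm_netK_nonneg hloc.nonneg a
  have hE := E4_le hW hm4 hN hβ0 hc1 hloc o (3 ^ s) hsn hh1 a
  have hdev := dev_le hW hm4 hN hβ0 hc1 hloc o (3 ^ s) hsn hh1 a
  have hcard := card_low_le hW hwin.pos hN o (3 ^ s) hsn.le a
  have hE0 : 0 ≤ E4 (3 ^ s) m (UU n N W o a) := sm_E4_nonneg _ _ _
  have hdev0 : 0 ≤ ∑ x ∈ range (3 ^ s), ∑ y ∈ range (3 ^ s), ∑ z ∈ range (3 ^ s),
      ∑ w ∈ range m, ∑ j ∈ range W,
        (a (lay N W w j, pt n o x y z) - UU n N W o a x y z w) ^ 2 :=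
    Finset.sum_nonneg fun _ _ => Finset.sum_nonneg fun _ _ => Finset.sum_nonneg fun _ _ =>
      Finset.sum_nonneg fun _ _ => Finset.sum_nonneg fun _ _ => sq_nonneg _
  have hED := sm_energy hc1 hD hwin.lo hE0 hE
  -- the chaining hypothesis
  have hch := hC' r s m hwin.pos hrs (UU n N W o a) (sm_start hwin.pos hW hN haE) ?_
  · have htest := test_le (E := EE6 n N o b (3 ^ r)) hloc.symm hloc.nonneg hA hdisj
      (fun x => (ha01 x).1) haE haG
    have hS := sm_total hloc hh1 a (EE6 n N o b (3 ^ r)) Finset.subset_union_left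
    refine sm_arith hc1 hC'0 hD hβ hm0 hwin.lo hwin.hi hW0 hNR hE0
      hdev0 hk0 hE hdev hch hcard htest hS ?_ ?_
    · refine le_trans ?_ hB2
      have h1 : 2 * (4 + D + 3 * C' * D) ≤
          2 * (4 + D + 3 * C' * D) + 2 * (C' * D ^ 3) + C' * D := by
        have : 0 ≤ 2 * (C' * D ^ 3) + C' * D := by positivity
        linarith
      exact mul_le_mul_of_nonneg_right (mul_le_mul_of_nonneg_right h1 (by positivity)) hB0
    · refine le_trans ?_ hB3
      have h1 : 2 * (C' * D ^ 3) ≤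
          2 * (4 + D + 3 * C' * D) + 2 * (C' * D ^ 3) + C' * D := by
        have : 0 ≤ 2 * (4 + D + 3 * C' * D) + C' * D := by positivity
        linarith
      exact mul_le_mul_of_nonneg_right h1 (by positivity)
  · have h1 : C' * E4 (3 ^ s) m (UU n N W o a) ≤ C' * (D * netK c a) :=
      mul_le_mul_of_nonneg_left hED hC'0.le
    have h2 := mul_le_mul_of_nonneg_left hlt'.le (show 0 ≤ C' * D by positivity)
    have h3 : C' * D * B ≤ (2 * (4 + D + 3 * C' * D) + 2 * (C' * D ^ 3) + C' * D) * B := by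
      refine mul_le_mul_of_nonneg_right ?_ hB0
      have : 0 ≤ 2 * (4 + D + 3 * C' * D) + 2 * (C' * D ^ 3) := by positivity
      linarith
    have h4 : β * 3 ^ r ≤ m * 3 ^ r := by
      refine mul_le_mul_of_nonneg_right (by linarith) (by positivity)
    linarith

end Vale.Agent.P361.LRO.Ind
end

section

/-!
# P361 LRO, block (6): numerical lemmas for the ladder of scales
-/

namespace Vale.Agent.P361.LRO.Ind

private theorem nm_log_le {y : ℝ} (hy : 0 < y) : 5 * Real.log y ≤ 3 * y := by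
  have h1 : Real.log (y / 2) ≤ y / 2 - 1 := Real.log_le_sub_one_of_pos (by positivity)
  rw [Real.log_div hy.ne' (by norm_num)] at h1
  have h2 := Real.log_two_lt_d9
  linarith

/-- the ground is out of reach of the bumps. -/
theorem num_ground : ∃ β0 : ℝ, 10 ≤ β0 ∧ ∀ (β h0 lam : ℝ) (s : ℕ), β0 ≤ β → 0 < h0 →
    1 / β ≤ lam → β ^ 10 ≤ (3 : ℝ) ^ s → h0⁻¹ ≤ ((3 : ℝ) ^ s) ^ (5 / 2 : ℝ) →
    Real.exp (-(lam * (3 * (3 : ℝ) ^ s))) ≤ h0 := by
  refine ⟨10, le_refl _, ?_⟩
  intro β h0 lam s hβ hh0 hlam hs hh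
  set X : ℝ := (3 : ℝ) ^ s with hX
  have hXpos : 0 < X := by positivity
  have hβpos : 0 < β := by linarith
  have hβ2 : β ^ 2 ≤ X := le_trans (pow_le_pow_right₀ (by linarith) (by norm_num)) hs
  have hβs : β ≤ Real.sqrt X := by
    rw [Real.le_sqrt hβpos.le hXpos.le]
    exact hβ2
  have hsq : Real.sqrt X * Real.sqrt X = X := Real.mul_self_sqrt hXpos.le
  have hsqpos : 0 < Real.sqrt X := Real.sqrt_pos.2 hXpos
  have h1 : Real.sqrt X ≤ lam * X := by
    calc Real.sqrt X = (1 / β) * (β * Real.sqrt X) := by field_simp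
      _ ≤ (1 / β) * (Real.sqrt X * Real.sqrt X) := by
          apply mul_le_mul_of_nonneg_left _ (by positivity)
          exact mul_le_mul_of_nonneg_right hβs hsqpos.le
      _ = (1 / β) * X := by rw [hsq]
      _ ≤ lam * X := mul_le_mul_of_nonneg_right hlam hXpos.le
  have h2 : (5 / 2) * Real.log X ≤ 3 * Real.sqrt X := by
    have h3 := nm_log_le hsqpos
    rw [Real.log_sqrt hXpos.le] at h3
    linarith
  have h4 : Real.exp (-(5 / 2 * Real.log X)) ≤ h0 := by
    rw [Real.rpow_def_of_pos hXpos] at hh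
    rw [Real.exp_neg]
    have h5 : h0⁻¹ ≤ Real.exp (5 / 2 * Real.log X) := by
      rw [mul_comm]; exact hh
    have := inv_anti₀ (inv_pos.2 hh0) h5
    rwa [inv_inv] at this
  refine le_trans (Real.exp_le_exp.2 ?_) h4
  have : lam * (3 * X) = 3 * (lam * X) := by ring
  rw [this]
  linarith

/-- the ladder of scales `r0 * 4 ^ i`. -/
theorem num_ladder : ∃ β0 : ℝ, 10 ≤ β0 ∧ ∀ β : ℝ, β0 ≤ β → ∃ n0 : ℕ, ∀ (n : ℕ) (h0 : ℝ),
    n0 ≤ n → (n : ℝ) ^ (-(1 / 4 : ℝ)) ≤ h0 → h0 ≤ 1 →
    ∃ r0 I : ℕ, β ^ 10 ≤ (3 : ℝ) ^ r0 ∧ (3 : ℝ) ^ r0 ≤ 3 * β ^ 10 ∧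
      h0⁻¹ ≤ ((3 : ℝ) ^ (4 ^ I * r0)) ^ (5 / 2 : ℝ) ∧ 8 * 3 ^ (4 ^ I * r0) < n := by
  refine ⟨10, le_refl _, ?_⟩
  intro β hβ
  have hβ1 : (1 : ℝ) ≤ β ^ 10 := one_le_pow₀ (by linarith)
  obtain ⟨k, hk1, hk2⟩ := exists_nat_pow_near hβ1 (show (1 : ℝ) < 3 by norm_num)
  refine ⟨max (⌈24 * β ^ 10⌉₊ + 1) 100, ?_⟩
  intro n h0 hn hh0 hh1
  have hn1 : 24 * β ^ 10 < n := by
    have h1 : ⌈24 * β ^ 10⌉₊ + 1 ≤ n := le_trans (le_max_left _ _) hn
    have h2 : 24 * β ^ 10 ≤ (⌈24 * β ^ 10⌉₊ : ℝ) := Nat.le_ceil _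
    have h3 : ((⌈24 * β ^ 10⌉₊ + 1 : ℕ) : ℝ) ≤ n := by exact_mod_cast h1
    push_cast at h3
    linarith
  have hn2 : 100 ≤ n := le_trans (le_max_right _ _) hn
  have hnpos : (0 : ℝ) < n := by
    have : (100 : ℝ) ≤ n := by exact_mod_cast hn2
    linarith
  have hh0pos : 0 < h0 := lt_of_lt_of_le (Real.rpow_pos_of_pos hnpos _) hh0
  have hinv : h0⁻¹ ≤ (n : ℝ) ^ (1 / 4 : ℝ) := by
    have h1 := inv_anti₀ (Real.rpow_pos_of_pos hnpos _) hh0
    rwa [← Real.rpow_neg hnpos.le, neg_neg] at h1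
  -- existence of a large rung
  have hex : ∃ I : ℕ, h0⁻¹ ≤ ((3 : ℝ) ^ (4 ^ I * (k + 1))) ^ (5 / 2 : ℝ) := by
    obtain ⟨I, hI⟩ := pow_unbounded_of_one_lt h0⁻¹ (show (1 : ℝ) < 3 by norm_num)
    refine ⟨I, ?_⟩
    have h1 : (3 : ℝ) ^ I ≤ (3 : ℝ) ^ (4 ^ I * (k + 1)) := by
      apply pow_le_pow_right₀ (by norm_num)
      have h2 : I ≤ 4 ^ I := (Nat.lt_pow_self (by norm_num)).le
      calc I ≤ 4 ^ I := h2
        _ ≤ 4 ^ I * (k + 1) := Nat.le_mul_of_pos_right _ (by omega)
    have h3 : (1 : ℝ) ≤ (3 : ℝ) ^ (4 ^ I * (k + 1)) := one_le_pow₀ (by norm_num)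
    calc h0⁻¹ ≤ (3 : ℝ) ^ I := hI.le
      _ ≤ (3 : ℝ) ^ (4 ^ I * (k + 1)) := h1
      _ = ((3 : ℝ) ^ (4 ^ I * (k + 1))) ^ (1 : ℝ) := (Real.rpow_one _).symm
      _ ≤ _ := Real.rpow_le_rpow_of_exponent_le h3 (by norm_num)
  classical
  refine ⟨k + 1, Nat.find hex, hk2.le, ?_, Nat.find_spec hex, ?_⟩
  · rw [pow_succ]
    linarith
  · rcases hI : Nat.find hex with _ | J
    · rw [pow_zero, one_mul]
      have h1 : (8 * 3 ^ (k + 1) : ℝ) < n := by
        rw [pow_succ]
        linarith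
      exact_mod_cast h1
    · have hJ := Nat.find_min hex (m := J) (by omega)
      push Not at hJ
      set Y : ℝ := (3 : ℝ) ^ (4 ^ J * (k + 1)) with hY
      have hYpos : 0 < Y := by positivity
      have h1 : Y ^ (5 / 2 : ℝ) < (n : ℝ) ^ (1 / 4 : ℝ) := lt_of_lt_of_le hJ hinv
      have h2 : Y ^ 4 < (n : ℝ) ^ (2 / 5 : ℝ) := by
        have h3 := Real.rpow_lt_rpow (by positivity) h1 (show (0 : ℝ) < 8 / 5 by norm_num)
        rw [← Real.rpow_mul hYpos.le, ← Real.rpow_mul hnpos.le] at h3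
        have e1 : (5 / 2 * (8 / 5) : ℝ) = ((4 : ℕ) : ℝ) := by norm_num
        have e2 : (1 / 4 * (8 / 5) : ℝ) = 2 / 5 := by norm_num
        rw [e1, e2, Real.rpow_natCast] at h3
        exact h3
      have h4 : 8 * (n : ℝ) ^ (2 / 5 : ℝ) ≤ n := by
        have h5 : (n : ℝ) = (n : ℝ) ^ (2 / 5 : ℝ) * (n : ℝ) ^ (3 / 5 : ℝ) := by
          rw [← Real.rpow_add hnpos]; norm_num
        have h6 : (8 : ℝ) ≤ (n : ℝ) ^ (3 / 5 : ℝ) := by
          have h7 : (32 : ℝ) ≤ n := by
            have : (100 : ℝ) ≤ n := by exact_mod_cast hn2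
            linarith
          have h8 := Real.rpow_le_rpow (by norm_num) h7 (show (0 : ℝ) ≤ 3 / 5 by norm_num)
          have h9 : (32 : ℝ) ^ (3 / 5 : ℝ) = 8 := by
            rw [show (32 : ℝ) = (2 : ℝ) ^ (5 : ℝ) by norm_num, ← Real.rpow_mul (by norm_num)]
            norm_num
          linarith
        calc 8 * (n : ℝ) ^ (2 / 5 : ℝ) ≤ (n : ℝ) ^ (3 / 5 : ℝ) * (n : ℝ) ^ (2 / 5 : ℝ) :=
              mul_le_mul_of_nonneg_right h6 (by positivity)
          _ = n := by rw [mul_comm]; exact h5.symm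
      have h10 : (3 : ℝ) ^ (4 ^ (J + 1) * (k + 1)) = Y ^ 4 := by
        rw [hY, ← pow_mul]
        congr 1
        ring
      have h11 : (8 * 3 ^ (4 ^ (J + 1) * (k + 1)) : ℝ) < n := by
        rw [h10]
        linarith
      exact_mod_cast h11

end Vale.Agent.P361.LRO.Ind
end
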