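import Mathlib
import Vale.Agent.P361.Model
import Vale.Agent.P361.Bd3.B1
import Vale.Agent.P361.ModelB
import Vale.Agent.P361.MathlibUsed

set_option linter.all false

section

namespace Vale.Agent.P361.Bridge

open Filter Topology MeasureTheory

lemma hamiltonian_eq (n N : ℕ) :
    Model.hamiltonian n (fun x y : Model.box N => ∑ i, |x.1 i - y.1 i| = 1) =
      hamiltonian n (box N) := rfl

lemma magnetization_eq (n N : ℕ) :
    Model.magnetization n (Model.box N) = magnetization n (box N) := rfl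

lemma finPressure_eq (n N : ℕ) (β h : ℝ) :
    Model.finPressure n N β h = finPressure n (box N) β h := rfl

lemma pressure_eq (n : ℕ) (β h : ℝ) : Model.pressure n β h = pressure n β h := rfl

lemma spontMag_eq (n : ℕ) (β : ℝ) : Model.spontMag n β = spontMag n β := rfl

theorem main_thermo (n : ℕ) (hn : 1 ≤ n) (β : ℝ) (hβ : 0 < β) :
    (∀ h : ℝ, Tendsto (fun N : ℕ => Model.finPressure n N β h) atTop
      (𝓝 (Model.pressure n β h))) ∧
    ConvexOn ℝ Set.univ (Model.pressure n β) ∧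
    HasDerivWithinAt (Model.pressure n β) (Model.spontMag n β) (Set.Ioi 0) 0 ∧
    Model.spontMag n β ≤ (n : ℝ) / 2 :=
  ⟨fun h => pressure_tendsto n hβ h, pressure_convex n hβ, spontMag_hasDeriv n hβ,
    H.spontMag_le n hβ hn⟩

theorem main_integral (n : ℕ) (hn : 1 ≤ n) (β : ℝ) (hβ : 0 < β) (hm : 0 < Model.spontMag n β) :
    IntegrableOn (fun k => 1 / (Real.exp (β * ((n : ℝ) / 2 / Model.spontMag n β) *
      Model.magnon ((n : ℝ) / 2) k) - 1)) (Set.univ.pi fun _ => Set.Icc (-Real.pi) Real.pi) ∧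
    Model.spontMag n β / ((n : ℝ) / 2) * Model.boseInt (fun k =>
      β * ((n : ℝ) / 2 / Model.spontMag n β) * Model.magnon ((n : ℝ) / 2) k) ≤
      (n : ℝ) / 2 - Model.spontMag n β := by
  have h := H.magAt_integral hn hβ le_rfl (h₀ := 0) hm
  have e : ∀ k : Fin 3 → ℝ, β * ((n : ℝ) / 2 / Model.spontMag n β) *
      Model.magnon ((n : ℝ) / 2) k =
      β * ((n : ℝ) / 2 / H.magAt n β 0 *
        (2 * ((n : ℝ) / 2) * ∑ j, (1 - Real.cos (k j))) + 0) := by
    intro k
    have : H.magAt n β 0 = Model.spontMag n β := rfl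
    rw [this, Model.magnon, add_zero, mul_assoc]
  unfold Model.boseInt
  simp only [e]
  exact h

theorem main_bloch (n : ℕ) (hn : 1 ≤ n) (c : ℝ) (hc : c < (riemannZeta (3 / 2)).re /
    (8 * Real.pi ^ (3 / 2 : ℝ) * ((n : ℝ) / 2) ^ (3 / 2 : ℝ))) :
    ∀ᶠ β : ℝ in atTop, c < β ^ (3 / 2 : ℝ) * ((n : ℝ) / 2 - Model.spontMag n β) :=
  H.one_sided_bloch hn hc

end Vale.Agent.P361.Bridge
end

section

namespace Vale.Agent.P361.BridgeB

open Filter Topology MeasureTheory

lemma mag_eq (n : ℕ) (β h : ℝ) : Model.mag n β h = H.magAt n β h := rfl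

lemma mag_zero (n : ℕ) (β : ℝ) : Model.mag n β 0 = Model.spontMag n β := rfl

lemma sqrt_cube {x : ℝ} (hx : 0 ≤ x) : Real.sqrt x ^ 3 = x ^ (3 / 2 : ℝ) := by
  rw [Real.sqrt_eq_rpow, ← Real.rpow_natCast, ← Real.rpow_mul hx]
  norm_num

lemma ideal_eq {S : ℝ} (hS : 0 < S) (t : ℝ) : Model.idealDeficit S t = B.fS S t := by
  unfold Model.idealDeficit B.fS
  congr 1
  · rw [sqrt_cube (by have := Real.pi_pos; positivity), Real.rpow_neg (by have := Real.pi_pos; positivity)]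
  · refine tsum_congr fun j => ?_
    rw [sqrt_cube (by positivity)]

lemma ideal_zero {S : ℝ} (hS : 0 < S) : Model.idealDeficit S 0 =
    (riemannZeta (3 / 2)).re / (8 * Real.pi ^ (3 / 2 : ℝ) * S ^ (3 / 2 : ℝ)) := by
  have hpi := Real.pi_pos
  rw [ideal_eq hS, B.fS_zero, B.aS, ← sqrt_cube hpi.le, ← sqrt_cube hS.le]
  have e : Real.sqrt (4 * Real.pi * S) = 2 * (Real.sqrt Real.pi * Real.sqrt S) := by
    rw [← Real.sqrt_mul hpi.le, show 4 * Real.pi * S = 2 ^ 2 * (Real.pi * S) by ring,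
      Real.sqrt_mul (by norm_num), Real.sqrt_sq (by norm_num)]
  rw [e]
  have h1 : 0 < Real.sqrt Real.pi := Real.sqrt_pos.2 hpi
  have h2 : 0 < Real.sqrt S := Real.sqrt_pos.2 hS
  field_simp
  ring

end Vale.Agent.P361.BridgeB
end

section

set_option linter.unusedSectionVars false

/-!
Part B: eigenvectors of `hT` with fixed number, in occupation number form.
-/

namespace Vale.Agent.P361.B

open Matrix Finset
open Vale.Agent.P361.H (oA oB dotOp schwA schwB siteOp_apply siteOp_comm fin_le isNN_ne isNN_symm)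

variable {n : ℕ} {Λ : Finset Site}

/-- Extension by zero to all occupation numbers. -/
noncomputable def extF {n : ℕ} {Λ : Finset Site} (f : (Λ → Fin (n + 1)) → ℝ) (ζ : Λ → ℕ) : ℝ :=
  if h : ∀ x, ζ x ≤ n then f (fun x => ⟨ζ x, Nat.lt_succ_of_le (h x)⟩) else 0

/-- Occupation numbers of a configuration. -/
def valF {n : ℕ} {Λ : Finset Site} (σ : Λ → Fin (n + 1)) (x : Λ) : ℕ := (σ x : ℕ)

lemma extF_valF (f : (Λ → Fin (n + 1)) → ℝ) (σ : Λ → Fin (n + 1)) : extF f (valF σ) = f σ := by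
  unfold extF
  have h : ∀ x, valF σ x ≤ n := fun x => Nat.lt_succ_iff.1 (σ x).2
  rw [dif_pos h]
  rfl

lemma extF_out (f : (Λ → Fin (n + 1)) → ℝ) (ζ : Λ → ℕ) (h : ζ ∉ occBox Λ n) : extF f ζ = 0 := by
  unfold extF
  rw [mem_occBox] at h
  rw [dif_neg h]

lemma sum_occBox (G : (Λ → ℕ) → ℝ) :
    ∑ ζ ∈ occBox Λ n, G ζ = ∑ σ : Λ → Fin (n + 1), G (valF σ) := by
  symm
  refine Finset.sum_bij' (fun σ _ => valF σ)
    (fun ζ hζ => fun x => ⟨ζ x, Nat.lt_succ_of_le (mem_occBox.1 hζ x)⟩) ?_ ?_ ?_ ?_ ?_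
  · intro σ _
    rw [mem_occBox]
    exact fun x => Nat.lt_succ_iff.1 (σ x).2
  · intro ζ _; exact Finset.mem_univ _
  · intro σ _; rfl
  · intro ζ _; rfl
  · intro σ _; rfl

lemma prod_one_self (x : Λ) (σ : Λ → Fin (n + 1)) :
    ∏ z ∈ Finset.univ.erase x, (1 : Matrix (Fin (n + 1)) (Fin (n + 1)) ℂ) (σ z) (σ z) = 1 :=
  Finset.prod_eq_one fun z _ => Matrix.one_apply_eq _

lemma prod_one_ne (x : Λ) (σ τ : Λ → Fin (n + 1)) (z : Λ) (hz : z ≠ x) (h : σ z ≠ τ z) :
    ∏ z ∈ Finset.univ.erase x, (1 : Matrix (Fin (n + 1)) (Fin (n + 1)) ℂ) (σ z) (τ z) = 0 :=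
  Finset.prod_eq_zero (i := z) (Finset.mem_erase.2 ⟨hz, Finset.mem_univ z⟩) (Matrix.one_apply_ne h)

lemma oB_apply (y : Λ) (σ τ : Λ → Fin (n + 1)) : oB n y σ τ = schwB n (σ y) (τ y) *
    ∏ z ∈ Finset.univ.erase y, (1 : Matrix (Fin (n + 1)) (Fin (n + 1)) ℂ) (σ z) (τ z) :=
  siteOp_apply y _ σ τ

lemma oA_apply (y : Λ) (σ τ : Λ → Fin (n + 1)) : oA n y σ τ = schwA n (σ y) (τ y) *
    ∏ z ∈ Finset.univ.erase y, (1 : Matrix (Fin (n + 1)) (Fin (n + 1)) ℂ) (σ z) (τ z) :=
  siteOp_apply y _ σ τ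

lemma oB_mulVec (y : Λ) (f : (Λ → Fin (n + 1)) → ℝ) (σ : Λ → Fin (n + 1)) :
    (oB n y *ᵥ fun τ => (f τ : ℂ)) σ =
      ((Real.sqrt ((valF σ y : ℝ) + 1) * extF f (valF σ + Pi.single y 1) : ℝ) : ℂ) := by
  rw [Matrix.mulVec, dotProduct]
  by_cases h : (σ y : ℕ) < n
  · set τ0 : Λ → Fin (n + 1) := Function.update σ y ⟨(σ y : ℕ) + 1, by omega⟩ with hτ0
    have hv : valF τ0 = valF σ + Pi.single y 1 := by
      ext x
      by_cases hx : x = y
      · subst hx; simp [hτ0, valF]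
      · simp [hτ0, valF, hx]
    rw [← hv, extF_valF, Finset.sum_eq_single τ0]
    · rw [oB_apply]
      have h1 : ∏ z ∈ Finset.univ.erase y, (1 : Matrix (Fin (n + 1)) (Fin (n + 1)) ℂ) (σ z) (τ0 z) =
          1 := by
        refine Finset.prod_eq_one fun z hz => ?_
        have : τ0 z = σ z := by simp [hτ0, Finset.ne_of_mem_erase hz]
        rw [this, Matrix.one_apply_eq]
      rw [h1, mul_one]
      have h2 : schwB n (σ y) (τ0 y) = ((Real.sqrt ((valF σ y : ℝ) + 1) : ℝ) : ℂ) := by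
        simp only [schwB, Matrix.of_apply]
        have : (τ0 y : ℕ) = (σ y : ℕ) + 1 := by simp [hτ0]
        rw [if_pos this, this]
        push_cast
        rfl
      rw [h2]; push_cast; ring
    · intro τ _ hτ
      rw [oB_apply]
      by_cases hall : ∀ z, z ≠ y → τ z = σ z
      · have hy : (τ y : ℕ) ≠ (σ y : ℕ) + 1 := by
          intro hy
          apply hτ
          ext z
          by_cases hz : z = y
          · subst hz; simp [hτ0, hy]
          · simp [hτ0, hz, hall z hz]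
        have : schwB n (σ y) (τ y) = 0 := by
          simp only [schwB, Matrix.of_apply, if_neg hy]
        rw [this]; simp
      · push Not at hall
        obtain ⟨z, hz, hne⟩ := hall
        rw [prod_one_ne y σ τ z hz (Ne.symm hne)]
        simp
    · intro h'; exact absurd (Finset.mem_univ _) h'
  · have hout : extF f (valF σ + Pi.single y 1) = 0 := by
      apply extF_out
      rw [mem_occBox]
      push Not
      refine ⟨y, ?_⟩
      have := (σ y).2
      simp only [Pi.add_apply, Pi.single_eq_same, valF]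
      omega
    rw [hout, mul_zero, Complex.ofReal_zero]
    refine Finset.sum_eq_zero fun τ _ => ?_
    rw [oB_apply]
    have : schwB n (σ y) (τ y) = 0 := by
      simp only [schwB, Matrix.of_apply]
      rw [if_neg]
      have := (τ y).2
      omega
    rw [this]; simp

lemma oA_mulVec (x : Λ) (g : (Λ → Fin (n + 1)) → ℂ) (σ : Λ → Fin (n + 1)) :
    (oA n x *ᵥ g) σ = ((Real.sqrt ((n : ℝ) - valF σ x) : ℝ) : ℂ) * g σ := by
  rw [Matrix.mulVec, dotProduct, Finset.sum_eq_single σ]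
  · rw [oA_apply, prod_one_self, mul_one]
    simp only [schwA, Matrix.diagonal_apply_eq, valF]
  · intro τ _ hτ
    rw [oA_apply]
    by_cases hx : τ x = σ x
    · obtain ⟨z, hz⟩ := Function.ne_iff.1 hτ
      have hzx : z ≠ x := fun h => hz (h ▸ hx)
      rw [prod_one_ne x σ τ z hzx (Ne.symm hz)]
      simp
    · simp only [schwA]
      rw [Matrix.diagonal_apply_ne _ (Ne.symm hx)]; simp
  · intro h'; exact absurd (Finset.mem_univ _) h'

lemma edge_mulVec {x y : Λ} (hxy : x ≠ y) (f : (Λ → Fin (n + 1)) → ℝ) (σ : Λ → Fin (n + 1)) :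
    ((oA n x * oB n y - oB n x * oA n y) *ᵥ fun τ => (f τ : ℂ)) σ =
      ((edgeT n x y (extF f) (valF σ) : ℝ) : ℂ) := by
  have hc : oB n x * oA n y = oA n y * oB n x := siteOp_comm hxy _ _
  rw [hc, Matrix.sub_mulVec, Pi.sub_apply, ← Matrix.mulVec_mulVec, ← Matrix.mulVec_mulVec,
    oA_mulVec, oA_mulVec, oB_mulVec, oB_mulVec, edgeT]
  push_cast
  ring

/-- The energy form. -/
noncomputable def eForm (n : ℕ) (Λ : Finset Site) (f g : (Λ → ℕ) → ℝ) : ℝ :=
  1 / 4 * ∑ x : Λ, ∑ y : Λ, if IsNN x.1 y.1 then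
    ∑ ζ ∈ occBox Λ n, edgeT n x y f ζ * edgeT n x y g ζ else 0

lemma edge_form {x y : Λ} (hxy : x ≠ y) (f g : (Λ → Fin (n + 1)) → ℝ) :
    (fun σ => (f σ : ℂ)) ⬝ᵥ (((((n : ℂ) / 2) ^ 2) • (1 : Matrix _ _ ℂ) - dotOp n x y) *ᵥ
      fun σ => (g σ : ℂ)) =
    ((1 / 2 * ∑ ζ ∈ occBox Λ n, edgeT n x y (extF f) ζ * edgeT n x y (extF g) ζ : ℝ) : ℂ) := by
  have h1 := H.dot_sos (n := n) hxy
  set T : Matrix (Λ → Fin (n + 1)) (Λ → Fin (n + 1)) ℂ :=
    oA n x * oB n y - oB n x * oA n y with hT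
  have h2 : (((n : ℂ) / 2) ^ 2) • (1 : Matrix (Λ → Fin (n + 1)) (Λ → Fin (n + 1)) ℂ) - dotOp n x y =
      (1 / 2 : ℂ) • (Tᴴ * T) := by
    rw [h1, smul_sub, smul_smul, smul_smul]
    congr 1
    · congr 1; ring
    · norm_num
  rw [h2, Matrix.smul_mulVec, dotProduct_smul, ← Matrix.mulVec_mulVec, Matrix.dotProduct_mulVec]
  have h3 : (fun σ => (f σ : ℂ)) ᵥ* Tᴴ = star (T *ᵥ fun σ => (f σ : ℂ)) := by
    rw [Matrix.star_mulVec]
    congr 1
    ext σ
    simp
  rw [h3, dotProduct, smul_eq_mul, sum_occBox]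
  push_cast
  congr 1
  refine Finset.sum_congr rfl fun σ _ => ?_
  rw [Pi.star_apply, hT, edge_mulVec hxy, edge_mulVec hxy]
  simp

lemma hT_form (f g : (Λ → Fin (n + 1)) → ℝ) :
    (fun σ => (f σ : ℂ)) ⬝ᵥ (hT n Λ *ᵥ fun σ => (g σ : ℂ)) =
      ((eForm n Λ (extF f) (extF g) : ℝ) : ℂ) := by
  rw [hT, Matrix.smul_mulVec, dotProduct_smul, Matrix.sum_mulVec, dotProduct_sum, smul_eq_mul]
  have h1 : ∀ x : Λ, (fun σ => (f σ : ℂ)) ⬝ᵥ ((∑ y : Λ, if IsNN x.1 y.1 then
      (((n : ℂ) / 2) ^ 2) • (1 : Matrix _ _ ℂ) - H.dotOp n x y else 0) *ᵥ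
      fun σ => (g σ : ℂ)) = ((∑ y : Λ, if IsNN x.1 y.1 then
        (1 / 2 * ∑ ζ ∈ occBox Λ n, edgeT n x y (extF f) ζ * edgeT n x y (extF g) ζ : ℝ) else 0 : ℝ)
          : ℂ) := by
    intro x
    rw [Matrix.sum_mulVec, dotProduct_sum]
    push_cast
    refine Finset.sum_congr rfl fun y _ => ?_
    split_ifs with hxy
    · rw [edge_form (isNN_ne hxy)]
    · simp
  simp only [h1]
  unfold eForm
  have h2 : (1 / 4 : ℝ) * ∑ x : Λ, ∑ y : Λ, (if IsNN x.1 y.1 then
      ∑ ζ ∈ occBox Λ n, edgeT n x y (extF f) ζ * edgeT n x y (extF g) ζ else 0) =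
      1 / 2 * ∑ x : Λ, ∑ y : Λ, (if IsNN x.1 y.1 then
      (1 / 2 * ∑ ζ ∈ occBox Λ n, edgeT n x y (extF f) ζ * edgeT n x y (extF g) ζ) else 0) := by
    rw [Finset.mul_sum, Finset.mul_sum]
    refine Finset.sum_congr rfl fun x _ => ?_
    rw [Finset.mul_sum, Finset.mul_sum]
    refine Finset.sum_congr rfl fun y _ => ?_
    split_ifs
    · ring
    · ring
  rw [h2]
  push_cast
  rfl

/-- Real matrix of `hT`. -/
noncomputable def hR (n : ℕ) (Λ : Finset Site) : Matrix (Λ → Fin (n + 1)) (Λ → Fin (n + 1)) ℝ :=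
  Matrix.of fun σ τ => eForm n Λ (extF (Pi.single σ 1)) (extF (Pi.single τ 1))

lemma hT_eq_map : hT n Λ = (hR n Λ).map (fun r : ℝ => (r : ℂ)) := by
  ext σ τ
  rw [Matrix.map_apply, hR, Matrix.of_apply, ← hT_form]
  have e1 : ∀ ρ : Λ → Fin (n + 1), (fun σ' => ((Pi.single ρ (1 : ℝ) : (Λ → Fin (n + 1)) → ℝ) σ' : ℂ)) =
      Pi.single ρ (1 : ℂ) := by
    intro ρ
    ext σ'
    by_cases h : σ' = ρ
    · subst h; simp
    · simp [h]
  rw [e1, e1]
  simp

lemma eForm_symm (f g : (Λ → ℕ) → ℝ) : eForm n Λ f g = eForm n Λ g f := by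
  unfold eForm
  congr 1
  refine Finset.sum_congr rfl fun x _ => Finset.sum_congr rfl fun y _ => ?_
  by_cases hxy : IsNN x.1 y.1
  · rw [if_pos hxy, if_pos hxy]
    exact Finset.sum_congr rfl fun ζ _ => mul_comm _ _
  · rw [if_neg hxy, if_neg hxy]

lemma hR_symm : (hR n Λ)ᵀ = hR n Λ := by
  ext σ τ
  rw [Matrix.transpose_apply]
  exact eForm_symm _ _

lemma hR_form (f g : (Λ → Fin (n + 1)) → ℝ) :
    f ⬝ᵥ (hR n Λ *ᵥ g) = eForm n Λ (extF f) (extF g) := by
  have h := hT_form (n := n) f g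
  rw [hT_eq_map] at h
  have h2 : (fun σ => (f σ : ℂ)) ⬝ᵥ ((hR n Λ).map (fun r : ℝ => (r : ℂ)) *ᵥ fun σ => (g σ : ℂ)) =
      ((f ⬝ᵥ (hR n Λ *ᵥ g) : ℝ) : ℂ) := by
    simp only [dotProduct, Matrix.mulVec, Matrix.map_apply]
    push_cast
    rfl
  rw [h2] at h
  exact_mod_cast h

/-- Number of magnons. -/
def totF {n : ℕ} {Λ : Finset Site} (σ : Λ → Fin (n + 1)) : ℕ := ∑ x, valF σ x

lemma extF_single {σ : Λ → Fin (n + 1)} {ζ : Λ → ℕ}
    (h : extF (Pi.single σ (1 : ℝ)) ζ ≠ 0) : ζ = valF σ := by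
  unfold extF at h
  by_cases h1 : ∀ x, ζ x ≤ n
  · rw [dif_pos h1] at h
    have h2 : (fun x => (⟨ζ x, Nat.lt_succ_of_le (h1 x)⟩ : Fin (n + 1))) = σ := by
      by_contra hne
      apply h
      simp [hne]
    ext x
    rw [← h2]
    rfl
  · rw [dif_neg h1] at h
    exact absurd rfl h

lemma edgeT_single {σ : Λ → Fin (n + 1)} {x y : Λ} {ζ : Λ → ℕ}
    (h : edgeT n x y (extF (Pi.single σ (1 : ℝ))) ζ ≠ 0) : ∑ z, ζ z + 1 = totF σ := by
  have hs : ∀ w : Λ, ∑ z, (ζ + Pi.single w 1 : Λ → ℕ) z = ∑ z, ζ z + 1 := by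
    intro w
    simp only [Pi.add_apply, Finset.sum_add_distrib]
    rw [Finset.sum_pi_single']
    simp
  by_cases h1 : extF (Pi.single σ (1 : ℝ)) (ζ + Pi.single y 1) = 0
  · by_cases h2 : extF (Pi.single σ (1 : ℝ)) (ζ + Pi.single x 1) = 0
    · exfalso; apply h; rw [edgeT, h1, h2]; ring
    · rw [← hs x, extF_single h2]; rfl
  · rw [← hs y, extF_single h1]; rfl

lemma hR_comm (σ τ : Λ → Fin (n + 1)) (h : totF σ ≠ totF τ) : hR n Λ σ τ = 0 := by
  rw [hR, Matrix.of_apply, eForm]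
  refine mul_eq_zero_of_right _ (Finset.sum_eq_zero fun x _ => Finset.sum_eq_zero fun y _ => ?_)
  split_ifs
  · refine Finset.sum_eq_zero fun ζ _ => ?_
    by_contra hne
    have h1 := left_ne_zero_of_mul hne
    have h2 := right_ne_zero_of_mul hne
    exact h ((edgeT_single h1).symm.trans (edgeT_single h2))
  · rfl

lemma numOp_eq : numOp n Λ = (diagonal fun σ : Λ → Fin (n + 1) => (totF σ : ℝ)).map
    (fun r : ℝ => (r : ℂ)) := by
  have h1 : ∀ x : Λ, ((n : ℂ) / 2) • (1 : Matrix (Λ → Fin (n + 1)) (Λ → Fin (n + 1)) ℂ) -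
      H.oZ n x = diagonal fun σ => ((valF σ x : ℕ) : ℂ) := by
    intro x
    rw [← H.siteOp_one x, ← H.siteOp_smul, ← H.siteOp_sub]
    ext σ τ
    rw [siteOp_apply]
    by_cases hστ : σ = τ
    · subst hστ
      rw [prod_one_self, Matrix.diagonal_apply_eq, mul_one, Matrix.sub_apply, Matrix.smul_apply,
        Matrix.one_apply_eq, spinZ, Matrix.diagonal_apply_eq, valF]
      simp
    · rw [Matrix.diagonal_apply_ne _ hστ]
      by_cases hx : σ x = τ x
      · obtain ⟨z, hz⟩ := Function.ne_iff.1 hστ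
        have hzx : z ≠ x := fun h => hz (h ▸ hx)
        rw [prod_one_ne x σ τ z hzx hz, mul_zero]
      · rw [Matrix.sub_apply, Matrix.smul_apply, Matrix.one_apply_ne hx, spinZ,
          Matrix.diagonal_apply_ne _ hx]
        simp
  rw [numOp]
  simp only [h1]
  ext σ τ
  rw [Matrix.sum_apply, Matrix.map_apply]
  by_cases hστ : σ = τ
  · subst hστ
    simp only [Matrix.diagonal_apply_eq, totF]
    push_cast
    rfl
  · simp only [Matrix.diagonal_apply_ne _ hστ]
    simp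

/-- Eigenbasis of `hT` with magnon numbers, and the partition function. -/
theorem exists_eigs (n : ℕ) (Λ : Finset Site) :
    ∃ (E : (Λ → Fin (n + 1)) → ℝ) (Nn : (Λ → Fin (n + 1)) → ℕ)
      (ψ : (Λ → Fin (n + 1)) → (Λ → ℕ) → ℝ),
      (∀ i, IsEig n (fun x y : Λ => IsNN x.1 y.1) (Nn i) (E i) (ψ i)) ∧ (∀ i, 0 ≤ E i) ∧
      (∀ i j, i ≠ j → ∑ ζ ∈ occBox Λ n, ψ i ζ * ψ j ζ = 0) ∧
      ∀ β t : ℝ, Zt n Λ β t = ∑ i, Real.exp (-(β * E i + t * Nn i)) := by
  obtain ⟨U, E, Nn, h1, h2, h3, h4⟩ := joint_diag (hR n Λ) hR_symm totF hR_comm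
  have hinner : ∀ (f g : (Λ → Fin (n + 1)) → ℝ),
      ∑ ζ ∈ occBox Λ n, extF f ζ * extF g ζ = ∑ σ, f σ * g σ := by
    intro f g
    rw [sum_occBox]
    exact Finset.sum_congr rfl fun σ _ => by rw [extF_valF, extF_valF]
  have horth : ∀ i j, ∑ ζ ∈ occBox Λ n, extF (fun σ => U σ i) ζ * extF (fun σ => U σ j) ζ =
      if i = j then 1 else 0 := by
    intro i j
    rw [hinner]
    have := congrFun (congrFun h1 i) j
    rw [Matrix.mul_apply] at this
    simp only [Matrix.transpose_apply, Matrix.one_apply] at this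
    exact this
  have heig : ∀ i, hR n Λ *ᵥ (fun σ => U σ i) = fun σ => E i * U σ i := by
    intro i
    have h5 : hR n Λ * U = U * diagonal E := by
      conv_lhs => rw [h3]
      rw [Matrix.mul_assoc, h1, Matrix.mul_one]
    ext σ
    have h6 := congrFun (congrFun h5 σ) i
    rw [Matrix.mul_diagonal, Matrix.mul_apply] at h6
    rw [Matrix.mulVec, dotProduct, h6]; ring
  have hweak : ∀ i (f : (Λ → Fin (n + 1)) → ℝ), eForm n Λ (extF f) (extF fun σ => U σ i) =
      E i * ∑ ζ ∈ occBox Λ n, extF f ζ * extF (fun σ => U σ i) ζ := by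
    intro i f
    rw [← hR_form, heig, hinner, dotProduct, Finset.mul_sum]
    exact Finset.sum_congr rfl fun σ _ => by ring
  refine ⟨E, Nn, fun i => extF (fun σ => U σ i), ?_, ?_, ?_, ?_⟩
  · intro i
    refine ⟨fun ζ hζ => extF_out _ ζ hζ, ?_, ?_, ?_⟩
    · intro ζ hζ
      by_cases hb : ζ ∈ occBox Λ n
      · rw [mem_occBox] at hb
        change extF (fun σ => U σ i) ζ = 0
        unfold extF
        rw [dif_pos hb]
        exact h4 _ i hζ
      · exact extF_out _ ζ hb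
    · have := horth i i
      rw [if_pos rfl] at this
      rw [← this]
      exact Finset.sum_congr rfl fun ζ _ => by ring
    · intro X
      have hX : ∀ ζ, X ζ * extF (fun σ => U σ i) ζ = extF (fun σ => X (valF σ) * U σ i) ζ := by
        intro ζ
        unfold extF
        split_ifs with hb
        · rfl
        · ring
      have h5 := hweak i (fun σ => X (valF σ) * U σ i)
      have h6 : ∑ ζ ∈ occBox Λ n, X ζ * extF (fun σ => U σ i) ζ ^ 2 =
          ∑ ζ ∈ occBox Λ n, extF (fun σ => X (valF σ) * U σ i) ζ * extF (fun σ => U σ i) ζ :=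
        Finset.sum_congr rfl fun ζ _ => by rw [← hX]; ring
      rw [h6, ← h5, eForm]
      simp only [hX]
  · intro i
    have h5 := hweak i (fun σ => U σ i)
    have h6 := horth i i
    rw [if_pos rfl] at h6
    rw [h6, mul_one] at h5
    rw [← h5, eForm]
    refine mul_nonneg (by norm_num) (Finset.sum_nonneg fun x _ => Finset.sum_nonneg fun y _ => ?_)
    split_ifs
    · exact Finset.sum_nonneg fun ζ _ => mul_self_nonneg _
    · exact le_rfl
  · intro i j hij
    have := horth i j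
    rwa [if_neg hij] at this
  · intro β t
    have hnum : diagonal (fun σ : Λ → Fin (n + 1) => (totF σ : ℝ)) =
        U * diagonal (fun j => (Nn j : ℝ)) * Uᵀ := by
      have h5 : diagonal (fun σ : Λ → Fin (n + 1) => (totF σ : ℝ)) * U =
          U * diagonal (fun j => (Nn j : ℝ)) := by
        ext σ j
        rw [Matrix.diagonal_mul, Matrix.mul_diagonal]
        by_cases hij : totF σ = Nn j
        · rw [hij]; ring
        · rw [h4 σ j hij]; ring
      rw [← h5, Matrix.mul_assoc, h2, Matrix.mul_one]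
    have hmat : -((β : ℂ) • hT n Λ + (t : ℂ) • numOp n Λ) =
        (U * diagonal (fun i => -(β * E i + t * Nn i)) * Uᵀ).map (fun r : ℝ => (r : ℂ)) := by
      have h5 : U * diagonal (fun i => -(β * E i + t * Nn i)) * Uᵀ =
          -(β • hR n Λ + t • diagonal (fun σ : Λ → Fin (n + 1) => (totF σ : ℝ))) := by
        rw [hnum]
        conv_rhs => rw [h3]
        have : (diagonal fun i => -(β * E i + t * (Nn i : ℝ))) =
            -(β • diagonal E + t • diagonal (fun j => (Nn j : ℝ))) := by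
          rw [← Matrix.diagonal_smul, ← Matrix.diagonal_smul, Matrix.diagonal_add,
            ← Matrix.diagonal_neg]
          rfl
        rw [this]
        simp only [Matrix.mul_neg, Matrix.neg_mul, Matrix.mul_add, Matrix.add_mul, Matrix.mul_smul,
          Matrix.smul_mul]
      rw [h5, hT_eq_map, numOp_eq]
      ext σ τ
      simp only [Matrix.map_apply, Matrix.neg_apply, Matrix.add_apply, Matrix.smul_apply,
        smul_eq_mul]
      push_cast
      rfl
    rw [Zt, hmat, trace_exp_real_conj U h1 h2, Complex.ofReal_re]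

end Vale.Agent.P361.B
end

section

set_option linter.unusedSectionVars false

/-!
Part B: cosine basis on the cube.
-/

namespace Vale.Agent.P361.B

open Finset
open Vale.Agent.P361.H (dir dir_injective isNN_iff bJ)

lemma sum_Ico_int (L : ℕ) (g : ℤ → ℝ) :
    ∑ p ∈ Finset.Ico (0 : ℤ) L, g p = ∑ i ∈ Finset.range L, g i := by
  symm
  refine Finset.sum_bij' (fun (i : ℕ) _ => (i : ℤ)) (fun (p : ℤ) _ => p.toNat) ?_ ?_ ?_ ?_ ?_
  · intro i hi
    rw [Finset.mem_range] at hi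
    rw [Finset.mem_Ico]; omega
  · intro p hp
    rw [Finset.mem_Ico] at hp
    rw [Finset.mem_range]; omega
  · intro i _; simp
  · intro p hp
    rw [Finset.mem_Ico] at hp
    simp; omega
  · intro i _; rfl

/-- One-dimensional cosine basis. -/
noncomputable def dct (L : ℕ) (p x : ℤ) : ℝ :=
  if p = 0 then Real.sqrt (1 / L)
  else Real.sqrt (2 / L) * Real.cos (Real.pi * p * (x + 1 / 2) / L)

lemma dct_zero (L : ℕ) (x : ℤ) : dct L 0 x = Real.sqrt (1 / L) := if_pos rfl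

lemma dct_ne (L : ℕ) {p : ℤ} (hp : p ≠ 0) (x : ℤ) :
    dct L p x = Real.sqrt (2 / L) * Real.cos (Real.pi * p * (x + 1 / 2) / L) := if_neg hp

/-- One-dimensional eigenvalue. -/
noncomputable def lam1 (L : ℕ) (p : ℤ) : ℝ := 2 * (1 - Real.cos (Real.pi * p / L))

lemma dct_lap (L : ℕ) (p x : ℤ) :
    dct L p (x + 1) + dct L p (x - 1) - 2 * dct L p x = - lam1 L p * dct L p x := by
  unfold dct lam1
  split_ifs with h
  · rw [h]; simp; ring
  · have h1 : Real.pi * p * (((x + 1 : ℤ) : ℝ) + 1 / 2) / L =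
        Real.pi * p * ((x : ℝ) + 1 / 2) / L + Real.pi * p / L := by push_cast; ring
    have h2 : Real.pi * p * (((x - 1 : ℤ) : ℝ) + 1 / 2) / L =
        Real.pi * p * ((x : ℝ) + 1 / 2) / L - Real.pi * p / L := by push_cast; ring
    rw [h1, h2, Real.cos_add, Real.cos_sub]
    ring

lemma dct_refl_left (L : ℕ) (p : ℤ) : dct L p (-1) = dct L p 0 := by
  unfold dct
  split_ifs with h
  · rfl
  · congr 1
    rw [← Real.cos_neg]
    congr 1
    push_cast
    ring

lemma dct_refl_right {L : ℕ} (hL : 0 < L) (p : ℤ) : dct L p L = dct L p (L - 1) := by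
  unfold dct
  split_ifs with h
  · rfl
  · congr 1
    have hL' : (L : ℝ) ≠ 0 := by positivity
    have h1 : Real.pi * p * (((L : ℤ) : ℝ) + 1 / 2) / L = (p : ℝ) * Real.pi + Real.pi * p / (2 * L) := by
      push_cast; field_simp
    have h2 : Real.pi * p * (((L - 1 : ℤ) : ℝ) + 1 / 2) / L =
        (p : ℝ) * Real.pi - Real.pi * p / (2 * L) := by
      push_cast; field_simp; ring
    rw [h1, h2, Real.cos_add, Real.cos_sub, Real.sin_int_mul_pi]
    ring

lemma cos_sum (θ : ℝ) (M : ℕ) : 2 * Real.sin (θ / 2) *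
    ∑ i ∈ Finset.range M, Real.cos (((i : ℝ) + 1) * θ) =
      Real.sin (((M : ℝ) + 1 / 2) * θ) - Real.sin (θ / 2) := by
  induction M with
  | zero =>
    have : ((0 : ℕ) + 1 / 2 : ℝ) * θ = θ / 2 := by push_cast; ring
    rw [this]; simp
  | succ M ih =>
    rw [Finset.sum_range_succ, mul_add, ih]
    have h1 : Real.sin (((M + 1 : ℕ) + 1 / 2 : ℝ) * θ) - Real.sin (((M : ℝ) + 1 / 2) * θ) =
        2 * Real.sin (θ / 2) * Real.cos (((M : ℝ) + 1) * θ) := by
      have e1 : ((M + 1 : ℕ) + 1 / 2 : ℝ) * θ = ((M : ℝ) + 1) * θ + θ / 2 := by push_cast; ring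
      have e2 : ((M : ℝ) + 1 / 2) * θ = ((M : ℝ) + 1) * θ - θ / 2 := by ring
      rw [e1, e2, Real.sin_add, Real.sin_sub]; ring
    linarith

lemma dirichlet_sum {L : ℕ} (hL : 0 < L) (m : ℤ) (hm : m ≠ 0) (hm2 : |m| < 2 * L) :
    ∑ i ∈ Finset.range (L - 1), Real.cos (((i : ℝ) + 1) * (Real.pi * m / L)) =
      - (Real.cos (Real.pi * m) + 1) / 2 := by
  have hL' : (0 : ℝ) < L := by positivity
  have h := cos_sum (Real.pi * m / L) (L - 1)
  have hs : Real.sin (Real.pi * m / L / 2) ≠ 0 := by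
    intro h0
    have hm' : (m : ℝ) ≠ 0 := by exact_mod_cast hm
    have h1 : |(m : ℝ)| < 2 * L := by exact_mod_cast hm2
    rw [abs_lt] at h1
    have h3 : -Real.pi < Real.pi * m / L / 2 := by
      rw [lt_div_iff₀ (by norm_num), lt_div_iff₀ hL']
      nlinarith [Real.pi_pos]
    have h4 : Real.pi * m / L / 2 < Real.pi := by
      rw [div_lt_iff₀ (by norm_num), div_lt_iff₀ hL']
      nlinarith [Real.pi_pos]
    have h5 := (Real.sin_eq_zero_iff_of_lt_of_lt h3 h4).1 h0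
    have h6 : Real.pi * m / L / 2 ≠ 0 := by
      have := Real.pi_pos.ne'
      positivity
    exact h6 h5
  have e1 : (((L - 1 : ℕ) : ℝ) + 1 / 2) * (Real.pi * m / L) =
      (m : ℝ) * Real.pi - Real.pi * m / L / 2 := by
    rw [Nat.cast_sub hL]; push_cast; field_simp; ring
  rw [e1, Real.sin_sub, Real.sin_int_mul_pi] at h
  have h2 : 2 * Real.sin (Real.pi * m / L / 2) *
      (∑ i ∈ Finset.range (L - 1), Real.cos (((i : ℝ) + 1) * (Real.pi * m / L)) +
      (Real.cos (Real.pi * m) + 1) / 2) = 0 := by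
    rw [mul_add, h, mul_comm (m : ℝ) Real.pi]; ring
  have h3 := (mul_eq_zero.1 h2).resolve_left (by simpa using hs)
  linarith

lemma dct_compl {L : ℕ} (hL : 0 < L) {x y : ℤ} (hx : x ∈ Finset.Ico (0 : ℤ) L)
    (hy : y ∈ Finset.Ico (0 : ℤ) L) :
    ∑ p ∈ Finset.Ico (0 : ℤ) L, dct L p x * dct L p y = if x = y then 1 else 0 := by
  rw [Finset.mem_Ico] at hx hy
  have hL' : (0 : ℝ) < L := by positivity
  obtain ⟨M, rfl⟩ : ∃ M, L = M + 1 := ⟨L - 1, by omega⟩
  rw [sum_Ico_int, Finset.sum_range_succ']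
  have h0 : dct (M + 1) ((0 : ℕ) : ℤ) x * dct (M + 1) ((0 : ℕ) : ℤ) y = 1 / ((M + 1 : ℕ) : ℝ) := by
    rw [Nat.cast_zero, dct_zero, dct_zero, Real.mul_self_sqrt (by positivity)]
  have h1 : ∀ i : ℕ, dct (M + 1) ((i + 1 : ℕ) : ℤ) x * dct (M + 1) ((i + 1 : ℕ) : ℤ) y =
      1 / ((M + 1 : ℕ) : ℝ) * (Real.cos (((i : ℝ) + 1) * (Real.pi * ((x + y + 1 : ℤ) : ℝ) / (M + 1 : ℕ))) +
        Real.cos (((i : ℝ) + 1) * (Real.pi * ((x - y : ℤ) : ℝ) / (M + 1 : ℕ)))) := by
    intro i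
    rw [dct_ne _ (by omega), dct_ne _ (by omega)]
    have e1 : ((i : ℝ) + 1) * (Real.pi * ((x + y + 1 : ℤ) : ℝ) / (M + 1 : ℕ)) =
        Real.pi * ((i + 1 : ℕ) : ℤ) * ((x : ℝ) + 1 / 2) / (M + 1 : ℕ) +
        Real.pi * ((i + 1 : ℕ) : ℤ) * ((y : ℝ) + 1 / 2) / (M + 1 : ℕ) := by
      push_cast; ring
    have e2 : ((i : ℝ) + 1) * (Real.pi * ((x - y : ℤ) : ℝ) / (M + 1 : ℕ)) =
        Real.pi * ((i + 1 : ℕ) : ℤ) * ((x : ℝ) + 1 / 2) / (M + 1 : ℕ) -
        Real.pi * ((i + 1 : ℕ) : ℤ) * ((y : ℝ) + 1 / 2) / (M + 1 : ℕ) := by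
      push_cast; ring
    rw [e1, e2, Real.cos_add, Real.cos_sub]
    have e3 : Real.sqrt (2 / ((M + 1 : ℕ) : ℝ)) * Real.sqrt (2 / ((M + 1 : ℕ) : ℝ)) =
        2 / ((M + 1 : ℕ) : ℝ) := Real.mul_self_sqrt (by positivity)
    generalize Real.cos (Real.pi * ((i + 1 : ℕ) : ℤ) * ((x : ℝ) + 1 / 2) / (M + 1 : ℕ)) = cx
    generalize Real.cos (Real.pi * ((i + 1 : ℕ) : ℤ) * ((y : ℝ) + 1 / 2) / (M + 1 : ℕ)) = cy
    calc _ = (Real.sqrt (2 / ((M + 1 : ℕ) : ℝ)) * Real.sqrt (2 / ((M + 1 : ℕ) : ℝ))) *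
        (cx * cy) := by ring
      _ = _ := by rw [e3]; ring
  rw [h0]
  simp only [h1]
  rw [← Finset.mul_sum, Finset.sum_add_distrib]
  have h2 := dirichlet_sum hL (x + y + 1) (by omega) (by rw [abs_of_nonneg] <;> push_cast <;> omega)
  rw [Nat.add_sub_cancel] at h2
  rw [h2]
  by_cases hxy : x = y
  · subst hxy
    rw [if_pos rfl]
    have h3 : Real.cos (Real.pi * ((x + x + 1 : ℤ) : ℝ)) = -1 := by
      have : Real.pi * ((x + x + 1 : ℤ) : ℝ) = (x : ℝ) * (2 * Real.pi) + Real.pi := by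
        push_cast; ring
      rw [this, Real.cos_add_pi, Real.cos_int_mul_two_pi]
    rw [h3]
    simp
    field_simp
  · rw [if_neg hxy]
    have h3 := dirichlet_sum hL (x - y) (by omega) (by rw [abs_lt]; push_cast; omega)
    rw [Nat.add_sub_cancel] at h3
    rw [h3]
    have h4 : Real.cos (Real.pi * ((x + y + 1 : ℤ) : ℝ)) =
        - Real.cos (Real.pi * ((x - y : ℤ) : ℝ)) := by
      have : Real.pi * ((x + y + 1 : ℤ) : ℝ) = Real.pi * ((x - y : ℤ) : ℝ) +
          (y : ℝ) * (2 * Real.pi) + Real.pi := by push_cast; ring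
      rw [this, Real.cos_add_pi, Real.cos_add_int_mul_two_pi]
    rw [h4]
    ring

variable {L : ℕ}

/-- Cosine basis on the cube. -/
noncomputable def dct3 (L : ℕ) (k x : cube L) : ℝ := ∏ j, dct L (k.1 j) (x.1 j)

/-- Laplacian eigenvalues on the cube. -/
noncomputable def lam3 (L : ℕ) (k : cube L) : ℝ := ∑ j, lam1 L (k.1 j)

lemma mem_cubeD {x : Site} : x ∈ cube L ↔ ∀ j, x j ∈ Finset.Ico (0 : ℤ) L := by
  rw [cube, Fintype.mem_piFinset]

lemma sum_cube_prod (g : Fin 3 → ℤ → ℝ) :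
    ∑ k : cube L, ∏ j, g j (k.1 j) = ∏ j, ∑ p ∈ Finset.Ico (0 : ℤ) L, g j p := by
  rw [Finset.sum_coe_sort (cube L) (fun k => ∏ j, g j (k j)), Finset.prod_univ_sum]
  rfl

lemma dct3_compl (hL : 0 < L) (x y : cube L) :
    ∑ k, dct3 L k x * dct3 L k y = if x = y then 1 else 0 := by
  unfold dct3
  simp only [← Finset.prod_mul_distrib]
  rw [sum_cube_prod (fun j p => dct L p (x.1 j) * dct L p (y.1 j))]
  have hx := mem_cubeD.1 x.2
  have hy := mem_cubeD.1 y.2
  simp only [fun j => dct_compl hL (hx j) (hy j)]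
  by_cases hxy : x = y
  · subst hxy; simp
  · rw [if_neg hxy]
    have : ∃ j, x.1 j ≠ y.1 j := by
      by_contra hcon
      push Not at hcon
      exact hxy (Subtype.ext (funext hcon))
    obtain ⟨j, hj⟩ := this
    exact Finset.prod_eq_zero (Finset.mem_univ j) (if_neg hj)

lemma dct3_orth (hL : 0 < L) (k l : cube L) :
    ∑ x, dct3 L k x * dct3 L l x = if k = l then 1 else 0 := by
  set M : Matrix (cube L) (cube L) ℝ := Matrix.of fun k x => dct3 L k x with hM
  have h1 : M.transpose * M = 1 := by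
    ext x y
    rw [Matrix.mul_apply, Matrix.one_apply]
    exact dct3_compl hL x y
  have h2 : M * M.transpose = 1 := mul_eq_one_comm.1 h1
  have h3 := congrFun (congrFun h2 k) l
  rw [Matrix.mul_apply, Matrix.one_apply] at h3
  exact h3

/-- Extension of the basis functions to all of `ℤ³`. -/
noncomputable def dctE (L : ℕ) (k : cube L) (x : Site) : ℝ := ∏ j, dct L (k.1 j) (x j)

lemma dctE_step (k : cube L) (x : Site) (j : Fin 3) (s : ℤ) :
    dctE L k (x + Pi.single j s) = dct L (k.1 j) (x j + s) *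
      ∏ i ∈ Finset.univ.erase j, dct L (k.1 i) (x i) := by
  unfold dctE
  rw [← Finset.mul_prod_erase _ _ (Finset.mem_univ j)]
  congr 1
  · simp
  · refine Finset.prod_congr rfl fun i hi => ?_
    have := Finset.ne_of_mem_erase hi
    simp [this]

lemma dctE_base (k : cube L) (x : Site) (j : Fin 3) :
    dctE L k x = dct L (k.1 j) (x j) * ∏ i ∈ Finset.univ.erase j, dct L (k.1 i) (x i) := by
  unfold dctE
  rw [← Finset.mul_prod_erase _ _ (Finset.mem_univ j)]

lemma dct3_eig (hL : 0 < L) (k x : cube L) :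
    ∑ z : cube L, (if IsNN x.1 z.1 then dct3 L k z - dct3 L k x else 0) =
      - lam3 L k * dct3 L k x := by
  have h1 : ∑ z : cube L, (if IsNN x.1 z.1 then dct3 L k z - dct3 L k x else 0) =
      ∑ p : Fin 3 × Bool, (dctE L k (x.1 + dir p) - dctE L k x.1) := by
    have e1 : ∑ z : cube L, (if IsNN x.1 z.1 then dct3 L k z - dct3 L k x else 0) =
        ∑ z ∈ (cube L).filter (fun z => IsNN x.1 z), (dctE L k z - dctE L k x.1) := by
      rw [Finset.sum_filter, ← Finset.sum_coe_sort (cube L)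
        (fun z => if IsNN x.1 z then dctE L k z - dctE L k x.1 else 0)]
      rfl
    have hinj : Function.Injective fun p => x.1 + dir p :=
      fun p q h => dir_injective (by simpa using h)
    rw [e1]
    have e2 : ∑ p : Fin 3 × Bool, (dctE L k (x.1 + dir p) - dctE L k x.1) =
        ∑ z ∈ Finset.univ.image (fun p => x.1 + dir p), (dctE L k z - dctE L k x.1) := by
      rw [Finset.sum_image (fun p _ q _ h => hinj h)]
    rw [e2]
    refine Finset.sum_subset ?_ ?_
    · intro z hz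
      obtain ⟨p, hp⟩ := (isNN_iff x.1 z).1 (Finset.mem_filter.1 hz).2
      exact Finset.mem_image.2 ⟨p, Finset.mem_univ _, hp.symm⟩
    · intro z hz hz2
      obtain ⟨p, _, rfl⟩ := Finset.mem_image.1 hz
      have hout : x.1 + dir p ∉ cube L := by
        intro hin
        exact hz2 (Finset.mem_filter.2 ⟨hin, (isNN_iff _ _).2 ⟨p, rfl⟩⟩)
      have hx := mem_cubeD.1 x.2
      obtain ⟨j, b⟩ := p
      rw [dir, dctE_step, dctE_base k x.1 j]
      have hxj := Finset.mem_Ico.1 (hx j)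
      have hcoord : x.1 j + (if b then 1 else -1) ∉ Finset.Ico (0 : ℤ) L := by
        intro hin
        apply hout
        rw [mem_cubeD]
        intro i
        by_cases hi : i = j
        · subst hi; simpa [dir] using hin
        · simpa [dir, hi] using hx i
      have hd : dct L (k.1 j) (x.1 j + (if b then 1 else -1)) = dct L (k.1 j) (x.1 j) := by
        cases b with
        | false =>
          simp only [Bool.false_eq_true, if_false, Finset.mem_Ico] at hcoord ⊢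
          have : x.1 j = 0 := by omega
          rw [this]
          exact dct_refl_left L _
        | true =>
          simp only [if_true, Finset.mem_Ico] at hcoord ⊢
          have : x.1 j = L - 1 := by omega
          rw [this, sub_add_cancel]
          exact dct_refl_right hL _
      rw [hd, sub_self]
  rw [h1, Fintype.sum_prod_type, lam3, neg_mul, Finset.sum_mul, ← Finset.sum_neg_distrib]
  refine Finset.sum_congr rfl fun j _ => ?_
  have h2 : dct3 L k x = dctE L k x.1 := rfl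
  rw [Fintype.sum_bool, h2, dir, dir, dctE_step, dctE_step, dctE_base k x.1 j]
  simp only [if_true, Bool.false_eq_true, if_false]
  have h3 := dct_lap L (k.1 j) (x.1 j)
  rw [sub_eq_add_neg (x.1 j) 1] at h3
  rw [← mul_assoc, ← neg_mul, ← neg_mul, ← h3]
  ring

lemma spec3 (hL : 0 < L) :
    Spec (fun x y : cube L => IsNN x.1 y.1) (dct3 L) (lam3 L) where
  eig := dct3_eig hL
  compl := dct3_compl hL
  orth := dct3_orth hL

/-- Sup bound of the squared basis functions. -/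
noncomputable def bd1 (L : ℕ) (p : ℤ) : ℝ := if p = 0 then 1 / L else 2 / L

noncomputable def bd3 (L : ℕ) (k : cube L) : ℝ := ∏ j, bd1 L (k.1 j)

lemma bd1_nonneg (p : ℤ) : 0 ≤ bd1 L p := by unfold bd1; split_ifs <;> positivity

lemma bd3_nonneg (k : cube L) : 0 ≤ bd3 L k := Finset.prod_nonneg fun _ _ => bd1_nonneg _

lemma dct_sq_le (p x : ℤ) : dct L p x ^ 2 ≤ bd1 L p := by
  by_cases hp : p = 0
  · subst hp
    rw [dct_zero, Real.sq_sqrt (by positivity), bd1, if_pos rfl]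
  · rw [dct_ne _ hp, mul_pow, Real.sq_sqrt (by positivity), bd1, if_neg hp]
    have := Real.cos_sq_le_one (Real.pi * p * (x + 1 / 2) / L)
    have h2 : (0 : ℝ) ≤ 2 / L := by positivity
    nlinarith

lemma dct3_sq_le (k x : cube L) : dct3 L k x ^ 2 ≤ bd3 L k := by
  unfold dct3 bd3
  rw [← Finset.prod_pow]
  exact Finset.prod_le_prod (fun j _ => sq_nonneg _) fun j _ => dct_sq_le _ _

lemma lam1_nonneg (p : ℤ) : 0 ≤ lam1 L p := by
  unfold lam1
  have := Real.cos_le_one (Real.pi * p / L)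
  linarith

lemma lam3_nonneg (k : cube L) : 0 ≤ lam3 L k := Finset.sum_nonneg fun _ _ => lam1_nonneg _

/-- Riemann-sum upper bound. -/
lemma riemann_upper (hL : 0 < L) {t : ℝ} (ht : 0 ≤ t) {M : ℕ} (hM : M ≤ L) :
    ∑ i ∈ Finset.range M, Real.exp (-t * (1 - Real.cos (Real.pi * ((i + 1 : ℕ) : ℝ) / L))) ≤
      L * bJ t := by
  have hL' : (0 : ℝ) < L := by positivity
  set f : ℝ → ℝ := fun x => Real.exp (-t * (1 - Real.cos (Real.pi * x / L))) with hf
  have hanti : AntitoneOn f (Set.Icc 0 (0 + (M : ℝ))) := by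
    intro x hx y hy hxy
    simp only [hf]
    apply Real.exp_le_exp.2
    rw [zero_add] at hx hy
    have hML : (M : ℝ) ≤ L := by exact_mod_cast hM
    have h1 : Real.cos (Real.pi * y / L) ≤ Real.cos (Real.pi * x / L) := by
      refine Real.cos_le_cos_of_nonneg_of_le_pi ?_ ?_ ?_
      · have := hx.1; have := Real.pi_pos; positivity
      · rw [div_le_iff₀ hL']
        exact mul_le_mul_of_nonneg_left (hy.2.trans hML) Real.pi_pos.le
      · gcongr
    nlinarith
  have h1 := hanti.sum_le_integral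
  simp only [zero_add] at h1
  have hcont : Continuous f := by
    simp only [hf]; fun_prop
  have h2 : ∫ x in (0 : ℝ)..M, f x ≤ ∫ x in (0 : ℝ)..L, f x := by
    have h3 : ∫ x in (0 : ℝ)..L, f x = (∫ x in (0 : ℝ)..M, f x) + ∫ x in (M : ℝ)..L, f x :=
      (intervalIntegral.integral_add_adjacent_intervals (hcont.intervalIntegrable _ _)
        (hcont.intervalIntegrable _ _)).symm
    have h4 : 0 ≤ ∫ x in (M : ℝ)..L, f x :=
      intervalIntegral.integral_nonneg (by exact_mod_cast hM) fun x _ => (Real.exp_pos _).le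
    linarith
  have h3 : ∫ x in (0 : ℝ)..L, f x = L * bJ t := by
    have h4 : ∀ x, f x = (fun θ => Real.exp (-t * (1 - Real.cos θ))) (Real.pi / L * x) := by
      intro x
      simp only [hf]
      congr 4
      ring
    have hc : Real.pi / L ≠ 0 := by have := Real.pi_pos; positivity
    rw [intervalIntegral.integral_congr (fun x _ => h4 x),
      intervalIntegral.integral_comp_mul_left (fun θ => Real.exp (-t * (1 - Real.cos θ))) hc,
      mul_zero, bJ, smul_eq_mul]
    have h5 : Real.pi / L * L = Real.pi := by field_simp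
    rw [h5]
    field_simp
  calc _ ≤ ∫ x in (0 : ℝ)..M, f x := h1
    _ ≤ _ := h2
    _ = _ := h3

lemma one_dim_sum (hL : 0 < L) {t : ℝ} (ht : 0 ≤ t) :
    ∑ p ∈ Finset.Ico (0 : ℤ) L, Real.exp (-(t / 2 * lam1 L p)) ≤ 1 + L * bJ t := by
  obtain ⟨M, rfl⟩ : ∃ M, L = M + 1 := ⟨L - 1, by omega⟩
  rw [sum_Ico_int, Finset.sum_range_succ', add_comm]
  refine add_le_add ?_ ?_
  · simp [lam1]
  · refine le_trans (le_of_eq ?_) (riemann_upper hL ht (Nat.le_succ M))
    refine Finset.sum_congr rfl fun i _ => ?_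
    unfold lam1
    congr 1
    push_cast
    ring

lemma one_dim_sum_bd (hL : 0 < L) {t : ℝ} (ht : 0 ≤ t) :
    ∑ p ∈ Finset.Ico (0 : ℤ) L, Real.exp (-(t / 2 * lam1 L p)) * bd1 L p ≤ 1 / L + 2 * bJ t := by
  have hL' : (0 : ℝ) < L := by positivity
  obtain ⟨M, rfl⟩ : ∃ M, L = M + 1 := ⟨L - 1, by omega⟩
  rw [sum_Ico_int, Finset.sum_range_succ', add_comm]
  refine add_le_add ?_ ?_
  · simp [lam1, bd1]
  · have h1 := riemann_upper hL ht (Nat.le_succ M)
    have h2 : ∑ i ∈ Finset.range M, Real.exp (-(t / 2 * lam1 (M + 1) ((i + 1 : ℕ) : ℤ))) *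
        bd1 (M + 1) ((i + 1 : ℕ) : ℤ) = 2 / ((M + 1 : ℕ) : ℝ) *
        ∑ i ∈ Finset.range M, Real.exp (-t * (1 - Real.cos (Real.pi * ((i + 1 : ℕ) : ℝ) /
          ((M + 1 : ℕ) : ℝ)))) := by
      rw [Finset.mul_sum]
      refine Finset.sum_congr rfl fun i _ => ?_
      unfold lam1 bd1
      rw [if_neg (by omega), mul_comm]
      congr 2
      push_cast
      ring
    rw [h2]
    calc _ ≤ 2 / ((M + 1 : ℕ) : ℝ) * (((M + 1 : ℕ) : ℝ) * bJ t) :=
          mul_le_mul_of_nonneg_left h1 (by positivity)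
      _ = _ := by field_simp

lemma three_dim_sum (hL : 0 < L) {t : ℝ} (ht : 0 ≤ t) :
    ∑ k : cube L, Real.exp (-(t / 2 * lam3 L k)) ≤ (1 + L * bJ t) ^ 3 := by
  have h1 : ∀ k : cube L, Real.exp (-(t / 2 * lam3 L k)) =
      ∏ j, Real.exp (-(t / 2 * lam1 L (k.1 j))) := by
    intro k
    rw [← Real.exp_sum, lam3, Finset.mul_sum, Finset.sum_neg_distrib]
  simp only [h1]
  rw [sum_cube_prod (fun _ p => Real.exp (-(t / 2 * lam1 L p)))]
  rw [Finset.prod_const, Finset.card_univ, Fintype.card_fin]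
  exact pow_le_pow_left₀ (Finset.sum_nonneg fun _ _ => (Real.exp_pos _).le) (one_dim_sum hL ht) 3

lemma three_dim_sum_bd (hL : 0 < L) {t : ℝ} (ht : 0 ≤ t) :
    ∑ k : cube L, Real.exp (-(t / 2 * lam3 L k)) * bd3 L k ≤ (1 / L + 2 * bJ t) ^ 3 := by
  have h1 : ∀ k : cube L, Real.exp (-(t / 2 * lam3 L k)) * bd3 L k =
      ∏ j, (Real.exp (-(t / 2 * lam1 L (k.1 j))) * bd1 L (k.1 j)) := by
    intro k
    rw [Finset.prod_mul_distrib, ← Real.exp_sum, lam3, bd3, Finset.mul_sum, Finset.sum_neg_distrib]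
  simp only [h1]
  rw [sum_cube_prod (fun _ p => Real.exp (-(t / 2 * lam1 L p)) * bd1 L p)]
  rw [Finset.prod_const, Finset.card_univ, Fintype.card_fin]
  exact pow_le_pow_left₀ (Finset.sum_nonneg fun _ _ =>
    mul_nonneg (Real.exp_pos _).le (bd1_nonneg _)) (one_dim_sum_bd hL ht) 3

lemma degree_le (x : cube L) : ∑ y : cube L, (if IsNN x.1 y.1 then (1 : ℝ) else 0) ≤ 6 := by
  have h := H.sum_nn_le (cube L) x.1 (fun _ => 1) (fun _ => zero_le_one)
  refine h.trans (le_of_eq ?_)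
  simp

end Vale.Agent.P361.B
end

section

set_option linter.unusedSectionVars false

/-!
Part B: finite-volume upper bound for the partition function on cubes.
-/

namespace Vale.Agent.P361.B

open Finset
open Vale.Agent.P361.H (bJ bJ_nonneg bJ_antitone)

variable {n L : ℕ}

lemma Zt_pos_eig (n : ℕ) (Λ : Finset Site) (β t : ℝ) : 0 < Zt n Λ β t := by
  obtain ⟨E, Nn, ψ, _, _, _, hZ⟩ := exists_eigs n Λ
  rw [hZ]
  exact Finset.sum_pos (fun i _ => Real.exp_pos _) Finset.univ_nonempty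

lemma Zt_split (hn : 1 ≤ n) (hL : 0 < L) {β t E1 : ℝ} (hβ : 0 ≤ β) (ht : 0 < t) (hE1 : 0 < E1)
    (N1 : ℕ) :
    Zt n (cube L) β t ≤ Real.exp (-(β * E1 / 2)) * Zt n (cube L) (β / 2) 0 +
      Real.exp (-(t * N1)) * Zt n (cube L) β 0 +
      Real.exp (β * (12 * Real.exp 2 * ((N1 : ℝ) ^ 2 * (1 / L + 2 * bJ (2 * n / E1)) ^ 3))) *
        ∏ k : cube L, (1 - Real.exp (-(t + β * ((n : ℝ) / 2 * lam3 L k))))⁻¹ := by
  classical
  obtain ⟨E, Nn, ψ, hψ, hE0, horth, hZ⟩ := exists_eigs n (cube L)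
  rw [hZ, hZ, hZ]
  set I1 := Finset.univ.filter (fun i => E1 < E i) with hI1
  set I2 := Finset.univ.filter (fun i => E i ≤ E1 ∧ N1 < Nn i) with hI2
  set I3 := Finset.univ.filter (fun i => E i ≤ E1 ∧ Nn i ≤ N1) with hI3
  have hsplit : ∑ i, Real.exp (-(β * E i + t * Nn i)) =
      ∑ i ∈ I1, Real.exp (-(β * E i + t * Nn i)) + ∑ i ∈ I2, Real.exp (-(β * E i + t * Nn i)) +
      ∑ i ∈ I3, Real.exp (-(β * E i + t * Nn i)) := by
    rw [hI1, hI2, hI3, Finset.sum_filter, Finset.sum_filter, Finset.sum_filter,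
      ← Finset.sum_add_distrib, ← Finset.sum_add_distrib]
    refine Finset.sum_congr rfl fun i _ => ?_
    by_cases h1 : E1 < E i
    · rw [if_pos h1, if_neg (fun h => absurd h.1 (not_le.2 h1)),
        if_neg (fun h => absurd h.1 (not_le.2 h1))]
      ring
    · rw [not_lt] at h1
      by_cases h2 : N1 < Nn i
      · rw [if_neg (not_lt.2 h1), if_pos ⟨h1, h2⟩, if_neg (fun h => absurd h.2 (not_le.2 h2))]
        ring
      · rw [not_lt] at h2
        rw [if_neg (not_lt.2 h1), if_neg (fun h => absurd h.2 (not_lt.2 h2)), if_pos ⟨h1, h2⟩]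
        ring
  rw [hsplit]
  refine add_le_add (add_le_add ?_ ?_) ?_
  · rw [Finset.mul_sum]
    refine (Finset.sum_le_sum (fun i hi => ?_)).trans
      (Finset.sum_le_sum_of_subset_of_nonneg (Finset.subset_univ _)
        (fun i _ _ => mul_nonneg (Real.exp_pos _).le (Real.exp_pos _).le))
    rw [← Real.exp_add]
    apply Real.exp_le_exp.2
    have h1 : E1 < E i := (Finset.mem_filter.1 hi).2
    have h2 : 0 ≤ t * Nn i := by positivity
    have h3 : β * E1 ≤ β * E i := mul_le_mul_of_nonneg_left h1.le hβ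
    nlinarith
  · rw [Finset.mul_sum]
    refine (Finset.sum_le_sum (fun i hi => ?_)).trans
      (Finset.sum_le_sum_of_subset_of_nonneg (Finset.subset_univ _)
        (fun i _ _ => mul_nonneg (Real.exp_pos _).le (Real.exp_pos _).le))
    rw [← Real.exp_add]
    apply Real.exp_le_exp.2
    have h1 : N1 < Nn i := (Finset.mem_filter.1 hi).2.2
    have h2 : t * N1 ≤ t * Nn i := mul_le_mul_of_nonneg_left (by exact_mod_cast h1.le) ht.le
    linarith
  · have h := low_part (ι := cube L → Fin (n + 1)) hn (spec3 hL)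
      (fun x y hxy => H.isNN_symm hxy) (fun x hx => H.isNN_ne hx rfl)
      (D := 6) degree_le (by norm_num) dct3_sq_le bd3_nonneg hE1 (N1 := N1) hβ ht lam3_nonneg
      I3 E Nn ψ (fun i _ => hψ i) (fun i _ => hE0 i) (fun i hi => (Finset.mem_filter.1 hi).2.1)
      (fun i hi => (Finset.mem_filter.1 hi).2.2) (fun i _ j _ hij => horth i j hij)
    refine h.trans ?_
    have h1 : ∑ k : cube L, Real.exp (-(n * lam3 L k / E1)) * bd3 L k ≤
        (1 / L + 2 * bJ (2 * n / E1)) ^ 3 := by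
      have h2 := three_dim_sum_bd (L := L) hL (t := 2 * n / E1) (by positivity)
      refine le_trans (le_of_eq ?_) h2
      refine Finset.sum_congr rfl fun k _ => ?_
      congr 3
      field_simp
    have hprod : 0 ≤ ∏ k : cube L, (1 - Real.exp (-(t + β * ((n : ℝ) / 2 * lam3 L k))))⁻¹ := by
      refine Finset.prod_nonneg fun k _ => inv_nonneg.2 (sub_nonneg.2 ?_)
      rw [Real.exp_le_one_iff]
      have : 0 ≤ β * ((n : ℝ) / 2 * lam3 L k) :=
        mul_nonneg hβ (mul_nonneg (by positivity) (lam3_nonneg k))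
      linarith
    refine mul_le_mul_of_nonneg_right ?_ hprod
    apply Real.exp_le_exp.2
    refine mul_le_mul_of_nonneg_left ?_ hβ
    have h3 : (2 : ℝ) * 6 * Real.exp 2 = 12 * Real.exp 2 := by ring
    rw [h3]
    refine mul_le_mul_of_nonneg_left ?_ (by positivity)
    exact mul_le_mul_of_nonneg_left h1 (by positivity)

/-- Free boson pressure series. -/
noncomputable def bosSer (n L : ℕ) (β t : ℝ) : ℝ :=
  ∑' j : ℕ, Real.exp (-(((j : ℝ) + 1) * t)) / ((j : ℝ) + 1) *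
    (1 + L * bJ (((j : ℝ) + 1) * (n * β))) ^ 3

lemma bJ_le_one {t : ℝ} (ht : 0 ≤ t) : bJ t ≤ 1 := by
  have h1 := bJ_antitone ht
  have h2 : bJ 0 = 1 := by
    unfold bJ
    simp
  rw [h2] at h1
  exact h1

lemma bosSer_summable (n L : ℕ) {β t : ℝ} (hβ : 0 ≤ β) (ht : 0 < t) :
    Summable fun j : ℕ => Real.exp (-(((j : ℝ) + 1) * t)) / ((j : ℝ) + 1) *
    (1 + L * bJ (((j : ℝ) + 1) * (n * β))) ^ 3 := by
  have hgeo : Summable fun j : ℕ => (1 + (L : ℝ)) ^ 3 * Real.exp (-t) ^ (j + 1) := by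
    refine Summable.mul_left _ ?_
    exact (summable_nat_add_iff 1).2 (summable_geometric_of_lt_one (Real.exp_pos _).le
      (by rw [Real.exp_lt_one_iff]; linarith))
  refine Summable.of_nonneg_of_le (fun j => ?_) (fun j => ?_) hgeo
  · have := bJ_nonneg (((j : ℝ) + 1) * (n * β))
    positivity
  · have h1 : Real.exp (-(((j : ℝ) + 1) * t)) / ((j : ℝ) + 1) ≤ Real.exp (-t) ^ (j + 1) := by
      rw [← Real.exp_nat_mul, div_le_iff₀ (by positivity)]
      have : Real.exp (-(((j : ℝ) + 1) * t)) = Real.exp (((j + 1 : ℕ) : ℝ) * -t) := by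
        congr 1; push_cast; ring
      rw [this]
      have h2 := Real.exp_pos (((j + 1 : ℕ) : ℝ) * -t)
      have h3 : (1 : ℝ) ≤ (j : ℝ) + 1 := by
        have : (0 : ℝ) ≤ j := by positivity
        linarith
      nlinarith
    have h2 : (1 + L * bJ (((j : ℝ) + 1) * (n * β))) ^ 3 ≤ (1 + (L : ℝ)) ^ 3 := by
      have hb := bJ_nonneg (((j : ℝ) + 1) * (n * β))
      refine pow_le_pow_left₀ (by positivity) ?_ 3
      have h3 := bJ_le_one (t := ((j : ℝ) + 1) * (n * β)) (by positivity)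
      have : (L : ℝ) * bJ (((j : ℝ) + 1) * (n * β)) ≤ L * 1 :=
        mul_le_mul_of_nonneg_left h3 (by positivity)
      linarith
    calc _ ≤ Real.exp (-t) ^ (j + 1) * (1 + (L : ℝ)) ^ 3 := by
          have hb := bJ_nonneg (((j : ℝ) + 1) * (n * β))
          exact mul_le_mul h1 h2 (by positivity) (by positivity)
      _ = _ := mul_comm _ _

lemma log_prod_le (hL : 0 < L) {β t : ℝ} (hβ : 0 ≤ β) (ht : 0 < t) :
    Real.log (∏ k : cube L, (1 - Real.exp (-(t + β * ((n : ℝ) / 2 * lam3 L k))))⁻¹) ≤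
      bosSer n L β t := by
  set q : cube L → ℝ := fun k => Real.exp (-(t + β * ((n : ℝ) / 2 * lam3 L k))) with hq
  have hq0 : ∀ k, 0 < q k := fun k => Real.exp_pos _
  have hq1 : ∀ k, q k < 1 := by
    intro k
    simp only [hq]
    rw [Real.exp_lt_one_iff]
    have : 0 ≤ β * ((n : ℝ) / 2 * lam3 L k) :=
      mul_nonneg hβ (mul_nonneg (by positivity) (lam3_nonneg k))
    linarith
  have h1 : Real.log (∏ k : cube L, (1 - q k)⁻¹) = ∑ k, - Real.log (1 - q k) := by
    rw [Real.log_prod (fun k _ => inv_ne_zero (sub_pos.2 (hq1 k)).ne')]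
    exact Finset.sum_congr rfl fun k _ => Real.log_inv _
  have h2 : HasSum (fun j : ℕ => ∑ k, q k ^ (j + 1) / ((j : ℝ) + 1))
      (∑ k, - Real.log (1 - q k)) := by
    refine hasSum_sum fun k _ => ?_
    exact Real.hasSum_pow_div_log_of_abs_lt_one (by rw [abs_of_pos (hq0 k)]; exact hq1 k)
  rw [h1, ← h2.tsum_eq, bosSer]
  refine h2.summable.tsum_le_tsum (fun j => ?_) (bosSer_summable n L hβ ht)
  have h3 : ∑ k, q k ^ (j + 1) / ((j : ℝ) + 1) = Real.exp (-(((j : ℝ) + 1) * t)) / ((j : ℝ) + 1) *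
      ∑ k : cube L, Real.exp (-((((j : ℝ) + 1) * (n * β)) / 2 * lam3 L k)) := by
    rw [Finset.mul_sum]
    refine Finset.sum_congr rfl fun k _ => ?_
    simp only [hq]
    have e7 : Real.exp (-(t + β * ((n : ℝ) / 2 * lam3 L k))) ^ (j + 1) =
        Real.exp (-(((j : ℝ) + 1) * t)) *
          Real.exp (-((((j : ℝ) + 1) * (n * β)) / 2 * lam3 L k)) := by
      rw [← Real.exp_nat_mul, ← Real.exp_add]
      congr 1
      push_cast
      ring
    rw [e7]
    ring
  rw [h3]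
  exact mul_le_mul_of_nonneg_left (three_dim_sum hL (by positivity)) (by positivity)

lemma one_le_prod (L : ℕ) {β t : ℝ} (hβ : 0 ≤ β) (ht : 0 < t) :
    1 ≤ ∏ k : cube L, (1 - Real.exp (-(t + β * ((n : ℝ) / 2 * lam3 L k))))⁻¹ := by
  have : ∏ _k : cube L, (1 : ℝ) ≤
      ∏ k : cube L, (1 - Real.exp (-(t + β * ((n : ℝ) / 2 * lam3 L k))))⁻¹ := by
    refine Finset.prod_le_prod (fun _ _ => zero_le_one) fun k _ => ?_
    have h1 : 0 < Real.exp (-(t + β * ((n : ℝ) / 2 * lam3 L k))) := Real.exp_pos _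
    have h2 : Real.exp (-(t + β * ((n : ℝ) / 2 * lam3 L k))) < 1 := by
      rw [Real.exp_lt_one_iff]
      have : 0 ≤ β * ((n : ℝ) / 2 * lam3 L k) :=
        mul_nonneg hβ (mul_nonneg (by positivity) (lam3_nonneg k))
      linarith
    exact (one_le_inv₀ (by linarith)).2 (by linarith)
  simpa using this

/-- Finite-volume upper bound. -/
theorem logZt_upper (hn : 1 ≤ n) (hL : 0 < L) {β t E1 : ℝ} (hβ : 0 ≤ β) (ht : 0 < t)
    (hE1 : 0 < E1) (N1 : ℕ) (h1 : Real.log (Zt n (cube L) (β / 2) 0) ≤ β * E1 / 2)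
    (h2 : Real.log (Zt n (cube L) β 0) ≤ t * N1) :
    Real.log (Zt n (cube L) β t) ≤ Real.log 3 +
      β * (12 * Real.exp 2 * ((N1 : ℝ) ^ 2 * (1 / L + 2 * bJ (2 * n / E1)) ^ 3)) +
      bosSer n L β t := by
  have hb := bJ_nonneg (2 * n / E1)
  set d := 12 * Real.exp 2 * ((N1 : ℝ) ^ 2 * (1 / L + 2 * bJ (2 * n / E1)) ^ 3) with hd
  have hd0 : 0 ≤ d := by rw [hd]; positivity
  set P := ∏ k : cube L, (1 - Real.exp (-(t + β * ((n : ℝ) / 2 * lam3 L k))))⁻¹ with hP
  have hP1 : 1 ≤ P := one_le_prod L hβ ht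
  have hX1 : 1 ≤ Real.exp (β * d) := Real.one_le_exp (mul_nonneg hβ hd0)
  have hmain := Zt_split hn hL hβ ht hE1 N1
  have e1 : Real.exp (-(β * E1 / 2)) * Zt n (cube L) (β / 2) 0 ≤ 1 := by
    have h3 : Zt n (cube L) (β / 2) 0 ≤ Real.exp (β * E1 / 2) := by
      rw [← Real.log_le_iff_le_exp (Zt_pos_eig _ _ _ _)]; exact h1
    calc _ ≤ Real.exp (-(β * E1 / 2)) * Real.exp (β * E1 / 2) :=
          mul_le_mul_of_nonneg_left h3 (Real.exp_pos _).le
      _ = 1 := by rw [← Real.exp_add]; simp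
  have e2 : Real.exp (-(t * N1)) * Zt n (cube L) β 0 ≤ 1 := by
    have h3 : Zt n (cube L) β 0 ≤ Real.exp (t * N1) := by
      rw [← Real.log_le_iff_le_exp (Zt_pos_eig _ _ _ _)]; exact h2
    calc _ ≤ Real.exp (-(t * N1)) * Real.exp (t * N1) :=
          mul_le_mul_of_nonneg_left h3 (Real.exp_pos _).le
      _ = 1 := by rw [← Real.exp_add]; simp
  have e3 : 1 ≤ Real.exp (β * d) * P := one_le_mul_of_one_le_of_one_le hX1 hP1
  have e4 : Zt n (cube L) β t ≤ 3 * (Real.exp (β * d) * P) := by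
    have : Zt n (cube L) β t ≤ 1 + 1 + Real.exp (β * d) * P := by
      refine hmain.trans ?_
      exact add_le_add (add_le_add e1 e2) le_rfl
    linarith
  have e5 := Real.log_le_log (Zt_pos_eig n (cube L) β t) e4
  have hP0 : 0 < P := by linarith
  rw [Real.log_mul (by norm_num) (by positivity), Real.log_mul (Real.exp_pos _).ne' hP0.ne',
    Real.log_exp] at e5
  have e6 := log_prod_le (n := n) hL hβ ht
  rw [← hP] at e6
  linarith

end Vale.Agent.P361.B
end

section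

/-!
Part B: asymptotics of the free boson pressure of the cube.
-/

namespace Vale.Agent.P361.B

open MeasureTheory Filter Topology Finset

theorem sq_exp_le {y : ℝ} (hy : 0 ≤ y) : y ^ 2 * Real.exp (-(y / 10)) ≤ 200 := by
  have h := Real.quadratic_le_exp_of_nonneg (x := y / 10) (by positivity)
  rw [Real.exp_neg, ← div_eq_mul_inv, div_le_iff₀ (Real.exp_pos _)]
  nlinarith

theorem exp_cos_le {a θ : ℝ} (ha : 1 ≤ a) (h0 : 0 ≤ θ) (h1 : θ ≤ Real.pi) :
    Real.exp (-a * (1 - Real.cos θ)) ≤ Real.exp (-(a / 2) * θ ^ 2) +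
      200 / a * Real.exp (-(a / 10) * θ ^ 2) := by
  have ha0 : 0 < a := by linarith
  have key : Real.exp (-a * (1 - Real.cos θ)) ≤ Real.exp (-(a / 2) * θ ^ 2) +
      a * θ ^ 4 * Real.exp (-(a / 5) * θ ^ 2) := by
    rcases le_or_gt θ 1 with h | h
    · have hb := (abs_le.1 (Real.cos_bound (x := θ) (by rw [abs_of_nonneg h0]; exact h))).2
      rw [abs_of_nonneg h0] at hb
      set w : ℝ := a * (θ ^ 4 * (5 / 96)) with hw
      have hw0 : 0 ≤ w := by positivity
      have hθ2 : θ ^ 2 ≤ 1 := by nlinarith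
      have hw1 : w ≤ a / 4 * θ ^ 2 := by
        have : θ ^ 4 = θ ^ 2 * θ ^ 2 := by ring
        rw [hw, this]
        nlinarith [mul_nonneg ha0.le (sq_nonneg θ), mul_le_mul_of_nonneg_left hθ2
          (mul_nonneg ha0.le (sq_nonneg θ))]
      have e1 : Real.exp (-a * (1 - Real.cos θ)) ≤ Real.exp (-(a / 2) * θ ^ 2 + w) := by
        apply Real.exp_le_exp.2
        rw [hw]
        nlinarith
      have e2 : Real.exp w ≤ 1 + w * Real.exp w := by
        have := Real.add_one_le_exp (-w)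
        have h3 : Real.exp w * Real.exp (-w) = 1 := by rw [← Real.exp_add]; simp
        nlinarith [Real.exp_pos w]
      have e3 : w * Real.exp w * Real.exp (-(a / 2) * θ ^ 2) ≤
          a * θ ^ 4 * Real.exp (-(a / 5) * θ ^ 2) := by
        rw [mul_assoc, ← Real.exp_add]
        refine mul_le_mul ?_ (Real.exp_le_exp.2 ?_) (Real.exp_pos _).le (by positivity)
        · rw [hw]
          have : 0 ≤ a * θ ^ 4 := by positivity
          nlinarith
        · nlinarith [mul_nonneg ha0.le (sq_nonneg θ)]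
      calc Real.exp (-a * (1 - Real.cos θ)) ≤ Real.exp (-(a / 2) * θ ^ 2 + w) := e1
        _ = Real.exp w * Real.exp (-(a / 2) * θ ^ 2) := by rw [← Real.exp_add, add_comm]
        _ ≤ (1 + w * Real.exp w) * Real.exp (-(a / 2) * θ ^ 2) :=
            mul_le_mul_of_nonneg_right e2 (Real.exp_pos _).le
        _ = Real.exp (-(a / 2) * θ ^ 2) + w * Real.exp w * Real.exp (-(a / 2) * θ ^ 2) := by ring
        _ ≤ _ := by linarith
    · have hc := Real.cos_le_one_sub_mul_cos_sq (x := θ) (by rw [abs_of_nonneg h0]; exact h1)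
      have hpi2 : Real.pi ^ 2 ≤ 10 := by nlinarith [Real.pi_lt_d2, Real.pi_pos]
      have h5 : θ ^ 2 / 5 ≤ 1 - Real.cos θ := by
        have h6 : 1 / 5 ≤ 2 / Real.pi ^ 2 := by
          rw [div_le_div_iff₀ (by norm_num) (by positivity)]
          linarith
        nlinarith [mul_le_mul_of_nonneg_right h6 (sq_nonneg θ)]
      have e1 : Real.exp (-a * (1 - Real.cos θ)) ≤ Real.exp (-(a / 5) * θ ^ 2) := by
        apply Real.exp_le_exp.2
        nlinarith
      have e2 : 1 ≤ a * θ ^ 4 := by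
        have h7 : 1 ≤ θ ^ 2 := by nlinarith
        have h8 : 1 ≤ θ ^ 4 := by nlinarith
        nlinarith
      have e3 : Real.exp (-(a / 5) * θ ^ 2) ≤ a * θ ^ 4 * Real.exp (-(a / 5) * θ ^ 2) :=
        le_mul_of_one_le_left (Real.exp_pos _).le e2
      linarith [Real.exp_pos (-(a / 2) * θ ^ 2)]
  refine key.trans (add_le_add le_rfl ?_)
  have h2 := sq_exp_le (y := a * θ ^ 2) (by positivity)
  have e1 : a * θ ^ 4 * Real.exp (-(a / 5) * θ ^ 2) = (1 / a) *
      (((a * θ ^ 2) ^ 2 * Real.exp (-((a * θ ^ 2) / 10))) * Real.exp (-(a / 10) * θ ^ 2)) := by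
    have : Real.exp (-(a / 5) * θ ^ 2) =
        Real.exp (-((a * θ ^ 2) / 10)) * Real.exp (-(a / 10) * θ ^ 2) := by
      rw [← Real.exp_add]; congr 1; ring
    rw [this]
    field_simp
  rw [e1]
  have h3 : (1 / a) * (((a * θ ^ 2) ^ 2 * Real.exp (-((a * θ ^ 2) / 10))) *
      Real.exp (-(a / 10) * θ ^ 2)) ≤ (1 / a) * (200 * Real.exp (-(a / 10) * θ ^ 2)) :=
    mul_le_mul_of_nonneg_left (mul_le_mul_of_nonneg_right h2 (Real.exp_pos _).le) (by positivity)
  refine h3.trans (le_of_eq ?_)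
  ring

/-- Upper bound of the Bessel factor. -/
theorem bJ_upper {a : ℝ} (ha : 1 ≤ a) :
    Real.sqrt (2 * Real.pi * a) * H.bJ a ≤ 1 + 448 / a := by
  have ha0 : 0 < a := by linarith
  have hpi := Real.pi_pos
  have hint : ∀ b : ℝ, 0 < b → IntegrableOn (fun u : ℝ => Real.exp (-b * u ^ 2)) (Set.Ioi 0) :=
    fun b hb => (integrable_exp_neg_mul_sq hb).integrableOn
  have h1 : ∫ θ in (0 : ℝ)..Real.pi, Real.exp (-a * (1 - Real.cos θ)) ≤
      ∫ θ in Set.Ioi (0 : ℝ), (Real.exp (-(a / 2) * θ ^ 2) +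
      200 / a * Real.exp (-(a / 10) * θ ^ 2)) := by
    rw [intervalIntegral.integral_of_le hpi.le]
    have hi := (hint (a / 2) (by positivity)).add ((hint (a / 10) (by positivity)).const_mul
      (200 / a))
    calc ∫ θ in Set.Ioc 0 Real.pi, Real.exp (-a * (1 - Real.cos θ)) ≤
        ∫ θ in Set.Ioc 0 Real.pi, (Real.exp (-(a / 2) * θ ^ 2) +
          200 / a * Real.exp (-(a / 10) * θ ^ 2)) := by
          refine setIntegral_mono_on ?_ (hi.mono_set Set.Ioc_subset_Ioi_self) measurableSet_Ioc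
            fun θ hθ => exp_cos_le ha hθ.1.le hθ.2
          exact (Continuous.integrableOn_Icc (by fun_prop)).mono_set Set.Ioc_subset_Icc_self
      _ ≤ _ := by
          refine setIntegral_mono_set hi ?_ Set.Ioc_subset_Ioi_self.eventuallyLE
          exact Filter.Eventually.of_forall fun θ => by
            simp only [Pi.zero_apply]; positivity
  rw [integral_add (hint (a / 2) (by positivity)) ((hint (a / 10) (by positivity)).const_mul
      (200 / a)), integral_const_mul, integral_gaussian_Ioi, integral_gaussian_Ioi] at h1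
  rw [H.bJ]
  have h2 := mul_le_mul_of_nonneg_left h1 (a := Real.sqrt (2 * Real.pi * a) * Real.pi⁻¹)
    (by positivity)
  rw [mul_assoc] at h2
  refine h2.trans ?_
  have e1 : Real.sqrt (2 * Real.pi * a) * Real.sqrt (Real.pi / (a / 2)) = 2 * Real.pi := by
    rw [← Real.sqrt_mul (by positivity),
      show 2 * Real.pi * a * (Real.pi / (a / 2)) = (2 * Real.pi) ^ 2 by field_simp,
      Real.sqrt_sq (by positivity)]
  have e2 : Real.sqrt (2 * Real.pi * a) * Real.sqrt (Real.pi / (a / 10)) ≤ 4.48 * Real.pi := by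
    rw [← Real.sqrt_mul (by positivity),
      show 2 * Real.pi * a * (Real.pi / (a / 10)) = 20 * Real.pi ^ 2 by field_simp; ring]
    rw [show 4.48 * Real.pi = Real.sqrt ((4.48 * Real.pi) ^ 2) by rw [Real.sqrt_sq (by positivity)]]
    refine Real.sqrt_le_sqrt ?_
    nlinarith [sq_nonneg Real.pi]
  have e3 : Real.sqrt (2 * Real.pi * a) * (Real.pi⁻¹ * (Real.sqrt (Real.pi / (a / 2)) / 2 +
      200 / a * (Real.sqrt (Real.pi / (a / 10)) / 2))) =
      Real.pi⁻¹ * ((Real.sqrt (2 * Real.pi * a) * Real.sqrt (Real.pi / (a / 2))) / 2 +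
        100 / a * (Real.sqrt (2 * Real.pi * a) * Real.sqrt (Real.pi / (a / 10)))) := by ring
  rw [mul_assoc, e3, e1]
  have h3 : Real.pi⁻¹ * (2 * Real.pi / 2 + 100 / a * (Real.sqrt (2 * Real.pi * a) *
      Real.sqrt (Real.pi / (a / 10)))) ≤ Real.pi⁻¹ * (2 * Real.pi / 2 + 100 / a *
        (4.48 * Real.pi)) := by
    refine mul_le_mul_of_nonneg_left (add_le_add le_rfl ?_) (by positivity)
    exact mul_le_mul_of_nonneg_left e2 (by positivity)
  refine h3.trans (le_of_eq ?_)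
  field_simp
  ring

theorem cube_add_pow {L y w : ℝ} (hL : 0 ≤ L) (hy : 0 ≤ y) (hw : 0 ≤ w) (hw1 : w ≤ 1) :
    (1 + L * (y * (1 + w))) ^ 3 ≤
      L ^ 3 * y ^ 3 * (1 + 7 * w) + 12 * (L ^ 2 * y ^ 2) + 6 * (L * y) + 1 := by
  have h1 : (1 + w) ^ 3 ≤ 1 + 7 * w := by nlinarith [mul_nonneg hw hw, mul_nonneg (mul_nonneg hw hw) hw]
  have h2 : (1 + w) ^ 2 ≤ 4 := by nlinarith
  have e : (1 + L * (y * (1 + w))) ^ 3 = L ^ 3 * y ^ 3 * (1 + w) ^ 3 +
      3 * (L ^ 2 * y ^ 2) * (1 + w) ^ 2 + 3 * (L * y) * (1 + w) + 1 := by ring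
  rw [e]
  have h3 : L ^ 3 * y ^ 3 * (1 + w) ^ 3 ≤ L ^ 3 * y ^ 3 * (1 + 7 * w) :=
    mul_le_mul_of_nonneg_left h1 (by positivity)
  have h4 : 3 * (L ^ 2 * y ^ 2) * (1 + w) ^ 2 ≤ 3 * (L ^ 2 * y ^ 2) * 4 :=
    mul_le_mul_of_nonneg_left h2 (by positivity)
  have h5 : 3 * (L * y) * (1 + w) ≤ 3 * (L * y) * 2 :=
    mul_le_mul_of_nonneg_left (by linarith) (by positivity)
  linarith

/-- One order of the fugacity expansion. -/
theorem order_bound {n : ℕ} (hn : 1 ≤ n) {β : ℝ} (hβ : 448 ≤ β) {L : ℕ} (hL : 0 < L) (r : ℕ) :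
    Real.sqrt β ^ 3 / (L : ℝ) ^ 3 * (1 + L * H.bJ (((r : ℝ) + 1) * (n * β))) ^ 3 ≤
    (Real.sqrt (4 * Real.pi * ((n : ℝ) / 2)) ^ 3)⁻¹ * (1 / Real.sqrt ((r : ℝ) + 1) ^ 3) *
      (1 + 7 * (448 / β)) +
    12 * (Real.sqrt (4 * Real.pi * ((n : ℝ) / 2)) ^ 2)⁻¹ * (Real.sqrt β / L) *
      (1 / Real.sqrt ((r : ℝ) + 1) ^ 2) +
    6 * (Real.sqrt (4 * Real.pi * ((n : ℝ) / 2)))⁻¹ * (β / (L : ℝ) ^ 2) *
      (1 / Real.sqrt ((r : ℝ) + 1)) + Real.sqrt β ^ 3 / (L : ℝ) ^ 3 := by
  have hnR : (1 : ℝ) ≤ n := by exact_mod_cast hn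
  have hn0 : (0 : ℝ) < n := by linarith
  have hβ0 : 0 < β := by linarith
  have hLR : (0 : ℝ) < L := by exact_mod_cast hL
  have hpi := Real.pi_pos
  have hr : (1 : ℝ) ≤ (r : ℝ) + 1 := by linarith [Nat.cast_nonneg (α := ℝ) r]
  set c : ℝ := ((r : ℝ) + 1) * (n * β) with hc
  have hβc : β ≤ c := by
    rw [hc]
    nlinarith [mul_le_mul hr hnR (by norm_num) (by linarith)]
  have hc0 : 0 < c := by linarith
  have h2 := bJ_upper (a := c) (by linarith)
  set w : ℝ := 448 / β with hw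
  have hw0 : 0 ≤ w := by positivity
  have hw1 : w ≤ 1 := by rw [hw, div_le_one hβ0]; exact hβ
  have h3 : 448 / c ≤ w := div_le_div_of_nonneg_left (by norm_num) hβ0 hβc
  have hsr : 0 < Real.sqrt ((r : ℝ) + 1) := Real.sqrt_pos.2 (by positivity)
  have hsb : 0 < Real.sqrt β := Real.sqrt_pos.2 hβ0
  have hs4 : 0 < Real.sqrt (4 * Real.pi * ((n : ℝ) / 2)) := Real.sqrt_pos.2 (by positivity)
  have e1 : Real.sqrt (2 * Real.pi * c) =
      Real.sqrt (4 * Real.pi * ((n : ℝ) / 2)) * (Real.sqrt β * Real.sqrt ((r : ℝ) + 1)) := by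
    rw [← Real.sqrt_mul hβ0.le, ← Real.sqrt_mul (by positivity)]
    congr 1
    rw [hc]; ring
  set A := Real.sqrt (4 * Real.pi * ((n : ℝ) / 2)) with hA
  set y : ℝ := (A * (Real.sqrt β * Real.sqrt ((r : ℝ) + 1)))⁻¹ with hy
  have hy0 : 0 < y := by positivity
  have h4 : H.bJ c ≤ y * (1 + w) := by
    rw [hy, inv_mul_eq_div, le_div_iff₀ (by positivity), ← e1, mul_comm]
    linarith
  have h5 : (1 + (L : ℝ) * H.bJ c) ^ 3 ≤ (1 + L * (y * (1 + w))) ^ 3 := by
    refine pow_le_pow_left₀ ?_ ?_ 3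
    · have := H.bJ_nonneg c
      positivity
    · have := mul_le_mul_of_nonneg_left h4 hLR.le
      linarith
  have h6 := cube_add_pow hLR.le hy0.le hw0 hw1
  have h7 := mul_le_mul_of_nonneg_left (h5.trans h6)
    (a := Real.sqrt β ^ 3 / (L : ℝ) ^ 3) (by positivity)
  refine h7.trans (le_of_eq ?_)
  have e2 : β = Real.sqrt β ^ 2 := (Real.sq_sqrt hβ0.le).symm
  have e3 : β / (L : ℝ) ^ 2 = Real.sqrt β ^ 2 / (L : ℝ) ^ 2 := by rw [← e2]
  rw [e3, hy]
  field_simp

/-- Asymptotics of the free boson pressure. -/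
theorem bosSer_le {n : ℕ} (hn : 1 ≤ n) : ∃ C : ℝ, 0 ≤ C ∧ ∀ β : ℝ, 448 ≤ β → ∀ L : ℕ, 0 < L →
    ∀ t : ℝ, 0 < t →
    Real.sqrt β ^ 3 / (L : ℝ) ^ 3 * bosSer n L β t ≤
    FS ((n : ℝ) / 2) t + C * (1 / β + Real.sqrt β / L + β / (L : ℝ) ^ 2) +
      Real.sqrt β ^ 3 / (L : ℝ) ^ 3 / t := by
  set A := Real.sqrt (4 * Real.pi * ((n : ℝ) / 2)) with hA
  have hnR : (1 : ℝ) ≤ n := by exact_mod_cast hn
  have hpi := Real.pi_pos
  have hA0 : 0 < A := Real.sqrt_pos.2 (by positivity)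
  set z : ℝ := ∑' r : ℕ, 1 / Real.sqrt ((r : ℝ) + 1) ^ 3 with hz
  have hz0 : 0 ≤ z := tsum_nonneg fun r => by positivity
  have haS : aS ((n : ℝ) / 2) = (A ^ 3)⁻¹ * z := by rw [aS, ← H.zeta_hasSum.tsum_eq]
  refine ⟨7 * 448 * ((A ^ 3)⁻¹ * z) + 12 * (A ^ 2)⁻¹ * z + 6 * A⁻¹ * z, by positivity, ?_⟩
  intro β hβ L hL t ht
  have hβ0 : 0 < β := by linarith
  have hLR : (0 : ℝ) < L := by exact_mod_cast hL
  have hsb : 0 < Real.sqrt β := Real.sqrt_pos.2 hβ0
  have h1 := ((bosSer_summable n L hβ0.le ht).hasSum).mul_left (Real.sqrt β ^ 3 / (L : ℝ) ^ 3)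
  -- majorant
  have hgeo : HasSum (fun r : ℕ => Real.exp (-(((r : ℝ) + 1) * t))) (1 / (Real.exp t - 1)) := by
    have hlt : Real.exp (-t) < 1 := by rw [Real.exp_lt_one_iff]; linarith
    have h2 := (hasSum_geometric_of_lt_one (Real.exp_pos (-t)).le hlt).mul_left (Real.exp (-t))
    have e1 : Real.exp (-t) * (1 - Real.exp (-t))⁻¹ = 1 / (Real.exp t - 1) := by
      have h3 : Real.exp t * Real.exp (-t) = 1 := by rw [← Real.exp_add]; simp
      have h4 : 1 < Real.exp t := by rw [Real.one_lt_exp_iff]; exact ht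
      have h5 : 0 < 1 - Real.exp (-t) := by linarith
      rw [eq_div_iff (by linarith), ← div_eq_mul_inv, div_mul_eq_mul_div, div_eq_iff h5.ne']
      linear_combination h3
    rw [e1] at h2
    have e2 : (fun r : ℕ => Real.exp (-(((r : ℝ) + 1) * t))) =
        fun r : ℕ => Real.exp (-t) * Real.exp (-t) ^ r := by
      ext1 r
      rw [← Real.exp_nat_mul, ← Real.exp_add]
      congr 1; ring
    rw [e2]
    exact h2
  have hF := (summable_F ht.le).hasSum
  have hz' : HasSum (fun r : ℕ => 1 / Real.sqrt ((r : ℝ) + 1) ^ 3) z := zsum.hasSum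
  have h2 := (((hF.mul_left ((A ^ 3)⁻¹ * (1 + 7 * (448 / β)))).add
    (hz'.mul_left (12 * (A ^ 2)⁻¹ * (Real.sqrt β / L)))).add
    (hz'.mul_left (6 * A⁻¹ * (β / (L : ℝ) ^ 2)))).add
    (hgeo.mul_left (Real.sqrt β ^ 3 / (L : ℝ) ^ 3))
  have h3 := hasSum_le (fun r => ?_) h1 h2
  · refine h3.trans ?_
    have e1 : (A ^ 3)⁻¹ * ∑' r : ℕ, Real.exp (-(((r : ℝ) + 1) * t)) /
        (((r : ℝ) + 1) * Real.sqrt ((r : ℝ) + 1) ^ 3) = FS ((n : ℝ) / 2) t := rfl
    have e2 : (A ^ 3)⁻¹ * (1 + 7 * (448 / β)) * ∑' r : ℕ, Real.exp (-(((r : ℝ) + 1) * t)) /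
        (((r : ℝ) + 1) * Real.sqrt ((r : ℝ) + 1) ^ 3) = FS ((n : ℝ) / 2) t +
        7 * 448 * FS ((n : ℝ) / 2) t * (1 / β) := by
      rw [← e1]; ring
    have e3 := FS_le ((n : ℝ) / 2) ht.le
    rw [haS] at e3
    have e4 : 7 * 448 * FS ((n : ℝ) / 2) t * (1 / β) ≤ 7 * 448 * ((A ^ 3)⁻¹ * z) * (1 / β) := by
      refine mul_le_mul_of_nonneg_right ?_ (by positivity)
      linarith
    have e5 : Real.sqrt β ^ 3 / (L : ℝ) ^ 3 * (1 / (Real.exp t - 1)) ≤
        Real.sqrt β ^ 3 / (L : ℝ) ^ 3 / t := by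
      rw [div_eq_mul_one_div _ t]
      refine mul_le_mul_of_nonneg_left ?_ (by positivity)
      refine one_div_le_one_div_of_le ht ?_
      linarith [Real.add_one_le_exp t]
    have p1 : 0 ≤ 12 * (A ^ 2)⁻¹ * z := by positivity
    have p2 : 0 ≤ 6 * A⁻¹ * z := by positivity
    have p3 : 0 ≤ 7 * 448 * ((A ^ 3)⁻¹ * z) := by positivity
    have q1 : 0 ≤ 1 / β := by positivity
    have q2 : 0 ≤ Real.sqrt β / L := by positivity
    have q3 : 0 ≤ β / (L : ℝ) ^ 2 := by positivity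
    rw [e2]
    nlinarith [mul_nonneg p1 q1, mul_nonneg p1 q3, mul_nonneg p2 q1, mul_nonneg p2 q2,
      mul_nonneg p3 q2, mul_nonneg p3 q3]
  · -- termwise
    have hr1 : (1 : ℝ) ≤ (r : ℝ) + 1 := by linarith [Nat.cast_nonneg (α := ℝ) r]
    have hsr : 0 < Real.sqrt ((r : ℝ) + 1) := Real.sqrt_pos.2 (by positivity)
    have hsr1 : 1 ≤ Real.sqrt ((r : ℝ) + 1) := by rw [Real.one_le_sqrt]; exact hr1
    have hsr2 : Real.sqrt ((r : ℝ) + 1) ^ 2 = (r : ℝ) + 1 := Real.sq_sqrt (by positivity)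
    have hsr3 : Real.sqrt ((r : ℝ) + 1) ^ 3 = ((r : ℝ) + 1) * Real.sqrt ((r : ℝ) + 1) := by
      calc Real.sqrt ((r : ℝ) + 1) ^ 3 = Real.sqrt ((r : ℝ) + 1) ^ 2 * Real.sqrt ((r : ℝ) + 1) := by
            ring
        _ = _ := by rw [hsr2]
    rw [mul_left_comm]
    have h4 := mul_le_mul_of_nonneg_left (order_bound hn hβ hL r)
      (a := Real.exp (-(((r : ℝ) + 1) * t)) / ((r : ℝ) + 1)) (by positivity)
    refine h4.trans ?_
    rw [← hA]
    have hE0 := Real.exp_pos (-(((r : ℝ) + 1) * t))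
    have hE1 := exp_le_one ht.le r
    set e := Real.exp (-(((r : ℝ) + 1) * t)) with he
    rw [mul_add, mul_add, mul_add]
    refine add_le_add (add_le_add (add_le_add ?_ ?_) ?_) ?_
    · apply le_of_eq
      field_simp
    · have : e / ((r : ℝ) + 1) * (12 * (A ^ 2)⁻¹ * (Real.sqrt β / L) *
          (1 / Real.sqrt ((r : ℝ) + 1) ^ 2)) = 12 * (A ^ 2)⁻¹ * (Real.sqrt β / L) *
          (e / (((r : ℝ) + 1) * Real.sqrt ((r : ℝ) + 1) ^ 2)) := by
        rw [← div_div]; ring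
      rw [this]
      refine mul_le_mul_of_nonneg_left ?_ (by positivity)
      refine div_le_div₀ (by norm_num) hE1 (by positivity) ?_
      rw [hsr2]
      rw [hsr3]
      refine mul_le_mul_of_nonneg_left ?_ (by positivity)
      nlinarith
    · have : e / ((r : ℝ) + 1) * (6 * A⁻¹ * (β / (L : ℝ) ^ 2) *
          (1 / Real.sqrt ((r : ℝ) + 1))) = 6 * A⁻¹ * (β / (L : ℝ) ^ 2) *
          (e / (((r : ℝ) + 1) * Real.sqrt ((r : ℝ) + 1))) := by
        rw [← div_div]; ring
      rw [this]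
      refine mul_le_mul_of_nonneg_left ?_ (by positivity)
      refine div_le_div₀ (by norm_num) hE1 (by positivity) ?_
      exact hsr3.le
    · rw [mul_comm]
      refine mul_le_mul_of_nonneg_left ?_ (by positivity)
      exact div_le_self hE0.le hr1

end Vale.Agent.P361.B
end

section

/-!
Part B, step D2: crude bound on the partition function of a cube.
-/

namespace Vale.Agent.P361.B

open Matrix Finset Filter Topology
open scoped ComplexOrder Kronecker

set_option linter.unusedSectionVars false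

section Ladder

variable {n : ℕ} {Λ : Finset Site}

/-- Total lowering operator. -/
noncomputable def jM (n : ℕ) (Λ : Finset Site) : Matrix (Λ → Fin (n + 1)) (Λ → Fin (n + 1)) ℂ :=
  ∑ x : Λ, H.oM n x

/-- Total raising operator. -/
noncomputable def jP (n : ℕ) (Λ : Finset Site) : Matrix (Λ → Fin (n + 1)) (Λ → Fin (n + 1)) ℂ :=
  ∑ x : Λ, H.oP n x

/-- Total number of lowered spins of a configuration. -/
def cntS (σ : Λ → Fin (n + 1)) : ℕ := ∑ x, (σ x : ℕ)

theorem siteOp_diagonal (x : Λ) (f : Fin (n + 1) → ℂ) :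
    siteOp x (diagonal f) = diagonal (fun σ : Λ → Fin (n + 1) => f (σ x)) := by
  ext σ τ
  refine (H.siteOp_apply x (diagonal f) σ τ).trans ?_
  by_cases h : σ = τ
  · subst h; simp
  · rw [Matrix.diagonal_apply_ne _ h]
    obtain ⟨y, hy⟩ := Function.ne_iff.1 h
    by_cases hyx : y = x
    · subst hyx
      rw [Matrix.diagonal_apply_ne f hy, zero_mul]
    · have h0 : ∏ y ∈ Finset.univ.erase x,
          (1 : Matrix (Fin (n + 1)) (Fin (n + 1)) ℂ) (σ y) (τ y) = 0 :=
        Finset.prod_eq_zero (i := y) (by simp [hyx]) (Matrix.one_apply_ne hy)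
      rw [h0, mul_zero]

/-- Local number operator. -/
noncomputable def eta (n : ℕ) {Λ : Finset Site} (x : Λ) :
    Matrix (Λ → Fin (n + 1)) (Λ → Fin (n + 1)) ℂ :=
  diagonal (fun σ : Λ → Fin (n + 1) => ((σ x : ℕ) : ℂ))

theorem eta_eq (x : Λ) : eta n x = ((n : ℂ) / 2) • (1 : Matrix _ _ ℂ) - H.oZ n x := by
  have h : ((n : ℂ) / 2) • (1 : Matrix (Λ → Fin (n + 1)) (Λ → Fin (n + 1)) ℂ) - H.oZ n x =
      siteOp x (((n : ℂ) / 2) • (1 : Matrix (Fin (n + 1)) (Fin (n + 1)) ℂ) - spinZ n) := by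
    rw [H.siteOp_sub, H.siteOp_smul, H.siteOp_one]
  rw [h, eta]
  have h2 : ((n : ℂ) / 2) • (1 : Matrix (Fin (n + 1)) (Fin (n + 1)) ℂ) - spinZ n =
      diagonal (fun j : Fin (n + 1) => ((j : ℕ) : ℂ)) := by
    rw [spinZ, ← Matrix.diagonal_one, ← Matrix.diagonal_smul, Matrix.diagonal_sub]
    congr 1
    ext j
    simp
  rw [h2, siteOp_diagonal]

theorem numOp_eq_sum : numOp n Λ = ∑ x : Λ, eta n x := by
  unfold numOp
  exact Finset.sum_congr rfl fun x _ => (eta_eq x).symm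

theorem numOp_eq_diagonal : numOp n Λ = diagonal (fun σ : Λ → Fin (n + 1) => ((cntS σ : ℕ) : ℂ)) := by
  rw [numOp_eq_sum]
  ext σ τ
  rw [Matrix.sum_apply]
  by_cases h : σ = τ
  · subst h
    simp [eta, cntS]
  · simp [eta, h]

theorem jM_eq_mode : jM n Λ = H.modeOp n (fun _ : Λ => (1 : ℂ)) := by
  simp [jM, H.modeOp]

theorem jM_conj : (jM n Λ)ᴴ = jP n Λ := by
  rw [jM, Matrix.conjTranspose_sum]
  exact Finset.sum_congr rfl fun x _ => H.oM_conj x

theorem mag_eq_num : magnetization n Λ = ((n : ℂ) / 2 * (Λ.card : ℂ)) •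
    (1 : Matrix (Λ → Fin (n + 1)) (Λ → Fin (n + 1)) ℂ) - numOp n Λ := by
  rw [H.magnetization_eq, numOp, Finset.sum_sub_distrib, Finset.sum_const, Finset.card_univ,
    Fintype.card_coe]
  rw [← Nat.cast_smul_eq_nsmul ℂ, smul_smul, mul_comm ((n : ℂ) / 2)]
  abel

theorem num_jM : numOp n Λ * jM n Λ = jM n Λ * numOp n Λ + jM n Λ := by
  have h := H.comm_mag_mode (n := n) (Λ := Λ) (fun _ => 1)
  rw [← jM_eq_mode, mag_eq_num] at h
  simp only [sub_mul, mul_sub, smul_mul_assoc, mul_smul_comm, Matrix.one_mul, Matrix.mul_one] at h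
  rw [sub_eq_iff_eq_add] at h
  have h2 : numOp n Λ * jM n Λ = ((n : ℂ) / 2 * (Λ.card : ℂ)) • jM n Λ -
      (((n : ℂ) / 2 * (Λ.card : ℂ)) • jM n Λ - numOp n Λ * jM n Λ) := by abel
  rw [h2, h]
  abel

theorem jP_jM : jP n Λ * jM n Λ = jM n Λ * jP n Λ + (((n * Λ.card : ℕ) : ℂ) •
    (1 : Matrix (Λ → Fin (n + 1)) (Λ → Fin (n + 1)) ℂ) - (2 : ℂ) • numOp n Λ) := by
  have h := H.comm_mode_mode (n := n) (Λ := Λ) (fun _ => 1)
  rw [← jM_eq_mode, jM_conj] at h
  rw [sub_eq_iff_eq_add] at h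
  rw [h]
  have h2 : ∑ x : Λ, ((2 * Complex.normSq 1 : ℝ) : ℂ) • H.oZ n x =
      (2 : ℂ) • magnetization n Λ := by
    rw [H.magnetization_eq, Finset.smul_sum]
    simp
  rw [h2, mag_eq_num]
  push_cast
  module

/-- `∑_{x ≠ y} (S² - S_x·S_y)`. -/
noncomputable def casX (n : ℕ) (Λ : Finset Site) :
    Matrix (Λ → Fin (n + 1)) (Λ → Fin (n + 1)) ℂ :=
  ∑ x : Λ, ∑ y : Λ, if x = y then 0 else
    ((((n : ℂ) / 2) ^ 2) • (1 : Matrix _ _ ℂ) - H.dotOp n x y)

theorem lower_raise_eta (x : Λ) : H.oM n x * H.oP n x =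
    ((n : ℂ) + 1) • eta n x - eta n x * eta n x := by
  rw [H.siteOp_mul, H.lower_raise, siteOp_diagonal, eta, Matrix.diagonal_mul_diagonal,
    ← Matrix.diagonal_smul, Matrix.diagonal_sub]
  congr 1
  ext σ
  simp
  ring

theorem pair_eta {x y : Λ} :
    ((((n : ℂ) / 2) ^ 2) • (1 : Matrix (Λ → Fin (n + 1)) (Λ → Fin (n + 1)) ℂ) - H.dotOp n x y) =
      ((n : ℂ) / 2) • (eta n x + eta n y) - eta n x * eta n y -
        (1 / 2 : ℂ) • (H.oP n x * H.oM n y + H.oM n x * H.oP n y) := by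
  have hz : ∀ z : Λ, H.oZ n z = ((n : ℂ) / 2) • (1 : Matrix _ _ ℂ) - eta n z := by
    intro z; rw [eta_eq]; abel
  rw [H.dotOp_eq, hz x, hz y]
  simp only [sub_mul, mul_sub, smul_mul_assoc, mul_smul_comm, Matrix.one_mul, Matrix.mul_one]
  module

theorem casX_eq : casX n Λ = numOp n Λ * ((((n * Λ.card : ℕ) : ℂ) + 1) • (1 : Matrix _ _ ℂ)
    - numOp n Λ) - jM n Λ * jP n Λ := by
  have e0 : casX n Λ = ∑ x : Λ, ∑ y : Λ, if x = y then 0 else
      (((n : ℂ) / 2) • (eta n x + eta n y) - eta n x * eta n y -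
        (1 / 2 : ℂ) • (H.oM n y * H.oP n x + H.oM n x * H.oP n y)) := by
    unfold casX
    refine Finset.sum_congr rfl fun x _ => Finset.sum_congr rfl fun y _ => ?_
    split_ifs with h
    · rfl
    · rw [pair_eta, H.siteOp_comm h (spinLower n)ᴴ (spinLower n)]
  have e1 : ∀ x y : Λ, (if x = y then 0 else
      (((n : ℂ) / 2) • (eta n x + eta n y) - eta n x * eta n y -
        (1 / 2 : ℂ) • (H.oM n y * H.oP n x + H.oM n x * H.oP n y))) =
      (((n : ℂ) / 2) • (eta n x + eta n y) - eta n x * eta n y -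
        (1 / 2 : ℂ) • (H.oM n y * H.oP n x + H.oM n x * H.oP n y)) -
      (if x = y then ((n : ℂ) • eta n x - eta n x * eta n x - H.oM n x * H.oP n x) else 0) := by
    intro x y
    split_ifs with h
    · subst h
      module
    · rw [sub_zero]
  rw [e0, Finset.sum_congr rfl fun x _ => Finset.sum_congr rfl fun y _ => e1 x y]
  simp only [Finset.sum_sub_distrib, Finset.sum_ite_eq, Finset.mem_univ, if_true,
    lower_raise_eta, smul_add, Finset.sum_add_distrib, Finset.sum_const, Finset.card_univ,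
    Fintype.card_coe, ← Finset.smul_sum, ← numOp_eq_sum]
  have e2 : ∑ x : Λ, ∑ y : Λ, eta n x * eta n y = numOp n Λ * numOp n Λ := by
    rw [numOp_eq_sum, Finset.sum_mul_sum]
  have e3 : ∑ x : Λ, ∑ y : Λ, H.oM n x * H.oP n y = jM n Λ * jP n Λ := by
    rw [jM, jP, Finset.sum_mul_sum]
  have e4 : ∑ x : Λ, ∑ y : Λ, H.oM n y * H.oP n x = jM n Λ * jP n Λ := by
    rw [Finset.sum_comm, e3]
  rw [e2, e3, e4]
  simp only [← Nat.cast_smul_eq_nsmul ℂ]
  rw [Matrix.mul_sub, Matrix.mul_smul, Matrix.mul_one]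
  push_cast
  module

theorem casX_eq' : casX n Λ = (numOp n Λ + 1) * (((n * Λ.card : ℕ) : ℂ) • (1 : Matrix _ _ ℂ)
    - numOp n Λ) - jP n Λ * jM n Λ := by
  rw [jP_jM, casX_eq]
  simp only [Matrix.mul_sub, Matrix.add_mul, Matrix.mul_smul, Matrix.mul_one, Matrix.one_mul]
  module

theorem casX_comm_jM : casX n Λ * jM n Λ = jM n Λ * casX n Λ := by
  have h1 := num_jM (n := n) (Λ := Λ)
  have h2 : casX n Λ * jM n Λ = numOp n Λ * ((((n * Λ.card : ℕ) : ℂ) + 1) • (1 : Matrix _ _ ℂ)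
    - numOp n Λ) * jM n Λ - jM n Λ * jP n Λ * jM n Λ := by
    rw [casX_eq, Matrix.sub_mul]
  have h3 : jM n Λ * casX n Λ = jM n Λ * ((numOp n Λ + 1) * (((n * Λ.card : ℕ) : ℂ) •
      (1 : Matrix _ _ ℂ) - numOp n Λ)) - jM n Λ * jP n Λ * jM n Λ := by
    rw [casX_eq', Matrix.mul_sub, Matrix.mul_assoc]
  rw [h2, h3]
  congr 1
  have h4 : ((((n * Λ.card : ℕ) : ℂ) + 1) • (1 : Matrix _ _ ℂ) - numOp n Λ) * jM n Λ =
      jM n Λ * (((n * Λ.card : ℕ) : ℂ) • (1 : Matrix _ _ ℂ) - numOp n Λ) := by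
    rw [Matrix.sub_mul, h1]
    simp only [Matrix.mul_sub, Matrix.smul_mul, Matrix.mul_smul, Matrix.mul_one, Matrix.one_mul]
    module
  rw [Matrix.mul_assoc, h4, ← Matrix.mul_assoc, h1]
  simp only [Matrix.mul_sub, Matrix.add_mul, Matrix.mul_add, Matrix.mul_smul, Matrix.mul_one,
    Matrix.one_mul, Matrix.mul_assoc]

end Ladder

section Sectors

variable {n : ℕ} {Λ : Finset Site}

/-- Projection on the sector with `j` lowered spins. -/
noncomputable def pj (n : ℕ) (Λ : Finset Site) (j : ℕ) :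
    Matrix (Λ → Fin (n + 1)) (Λ → Fin (n + 1)) ℂ :=
  diagonal (fun σ : Λ → Fin (n + 1) => if cntS σ = j then 1 else 0)

theorem pj_num (j : ℕ) : pj n Λ j * numOp n Λ = (j : ℂ) • pj n Λ j := by
  rw [pj, numOp_eq_diagonal, Matrix.diagonal_mul_diagonal, ← Matrix.diagonal_smul]
  congr 1
  ext σ
  simp only [Pi.smul_apply, smul_eq_mul]
  split_ifs with h
  · rw [h]; ring
  · simp

theorem jM_apply_ne {σ τ : Λ → Fin (n + 1)} (h : jM n Λ σ τ ≠ 0) : cntS σ = cntS τ + 1 := by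
  have h1 := num_jM (n := n) (Λ := Λ)
  rw [numOp_eq_diagonal] at h1
  have h2 := congrFun (congrFun h1 σ) τ
  rw [Matrix.diagonal_mul, Matrix.add_apply, Matrix.mul_diagonal] at h2
  have h3 : (((cntS σ : ℕ) : ℂ) - ((cntS τ : ℕ) : ℂ) - 1) * jM n Λ σ τ = 0 := by
    linear_combination h2
  rcases mul_eq_zero.1 h3 with h4 | h4
  · have h5 : ((cntS σ : ℕ) : ℂ) = ((cntS τ + 1 : ℕ) : ℂ) := by
      push_cast; linear_combination h4
    exact_mod_cast h5
  · exact absurd h4 h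

theorem pj_jM (j : ℕ) : pj n Λ (j + 1) * jM n Λ = jM n Λ * pj n Λ j := by
  ext σ τ
  rw [pj, pj, Matrix.diagonal_mul, Matrix.mul_diagonal]
  by_cases h : jM n Λ σ τ = 0
  · rw [h]; simp
  · have h1 := jM_apply_ne h
    by_cases h2 : cntS τ = j
    · rw [if_pos (by omega), if_pos h2]; ring
    · rw [if_neg (by omega), if_neg h2]; ring

theorem p0_jM : pj n Λ 0 * jM n Λ = 0 := by
  ext σ τ
  rw [pj, Matrix.diagonal_mul, Matrix.zero_apply]
  by_cases h : jM n Λ σ τ = 0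
  · rw [h]; simp
  · have h1 := jM_apply_ne h
    rw [if_neg (by omega)]; ring

theorem pj_casX_succ (j : ℕ) : pj n Λ (j + 1) * casX n Λ =
    (((j : ℂ) + 1) * ((n * Λ.card : ℕ) - (j : ℂ))) • pj n Λ (j + 1) -
      jM n Λ * pj n Λ j * jP n Λ := by
  rw [casX_eq, Matrix.mul_sub, ← Matrix.mul_assoc, pj_num, Matrix.smul_mul, Matrix.mul_sub,
    Matrix.mul_smul, Matrix.mul_one, pj_num, ← Matrix.mul_assoc, pj_jM]
  push_cast
  module

theorem pj_casX (j : ℕ) : pj n Λ j * casX n Λ =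
    (((j : ℂ) + 1) * ((n * Λ.card : ℕ) - (j : ℂ))) • pj n Λ j -
      pj n Λ j * (jP n Λ * jM n Λ) := by
  rw [casX_eq', Matrix.mul_sub, ← Matrix.mul_assoc (pj n Λ j) (numOp n Λ + 1), Matrix.mul_add,
    pj_num, Matrix.mul_one, Matrix.add_mul, Matrix.smul_mul, Matrix.mul_sub,
    Matrix.mul_smul, Matrix.mul_one, pj_num]
  push_cast
  module

theorem p0_casX : pj n Λ 0 * casX n Λ = 0 := by
  rw [casX_eq, Matrix.mul_sub, ← Matrix.mul_assoc, pj_num, ← Matrix.mul_assoc, p0_jM]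
  simp

theorem casX_pow_comm (k : ℕ) : casX n Λ ^ k * jM n Λ = jM n Λ * casX n Λ ^ k := by
  induction k with
  | zero => simp
  | succ k ih => rw [pow_succ, Matrix.mul_assoc, casX_comm_jM, ← Matrix.mul_assoc, ih,
      Matrix.mul_assoc]

theorem trace_move {m : Type*} [Fintype m] [DecidableEq m] (A P B Y : Matrix m m ℂ)
    (h : Y * A = A * Y) : trace (A * P * B * Y) = trace (P * (B * A) * Y) := by
  calc trace (A * P * B * Y) = trace (A * (P * B * Y)) := by simp only [Matrix.mul_assoc]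
    _ = trace (P * B * Y * A) := Matrix.trace_mul_comm _ _
    _ = trace (P * B * (Y * A)) := by simp only [Matrix.mul_assoc]
    _ = trace (P * B * (A * Y)) := by rw [h]
    _ = trace (P * (B * A) * Y) := by simp only [Matrix.mul_assoc]

theorem trace_step {m : Type*} [Fintype m] [DecidableEq m] (P X R : Matrix m m ℂ) (c : ℂ)
    (h : P * X = c • P - R) (k : ℕ) :
    trace (P * X ^ (k + 1)) = c * trace (P * X ^ k) - trace (R * X ^ k) := by
  rw [pow_succ', ← Matrix.mul_assoc, h, Matrix.sub_mul, Matrix.trace_sub,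
      Matrix.smul_mul, Matrix.trace_smul, smul_eq_mul]

/-- Trace recursion. -/
theorem trace_pj_pow_succ (j k : ℕ) :
    trace (pj n Λ (j + 1) * casX n Λ ^ (k + 1)) - trace (pj n Λ j * casX n Λ ^ (k + 1)) =
      (((j : ℂ) + 1) * ((n * Λ.card : ℕ) - (j : ℂ))) *
      (trace (pj n Λ (j + 1) * casX n Λ ^ k) - trace (pj n Λ j * casX n Λ ^ k)) := by
  have h1 := trace_step _ _ _ _ (pj_casX_succ (n := n) (Λ := Λ) j) k
  have h2 := trace_step _ _ _ _ (pj_casX (n := n) (Λ := Λ) j) k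
  rw [trace_move _ _ _ _ (casX_pow_comm k)] at h1
  rw [h1, h2]
  ring

theorem trace_pj_pow (j k : ℕ) :
    trace (pj n Λ (j + 1) * casX n Λ ^ k) - trace (pj n Λ j * casX n Λ ^ k) =
      (((j : ℂ) + 1) * ((n * Λ.card : ℕ) - (j : ℂ))) ^ k *
      (trace (pj n Λ (j + 1)) - trace (pj n Λ j)) := by
  induction k with
  | zero => simp
  | succ k ih => rw [trace_pj_pow_succ, ih, pow_succ]; ring

theorem hasSum_trace_exp (P X : Matrix (Λ → Fin (n + 1)) (Λ → Fin (n + 1)) ℂ) (a : ℂ) :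
    HasSum (fun k : ℕ => ((k.factorial : ℂ)⁻¹) * (a ^ k * trace (P * X ^ k)))
      (trace (P * NormedSpace.exp (a • X))) := by
  have hs : HasSum (fun k : ℕ => ((k.factorial : ℂ)⁻¹) • (a • X) ^ k)
      (NormedSpace.exp (a • X)) := by
    open scoped Matrix.Norms.Operator in
    exact NormedSpace.exp_series_hasSum_exp' (𝕂 := ℂ) (a • X)
  have hcont : Continuous fun M : Matrix (Λ → Fin (n + 1)) (Λ → Fin (n + 1)) ℂ =>
      trace (P * M) := (continuous_const.matrix_mul continuous_id).matrix_trace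
  have h := hs.map (AddMonoidHom.mk' (fun M : Matrix (Λ → Fin (n + 1)) (Λ → Fin (n + 1)) ℂ =>
    trace (P * M)) (fun A B => by rw [Matrix.mul_add, Matrix.trace_add])) hcont
  have e : ((AddMonoidHom.mk' (fun M : Matrix (Λ → Fin (n + 1)) (Λ → Fin (n + 1)) ℂ =>
      trace (P * M)) (fun A B => by rw [Matrix.mul_add, Matrix.trace_add])) ∘
      fun k : ℕ => ((k.factorial : ℂ)⁻¹) • (a • X) ^ k) =
      fun k : ℕ => ((k.factorial : ℂ)⁻¹) * (a ^ k * trace (P * X ^ k)) := by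
    ext1 k
    simp only [Function.comp, AddMonoidHom.mk'_apply, smul_pow]
    rw [Matrix.mul_smul, Matrix.mul_smul, Matrix.trace_smul, Matrix.trace_smul, smul_eq_mul,
      smul_eq_mul]
  rw [e] at h
  exact h

theorem hasSum_congr_fun {f g : ℕ → ℂ} {a : ℂ} (h : HasSum f a) (hfg : ∀ k, f k = g k) :
    HasSum g a := by
  rwa [show g = f from funext fun k => (hfg k).symm]

theorem trace_pj_exp (j : ℕ) (a : ℂ) :
    trace (pj n Λ (j + 1) * NormedSpace.exp (a • casX n Λ)) -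
      trace (pj n Λ j * NormedSpace.exp (a • casX n Λ)) =
      Complex.exp (a * (((j : ℂ) + 1) * ((n * Λ.card : ℕ) - (j : ℂ)))) *
      (trace (pj n Λ (j + 1)) - trace (pj n Λ j)) := by
  have h1 := (hasSum_trace_exp (pj n Λ (j + 1)) (casX n Λ) a).sub
    (hasSum_trace_exp (pj n Λ j) (casX n Λ) a)
  have h2 : HasSum (fun k : ℕ => ((k.factorial : ℂ)⁻¹) *
      ((a * (((j : ℂ) + 1) * ((n * Λ.card : ℕ) - (j : ℂ)))) ^ k))
      (Complex.exp (a * (((j : ℂ) + 1) * ((n * Λ.card : ℕ) - (j : ℂ))))) := by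
    rw [Complex.exp_eq_exp_ℂ]
    have := NormedSpace.exp_series_hasSum_exp' (𝕂 := ℂ)
      (a * (((j : ℂ) + 1) * ((n * Λ.card : ℕ) - (j : ℂ))))
    simpa only [smul_eq_mul] using this
  have h3 := h2.mul_right (trace (pj n Λ (j + 1)) - trace (pj n Λ j))
  refine h1.unique ?_
  refine hasSum_congr_fun h3 ?_
  intro k
  have h4 := trace_pj_pow (n := n) (Λ := Λ) j k
  rw [mul_pow]
  linear_combination (-((k.factorial : ℂ)⁻¹ * a ^ k)) * h4

theorem trace_p0_exp (a : ℂ) :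
    trace (pj n Λ 0 * NormedSpace.exp (a • casX n Λ)) = trace (pj n Λ 0) := by
  have h1 := hasSum_trace_exp (pj n Λ 0) (casX n Λ) a
  have h2 : HasSum (fun k : ℕ => ((k.factorial : ℂ)⁻¹) * (a ^ k *
      trace (pj n Λ 0 * casX n Λ ^ k))) (trace (pj n Λ 0)) := by
    have h3 := hasSum_single (f := fun k : ℕ => ((k.factorial : ℂ)⁻¹) * (a ^ k *
      trace (pj n Λ 0 * casX n Λ ^ k))) 0 (fun k hk => by
        obtain ⟨k', rfl⟩ := Nat.exists_eq_succ_of_ne_zero hk
        simp only [Nat.succ_eq_add_one]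
        rw [pow_succ' (casX n Λ), ← Matrix.mul_assoc, p0_casX]
        simp)
    simpa using h3
  exact h1.unique h2

/-- Dimension of the sector. -/
def dimS (n : ℕ) (Λ : Finset Site) (j : ℕ) : ℕ :=
  (Finset.univ.filter fun σ : Λ → Fin (n + 1) => cntS σ = j).card

theorem trace_pj (j : ℕ) : trace (pj n Λ j) = (dimS n Λ j : ℂ) := by
  rw [pj, Matrix.trace_diagonal, dimS, Finset.card_filter]
  push_cast
  rfl

/-- Eigenvalue `c_j = j (2S|Λ| + 1 - j)`. -/
noncomputable def cj (n : ℕ) (Λ : Finset Site) (j : ℕ) : ℝ :=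
  (j : ℝ) * ((n : ℝ) * Λ.card + 1 - j)

theorem trace_pj_exp_le (j : ℕ) (s : ℝ) :
    (trace (pj n Λ j * NormedSpace.exp (((-s : ℝ) : ℂ) • casX n Λ))).re ≤
      ∑ i ∈ Finset.range (j + 1), Real.exp (-s * cj n Λ i) * dimS n Λ i := by
  induction j with
  | zero =>
    rw [trace_p0_exp, trace_pj]
    simp [cj]
  | succ j ih =>
    rw [Finset.sum_range_succ]
    have h := congrArg Complex.re (trace_pj_exp (n := n) (Λ := Λ) j ((-s : ℝ) : ℂ))
    rw [Complex.sub_re] at h
    have e1 : Complex.exp (((-s : ℝ) : ℂ) * (((j : ℂ) + 1) * ((n * Λ.card : ℕ) - (j : ℂ)))) =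
        ((Real.exp (-s * cj n Λ (j + 1)) : ℝ) : ℂ) := by
      rw [Complex.ofReal_exp]
      congr 1
      unfold cj
      push_cast
      ring
    rw [e1, trace_pj, trace_pj] at h
    have e2 : (((Real.exp (-s * cj n Λ (j + 1)) : ℝ) : ℂ) *
        ((dimS n Λ (j + 1) : ℂ) - (dimS n Λ j : ℂ))).re =
        Real.exp (-s * cj n Λ (j + 1)) * ((dimS n Λ (j + 1) : ℝ) - (dimS n Λ j : ℝ)) := by
      rw [Complex.re_ofReal_mul]
      simp
    rw [e2] at h
    have h3 : 0 ≤ Real.exp (-s * cj n Λ (j + 1)) * (dimS n Λ j : ℝ) := by positivity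
    linarith

theorem cntS_le (σ : Λ → Fin (n + 1)) : cntS σ ≤ n * Λ.card := by
  unfold cntS
  calc ∑ x, (σ x : ℕ) ≤ ∑ _x : Λ, n := Finset.sum_le_sum fun x _ => Nat.lt_succ_iff.1 (σ x).2
    _ = n * Λ.card := by simp [mul_comm]

theorem sum_pj : ∑ j ∈ Finset.range (n * Λ.card + 1), pj n Λ j = 1 := by
  ext σ τ
  rw [Matrix.sum_apply]
  by_cases h : σ = τ
  · subst h
    simp only [pj, Matrix.diagonal_apply_eq, Matrix.one_apply_eq]
    rw [Finset.sum_ite_eq, if_pos]
    rw [Finset.mem_range]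
    have := cntS_le σ
    omega
  · simp [pj, h]

theorem sum_dim_eq (f : ℕ → ℝ) {K : ℕ} (hK : n * Λ.card ≤ K) :
    ∑ i ∈ Finset.range (K + 1), f i * dimS n Λ i =
      ∑ σ : Λ → Fin (n + 1), f (cntS σ) := by
  have h1 : ∀ i, f i * dimS n Λ i = ∑ σ : Λ → Fin (n + 1), if cntS σ = i then f i else 0 := by
    intro i
    rw [dimS, ← Finset.sum_filter, Finset.sum_const, nsmul_eq_mul, mul_comm]
  simp only [h1]
  rw [Finset.sum_comm]
  refine Finset.sum_congr rfl fun σ _ => ?_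
  rw [Finset.sum_ite_eq, if_pos]
  rw [Finset.mem_range]
  have := cntS_le σ
  omega

theorem trace_exp_casX_le (s : ℝ) :
    (trace (NormedSpace.exp (((-s : ℝ) : ℂ) • casX n Λ))).re ≤
      ((n : ℝ) * Λ.card + 1) * ∑ σ : Λ → Fin (n + 1), Real.exp (-s * cj n Λ (cntS σ)) := by
  have h1 : (trace (NormedSpace.exp (((-s : ℝ) : ℂ) • casX n Λ))).re =
      ∑ j ∈ Finset.range (n * Λ.card + 1),
        (trace (pj n Λ j * NormedSpace.exp (((-s : ℝ) : ℂ) • casX n Λ))).re := by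
    rw [← Complex.re_sum, ← Matrix.trace_sum, ← Finset.sum_mul, sum_pj, Matrix.one_mul]
  rw [h1]
  calc ∑ j ∈ Finset.range (n * Λ.card + 1),
        (trace (pj n Λ j * NormedSpace.exp (((-s : ℝ) : ℂ) • casX n Λ))).re ≤
      ∑ _j ∈ Finset.range (n * Λ.card + 1),
        ∑ σ : Λ → Fin (n + 1), Real.exp (-s * cj n Λ (cntS σ)) := by
        refine Finset.sum_le_sum fun j hj => (trace_pj_exp_le j s).trans ?_
        rw [← sum_dim_eq (fun i => Real.exp (-s * cj n Λ i)) le_rfl]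
        refine Finset.sum_le_sum_of_subset_of_nonneg ?_ fun i _ _ => by positivity
        intro i hi
        rw [Finset.mem_range] at hi hj ⊢
        omega
    _ = _ := by
        rw [Finset.sum_const, Finset.card_range, nsmul_eq_mul]
        push_cast
        rfl

/-- Bound of the configuration sum by a product. -/
theorem sum_exp_cj_le {s : ℝ} (hs : 0 ≤ s) {z : ℝ}
    (hz : z = Real.exp (-s * ((n : ℝ) * Λ.card / 2))) :
    ∑ σ : Λ → Fin (n + 1), Real.exp (-s * cj n Λ (cntS σ)) ≤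
      2 * (∑ j ∈ Finset.range (n + 1), z ^ j) ^ Λ.card := by
  have hz0 : 0 < z := by rw [hz]; exact Real.exp_pos _
  have hprod : ∑ σ : Λ → Fin (n + 1), z ^ (cntS σ) = (∑ j ∈ Finset.range (n + 1), z ^ j) ^ Λ.card := by
    have h1 : ∀ σ : Λ → Fin (n + 1), z ^ (cntS σ) = ∏ x, z ^ ((σ x : Fin (n + 1)) : ℕ) := by
      intro σ
      rw [cntS, Finset.prod_pow_eq_pow_sum]
    simp only [h1]
    rw [Finset.sum_range (fun j => z ^ j)]
    have h2 := Finset.prod_univ_sum (fun _ : Λ => (Finset.univ : Finset (Fin (n + 1))))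
      (fun (_ : Λ) (j : Fin (n + 1)) => z ^ (j : ℕ))
    rw [Fintype.piFinset_univ, Finset.prod_const, Finset.card_univ, Fintype.card_coe] at h2
    exact h2.symm
  have hrev : ∑ σ : Λ → Fin (n + 1), z ^ (n * Λ.card - cntS σ) =
      ∑ σ : Λ → Fin (n + 1), z ^ (cntS σ) := by
    rw [← Equiv.sum_comp (Equiv.arrowCongr (Equiv.refl Λ) (Fin.revPerm (n := n + 1)))
      (fun σ => z ^ (cntS σ))]
    refine Finset.sum_congr rfl fun σ _ => ?_
    congr 1
    have h3 : cntS (Equiv.arrowCongr (Equiv.refl Λ) (Fin.revPerm (n := n + 1)) σ) + cntS σ =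
        n * Λ.card := by
      unfold cntS
      rw [← Finset.sum_add_distrib]
      have : ∀ x : Λ, ((Equiv.arrowCongr (Equiv.refl Λ) (Fin.revPerm (n := n + 1)) σ x :
          Fin (n + 1)) : ℕ) + (σ x : ℕ) = n := by
        intro x
        have h4 : Equiv.arrowCongr (Equiv.refl Λ) (Fin.revPerm (n := n + 1)) σ x =
          Fin.rev (σ x) := rfl
        rw [h4, Fin.val_rev]
        have := (σ x).2
        omega
      simp only [this]
      simp [mul_comm]
    omega
  calc ∑ σ : Λ → Fin (n + 1), Real.exp (-s * cj n Λ (cntS σ)) ≤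
      ∑ σ : Λ → Fin (n + 1), (z ^ (cntS σ) + z ^ (n * Λ.card - cntS σ)) := by
        refine Finset.sum_le_sum fun σ _ => ?_
        have hk := cntS_le σ
        generalize cntS σ = k at hk
        have hkR : (k : ℝ) ≤ (n : ℝ) * Λ.card := by exact_mod_cast hk
        have hk0 : (0 : ℝ) ≤ k := Nat.cast_nonneg k
        rcases le_total (2 * (k : ℝ)) ((n : ℝ) * Λ.card) with h | h
        · refine le_trans ?_ (le_add_of_nonneg_right (by positivity))
          rw [hz, ← Real.exp_nat_mul, Real.exp_le_exp]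
          unfold cj
          have h5 : (k : ℝ) * ((n : ℝ) * Λ.card / 2) ≤ (k : ℝ) * ((n : ℝ) * Λ.card + 1 - k) :=
            mul_le_mul_of_nonneg_left (by linarith) hk0
          nlinarith
        · refine le_trans ?_ (le_add_of_nonneg_left (by positivity))
          rw [hz, ← Real.exp_nat_mul, Real.exp_le_exp]
          unfold cj
          rw [Nat.cast_sub hk]
          push_cast
          have h5 : ((n : ℝ) * Λ.card - k) * ((n : ℝ) * Λ.card / 2) ≤
              (k : ℝ) * ((n : ℝ) * Λ.card + 1 - k) := by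
            have h6 : ((n : ℝ) * Λ.card - k) * ((n : ℝ) * Λ.card / 2) ≤
                ((n : ℝ) * Λ.card - k) * k :=
              mul_le_mul_of_nonneg_left (by linarith) (by linarith)
            nlinarith
          nlinarith
    _ = _ := by
        rw [Finset.sum_add_distrib, hrev, hprod]
        ring

end Sectors

end Vale.Agent.P361.B
end

section

/-!
Path comparison in the cube: for a pseudo-metric on the sites of the cube, the sum of squared
distances over all pairs is at most `3 L⁵` times the sum over edges.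
-/

namespace Vale.Agent.P361.B

open Finset

/-- The site with coordinates `a, b, c`. -/
def st (a b c : ℕ) : Site := ![(a : ℤ), (b : ℤ), (c : ℤ)]

theorem mem_cube' {L : ℕ} {x : Site} : x ∈ cube L ↔ ∀ i, 0 ≤ x i ∧ x i < L := by
  simp [cube, Fintype.mem_piFinset]

theorem st_mem {L a b c : ℕ} : st a b c ∈ cube L ↔ a < L ∧ b < L ∧ c < L := by
  rw [mem_cube']
  constructor
  · intro h
    have h0 := h 0
    have h1 := h 1
    have h2 := h 2
    simp only [st, Matrix.cons_val_zero, Matrix.cons_val_one, Matrix.cons_val] at h0 h1 h2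
    omega
  · rintro ⟨h0, h1, h2⟩ i
    fin_cases i <;> simp [st] <;> omega

theorem sum_cube (L : ℕ) (f : Site → ℝ) : ∑ x ∈ cube L, f x =
    ∑ a ∈ range L, ∑ b ∈ range L, ∑ c ∈ range L, f (st a b c) := by
  have h1 : ∑ a ∈ range L, ∑ b ∈ range L, ∑ c ∈ range L, f (st a b c) =
      ∑ p ∈ range L ×ˢ range L ×ˢ range L, f (st p.1 p.2.1 p.2.2) := by
    rw [Finset.sum_product]
    refine Finset.sum_congr rfl fun a _ => ?_
    rw [Finset.sum_product]
  rw [h1]
  refine Finset.sum_bij' (fun x _ => ((x 0).toNat, (x 1).toNat, (x 2).toNat))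
    (fun p _ => st p.1 p.2.1 p.2.2) ?_ ?_ ?_ ?_ ?_
  · intro x hx
    rw [mem_cube'] at hx
    have h0 := hx 0
    have h1 := hx 1
    have h2 := hx 2
    simp only [Finset.mem_product, Finset.mem_range]
    omega
  · intro p hp
    simp only [Finset.mem_product, Finset.mem_range] at hp
    rw [st_mem]
    exact hp
  · intro x hx
    rw [mem_cube'] at hx
    have h0 := hx 0
    have h1 := hx 1
    have h2 := hx 2
    ext i
    fin_cases i <;> simp [st] <;> omega
  · intro p hp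
    simp [st]
  · intro x hx
    rw [mem_cube'] at hx
    have h0 := hx 0
    have h1 := hx 1
    have h2 := hx 2
    congr 1
    ext i
    fin_cases i <;> simp [st] <;> omega

theorem line_bound {L : ℕ} {ρ : ℕ → ℕ → ℝ} (h0 : ∀ a, a < L → ρ a a = 0)
    (hs : ∀ a b, a < L → b < L → ρ a b = ρ b a) (hn : ∀ a b, 0 ≤ ρ a b)
    (ht : ∀ a b c, a < L → b < L → c < L → ρ a c ≤ ρ a b + ρ b c)
    {a b : ℕ} (ha : a < L) (hb : b < L) :
    ρ a b ^ 2 ≤ L * ∑ k ∈ range (L - 1), ρ k (k + 1) ^ 2 := by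
  have key : ∀ m a : ℕ, a + m < L → ρ a (a + m) ≤ ∑ k ∈ range (a + m), ρ k (k + 1) := by
    intro m
    induction m with
    | zero =>
      intro a ha
      rw [add_zero, h0 a (by omega)]
      exact Finset.sum_nonneg fun _ _ => hn _ _
    | succ m ih =>
      intro a ha
      have h1 := ht a (a + m) (a + (m + 1)) (by omega) (by omega) ha
      have h2 := ih a (by omega)
      rw [← add_assoc, Finset.sum_range_succ]
      rw [← add_assoc] at h1
      linarith
  have key2 : ∀ a b : ℕ, a ≤ b → b < L → ρ a b ≤ ∑ k ∈ range (L - 1), ρ k (k + 1) := by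
    intro a b hab hb
    obtain ⟨m, rfl⟩ := Nat.exists_eq_add_of_le hab
    refine (key m a hb).trans ?_
    refine Finset.sum_le_sum_of_subset_of_nonneg ?_ fun _ _ _ => hn _ _
    intro k hk
    rw [Finset.mem_range] at hk ⊢
    omega
  have key3 : ρ a b ≤ ∑ k ∈ range (L - 1), ρ k (k + 1) := by
    rcases le_total a b with h | h
    · exact key2 a b h hb
    · rw [hs a b ha hb]
      exact key2 b a h ha
  have h1 : ρ a b ^ 2 ≤ (∑ k ∈ range (L - 1), ρ k (k + 1)) ^ 2 :=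
    pow_le_pow_left₀ (hn _ _) key3 2
  have h2 := sq_sum_le_card_mul_sum_sq (s := range (L - 1)) (f := fun k => ρ k (k + 1))
  rw [Finset.card_range] at h2
  refine h1.trans (h2.trans ?_)
  refine mul_le_mul_of_nonneg_right ?_ (Finset.sum_nonneg fun _ _ => sq_nonneg _)
  exact_mod_cast Nat.sub_le L 1

theorem nn_sum_split (L : ℕ) (F : Site → Site → ℝ) (hF : ∀ x y, F x y = F y x) :
    ∑ x ∈ cube L, ∑ y ∈ cube L, (if IsNN x y then F x y else 0) =
      2 * ∑ j : Fin 3, ∑ x ∈ cube L,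
        (if x + H.dir (j, true) ∈ cube L then F x (x + H.dir (j, true)) else 0) := by
  have h1 : ∀ x y : Site, (if IsNN x y then F x y else 0) =
      ∑ p : Fin 3 × Bool, if y = x + H.dir p then F x y else 0 := by
    intro x y
    by_cases h : IsNN x y
    · obtain ⟨p, hp⟩ := (H.isNN_iff x y).1 h
      rw [if_pos h, Finset.sum_eq_single p]
      · rw [if_pos hp]
      · intro q _ hq
        rw [if_neg]
        intro h2
        exact hq (H.dir_injective (by rw [hp] at h2; simpa using h2.symm))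
      · simp
    · rw [if_neg h]
      symm
      refine Finset.sum_eq_zero fun p _ => ?_
      rw [if_neg]
      intro h2
      exact h ((H.isNN_iff x y).2 ⟨p, h2⟩)
  have h2 : ∀ p : Fin 3 × Bool, ∑ x ∈ cube L, ∑ y ∈ cube L,
      (if y = x + H.dir p then F x y else 0) = ∑ x ∈ cube L,
        (if x + H.dir p ∈ cube L then F x (x + H.dir p) else 0) := by
    intro p
    refine Finset.sum_congr rfl fun x _ => ?_
    rw [Finset.sum_ite_eq']
  have hneg : ∀ j : Fin 3, H.dir (j, false) = -H.dir (j, true) := by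
    intro j
    simp [H.dir, ← Pi.single_neg]
  have h3 : ∀ j : Fin 3, ∑ x ∈ cube L, ∑ y ∈ cube L,
      (if y = x + H.dir (j, false) then F x y else 0) = ∑ x ∈ cube L, ∑ y ∈ cube L,
      (if y = x + H.dir (j, true) then F x y else 0) := by
    intro j
    rw [Finset.sum_comm]
    refine Finset.sum_congr rfl fun x _ => Finset.sum_congr rfl fun y _ => ?_
    rw [hneg, hF x y]
    have : x = y + -H.dir (j, true) ↔ y = x + H.dir (j, true) := by
      constructor
      · intro h; rw [h]; simp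
      · intro h; rw [h]; simp
    simp only [this]
  calc ∑ x ∈ cube L, ∑ y ∈ cube L, (if IsNN x y then F x y else 0)
      = ∑ p : Fin 3 × Bool, ∑ x ∈ cube L, ∑ y ∈ cube L,
        (if y = x + H.dir p then F x y else 0) := by
        simp only [h1]
        rw [Finset.sum_comm]
        rw [← Finset.sum_comm]
        have : ∀ x ∈ cube L, ∑ y ∈ cube L, ∑ p : Fin 3 × Bool,
            (if y = x + H.dir p then F x y else 0) = ∑ p : Fin 3 × Bool, ∑ y ∈ cube L,
            (if y = x + H.dir p then F x y else 0) := fun x _ => Finset.sum_comm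
        rw [Finset.sum_congr rfl this, Finset.sum_comm]
    _ = ∑ j : Fin 3, (∑ x ∈ cube L, ∑ y ∈ cube L,
        (if y = x + H.dir (j, true) then F x y else 0) + ∑ x ∈ cube L, ∑ y ∈ cube L,
        (if y = x + H.dir (j, false) then F x y else 0)) := by
        rw [Fintype.sum_prod_type]
        refine Finset.sum_congr rfl fun j _ => ?_
        rw [Fintype.sum_bool]
    _ = _ := by
        simp only [h3, h2]
        rw [Finset.mul_sum]
        refine Finset.sum_congr rfl fun j _ => ?_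
        ring

theorem sum_shift1 (L : ℕ) (g : ℕ → ℝ) :
    ∑ a ∈ range L, (if a + 1 < L then g a else 0) = ∑ a ∈ range (L - 1), g a := by
  rw [← Finset.sum_filter]
  refine Finset.sum_congr ?_ fun _ _ => rfl
  ext a
  simp only [Finset.mem_filter, Finset.mem_range]
  omega

theorem st_add0 (a b c : ℕ) : st a b c + H.dir (0, true) = st (a + 1) b c := by
  ext i
  fin_cases i <;> simp [st, H.dir]

theorem st_add1 (a b c : ℕ) : st a b c + H.dir (1, true) = st a (b + 1) c := by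
  ext i
  fin_cases i <;> simp [st, H.dir]

theorem st_add2 (a b c : ℕ) : st a b c + H.dir (2, true) = st a b (c + 1) := by
  ext i
  fin_cases i <;> simp [st, H.dir]

theorem dir_sum (L : ℕ) (F : Site → Site → ℝ) : ∑ j : Fin 3, ∑ x ∈ cube L,
    (if x + H.dir (j, true) ∈ cube L then F x (x + H.dir (j, true)) else 0) =
    (∑ b ∈ range L, ∑ c ∈ range L, ∑ k ∈ range (L - 1), F (st k b c) (st (k + 1) b c)) +
    (∑ a ∈ range L, ∑ c ∈ range L, ∑ k ∈ range (L - 1), F (st a k c) (st a (k + 1) c)) +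
    (∑ a ∈ range L, ∑ b ∈ range L, ∑ k ∈ range (L - 1), F (st a b k) (st a b (k + 1))) := by
  rw [Fin.sum_univ_three]
  simp only [sum_cube, st_add0, st_add1, st_add2, st_mem]
  congr 1
  · congr 1
    · rw [Finset.sum_comm]
      refine Finset.sum_congr rfl fun b hb => ?_
      rw [Finset.sum_comm]
      refine Finset.sum_congr rfl fun c hc => ?_
      rw [Finset.mem_range] at hb hc
      simp only [hb, hc, and_true]
      exact sum_shift1 L _
    · refine Finset.sum_congr rfl fun a ha => ?_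
      rw [Finset.sum_comm]
      refine Finset.sum_congr rfl fun c hc => ?_
      rw [Finset.mem_range] at ha hc
      simp only [ha, hc, and_true, true_and]
      exact sum_shift1 L _
  · refine Finset.sum_congr rfl fun a ha => ?_
    refine Finset.sum_congr rfl fun b hb => ?_
    rw [Finset.mem_range] at ha hb
    simp only [ha, hb, true_and]
    exact sum_shift1 L _

/-- The path comparison. -/
theorem path_sum (L : ℕ) {D : Site → Site → ℝ} (h0 : ∀ x, D x x = 0)
    (hs : ∀ x y, D x y = D y x) (hn : ∀ x y, 0 ≤ D x y)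
    (ht : ∀ x y z, x ∈ cube L → y ∈ cube L → z ∈ cube L → D x z ≤ D x y + D y z) :
    ∑ x ∈ cube L, ∑ y ∈ cube L, D x y ^ 2 ≤
      3 / 2 * (L : ℝ) ^ 5 * ∑ x ∈ cube L, ∑ y ∈ cube L, (if IsNN x y then D x y ^ 2 else 0) := by
  rw [nn_sum_split L (fun x y => D x y ^ 2) (fun x y => by rw [hs x y]),
    dir_sum L (fun x y => D x y ^ 2)]
  set E0 : ℕ → ℕ → ℝ := fun b c => ∑ k ∈ range (L - 1), D (st k b c) (st (k + 1) b c) ^ 2 with hE0
  set E1 : ℕ → ℕ → ℝ := fun a c => ∑ k ∈ range (L - 1), D (st a k c) (st a (k + 1) c) ^ 2 with hE1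
  set E2 : ℕ → ℕ → ℝ := fun a b => ∑ k ∈ range (L - 1), D (st a b k) (st a b (k + 1)) ^ 2 with hE2
  have key : ∀ a b c a' b' c' : ℕ, a < L → b < L → c < L → a' < L → b' < L → c' < L →
      D (st a b c) (st a' b' c') ^ 2 ≤
        3 * ((L : ℝ) * E0 b c + (L : ℝ) * E1 a' c + (L : ℝ) * E2 a' b') := by
    intro a b c a' b' c' ha hb hc ha' hb' hc'
    have m1 := (st_mem (L := L)).2 ⟨ha, hb, hc⟩
    have m2 := (st_mem (L := L)).2 ⟨ha', hb, hc⟩
    have m3 := (st_mem (L := L)).2 ⟨ha', hb', hc⟩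
    have m4 := (st_mem (L := L)).2 ⟨ha', hb', hc'⟩
    have t1 := ht _ _ _ m1 m2 m4
    have t2 := ht _ _ _ m2 m3 m4
    have l1 : D (st a b c) (st a' b c) ^ 2 ≤ (L : ℝ) * E0 b c :=
      line_bound (L := L) (ρ := fun u v => D (st u b c) (st v b c)) (fun u _ => h0 _)
        (fun u v _ _ => hs _ _) (fun u v => hn _ _)
        (fun u v w hu hv hw => ht _ _ _ ((st_mem (L := L)).2 ⟨hu, hb, hc⟩)
          ((st_mem (L := L)).2 ⟨hv, hb, hc⟩) ((st_mem (L := L)).2 ⟨hw, hb, hc⟩)) ha ha'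
    have l2 : D (st a' b c) (st a' b' c) ^ 2 ≤ (L : ℝ) * E1 a' c :=
      line_bound (L := L) (ρ := fun u v => D (st a' u c) (st a' v c)) (fun u _ => h0 _)
        (fun u v _ _ => hs _ _) (fun u v => hn _ _)
        (fun u v w hu hv hw => ht _ _ _ ((st_mem (L := L)).2 ⟨ha', hu, hc⟩)
          ((st_mem (L := L)).2 ⟨ha', hv, hc⟩) ((st_mem (L := L)).2 ⟨ha', hw, hc⟩)) hb hb'
    have l3 : D (st a' b' c) (st a' b' c') ^ 2 ≤ (L : ℝ) * E2 a' b' :=
      line_bound (L := L) (ρ := fun u v => D (st a' b' u) (st a' b' v)) (fun u _ => h0 _)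
        (fun u v _ _ => hs _ _) (fun u v => hn _ _)
        (fun u v w hu hv hw => ht _ _ _ ((st_mem (L := L)).2 ⟨ha', hb', hu⟩)
          ((st_mem (L := L)).2 ⟨ha', hb', hv⟩) ((st_mem (L := L)).2 ⟨ha', hb', hw⟩)) hc hc'
    have n1 := hn (st a b c) (st a' b c)
    have n2 := hn (st a' b c) (st a' b' c)
    have n3 := hn (st a' b' c) (st a' b' c')
    have n4 := hn (st a b c) (st a' b' c')
    have s1 : D (st a b c) (st a' b' c') ^ 2 ≤
        (D (st a b c) (st a' b c) + D (st a' b c) (st a' b' c) +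
          D (st a' b' c) (st a' b' c')) ^ 2 := pow_le_pow_left₀ n4 (by linarith) 2
    nlinarith [sq_nonneg (D (st a b c) (st a' b c) - D (st a' b c) (st a' b' c)),
      sq_nonneg (D (st a' b c) (st a' b' c) - D (st a' b' c) (st a' b' c')),
      sq_nonneg (D (st a b c) (st a' b c) - D (st a' b' c) (st a' b' c'))]
  simp only [sum_cube]
  calc ∑ a ∈ range L, ∑ b ∈ range L, ∑ c ∈ range L, ∑ a' ∈ range L, ∑ b' ∈ range L,
        ∑ c' ∈ range L, D (st a b c) (st a' b' c') ^ 2 ≤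
      ∑ a ∈ range L, ∑ b ∈ range L, ∑ c ∈ range L, ∑ a' ∈ range L, ∑ b' ∈ range L,
        ∑ c' ∈ range L, 3 * ((L : ℝ) * E0 b c + (L : ℝ) * E1 a' c + (L : ℝ) * E2 a' b') := by
        refine Finset.sum_le_sum fun a ha => Finset.sum_le_sum fun b hb =>
          Finset.sum_le_sum fun c hc => Finset.sum_le_sum fun a' ha' =>
          Finset.sum_le_sum fun b' hb' => Finset.sum_le_sum fun c' hc' => ?_
        rw [Finset.mem_range] at ha hb hc ha' hb' hc'
        exact key a b c a' b' c' ha hb hc ha' hb' hc'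
    _ = _ := by
        simp only [← Finset.mul_sum, Finset.sum_add_distrib, Finset.sum_const,
          Finset.card_range, nsmul_eq_mul]
        rw [Finset.sum_comm (s := range L) (t := range L) (f := fun c a' => E1 a' c)]
        ring

end Vale.Agent.P361.B
end

section

/-!
Part B, step D2: `∑_{x≠y} (S² - S_x·S_y) ≤ 3 L⁵ H̃` on the cube, and the crude bound on the
partition function.
-/

namespace Vale.Agent.P361.B

open Matrix Finset Filter Topology
open scoped ComplexOrder Kronecker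

set_option linter.unusedSectionVars false

section Norm

variable {ι : Type*} [Fintype ι] [DecidableEq ι]

/-- Euclidean norm of a vector. -/
noncomputable def nrm (v : ι → ℂ) : ℝ := ‖(WithLp.toLp 2 v : EuclideanSpace ℂ ι)‖

theorem nrm_nonneg (v : ι → ℂ) : 0 ≤ nrm v := norm_nonneg _

theorem nrm_add_le (u v : ι → ℂ) : nrm (u + v) ≤ nrm u + nrm v := by
  unfold nrm
  rw [WithLp.toLp_add]
  exact norm_add_le _ _

theorem nrm_neg (v : ι → ℂ) : nrm (-v) = nrm v := by
  unfold nrm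
  rw [WithLp.toLp_neg, norm_neg]

theorem nrm_sq (v : ι → ℂ) : nrm v ^ 2 = ∑ i, ‖v i‖ ^ 2 := by
  unfold nrm
  rw [EuclideanSpace.norm_eq, Real.sq_sqrt (Finset.sum_nonneg fun _ _ => by positivity)]

theorem star_dot (M : Matrix ι ι ℂ) (ψ : ι → ℂ) :
    star ψ ⬝ᵥ ((Mᴴ * M) *ᵥ ψ) = ((nrm (M *ᵥ ψ) ^ 2 : ℝ) : ℂ) := by
  rw [← Matrix.mulVec_mulVec, Matrix.dotProduct_mulVec, Matrix.vecMul_conjTranspose, star_star,
    nrm_sq, dotProduct]
  push_cast
  refine Finset.sum_congr rfl fun i _ => ?_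
  rw [Pi.star_apply, RCLike.star_def, Complex.conj_mul']

theorem minkowski_aux {p₁ p₂ q₁ q₂ P Q : ℝ} (hP : 0 ≤ P) (hQ : 0 ≤ Q) (h1 : p₁ ^ 2 + p₂ ^ 2 = P ^ 2)
    (h2 : q₁ ^ 2 + q₂ ^ 2 = Q ^ 2) : (p₁ + q₁) ^ 2 + (p₂ + q₂) ^ 2 ≤ (P + Q) ^ 2 := by
  have h3 : p₁ * q₁ + p₂ * q₂ ≤ P * Q := by
    refine abs_le_of_sq_le_sq' ?_ (by positivity) |>.2
    have : (P * Q) ^ 2 = (p₁ ^ 2 + p₂ ^ 2) * (q₁ ^ 2 + q₂ ^ 2) := by rw [mul_pow, h1, h2]
    rw [this]
    nlinarith [sq_nonneg (p₁ * q₂ - p₂ * q₁)]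
  nlinarith

end Norm

section Metric

variable {n : ℕ} {Λ : Finset Site}

/-- `T_{xy} = a_x b_y - b_x a_y`. -/
noncomputable def tOp (n : ℕ) {Λ : Finset Site} (x y : Λ) :
    Matrix (Λ → Fin (n + 1)) (Λ → Fin (n + 1)) ℂ :=
  H.oA n x * H.oB n y - H.oB n x * H.oA n y

theorem tOp_sq {x y : Λ} (hxy : x ≠ y) : (((n : ℂ) / 2) ^ 2) •
    (1 : Matrix (Λ → Fin (n + 1)) (Λ → Fin (n + 1)) ℂ) - H.dotOp n x y =
      (1 / 2 : ℂ) • ((tOp n x y)ᴴ * tOp n x y) := by
  unfold tOp
  rw [H.dot_sos hxy]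
  module

theorem tOp_symm {x y : Λ} (hxy : x ≠ y) : tOp n y x = -tOp n x y := by
  unfold tOp
  rw [H.siteOp_comm hxy.symm, H.siteOp_comm hxy.symm]
  abel

theorem pluecker_a {x y z : Λ} (hxy : x ≠ y) (hyz : y ≠ z) (hxz : x ≠ z) :
    H.oA n y * tOp n x z = H.oA n x * tOp n y z + H.oA n z * tOp n x y := by
  unfold tOp
  have c1 : H.oA n y * (H.oA n x * H.oB n z) = H.oA n x * (H.oA n y * H.oB n z) := by
    rw [← mul_assoc, H.siteOp_comm hxy.symm, mul_assoc]
  have c2 : H.oA n y * (H.oB n x * H.oA n z) = H.oA n z * (H.oB n x * H.oA n y) := by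
    rw [H.siteOp_comm hxz (H.schwB n) (H.schwA n), ← mul_assoc,
      H.siteOp_comm hyz (H.schwA n) (H.schwA n), mul_assoc,
      H.siteOp_comm hxy.symm (H.schwA n) (H.schwB n)]
  have c3 : H.oA n x * (H.oB n y * H.oA n z) = H.oA n z * (H.oA n x * H.oB n y) := by
    rw [H.siteOp_comm hyz (H.schwB n) (H.schwA n), ← mul_assoc,
      H.siteOp_comm hxz (H.schwA n) (H.schwA n), mul_assoc]
  rw [mul_sub, mul_sub, mul_sub, c1, c2, c3]
  abel

theorem pluecker_b {x y z : Λ} (hxy : x ≠ y) (hyz : y ≠ z) (hxz : x ≠ z) :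
    H.oB n y * tOp n x z = H.oB n x * tOp n y z + H.oB n z * tOp n x y := by
  unfold tOp
  have c1 : H.oB n y * (H.oA n x * H.oB n z) = H.oB n z * (H.oA n x * H.oB n y) := by
    rw [H.siteOp_comm hxz (H.schwA n) (H.schwB n), ← mul_assoc,
      H.siteOp_comm hyz (H.schwB n) (H.schwB n), mul_assoc,
      H.siteOp_comm hxy.symm (H.schwB n) (H.schwA n)]
  have c2 : H.oB n y * (H.oB n x * H.oA n z) = H.oB n x * (H.oB n y * H.oA n z) := by
    rw [← mul_assoc, H.siteOp_comm hxy.symm, mul_assoc]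
  have c3 : H.oB n x * (H.oA n y * H.oB n z) = H.oB n z * (H.oB n x * H.oA n y) := by
    rw [H.siteOp_comm hyz (H.schwA n) (H.schwB n), ← mul_assoc,
      H.siteOp_comm hxz (H.schwB n) (H.schwB n), mul_assoc]
  rw [mul_sub, mul_sub, mul_sub, c1, c2, c3]
  abel

theorem ab_norm (y : Λ) (v : (Λ → Fin (n + 1)) → ℂ) :
    nrm (H.oA n y *ᵥ v) ^ 2 + nrm (H.oB n y *ᵥ v) ^ 2 = n * nrm v ^ 2 := by
  have h1 := star_dot (H.oA n y) v
  have h2 := star_dot (H.oB n y) v
  have h3 := star_dot (1 : Matrix (Λ → Fin (n + 1)) (Λ → Fin (n + 1)) ℂ) v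
  have h4 : (H.oA n y)ᴴ * H.oA n y + (H.oB n y)ᴴ * H.oB n y =
      (n : ℂ) • (1 : Matrix (Λ → Fin (n + 1)) (Λ → Fin (n + 1)) ℂ) := by
    rw [siteOp_conjTranspose, H.siteOp_mul, H.schwA_schwA, siteOp_conjTranspose, H.siteOp_mul,
      H.schwB_schwB, H.siteOp_add, H.siteOp_sub, H.siteOp_smul, H.siteOp_one]
    module
  rw [Matrix.conjTranspose_one, Matrix.one_mul, Matrix.one_mulVec] at h3
  have h5 : (((nrm (H.oA n y *ᵥ v) ^ 2 + nrm (H.oB n y *ᵥ v) ^ 2 : ℝ)) : ℂ) =
      ((n * nrm v ^ 2 : ℝ) : ℂ) := by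
    rw [Complex.ofReal_add, ← h1, ← h2, ← dotProduct_add, ← Matrix.add_mulVec, h4,
      Matrix.smul_mulVec, dotProduct_smul, Matrix.one_mulVec, h3]
    push_cast
    rfl
  exact_mod_cast h5

theorem t_triangle (hn : 0 < n) {x y z : Λ} (hxy : x ≠ y) (hyz : y ≠ z) (hxz : x ≠ z)
    (ψ : (Λ → Fin (n + 1)) → ℂ) :
    nrm (tOp n x z *ᵥ ψ) ≤ nrm (tOp n x y *ᵥ ψ) + nrm (tOp n y z *ᵥ ψ) := by
  have hnR : (0 : ℝ) < n := by exact_mod_cast hn
  have h1 := ab_norm y (tOp n x z *ᵥ ψ)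
  have h2 := ab_norm x (tOp n y z *ᵥ ψ)
  have h3 := ab_norm z (tOp n x y *ᵥ ψ)
  have e1 : H.oA n y *ᵥ (tOp n x z *ᵥ ψ) =
      H.oA n x *ᵥ (tOp n y z *ᵥ ψ) + H.oA n z *ᵥ (tOp n x y *ᵥ ψ) := by
    simp only [Matrix.mulVec_mulVec]
    rw [← Matrix.add_mulVec, pluecker_a hxy hyz hxz]
  have e2 : H.oB n y *ᵥ (tOp n x z *ᵥ ψ) =
      H.oB n x *ᵥ (tOp n y z *ᵥ ψ) + H.oB n z *ᵥ (tOp n x y *ᵥ ψ) := by
    simp only [Matrix.mulVec_mulVec]
    rw [← Matrix.add_mulVec, pluecker_b hxy hyz hxz]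
  rw [e1, e2] at h1
  have i1 := nrm_add_le (H.oA n x *ᵥ (tOp n y z *ᵥ ψ)) (H.oA n z *ᵥ (tOp n x y *ᵥ ψ))
  have i2 := nrm_add_le (H.oB n x *ᵥ (tOp n y z *ᵥ ψ)) (H.oB n z *ᵥ (tOp n x y *ᵥ ψ))
  set P := Real.sqrt n * nrm (tOp n y z *ᵥ ψ) with hP
  set Q := Real.sqrt n * nrm (tOp n x y *ᵥ ψ) with hQ
  have hs : Real.sqrt n ^ 2 = n := Real.sq_sqrt hnR.le
  have hP2 : P ^ 2 = n * nrm (tOp n y z *ᵥ ψ) ^ 2 := by rw [hP, mul_pow, hs]
  have hQ2 : Q ^ 2 = n * nrm (tOp n x y *ᵥ ψ) ^ 2 := by rw [hQ, mul_pow, hs]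
  have hspos : 0 < Real.sqrt n := Real.sqrt_pos.2 hnR
  have m := minkowski_aux (P := P) (Q := Q)
    (mul_nonneg hspos.le (nrm_nonneg _)) (mul_nonneg hspos.le (nrm_nonneg _))
    (by rw [h2, hP2]) (by rw [h3, hQ2])
  have m2 : (n : ℝ) * nrm (tOp n x z *ᵥ ψ) ^ 2 ≤ (P + Q) ^ 2 := by
    rw [← h1]
    refine le_trans (add_le_add (pow_le_pow_left₀ (nrm_nonneg _) i1 2)
      (pow_le_pow_left₀ (nrm_nonneg _) i2 2)) m
  have m3 : (Real.sqrt n * nrm (tOp n x z *ᵥ ψ)) ^ 2 ≤ (P + Q) ^ 2 := by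
    rw [mul_pow, hs]; exact m2
  have m4 := abs_le_of_sq_le_sq' m3 (add_nonneg (mul_nonneg hspos.le (nrm_nonneg _))
    (mul_nonneg hspos.le (nrm_nonneg _)))
  have m5 : Real.sqrt n * nrm (tOp n x z *ᵥ ψ) ≤
      Real.sqrt n * (nrm (tOp n x y *ᵥ ψ) + nrm (tOp n y z *ᵥ ψ)) := by
    calc _ ≤ P + Q := m4.2
      _ = _ := by rw [hP, hQ]; ring
  exact le_of_mul_le_mul_left m5 hspos

open Classical in
/-- The pseudo-metric attached to a vector. -/
noncomputable def dst (n : ℕ) (Λ : Finset Site) (ψ : (Λ → Fin (n + 1)) → ℂ) (x y : Site) : ℝ :=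
  if h : x ∈ Λ ∧ y ∈ Λ ∧ x ≠ y then nrm (tOp n ⟨x, h.1⟩ ⟨y, h.2.1⟩ *ᵥ ψ) else 0

theorem dst_coe (ψ : (Λ → Fin (n + 1)) → ℂ) {x y : Λ} (hxy : x ≠ y) :
    dst n Λ ψ x.1 y.1 = nrm (tOp n x y *ᵥ ψ) := by
  unfold dst
  rw [dif_pos ⟨x.2, y.2, fun h => hxy (Subtype.ext h)⟩]

theorem dst_self (ψ : (Λ → Fin (n + 1)) → ℂ) (x : Site) : dst n Λ ψ x x = 0 := by
  unfold dst
  rw [dif_neg]
  intro h
  exact h.2.2 rfl

theorem dst_nonneg (ψ : (Λ → Fin (n + 1)) → ℂ) (x y : Site) : 0 ≤ dst n Λ ψ x y := by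
  unfold dst
  split_ifs
  · exact nrm_nonneg _
  · exact le_rfl

theorem dst_symm (ψ : (Λ → Fin (n + 1)) → ℂ) (x y : Site) : dst n Λ ψ x y = dst n Λ ψ y x := by
  by_cases h : x ∈ Λ ∧ y ∈ Λ ∧ x ≠ y
  · have h1 := dst_coe (n := n) ψ (x := ⟨x, h.1⟩) (y := ⟨y, h.2.1⟩)
      (fun h3 => h.2.2 (congrArg Subtype.val h3))
    have h2 := dst_coe (n := n) ψ (x := ⟨y, h.2.1⟩) (y := ⟨x, h.1⟩)
      (fun h3 => h.2.2 (congrArg Subtype.val h3).symm)
    simp only at h1 h2
    rw [h1, h2, tOp_symm (x := ⟨y, h.2.1⟩) (y := ⟨x, h.1⟩)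
      (fun h3 => h.2.2 (congrArg Subtype.val h3).symm), Matrix.neg_mulVec, nrm_neg]
  · unfold dst
    rw [dif_neg h, dif_neg]
    rintro ⟨h1, h2, h3⟩
    exact h ⟨h2, h1, h3.symm⟩

theorem dst_triangle (hn : 0 < n) (ψ : (Λ → Fin (n + 1)) → ℂ) {x y z : Site} (hx : x ∈ Λ)
    (hy : y ∈ Λ) (hz : z ∈ Λ) : dst n Λ ψ x z ≤ dst n Λ ψ x y + dst n Λ ψ y z := by
  by_cases hxz : x = z
  · subst hxz
    rw [dst_self]
    exact add_nonneg (dst_nonneg _ _ _) (dst_nonneg _ _ _)
  by_cases hxy : x = y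
  · subst hxy
    rw [dst_self, zero_add]
  by_cases hyz : y = z
  · subst hyz
    rw [dst_self, add_zero]
  have e : ∀ {u v : Site} (hu : u ∈ Λ) (hv : v ∈ Λ), u ≠ v →
      (⟨u, hu⟩ : Λ) ≠ ⟨v, hv⟩ := fun hu hv h h2 => h (congrArg Subtype.val h2)
  have h := t_triangle hn (e hx hy hxy) (e hy hz hyz) (e hx hz hxz) ψ
  have h1 := dst_coe (n := n) ψ (e hx hy hxy)
  have h2 := dst_coe (n := n) ψ (e hy hz hyz)
  have h3 := dst_coe (n := n) ψ (e hx hz hxz)
  simp only at h1 h2 h3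
  rw [h1, h2, h3]
  exact h

end Metric

section Compare

variable {n : ℕ} {Λ : Finset Site}

theorem pair_quad {x y : Λ} (hxy : x ≠ y) (ψ : (Λ → Fin (n + 1)) → ℂ) :
    star ψ ⬝ᵥ (((((n : ℂ) / 2) ^ 2) •
      (1 : Matrix (Λ → Fin (n + 1)) (Λ → Fin (n + 1)) ℂ) - H.dotOp n x y) *ᵥ ψ) =
      ((1 / 2 * dst n Λ ψ x.1 y.1 ^ 2 : ℝ) : ℂ) := by
  rw [tOp_sq hxy, Matrix.smul_mulVec, dotProduct_smul, star_dot, dst_coe ψ hxy]
  push_cast
  rfl

theorem casX_quad (ψ : (Λ → Fin (n + 1)) → ℂ) :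
    star ψ ⬝ᵥ (casX n Λ *ᵥ ψ) =
      ((1 / 2 * ∑ x ∈ Λ, ∑ y ∈ Λ, dst n Λ ψ x y ^ 2 : ℝ) : ℂ) := by
  unfold casX
  rw [Matrix.sum_mulVec, dotProduct_sum]
  have h1 : ∀ x y : Λ, star ψ ⬝ᵥ ((if x = y then 0 else
      ((((n : ℂ) / 2) ^ 2) • (1 : Matrix (Λ → Fin (n + 1)) (Λ → Fin (n + 1)) ℂ) -
        H.dotOp n x y)) *ᵥ ψ) = ((1 / 2 * dst n Λ ψ x.1 y.1 ^ 2 : ℝ) : ℂ) := by
    intro x y
    split_ifs with h
    · subst h
      rw [dst_self, Matrix.zero_mulVec, dotProduct_zero]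
      simp
    · exact pair_quad h ψ
  have h2 : ∀ x : Λ, star ψ ⬝ᵥ ((∑ y : Λ, if x = y then 0 else
      ((((n : ℂ) / 2) ^ 2) • (1 : Matrix (Λ → Fin (n + 1)) (Λ → Fin (n + 1)) ℂ) -
        H.dotOp n x y)) *ᵥ ψ) = ((1 / 2 * ∑ y ∈ Λ, dst n Λ ψ x.1 y ^ 2 : ℝ) : ℂ) := by
    intro x
    rw [Matrix.sum_mulVec, dotProduct_sum, Finset.sum_congr rfl fun y _ => h1 x y,
      ← Complex.ofReal_sum, ← Finset.mul_sum,
      Finset.sum_coe_sort Λ (fun y => dst n Λ ψ x.1 y ^ 2)]
  rw [Finset.sum_congr rfl fun x _ => h2 x, ← Complex.ofReal_sum, ← Finset.mul_sum,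
    Finset.sum_coe_sort Λ (fun x => ∑ y ∈ Λ, dst n Λ ψ x y ^ 2)]

theorem hT_quad (ψ : (Λ → Fin (n + 1)) → ℂ) :
    star ψ ⬝ᵥ (hT n Λ *ᵥ ψ) =
      ((1 / 4 * ∑ x ∈ Λ, ∑ y ∈ Λ, (if IsNN x y then dst n Λ ψ x y ^ 2 else 0) : ℝ) : ℂ) := by
  unfold hT
  rw [Matrix.smul_mulVec, dotProduct_smul, Matrix.sum_mulVec, dotProduct_sum]
  have h1 : ∀ x y : Λ, star ψ ⬝ᵥ ((if IsNN x.1 y.1 then
      ((((n : ℂ) / 2) ^ 2) • (1 : Matrix (Λ → Fin (n + 1)) (Λ → Fin (n + 1)) ℂ) -
        H.dotOp n x y) else 0) *ᵥ ψ) =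
      ((1 / 2 * (if IsNN x.1 y.1 then dst n Λ ψ x.1 y.1 ^ 2 else 0) : ℝ) : ℂ) := by
    intro x y
    split_ifs with h
    · exact pair_quad (by rintro rfl; exact isNN_irrefl _ h) ψ
    · rw [Matrix.zero_mulVec, dotProduct_zero]
      simp
  have h2 : ∀ x : Λ, star ψ ⬝ᵥ ((∑ y : Λ, if IsNN x.1 y.1 then
      ((((n : ℂ) / 2) ^ 2) • (1 : Matrix (Λ → Fin (n + 1)) (Λ → Fin (n + 1)) ℂ) -
        H.dotOp n x y) else 0) *ᵥ ψ) =
      ((1 / 2 * ∑ y ∈ Λ, (if IsNN x.1 y then dst n Λ ψ x.1 y ^ 2 else 0) : ℝ) : ℂ) := by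
    intro x
    rw [Matrix.sum_mulVec, dotProduct_sum, Finset.sum_congr rfl fun y _ => h1 x y,
      ← Complex.ofReal_sum, ← Finset.mul_sum,
      Finset.sum_coe_sort Λ (fun y => if IsNN x.1 y then dst n Λ ψ x.1 y ^ 2 else 0)]
  rw [Finset.sum_congr rfl fun x _ => h2 x, ← Complex.ofReal_sum, ← Finset.mul_sum,
    Finset.sum_coe_sort Λ (fun x => ∑ y ∈ Λ, if IsNN x y then dst n Λ ψ x y ^ 2 else 0)]
  rw [smul_eq_mul]
  push_cast
  ring

theorem casX_isHermitian : (casX n Λ).IsHermitian := by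
  rw [Matrix.IsHermitian, casX, Matrix.conjTranspose_sum]
  refine Finset.sum_congr rfl fun x _ => ?_
  rw [Matrix.conjTranspose_sum]
  refine Finset.sum_congr rfl fun y _ => ?_
  split_ifs with h
  · simp
  · rw [tOp_sq h, Matrix.conjTranspose_smul, Matrix.conjTranspose_mul,
      Matrix.conjTranspose_conjTranspose]
    simp

/-- `∑_{x≠y} (S² - S_x·S_y) ≤ 3 L⁵ H̃` on the cube. -/
theorem casX_le_hT (hn : 0 < n) (L : ℕ) :
    (((3 * (L : ℝ) ^ 5 : ℝ) : ℂ) • hT n (cube L) - casX n (cube L)).PosSemidef := by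
  rw [Matrix.posSemidef_iff_dotProduct_mulVec]
  refine ⟨?_, fun ψ => ?_⟩
  · rw [Matrix.IsHermitian, Matrix.conjTranspose_sub, Matrix.conjTranspose_smul,
      hT_isHermitian, casX_isHermitian]
    simp
  · rw [Matrix.sub_mulVec, dotProduct_sub, Matrix.smul_mulVec, dotProduct_smul, hT_quad,
      casX_quad, smul_eq_mul, ← Complex.ofReal_mul, ← Complex.ofReal_sub, Complex.zero_le_real]
    have h := path_sum L (D := dst n (cube L) ψ) (dst_self ψ) (dst_symm ψ) (dst_nonneg ψ)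
      (fun x y z hx hy hz => dst_triangle hn ψ hx hy hz)
    nlinarith

/-- (D2), comparison with a product over sites. -/
theorem Zt_le_prod (hn : 0 < n) {L : ℕ} (hL : 0 < L) {β : ℝ} (hβ : 0 ≤ β) :
    Zt n (cube L) β 0 ≤ 2 * ((n : ℝ) * (L : ℝ) ^ 3 + 1) *
      (∑ j ∈ Finset.range (n + 1), Real.exp (-(n * β / (6 * (L : ℝ) ^ 2))) ^ j) ^ (L ^ 3) := by
  have hLR : (0 : ℝ) < L := by exact_mod_cast hL
  set s : ℝ := β / (3 * (L : ℝ) ^ 5) with hs
  have hs0 : 0 ≤ s := by positivity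
  have hcard : ((cube L).card : ℝ) = (L : ℝ) ^ 3 := by
    rw [cube_eq, card_cube]; push_cast; rfl
  have h1 : Zt n (cube L) β 0 ≤ (trace (NormedSpace.exp (((-s : ℝ) : ℂ) • casX n (cube L)))).re := by
    refine trace_exp_mono (expo_isHermitian' (n := n) (Λ := cube L) β 0) ?_ ?_
    · rw [Matrix.IsHermitian, Matrix.conjTranspose_smul, casX_isHermitian]
      simp
    · have e : ((-s : ℝ) : ℂ) • casX n (cube L) -
          -((β : ℂ) • hT n (cube L) + ((0 : ℝ) : ℂ) • numOp n (cube L)) =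
          (s : ℂ) • (((3 * (L : ℝ) ^ 5 : ℝ) : ℂ) • hT n (cube L) - casX n (cube L)) := by
        have e2 : (β : ℂ) = (s : ℂ) * ((3 * (L : ℝ) ^ 5 : ℝ) : ℂ) := by
          rw [← Complex.ofReal_mul]
          congr 1
          rw [hs]
          field_simp
        rw [e2]
        push_cast
        module
      rw [e]
      exact (casX_le_hT hn L).smul (by simpa using hs0)
  have h2 := trace_exp_casX_le (n := n) (Λ := cube L) s
  have h3 := sum_exp_cj_le (n := n) (Λ := cube L) hs0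
    (z := Real.exp (-s * ((n : ℝ) * (cube L).card / 2))) rfl
  rw [hcard] at h2 h3
  have h4 : Real.exp (-s * ((n : ℝ) * (L : ℝ) ^ 3 / 2)) =
      Real.exp (-(n * β / (6 * (L : ℝ) ^ 2))) := by
    congr 1
    rw [hs]
    field_simp
    ring
  have h5 : (cube L).card = L ^ 3 := by rw [cube_eq, card_cube]
  rw [h4, h5] at h3
  refine h1.trans (h2.trans ?_)
  calc ((n : ℝ) * (L : ℝ) ^ 3 + 1) * ∑ σ : cube L → Fin (n + 1),
        Real.exp (-s * cj n (cube L) (cntS σ)) ≤ ((n : ℝ) * (L : ℝ) ^ 3 + 1) *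
        (2 * (∑ j ∈ Finset.range (n + 1), Real.exp (-(n * β / (6 * (L : ℝ) ^ 2))) ^ j) ^ (L ^ 3)) :=
        mul_le_mul_of_nonneg_left h3 (by positivity)
    _ = _ := by ring

/-- (D2) -/
theorem Zt_le_crude (hn : 0 < n) {L : ℕ} (hL : 0 < L) {β : ℝ} (hβ : 0 < β) :
    Zt n (cube L) β 0 ≤ 2 * ((n : ℝ) * (L : ℝ) ^ 3 + 1) *
      ((1 - Real.exp (-(n * β / (6 * (L : ℝ) ^ 2))))⁻¹) ^ (L ^ 3) := by
  have hLR : (0 : ℝ) < L := by exact_mod_cast hL
  have hnR : (0 : ℝ) < n := by exact_mod_cast hn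
  refine (Zt_le_prod hn hL hβ.le).trans ?_
  set z := Real.exp (-(n * β / (6 * (L : ℝ) ^ 2))) with hz
  have hz0 : 0 < z := Real.exp_pos _
  have hz1 : z < 1 := by
    rw [hz, Real.exp_lt_one_iff]
    have : 0 < n * β / (6 * (L : ℝ) ^ 2) := by positivity
    linarith
  have h1 : ∑ j ∈ Finset.range (n + 1), z ^ j ≤ (1 - z)⁻¹ := by
    rw [← tsum_geometric_of_lt_one hz0.le hz1]
    exact (summable_geometric_of_lt_one hz0.le hz1).sum_le_tsum _ (fun _ _ => by positivity)
  have h2 : (∑ j ∈ Finset.range (n + 1), z ^ j) ^ (L ^ 3) ≤ ((1 - z)⁻¹) ^ (L ^ 3) :=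
    pow_le_pow_left₀ (Finset.sum_nonneg fun _ _ => by positivity) h1 _
  exact mul_le_mul_of_nonneg_left h2 (by positivity)

/-- (D2), logarithmic form. -/
theorem log_Zt_le_crude (hn : 0 < n) {L : ℕ} (hL : 0 < L) {β : ℝ} (hβ : 0 < β)
    (hz : Real.exp (-(n * β / (6 * (L : ℝ) ^ 2))) ≤ 1 / 2) :
    Real.log (Zt n (cube L) β 0) ≤ Real.log (2 * ((n : ℝ) * (L : ℝ) ^ 3 + 1)) +
      2 * (L : ℝ) ^ 3 * Real.exp (-(n * β / (6 * (L : ℝ) ^ 2))) := by
  have h := Real.log_le_log (Zt_pos β 0) (Zt_le_crude hn hL hβ)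
  have hLR : (0 : ℝ) < L := by exact_mod_cast hL
  have hnR : (0 : ℝ) < n := by exact_mod_cast hn
  set z := Real.exp (-(n * β / (6 * (L : ℝ) ^ 2))) with hzdef
  have hz0 : 0 < z := Real.exp_pos _
  have h1 : (0 : ℝ) < 1 - z := by linarith
  rw [Real.log_mul (by positivity) (by positivity), Real.log_pow] at h
  have h2 : Real.log (1 - z)⁻¹ ≤ (1 - z)⁻¹ - 1 := Real.log_le_sub_one_of_pos (by positivity)
  have h3 : (1 - z)⁻¹ - 1 ≤ 2 * z := by
    have : (1 - z)⁻¹ - 1 = z / (1 - z) := by field_simp; ring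
    rw [this, div_le_iff₀ h1]
    nlinarith
  have h4 : ((L ^ 3 : ℕ) : ℝ) * Real.log (1 - z)⁻¹ ≤ ((L ^ 3 : ℕ) : ℝ) * (2 * z) :=
    mul_le_mul_of_nonneg_left (h2.trans h3) (by positivity)
  have h5 : ((L ^ 3 : ℕ) : ℝ) * (2 * z) = 2 * (L : ℝ) ^ 3 * z := by push_cast; ring
  linarith

end Compare

end Vale.Agent.P361.B
end

section

/-!
Part B, step D6: choice of the parameters.
-/

namespace Vale.Agent.P361.B

open Filter Topology

/-- Crude bound on cubes of side `≤ β^{1/2 - η}`. -/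
theorem crude_log {n : ℕ} (hn : 1 ≤ n) {η : ℝ} (hη : 0 < η) (hη2 : η < 1 / 2) :
    ∀ᶠ β : ℝ in atTop, ∀ L : ℕ, 0 < L → (L : ℝ) ≤ β ^ (1 / 2 - η) →
      Real.log (Zt n (cube L) (β / 2) 0) ≤ β ^ η := by
  have hnR : (1 : ℝ) ≤ n := by exact_mod_cast hn
  have l1 : Tendsto (fun β : ℝ => β ^ (2 * η)) atTop atTop := tendsto_rpow_atTop (by linarith)
  have l2 : Tendsto (fun β : ℝ => 2 * (β ^ (3 : ℝ) * Real.exp (-(1 / 12) * β ^ (2 * η)))) atTop
      (𝓝 0) := by
    have h1 := (tendsto_rpow_mul_exp_neg_mul_atTop_nhds_zero (3 / (2 * η)) (1 / 12)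
      (by norm_num)).comp l1
    have h2 : Tendsto (fun β : ℝ => β ^ (3 : ℝ) * Real.exp (-(1 / 12) * β ^ (2 * η))) atTop
        (𝓝 0) := by
      refine h1.congr' ?_
      filter_upwards [eventually_gt_atTop 0] with β hβ
      simp only [Function.comp]
      rw [← Real.rpow_mul hβ.le]
      congr 2
      field_simp
    simpa using h2.const_mul 2
  have l3 : Tendsto (fun β : ℝ => (Real.log (4 * n) + 3 * Real.log β) / β ^ η) atTop (𝓝 0) := by
    have h1 := (isLittleO_log_rpow_atTop hη).tendsto_div_nhds_zero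
    have h2 : Tendsto (fun β : ℝ => Real.log (4 * n) / β ^ η) atTop (𝓝 0) :=
      tendsto_const_nhds.div_atTop (tendsto_rpow_atTop hη)
    have h3 := h2.add (h1.const_mul 3)
    simp only [mul_zero, add_zero] at h3
    refine h3.congr fun β => ?_
    ring
  have l4 : Tendsto (fun β : ℝ => β ^ η) atTop atTop := tendsto_rpow_atTop hη
  filter_upwards [l2.eventually (ge_mem_nhds (show (0 : ℝ) < 1 / 2 by norm_num)),
    l3.eventually (ge_mem_nhds (show (0 : ℝ) < 1 / 2 by norm_num)), l4.eventually_ge_atTop 1,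
    eventually_ge_atTop 1] with β h2 h3 h4 hβ1 L hL hLβ
  have hβ : 0 < β := by linarith
  have hLR : (1 : ℝ) ≤ L := by exact_mod_cast hL
  have hL0 : (0 : ℝ) < L := by linarith
  have hLβ1 : (L : ℝ) ≤ β := by
    refine hLβ.trans ?_
    calc β ^ (1 / 2 - η) ≤ β ^ (1 : ℝ) :=
          Real.rpow_le_rpow_of_exponent_le hβ1 (by linarith)
      _ = β := Real.rpow_one β
  have hL3 : (L : ℝ) ^ 3 ≤ β ^ (3 : ℝ) := by
    rw [show (3 : ℝ) = ((3 : ℕ) : ℝ) by norm_num, Real.rpow_natCast]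
    exact pow_le_pow_left₀ hL0.le hLβ1 3
  have hL2 : (L : ℝ) ^ 2 ≤ β / β ^ (2 * η) := by
    calc (L : ℝ) ^ 2 ≤ (β ^ (1 / 2 - η)) ^ 2 := pow_le_pow_left₀ hL0.le hLβ 2
      _ = β / β ^ (2 * η) := by
        rw [← Real.rpow_natCast, ← Real.rpow_mul hβ.le]
        nth_rewrite 2 [← Real.rpow_one β]
        rw [← Real.rpow_sub hβ]
        congr 1
        push_cast
        ring
  have hp : 0 < β ^ (2 * η) := Real.rpow_pos_of_pos hβ _
  have hz1 : Real.exp (-(n * (β / 2) / (6 * (L : ℝ) ^ 2))) ≤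
      Real.exp (-(1 / 12) * β ^ (2 * η)) := by
    apply Real.exp_le_exp.2
    have h5 : 1 / 12 * β ^ (2 * η) ≤ n * (β / 2) / (6 * (L : ℝ) ^ 2) := by
      rw [le_div_iff₀ (by positivity)]
      have h6 : β ^ (2 * η) * (L : ℝ) ^ 2 ≤ β := by
        have := mul_le_mul_of_nonneg_left hL2 hp.le
        rwa [mul_div_cancel₀ β hp.ne'] at this
      nlinarith
    linarith
  have hz2 : Real.exp (-(n * (β / 2) / (6 * (L : ℝ) ^ 2))) ≤ 1 / 2 := by
    refine hz1.trans ?_
    have h5 : 1 ≤ β ^ (3 : ℝ) := Real.one_le_rpow hβ1 (by norm_num)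
    have h6 := Real.exp_pos (-(1 / 12) * β ^ (2 * η))
    nlinarith
  have h := log_Zt_le_crude (n := n) hn hL (β := β / 2) (by positivity) hz2
  refine h.trans ?_
  have h5 : Real.log (2 * ((n : ℝ) * (L : ℝ) ^ 3 + 1)) ≤ Real.log (4 * n) + 3 * Real.log β := by
    have h6 : 2 * ((n : ℝ) * (L : ℝ) ^ 3 + 1) ≤ 4 * n * β ^ (3 : ℝ) := by
      have h7 : 1 ≤ β ^ (3 : ℝ) := Real.one_le_rpow hβ1 (by norm_num)
      have h8 : (n : ℝ) * (L : ℝ) ^ 3 ≤ n * β ^ (3 : ℝ) :=
        mul_le_mul_of_nonneg_left hL3 (by positivity)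
      have h9 : 1 ≤ (n : ℝ) * β ^ (3 : ℝ) := by nlinarith
      linarith
    have h7 := Real.log_le_log (by positivity) h6
    rwa [Real.log_mul (x := 4 * (n : ℝ)) (by positivity) (by positivity), Real.log_rpow hβ] at h7
  have h6 : 2 * (L : ℝ) ^ 3 * Real.exp (-(n * (β / 2) / (6 * (L : ℝ) ^ 2))) ≤ 1 / 2 := by
    refine le_trans ?_ h2
    rw [mul_assoc]
    refine mul_le_mul_of_nonneg_left ?_ (by norm_num)
    exact mul_le_mul hL3 hz1 (Real.exp_pos _).le (by positivity)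
  have h7 : Real.log (4 * n) + 3 * Real.log β ≤ 1 / 2 * β ^ η := by
    rwa [div_le_iff₀ (by linarith)] at h3
  linarith

/-- Choice of the cube. -/
theorem exists_cube {n : ℕ} (hn : 1 ≤ n) {κ η : ℝ} (hκ : 0 < κ) (hη : 0 < η) (hη2 : η < 1 / 2) :
    ∀ᶠ β : ℝ in atTop, ∃ L : ℕ, 0 < L ∧ β ^ (1 / 2 + κ + η) / 2 ≤ L ∧
      Real.log (Zt n (cube L) (β / 2) 0) ≤ 8 * β ^ (3 * κ + 7 * η) := by
  have hcr := crude_log hn hη (by linarith)
  have l1 : ∀ᶠ β : ℝ in atTop, 2 ≤ β ^ (1 / 2 - η) :=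
    (tendsto_rpow_atTop (by linarith)).eventually_ge_atTop 2
  filter_upwards [hcr, l1, eventually_ge_atTop 1] with β hcr h2X hβ1
  have hβ0 : 0 < β := by linarith
  have pp : ∀ a : ℝ, 0 < β ^ a := fun a => Real.rpow_pos_of_pos hβ0 a
  set X : ℝ := β ^ (1 / 2 - η) with hX
  set Y : ℝ := β ^ (κ + 2 * η) with hY
  have hX0 : 0 < X := pp _
  have hY1 : 1 ≤ Y := Real.one_le_rpow hβ1 (by linarith)
  obtain ⟨L0, hL0a, hL0b⟩ : ∃ L0 : ℕ, (L0 : ℝ) ≤ X ∧ X / 2 ≤ L0 := by
    refine ⟨⌊X⌋₊, Nat.floor_le hX0.le, ?_⟩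
    have := Nat.lt_floor_add_one X
    linarith
  have hL0pos : 0 < L0 := by
    have : (0 : ℝ) < L0 := by linarith
    exact_mod_cast this
  obtain ⟨q, hqa, hqb⟩ : ∃ q : ℕ, Y ≤ q ∧ (q : ℝ) ≤ 2 * Y := by
    refine ⟨⌈Y⌉₊, Nat.le_ceil Y, ?_⟩
    have := (Nat.ceil_lt_add_one (by linarith : 0 ≤ Y)).le
    linarith
  have hqpos : 0 < q := by
    have : (0 : ℝ) < q := by linarith
    exact_mod_cast this
  refine ⟨q * L0, Nat.mul_pos hqpos hL0pos, ?_, ?_⟩
  · have hXY : X * Y = β ^ (1 / 2 + κ + η) := by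
      rw [hX, hY, ← Real.rpow_add hβ0]; congr 1; ring
    rw [Nat.cast_mul, ← hXY]
    have := mul_le_mul hqa hL0b (by positivity) (by positivity)
    linarith
  · have hYA : (2 * Y) ^ 3 * β ^ η = 8 * β ^ (3 * κ + 7 * η) := by
      rw [hY, mul_pow, ← Real.rpow_natCast (β ^ (κ + 2 * η)) 3, ← Real.rpow_mul hβ0.le, mul_assoc,
        ← Real.rpow_add hβ0]
      norm_num
      congr 1
      ring
    have h1 := log_Zt_cube_mul (n := n) (β := β / 2) (t := 0) (by positivity) le_rfl q L0 hL0pos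
    have h2 := hcr L0 hL0pos hL0a
    refine h1.trans ?_
    calc (q : ℝ) ^ 3 * Real.log (Zt n (cube L0) (β / 2) 0) ≤ (q : ℝ) ^ 3 * β ^ η :=
          mul_le_mul_of_nonneg_left h2 (by positivity)
      _ ≤ (2 * Y) ^ 3 * β ^ η :=
          mul_le_mul_of_nonneg_right (pow_le_pow_left₀ (by positivity) hqb 3) (pp _).le
      _ = _ := hYA

theorem bJ_param {n : ℕ} (hn : 1 ≤ n) {β A : ℝ} (hβ0 : 0 < β) (hA1 : 1 ≤ A) (hAβ : A ≤ β) :
    H.bJ (2 * n / (2 * A / β)) ≤ 449 * Real.sqrt (A / β) := by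
  have hnR : (1 : ℝ) ≤ n := by exact_mod_cast hn
  have hA0 : 0 < A := by linarith
  have hs0 : 0 < Real.sqrt (A / β) := Real.sqrt_pos.2 (by positivity)
  have haβ : β / A ≤ 2 * n / (2 * A / β) := by
    have : 2 * (n : ℝ) / (2 * A / β) = n * (β / A) := by field_simp
    rw [this]
    have h0 : 0 ≤ β / A := by positivity
    nlinarith
  have hβA : 1 ≤ β / A := by rwa [one_le_div hA0]
  generalize 2 * (n : ℝ) / (2 * A / β) = a at haβ
  have ha1 : 1 ≤ a := hβA.trans haβ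
  have h1 := bJ_upper ha1
  have h2 : 448 / a ≤ 448 := div_le_self (by norm_num) ha1
  have h3 : Real.sqrt (β / A) ≤ Real.sqrt (2 * Real.pi * a) := by
    refine Real.sqrt_le_sqrt (haβ.trans ?_)
    have : 1 ≤ 2 * Real.pi := by linarith [Real.pi_gt_three]
    nlinarith
  have h4 : Real.sqrt (β / A) * H.bJ a ≤ 449 := by
    refine (mul_le_mul_of_nonneg_right h3 (H.bJ_nonneg a)).trans ?_
    linarith
  have h5 : Real.sqrt (A / β) * Real.sqrt (β / A) = 1 := by
    rw [← Real.sqrt_mul (by positivity), show A / β * (β / A) = 1 by field_simp, Real.sqrt_one]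
  calc H.bJ a = Real.sqrt (A / β) * Real.sqrt (β / A) * H.bJ a := by rw [h5, one_mul]
    _ = Real.sqrt (A / β) * (Real.sqrt (β / A) * H.bJ a) := by ring
    _ ≤ Real.sqrt (A / β) * 449 := mul_le_mul_of_nonneg_left h4 hs0.le
    _ = _ := by ring

/-- Consequences of the lower bound on the side. -/
theorem side_bounds {κ η β : ℝ} {L : ℕ} (hκ : 0 < κ) (hη : 0 < η) (hβ1 : 1 ≤ β) (hL : 0 < L)
    (hLge : β ^ (1 / 2 + κ + η) / 2 ≤ L) :
    β / 4 ≤ (L : ℝ) ^ 2 ∧ Real.sqrt β / L ≤ 2 * β ^ (-κ) ∧ β / (L : ℝ) ^ 2 ≤ 4 * β ^ (-κ) ∧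
      Real.sqrt β ^ 3 / (L : ℝ) ^ 3 ≤ 8 * β ^ (-(3 * κ) - 3 * η) := by
  have hβ0 : 0 < β := by linarith
  have hLR : (0 : ℝ) < L := by exact_mod_cast hL
  have pw : ∀ {a b : ℝ}, a ≤ b → β ^ a ≤ β ^ b := fun h =>
    Real.rpow_le_rpow_of_exponent_le hβ1 h
  have pp : ∀ a : ℝ, 0 < β ^ a := fun a => Real.rpow_pos_of_pos hβ0 a
  have hq0 := pp (1 / 2 + κ + η)
  have h2 : (β ^ (1 / 2 + κ + η) / 2) ^ 2 = β ^ (1 + 2 * κ + 2 * η) / 4 := by
    rw [div_pow, ← Real.rpow_natCast, ← Real.rpow_mul hβ0.le]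
    norm_num
    congr 1
    ring
  have h1 : β ^ (1 + 2 * κ + 2 * η) / 4 ≤ (L : ℝ) ^ 2 := by
    rw [← h2]
    exact pow_le_pow_left₀ (by positivity) hLge 2
  refine ⟨?_, ?_, ?_, ?_⟩
  · have h3 : β ≤ β ^ (1 + 2 * κ + 2 * η) := by
      nth_rewrite 1 [← Real.rpow_one β]
      exact pw (by linarith)
    linarith
  · rw [div_le_iff₀ hLR, Real.sqrt_eq_rpow]
    have h2 : β ^ (-κ) * β ^ (1 / 2 + κ + η) = β ^ (1 / 2 + η) := by
      rw [← Real.rpow_add hβ0]; congr 1; ring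
    have h3 : β ^ (1 / 2 : ℝ) ≤ β ^ (1 / 2 + η) := pw (by linarith)
    have h4 := mul_le_mul_of_nonneg_left hLge (pp (-κ)).le
    nlinarith
  · rw [div_le_iff₀ (by positivity)]
    have h4 : β ^ (-κ) * β ^ (1 + 2 * κ + 2 * η) = β ^ (1 + κ + 2 * η) := by
      rw [← Real.rpow_add hβ0]; congr 1; ring
    have h5 : β ≤ β ^ (1 + κ + 2 * η) := by
      nth_rewrite 1 [← Real.rpow_one β]
      exact pw (by linarith)
    have h6 := mul_le_mul_of_nonneg_left h1 (pp (-κ)).le
    nlinarith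
  · have hsβ : Real.sqrt β ^ 3 = β ^ (3 / 2 : ℝ) := by
      rw [Real.sqrt_eq_rpow, ← Real.rpow_natCast, ← Real.rpow_mul hβ0.le]
      norm_num
    rw [div_le_iff₀ (by positivity), hsβ]
    have h1 : (β ^ (1 / 2 + κ + η) / 2) ^ 3 ≤ (L : ℝ) ^ 3 :=
      pow_le_pow_left₀ (by positivity) hLge 3
    have h2 : (β ^ (1 / 2 + κ + η) / 2) ^ 3 = β ^ (3 / 2 + 3 * κ + 3 * η) / 8 := by
      rw [div_pow, ← Real.rpow_natCast, ← Real.rpow_mul hβ0.le]
      norm_num
      congr 1
      ring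
    rw [h2] at h1
    have h3 : β ^ (-(3 * κ) - 3 * η) * β ^ (3 / 2 + 3 * κ + 3 * η) = β ^ (3 / 2 : ℝ) := by
      rw [← Real.rpow_add hβ0]; congr 1; ring
    have h4 := mul_le_mul_of_nonneg_left h1 (pp (-(3 * κ) - 3 * η)).le
    nlinarith

/-- The interaction error. -/
theorem interaction_error {κ η β A P N W : ℝ} (hη : 43 * η ≤ 1 - 21 * κ)
    (hβ1 : 1 ≤ β) (hA : A = 8 * β ^ (3 * κ + 7 * η))
    (hP : P ≤ 8 * β ^ (-(3 * κ) - 3 * η)) (hN0 : 0 ≤ N) (hN : N ≤ 2 * (A * β ^ κ)) (hW0 : 0 ≤ W)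
    (hW : W ≤ 899 * Real.sqrt (A / β)) :
    P * (β * (12 * Real.exp 2 * (N ^ 2 * W ^ 3))) ≤
      8 * (12 * Real.exp 2 * (4 * 8 ^ 2) * (899 ^ 3 * Real.sqrt 8 ^ 3)) * β ^ (-κ) := by
  have hβ0 : 0 < β := by linarith
  have pw : ∀ {a b : ℝ}, a ≤ b → β ^ a ≤ β ^ b := fun h =>
    Real.rpow_le_rpow_of_exponent_le hβ1 h
  have pp : ∀ a : ℝ, 0 < β ^ a := fun a => Real.rpow_pos_of_pos hβ0 a
  have h1 : N ^ 2 ≤ (2 * (A * β ^ κ)) ^ 2 := pow_le_pow_left₀ hN0 hN 2
  have h1' : W ^ 3 ≤ (899 * Real.sqrt (A / β)) ^ 3 := pow_le_pow_left₀ hW0 hW 3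
  have h2 : N ^ 2 * W ^ 3 ≤ (2 * (A * β ^ κ)) ^ 2 * (899 * Real.sqrt (A / β)) ^ 3 :=
    mul_le_mul h1 h1' (by positivity) (by positivity)
  have h3 : Real.sqrt (A / β) ^ 3 = Real.sqrt 8 ^ 3 * β ^ ((9 * κ + 21 * η - 3) / 2) := by
    have e1 : A / β = 8 * β ^ (3 * κ + 7 * η - 1) := by
      rw [hA, Real.rpow_sub hβ0, Real.rpow_one]; ring
    rw [e1, Real.sqrt_mul (by norm_num), mul_pow, Real.sqrt_eq_rpow (β ^ _),
      ← Real.rpow_mul hβ0.le, ← Real.rpow_natCast (β ^ _), ← Real.rpow_mul hβ0.le]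
    congr 2
    push_cast
    ring
  have q1 := pp (-(3 * κ) - 3 * η)
  have h4 : P * (β * (12 * Real.exp 2 * (N ^ 2 * W ^ 3))) ≤
      8 * β ^ (-(3 * κ) - 3 * η) * (β * (12 * Real.exp 2 *
        ((2 * (A * β ^ κ)) ^ 2 * (899 * Real.sqrt (A / β)) ^ 3))) := by
    refine mul_le_mul hP ?_ (by positivity) (by positivity)
    exact mul_le_mul_of_nonneg_left (mul_le_mul_of_nonneg_left h2 (by positivity)) hβ0.le
  refine h4.trans ?_
  have h5 : 8 * β ^ (-(3 * κ) - 3 * η) * (β * (12 * Real.exp 2 *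
        ((2 * (A * β ^ κ)) ^ 2 * (899 * Real.sqrt (A / β)) ^ 3))) =
      8 * (12 * Real.exp 2 * (4 * 8 ^ 2) * (899 ^ 3 * Real.sqrt 8 ^ 3)) *
      (β ^ (-(3 * κ) - 3 * η) * β * (β ^ (3 * κ + 7 * η)) ^ 2 * (β ^ κ) ^ 2 *
        β ^ ((9 * κ + 21 * η - 3) / 2)) := by
    rw [mul_pow 899, h3, hA]
    ring
  rw [h5]
  refine mul_le_mul_of_nonneg_left ?_ (by positivity)
  have h6 : β ^ (-(3 * κ) - 3 * η) * β * (β ^ (3 * κ + 7 * η)) ^ 2 * (β ^ κ) ^ 2 *
        β ^ ((9 * κ + 21 * η - 3) / 2) =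
      β ^ (-(3 * κ) - 3 * η + 1 + (3 * κ + 7 * η) * 2 + κ * 2 + (9 * κ + 21 * η - 3) / 2) := by
    have g : ∀ u v w : ℝ, β ^ v * β * (β ^ u) ^ 2 * (β ^ κ) ^ 2 * β ^ w =
        β ^ (v + 1 + u * 2 + κ * 2 + w) := by
      intro u v w
      rw [Real.rpow_add hβ0, Real.rpow_add hβ0, Real.rpow_add hβ0, Real.rpow_add hβ0,
        Real.rpow_one, Real.rpow_mul hβ0.le u 2, Real.rpow_mul hβ0.le κ 2, Real.rpow_two,
        Real.rpow_two]
    exact g _ _ _
  rw [h6]
  refine pw ?_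
  linarith

/-- (D6) Upper bound for the reduced pressure, uniformly in the field. -/
theorem gRed_upper {n : ℕ} (hn : 1 ≤ n) {κ : ℝ} (hκ : 0 < κ) (hκ2 : κ < 1 / 21) :
    ∃ C β₀ : ℝ, ∀ β : ℝ, β₀ ≤ β → ∀ t : ℝ, β ^ (-κ) ≤ t →
      Real.sqrt β ^ 3 * gRed n β (t / β) ≤ FS ((n : ℝ) / 2) t + C * β ^ (-κ) := by
  have hnR : (1 : ℝ) ≤ n := by exact_mod_cast hn
  obtain ⟨C, hC0, hC⟩ := bosSer_le hn
  obtain ⟨η, hη, hη2, hη3⟩ : ∃ η : ℝ, 0 < η ∧ η ≤ 1 / 43 ∧ 43 * η ≤ 1 - 21 * κ :=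
    ⟨(1 - 21 * κ) / 43, by linarith, by linarith, by linarith⟩
  have l2 : ∀ᶠ β : ℝ in atTop, 8 ≤ β ^ (1 - 3 * κ - 7 * η) :=
    (tendsto_rpow_atTop (by linarith)).eventually_ge_atTop 8
  obtain ⟨β₀, hβ₀⟩ := eventually_atTop.1
    ((exists_cube hn hκ hη (by linarith)).and (l2.and (eventually_ge_atTop 448)))
  refine ⟨8 * Real.log 3 + 8 * (12 * Real.exp 2 * (4 * 8 ^ 2) * (899 ^ 3 * Real.sqrt 8 ^ 3)) +
    C * 7 + 8, β₀, fun β hβ t ht => ?_⟩
  obtain ⟨⟨L, hLpos, hLge, hz1⟩, h8, h448⟩ := hβ₀ β hβ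
  have hβ0 : 0 < β := by linarith
  have hβ1 : 1 ≤ β := by linarith
  have pw : ∀ {a b : ℝ}, a ≤ b → β ^ a ≤ β ^ b := fun h =>
    Real.rpow_le_rpow_of_exponent_le hβ1 h
  have pp : ∀ a : ℝ, 0 < β ^ a := fun a => Real.rpow_pos_of_pos hβ0 a
  have ht0 : 0 < t := lt_of_lt_of_le (pp _) ht
  have hLR : (0 : ℝ) < L := by exact_mod_cast hLpos
  obtain ⟨A, hA⟩ : ∃ A : ℝ, A = 8 * β ^ (3 * κ + 7 * η) := ⟨_, rfl⟩
  rw [← hA] at hz1
  have hA8 : 8 ≤ A := by
    have : 1 ≤ β ^ (3 * κ + 7 * η) := Real.one_le_rpow hβ1 (by linarith)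
    rw [hA]; linarith
  have hz2 : Real.log (Zt n (cube L) β 0) ≤ A :=
    (Real.log_le_log (Zt_pos β 0) (Zt_anti (by linarith) le_rfl)).trans hz1
  have hAβ : A ≤ β := by
    have h1 : β ^ (3 * κ + 7 * η) * β ^ (1 - 3 * κ - 7 * η) = β := by
      rw [← Real.rpow_add hβ0]
      nth_rewrite 2 [← Real.rpow_one β]
      congr 1; ring
    calc A = β ^ (3 * κ + 7 * η) * 8 := by rw [hA]; ring
      _ ≤ β ^ (3 * κ + 7 * η) * β ^ (1 - 3 * κ - 7 * η) :=
        mul_le_mul_of_nonneg_left h8 (pp _).le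
      _ = β := h1
  obtain ⟨N1, hN1a, hN1b⟩ : ∃ N1 : ℕ, A ≤ t * N1 ∧ (N1 : ℝ) ≤ 2 * (A * β ^ κ) := by
    refine ⟨⌈A / t⌉₊, ?_, ?_⟩
    · have := Nat.le_ceil (A / t)
      rwa [div_le_iff₀ ht0, mul_comm] at this
    · have h1 := (Nat.ceil_lt_add_one (by positivity : 0 ≤ A / t)).le
      have h2 : A / t ≤ A * β ^ κ := by
        rw [div_le_iff₀ ht0]
        have h3 : β ^ κ * β ^ (-κ) = 1 := by rw [← Real.rpow_add hβ0]; simp
        have h4 : A * β ^ κ * β ^ (-κ) ≤ A * β ^ κ * t :=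
          mul_le_mul_of_nonneg_left ht (mul_nonneg (by linarith) (pp _).le)
        calc A = A * β ^ κ * β ^ (-κ) := by rw [mul_assoc, h3, mul_one]
          _ ≤ _ := h4
      have h5 : 1 ≤ A * β ^ κ := by
        have := Real.one_le_rpow hβ1 hκ.le
        nlinarith
      linarith
  have hup := logZt_upper hn hLpos (β := β) (t := t) (E1 := 2 * A / β) hβ0.le ht0
    (by positivity) N1 (hz1.trans (le_of_eq (by field_simp))) (hz2.trans hN1a)
  obtain ⟨sb1, sb2, sb3, sb4⟩ := side_bounds hκ hη hβ1 hLpos hLge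
  have hbJ := bJ_param hn hβ0 (by linarith) hAβ
  have hLinv : 1 / (L : ℝ) ≤ Real.sqrt (A / β) := by
    refine Real.le_sqrt_of_sq_le ?_
    rw [div_pow, one_pow, div_le_div_iff₀ (by positivity) hβ0, one_mul]
    nlinarith
  have hP0 : 0 < Real.sqrt β ^ 3 / (L : ℝ) ^ 3 := by positivity
  have piece2 := interaction_error hη3 hβ1 hA sb4 (Nat.cast_nonneg N1) hN1b
    (W := 1 / (L : ℝ) + 2 * H.bJ (2 * n / (2 * A / β)))
    (by have := H.bJ_nonneg (2 * n / (2 * A / β)); positivity) (by linarith)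
  have hPκ : Real.sqrt β ^ 3 / (L : ℝ) ^ 3 ≤ 8 * β ^ (-κ) :=
    sb4.trans (mul_le_mul_of_nonneg_left (pw (by linarith)) (by norm_num))
  have piece3 := hC β h448 L hLpos t ht0
  have g1 : 1 / β ≤ β ^ (-κ) := by
    rw [one_div, ← Real.rpow_neg_one]
    exact pw (by linarith)
  have g4 : Real.sqrt β ^ 3 / (L : ℝ) ^ 3 / t ≤ 8 * β ^ (-κ) := by
    rw [div_le_iff₀ ht0]
    have h2 : 8 * β ^ (-(3 * κ) - 3 * η) ≤ 8 * β ^ (-κ) * β ^ (-κ) := by
      rw [mul_assoc, ← Real.rpow_add hβ0]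
      exact mul_le_mul_of_nonneg_left (pw (by linarith)) (by norm_num)
    have h3 : 8 * β ^ (-κ) * β ^ (-κ) ≤ 8 * β ^ (-κ) * t :=
      mul_le_mul_of_nonneg_left ht (by have := pp (-κ); positivity)
    linarith
  have g5 : C * (1 / β + Real.sqrt β / L + β / (L : ℝ) ^ 2) ≤ C * (7 * β ^ (-κ)) :=
    mul_le_mul_of_nonneg_left (by linarith) hC0
  have hred := gRed_le (n := n) (β := β) (h := t / β) hβ0 (by positivity) hLpos
  rw [mul_div_cancel₀ t hβ0.ne'] at hred
  set P : ℝ := Real.sqrt β ^ 3 / (L : ℝ) ^ 3 with hP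
  have piece1 : P * Real.log 3 ≤ 8 * Real.log 3 * β ^ (-κ) := by
    have h1 : 0 ≤ Real.log 3 := Real.log_nonneg (by norm_num)
    have := mul_le_mul_of_nonneg_right hPκ h1
    linarith
  have h1 := mul_le_mul_of_nonneg_left hred (a := Real.sqrt β ^ 3) (by positivity)
  have h2 : Real.sqrt β ^ 3 * (Real.log (Zt n (cube L) β t) / (L : ℝ) ^ 3) =
      P * Real.log (Zt n (cube L) β t) := by rw [hP]; ring
  rw [h2] at h1
  have h3 := mul_le_mul_of_nonneg_left hup hP0.le
  rw [mul_add, mul_add] at h3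
  generalize 8 * (12 * Real.exp 2 * (4 * 8 ^ 2) * (899 ^ 3 * Real.sqrt 8 ^ 3)) = K at piece2 ⊢
  have h4 : (8 * Real.log 3 + K + C * 7 + 8) * β ^ (-κ) = 8 * Real.log 3 * β ^ (-κ) +
      K * β ^ (-κ) + C * (7 * β ^ (-κ)) + 8 * β ^ (-κ) := by ring
  rw [h4]
  linarith

end Vale.Agent.P361.B
end

section

/-!
Part B: final theorems.
-/

namespace Vale.Agent.P361.B

open Filter Topology

/-- Two-sided Bloch law, uniform for fields `h ≥ β^{-1-κ}`, `κ < 1/21`. -/
theorem bloch_uniform {n : ℕ} (hn : 1 ≤ n) {κ : ℝ} (hκ2 : κ < 1 / 21) {ε : ℝ} (hε : 0 < ε) :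
    ∀ᶠ β : ℝ in atTop, ∀ h : ℝ, β ^ (-1 - κ) ≤ h →
      |β ^ (3 / 2 : ℝ) * ((n : ℝ) / 2 - H.magAt n β h) - fS ((n : ℝ) / 2) (β * h)| ≤ ε := by
  -- reduce to positive exponent
  obtain ⟨κ₁, h1, h2, h3⟩ : ∃ κ₁ : ℝ, κ ≤ κ₁ ∧ 0 < κ₁ ∧ κ₁ < 1 / 21 := by
    rcases le_or_gt κ 0 with h | h
    · exact ⟨1 / 42, by linarith, by norm_num, by norm_num⟩
    · exact ⟨κ, le_rfl, h, hκ2⟩
  obtain ⟨κ₂, h4, h5⟩ := exists_between h3
  have hU := gRed_upper hn (by linarith : 0 < κ₂) h5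
  have h6 := deficit_uniform hn h2 h4 (by linarith) hU ε hε
  filter_upwards [h6, eventually_ge_atTop 1] with β h7 hβ1 h hh
  have hβ0 : 0 < β := by linarith
  have h8 := h7 (β * h) (by
    have h9 : β ^ (-κ₁) ≤ β * β ^ (-1 - κ) := by
      nth_rewrite 2 [← Real.rpow_one β]
      rw [← Real.rpow_add hβ0]
      exact Real.rpow_le_rpow_of_exponent_le hβ1 (by linarith)
    exact h9.trans (mul_le_mul_of_nonneg_left hh hβ0.le))
  rw [mul_div_cancel_left₀ h hβ0.ne'] at h8
  rwa [H.rpow_three_half hβ0.le]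

/-- Crude bound valid for every positive field. -/
theorem crude_deficit {n : ℕ} (hn : 1 ≤ n) {ε : ℝ} (hε : 0 < ε) :
    ∀ᶠ β : ℝ in atTop, ∀ h : ℝ, 0 < h →
      (n : ℝ) / 2 - H.magAt n β h ≤ β ^ (-(5 / 2) + ε) / h := by
  obtain ⟨η, h1, h2, h3⟩ : ∃ η : ℝ, 0 < η ∧ η < 1 / 2 ∧ 5 * η ≤ ε :=
    ⟨min (1 / 4) (ε / 5), by positivity, by
      have := min_le_left (1 / 4 : ℝ) (ε / 5); linarith, by
      have := min_le_right (1 / 4 : ℝ) (ε / 5); linarith⟩
  have l1 : ∀ᶠ β : ℝ in atTop, 2 ≤ β ^ (1 / 2 - η) :=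
    (tendsto_rpow_atTop (by linarith)).eventually_ge_atTop 2
  have l2 : ∀ᶠ β : ℝ in atTop, 8 ≤ β ^ η := (tendsto_rpow_atTop h1).eventually_ge_atTop 8
  filter_upwards [crude_log hn h1 h2, l1, l2, eventually_ge_atTop 1] with β hcr h2X h8 hβ1 h hh
  have hβ0 : 0 < β := by linarith
  have pp : ∀ a : ℝ, 0 < β ^ a := fun a => Real.rpow_pos_of_pos hβ0 a
  have hX0 := pp (1 / 2 - η)
  obtain ⟨L, hLa, hLb⟩ : ∃ L : ℕ, (L : ℝ) ≤ β ^ (1 / 2 - η) ∧ β ^ (1 / 2 - η) / 2 ≤ L := by
    refine ⟨⌊β ^ (1 / 2 - η)⌋₊, Nat.floor_le hX0.le, ?_⟩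
    have := Nat.lt_floor_add_one (β ^ (1 / 2 - η))
    linarith
  have hLR : (0 : ℝ) < L := by linarith
  have hLpos : 0 < L := by exact_mod_cast hLR
  have hz := hcr L hLpos hLa
  have hz2 : Real.log (Zt n (cube L) β (β * 0)) ≤ β ^ η := by
    rw [mul_zero]
    exact (Real.log_le_log (Zt_pos β 0) (Zt_anti (by linarith) le_rfl)).trans hz
  have hg := gRed_le (n := n) (β := β) (h := 0) hβ0 le_rfl hLpos
  have hg2 : gRed n β 0 ≤ 8 * β ^ (-(3 / 2) + 4 * η) := by
    refine hg.trans ?_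
    rw [div_le_iff₀ (by positivity)]
    refine hz2.trans ?_
    have h4 : (β ^ (1 / 2 - η) / 2) ^ 3 ≤ (L : ℝ) ^ 3 :=
      pow_le_pow_left₀ (by positivity) hLb 3
    have h5 : (β ^ (1 / 2 - η) / 2) ^ 3 = β ^ (3 / 2 - 3 * η) / 8 := by
      rw [div_pow, ← Real.rpow_natCast, ← Real.rpow_mul hβ0.le]
      norm_num
      congr 1
      ring
    rw [h5] at h4
    have h6 : β ^ (-(3 / 2) + 4 * η) * β ^ (3 / 2 - 3 * η) = β ^ η := by
      rw [← Real.rpow_add hβ0]; congr 1; ring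
    have h7 := mul_le_mul_of_nonneg_left h4 (pp (-(3 / 2) + 4 * η)).le
    nlinarith
  have sl := mag_le_slope (n := n) hβ0 (h₁ := 0) (h₀ := h) hh
  have hg3 := gRed_nonneg (n := n) hβ0 h
  refine sl.trans ?_
  rw [sub_zero, div_le_div_iff₀ (by positivity) hh]
  have h9 : gRed n β 0 - gRed n β h ≤ β * β ^ (-(5 / 2) + ε) := by
    have h10 : 8 * β ^ (-(3 / 2) + 4 * η) ≤ β * β ^ (-(5 / 2) + ε) := by
      calc 8 * β ^ (-(3 / 2) + 4 * η) ≤ β ^ η * β ^ (-(3 / 2) + 4 * η) :=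
            mul_le_mul_of_nonneg_right h8 (pp _).le
        _ = β ^ (-(3 / 2) + 5 * η) := by rw [← Real.rpow_add hβ0]; congr 1; ring
        _ ≤ β ^ (-(3 / 2) + ε) := Real.rpow_le_rpow_of_exponent_le hβ1 (by linarith)
        _ = β * β ^ (-(5 / 2) + ε) := by
          nth_rewrite 2 [← Real.rpow_one β]
          rw [← Real.rpow_add hβ0]; congr 1; ring
    linarith
  calc (gRed n β 0 - gRed n β h) * h ≤ β * β ^ (-(5 / 2) + ε) * h :=
        mul_le_mul_of_nonneg_right h9 hh.le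
    _ = _ := by ring

/-- Limit at fixed scaled field. -/
theorem bloch_scaled {n : ℕ} (hn : 1 ≤ n) {t : ℝ} (ht : 0 < t) :
    Tendsto (fun β : ℝ => β ^ (3 / 2 : ℝ) * ((n : ℝ) / 2 - H.magAt n β (t / β))) atTop
      (𝓝 (fS ((n : ℝ) / 2) t)) := by
  rw [Metric.tendsto_nhds]
  intro ε hε
  have l1 : ∀ᶠ β : ℝ in atTop, t⁻¹ ≤ β ^ (1 / 42 : ℝ) :=
    (tendsto_rpow_atTop (by norm_num)).eventually_ge_atTop _
  filter_upwards [bloch_uniform hn (κ := 1 / 42) (by norm_num) (half_pos hε), l1,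
    eventually_ge_atTop 1] with β h1 h2 hβ1
  have hβ0 : 0 < β := by linarith
  have h3 := h1 (t / β) (by
    rw [le_div_iff₀ hβ0]
    have e : β ^ (-1 - 1 / 42 : ℝ) * β = (β ^ (1 / 42 : ℝ))⁻¹ := by
      nth_rewrite 2 [← Real.rpow_one β]
      rw [← Real.rpow_add hβ0, ← Real.rpow_neg hβ0.le]
      congr 1; ring
    rw [e]
    exact inv_le_of_inv_le₀ ht h2)
  rw [mul_div_cancel₀ t hβ0.ne'] at h3
  rw [Real.dist_eq]
  linarith

/-- Bloch's law along `h = β^{-1-κ}`, `0 < κ < 1/21`. -/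
theorem bloch_vanishing {n : ℕ} (hn : 1 ≤ n) {κ : ℝ} (hκ : 0 < κ) (hκ2 : κ < 1 / 21) :
    Tendsto (fun β : ℝ => β ^ (3 / 2 : ℝ) * ((n : ℝ) / 2 - H.magAt n β (β ^ (-1 - κ)))) atTop
      (𝓝 (H.blochCoeff ((n : ℝ) / 2))) := by
  have hnR : (1 : ℝ) ≤ n := by exact_mod_cast hn
  have e0 : H.blochCoeff ((n : ℝ) / 2) = fS ((n : ℝ) / 2) 0 := by
    rw [fS_zero, aS, H.blochCoeff, H.rpow_three_half Real.pi_pos.le,
      H.rpow_three_half (by positivity)]
    have e : Real.sqrt (4 * Real.pi * ((n : ℝ) / 2)) ^ 3 =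
        8 * Real.sqrt Real.pi ^ 3 * Real.sqrt ((n : ℝ) / 2) ^ 3 := by
      rw [mul_assoc, Real.sqrt_mul (by norm_num), Real.sqrt_mul Real.pi_pos.le,
        show (4 : ℝ) = 2 ^ 2 by norm_num, Real.sqrt_sq (by norm_num)]
      ring
    rw [e]
    ring
  rw [e0]
  have h0 : Tendsto (fun β : ℝ => fS ((n : ℝ) / 2) (β * β ^ (-1 - κ))) atTop
      (𝓝 (fS ((n : ℝ) / 2) 0)) := by
    refine (fS_tendsto_zero _).comp (tendsto_nhdsWithin_iff.2 ⟨?_, ?_⟩)
    · refine (tendsto_rpow_neg_atTop hκ).congr' ?_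
      filter_upwards [eventually_gt_atTop 0] with β hβ
      nth_rewrite 2 [← Real.rpow_one β]
      rw [← Real.rpow_add hβ]; congr 1; ring
    · filter_upwards [eventually_gt_atTop 0] with β hβ
      exact Set.mem_Ici.2 (by positivity)
  have h1 : Tendsto (fun β : ℝ => β ^ (3 / 2 : ℝ) * ((n : ℝ) / 2 -
      H.magAt n β (β ^ (-1 - κ))) - fS ((n : ℝ) / 2) (β * β ^ (-1 - κ))) atTop (𝓝 0) := by
    rw [Metric.tendsto_nhds]
    intro ε hε
    filter_upwards [bloch_uniform hn hκ2 (half_pos hε)] with β h1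
    have h2 := h1 (β ^ (-1 - κ)) le_rfl
    rw [Real.dist_eq, sub_zero]
    linarith
  have h2 := h1.add h0
  simpa using h2

end Vale.Agent.P361.B
end

section

/-!
Model-level forms of the results on the magnetization in a field.
-/

namespace Vale.Agent.P361.BridgeB

open Filter Topology MeasureTheory

theorem mag_deriv (n : ℕ) (hn : 1 ≤ n) (β : ℝ) (hβ : 0 < β) (h : ℝ) (hh : 0 ≤ h) :
    HasDerivWithinAt (Model.pressure n β) (Model.mag n β h) (Set.Ioi h) h ∧
      Model.mag n β h ≤ (n : ℝ) / 2 :=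
  ⟨pressure_hasRightDeriv n hβ h, B.magAt_le hn hβ hh⟩

theorem mag_int (n : ℕ) (hn : 1 ≤ n) (β h : ℝ) (hβ : 0 < β) (hh : 0 ≤ h)
    (hm : 0 < Model.mag n β h) :
    IntegrableOn
      (fun k => 1 / (Real.exp (β * ((n : ℝ) / 2 / Model.mag n β h *
        Model.magnon ((n : ℝ) / 2) k + h)) - 1))
      (Set.univ.pi fun _ => Set.Icc (-Real.pi) Real.pi) ∧
    Model.mag n β h / ((n : ℝ) / 2) *
      Model.boseInt (fun k => β * ((n : ℝ) / 2 / Model.mag n β h *
        Model.magnon ((n : ℝ) / 2) k + h)) ≤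
      (n : ℝ) / 2 - Model.mag n β h :=
  H.magAt_integral hn hβ hh hm

theorem mag_uniform (n : ℕ) (hn : 1 ≤ n) (κ : ℝ) (hκ2 : κ < 1 / 21) (ε : ℝ) (hε : 0 < ε) :
    ∀ᶠ β : ℝ in atTop, ∀ h : ℝ, β ^ (-1 - κ) ≤ h →
      |β ^ (3 / 2 : ℝ) * ((n : ℝ) / 2 - Model.mag n β h) -
        Model.idealDeficit ((n : ℝ) / 2) (β * h)| ≤ ε := by
  have hS : 0 < (n : ℝ) / 2 := by
    have : (1 : ℝ) ≤ n := by exact_mod_cast hn
    linarith
  simp only [mag_eq, ideal_eq hS]
  exact B.bloch_uniform hn hκ2 hε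

theorem mag_vanishing (n : ℕ) (hn : 1 ≤ n) (κ : ℝ) (hκ : 0 < κ) (hκ2 : κ < 1 / 21) :
    Tendsto (fun β : ℝ => β ^ (3 / 2 : ℝ) * ((n : ℝ) / 2 - Model.mag n β (β ^ (-1 - κ)))) atTop
      (𝓝 ((riemannZeta (3 / 2)).re /
        (8 * Real.pi ^ (3 / 2 : ℝ) * ((n : ℝ) / 2) ^ (3 / 2 : ℝ)))) :=
  B.bloch_vanishing hn hκ hκ2

theorem mag_crude (n : ℕ) (hn : 1 ≤ n) (ε : ℝ) (hε : 0 < ε) :
    ∀ᶠ β : ℝ in atTop, ∀ h : ℝ, 0 < h →
      (n : ℝ) / 2 - Model.mag n β h ≤ β ^ (-(5 / 2) + ε) / h :=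
  B.crude_deficit hn hε

end Vale.Agent.P361.BridgeB
end

section

/-!
A Bogoliubov-type inequality for Gibbs states (in unnormalized form).
-/

namespace Vale.Agent.P361

open Matrix Finset
open scoped ComplexOrder

theorem convexOn_sub_one_mul_log :
    ConvexOn ℝ (Set.Ioi 0) fun u : ℝ => (u - 1) * Real.log u := by
  have h1 : ConvexOn ℝ (Set.Ioi 0) fun u : ℝ => u * Real.log u :=
    Real.convexOn_mul_log.subset (fun x hx => Set.mem_Ici.2 (le_of_lt hx)) (convex_Ioi 0)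
  have h2 : ConvexOn ℝ (Set.Ioi 0) fun u : ℝ => -Real.log u :=
    strictConcaveOn_log_Ioi.concaveOn.neg
  refine (h1.add h2).congr ?_
  intro u _
  simp only [Pi.add_apply]
  ring

/-- Weighted Jensen consequence. -/
theorem jensen_weights {κ : Type*} (s : Finset κ) (q u : κ → ℝ) (hq : ∀ i ∈ s, 0 ≤ q i)
    (hu : ∀ i ∈ s, 0 < u i) (hC : 0 < ∑ i ∈ s, q i * (u i - 1)) {T : ℝ}
    (hT : ∑ i ∈ s, q i * ((u i - 1) * Real.log (u i)) ≤ T * ∑ i ∈ s, q i * (u i - 1)) :
    (∑ i ∈ s, q i * (u i - 1)) / (Real.exp T - 1) ≤ ∑ i ∈ s, q i := by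
  set C := ∑ i ∈ s, q i * (u i - 1) with hCdef
  set D := ∑ i ∈ s, q i * ((u i - 1) * Real.log (u i)) with hDdef
  set N := ∑ i ∈ s, q i with hNdef
  have hN0 : 0 ≤ N := Finset.sum_nonneg hq
  have hN : 0 < N := by
    rcases hN0.lt_or_eq with h | h
    · exact h
    · exfalso
      have hz : ∀ i ∈ s, q i = 0 := (Finset.sum_eq_zero_iff_of_nonneg hq).1 h.symm
      have : C = 0 := by
        rw [hCdef]
        exact Finset.sum_eq_zero fun i hi => by rw [hz i hi, zero_mul]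
      linarith
  have hJ := convexOn_sub_one_mul_log.map_sum_le (t := s) (w := fun i => q i / N) (p := u)
    (fun i hi => div_nonneg (hq i hi) hN0)
    (by rw [← Finset.sum_div]; exact div_self hN.ne') hu
  simp only [smul_eq_mul] at hJ
  have e1 : ∑ i ∈ s, q i / N * u i = 1 + C / N := by
    have : ∑ i ∈ s, q i / N * u i = (∑ i ∈ s, (q i * (u i - 1) + q i)) / N := by
      rw [Finset.sum_div]
      refine Finset.sum_congr rfl fun i _ => ?_
      ring
    rw [this, Finset.sum_add_distrib, add_div, ← hCdef, ← hNdef, div_self hN.ne', add_comm]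
  have e2 : ∑ i ∈ s, q i / N * ((u i - 1) * Real.log (u i)) = D / N := by
    rw [hDdef, Finset.sum_div]
    refine Finset.sum_congr rfl fun i _ => ?_
    ring
  rw [e1, e2] at hJ
  have h1 : Real.log (1 + C / N) ≤ D / C := by
    rw [le_div_iff₀ hC]
    have h2 : (1 + C / N - 1) * Real.log (1 + C / N) * N ≤ D / N * N :=
      mul_le_mul_of_nonneg_right hJ hN0
    have h3 : (1 + C / N - 1) * Real.log (1 + C / N) * N = Real.log (1 + C / N) * C := by
      field_simp
      ring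
    have h4 : D / N * N = D := by field_simp
    linarith
  have hpos : 0 < 1 + C / N := by positivity
  have h1' : Real.log (1 + C / N) ≤ T := h1.trans (by rw [div_le_iff₀ hC]; exact hT)
  have h2 : 1 + C / N ≤ Real.exp T := by
    calc 1 + C / N = Real.exp (Real.log (1 + C / N)) := (Real.exp_log hpos).symm
      _ ≤ _ := Real.exp_le_exp.2 h1'
  have h3 : C / N ≤ Real.exp T - 1 := by linarith
  have h4 : 0 < C / N := by positivity
  rw [div_le_iff₀ (lt_of_lt_of_le h4 h3)]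
  calc C = N * (C / N) := by field_simp
    _ ≤ N * (Real.exp T - 1) := mul_le_mul_of_nonneg_left h3 hN0

variable {ι : Type*} [Fintype ι] [DecidableEq ι]

/-- Expansions in the eigenbasis. -/
theorem trace_star_mul {X : Matrix ι ι ℂ} (hX : X.IsHermitian) (A : Matrix ι ι ℂ) :
    (trace (NormedSpace.exp X * (star A * A))).re = ∑ i, ∑ j,
      Real.exp (hX.eigenvalues j) * ‖(star (hX.eigenvectorUnitary : Matrix ι ι ℂ) * A *
        (hX.eigenvectorUnitary : Matrix ι ι ℂ)) i j‖ ^ 2 := by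
  set U := (hX.eigenvectorUnitary : Matrix ι ι ℂ) with hU
  have hUU : U * star U = 1 := Unitary.coe_mul_star_self _
  set B := star U * A * U with hB
  rw [trace_exp_mul hX, Complex.re_sum, Finset.sum_comm]
  refine Finset.sum_congr rfl fun j _ => ?_
  rw [Complex.re_ofReal_mul]
  have h1 : star U * (star A * A) * U = star B * B := by
    rw [hB]
    simp only [star_mul, star_star]
    calc star U * (star A * A) * U = star U * star A * 1 * A * U := by
          rw [Matrix.mul_one]; simp only [Matrix.mul_assoc]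
      _ = _ := by rw [← hUU]; simp only [Matrix.mul_assoc]
  rw [h1, Matrix.mul_apply, Complex.re_sum, Finset.mul_sum]
  refine Finset.sum_congr rfl fun i _ => ?_
  congr 1
  rw [Matrix.star_apply, Complex.star_def, Complex.conj_mul']
  norm_cast

theorem trace_mul_star {X : Matrix ι ι ℂ} (hX : X.IsHermitian) (A : Matrix ι ι ℂ) :
    (trace (NormedSpace.exp X * (A * star A))).re = ∑ i, ∑ j,
      Real.exp (hX.eigenvalues i) * ‖(star (hX.eigenvectorUnitary : Matrix ι ι ℂ) * A *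
        (hX.eigenvectorUnitary : Matrix ι ι ℂ)) i j‖ ^ 2 := by
  set U := (hX.eigenvectorUnitary : Matrix ι ι ℂ) with hU
  have hUU : U * star U = 1 := Unitary.coe_mul_star_self _
  set B := star U * A * U with hB
  rw [trace_exp_mul hX, Complex.re_sum]
  refine Finset.sum_congr rfl fun i _ => ?_
  rw [Complex.re_ofReal_mul]
  have h1 : star U * (A * star A) * U = B * star B := by
    rw [hB]
    simp only [star_mul, star_star]
    calc star U * (A * star A) * U = star U * A * 1 * star A * U := by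
          rw [Matrix.mul_one]; simp only [Matrix.mul_assoc]
      _ = _ := by rw [← hUU]; simp only [Matrix.mul_assoc]
  rw [h1, Matrix.mul_apply, Complex.re_sum, Finset.mul_sum]
  refine Finset.sum_congr rfl fun j _ => ?_
  congr 1
  rw [Matrix.star_apply, Complex.star_def, Complex.mul_conj']
  norm_cast

/-- `[A, [A*, X]]`. -/
def dblComm (A X : Matrix ι ι ℂ) : Matrix ι ι ℂ :=
  A * (star A * X - X * star A) - (star A * X - X * star A) * A

theorem trace_dblComm {X : Matrix ι ι ℂ} (hX : X.IsHermitian) (A : Matrix ι ι ℂ) :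
    (trace (NormedSpace.exp X * dblComm A X)).re = ∑ i, ∑ j,
      (Real.exp (hX.eigenvalues i) - Real.exp (hX.eigenvalues j)) *
      (hX.eigenvalues i - hX.eigenvalues j) *
      ‖(star (hX.eigenvectorUnitary : Matrix ι ι ℂ) * A *
        (hX.eigenvectorUnitary : Matrix ι ι ℂ)) i j‖ ^ 2 := by
  set U := (hX.eigenvectorUnitary : Matrix ι ι ℂ) with hU
  have hUU : U * star U = 1 := Unitary.coe_mul_star_self _
  set B := star U * A * U with hB
  set Λ : Matrix ι ι ℂ := diagonal (fun i => (hX.eigenvalues i : ℂ)) with hΛ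
  have hd : star U * X * U = Λ := diag_conj_eigen hX
  set G : Matrix ι ι ℂ := star B * Λ - Λ * star B with hG
  have hGij : ∀ i j, G j i = star (B i j) * ((hX.eigenvalues i : ℂ) - (hX.eigenvalues j : ℂ)) := by
    intro i j
    rw [hG, Matrix.sub_apply, hΛ, Matrix.mul_diagonal, Matrix.diagonal_mul, Matrix.star_apply]
    ring
  have hins : ∀ P Q : Matrix ι ι ℂ, star U * (P * Q) * U = (star U * P * U) * (star U * Q * U) := by
    intro P Q
    calc star U * (P * Q) * U = star U * P * 1 * Q * U := by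
          rw [Matrix.mul_one]; simp only [Matrix.mul_assoc]
      _ = _ := by rw [← hUU]; simp only [Matrix.mul_assoc]
  have hsB : star U * star A * U = star B := by
    rw [hB]; simp only [star_mul, star_star, Matrix.mul_assoc]
  have hGc : star U * (star A * X - X * star A) * U = G := by
    rw [Matrix.mul_sub, Matrix.sub_mul, hins, hins, hd, hsB]
  rw [trace_exp_mul hX, ← hU]
  have h1 : ∀ i, (star U * dblComm A X * U) i i = (B * G) i i - (G * B) i i := by
    intro i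
    unfold dblComm
    rw [Matrix.mul_sub, Matrix.sub_mul, hins A, hins _ A, hGc, ← hB, Matrix.sub_apply]
  have h0 : ∑ i, ((Real.exp (hX.eigenvalues i) : ℝ) : ℂ) * (star U * dblComm A X * U) i i =
      ∑ i, ((Real.exp (hX.eigenvalues i) : ℝ) : ℂ) * ∑ j, B i j * G j i -
      ∑ i, ((Real.exp (hX.eigenvalues i) : ℝ) : ℂ) * ∑ j, G i j * B j i := by
    rw [← Finset.sum_sub_distrib]
    refine Finset.sum_congr rfl fun i _ => ?_
    rw [h1 i, mul_sub, Matrix.mul_apply, Matrix.mul_apply]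
  rw [h0]
  have h2 : ∀ i j, B i j * G j i = ((‖B i j‖ ^ 2 * (hX.eigenvalues i - hX.eigenvalues j) : ℝ) : ℂ) := by
    intro i j
    rw [hGij, ← mul_assoc, Complex.star_def, Complex.mul_conj']
    push_cast
    rfl
  have h3 : ∀ i j, G i j * B j i = ((‖B j i‖ ^ 2 * (hX.eigenvalues j - hX.eigenvalues i) : ℝ) : ℂ) := by
    intro i j
    rw [hGij, mul_comm, ← mul_assoc, Complex.star_def, Complex.mul_conj']
    push_cast
    rfl
  simp only [h2, h3]
  have h4 : ∑ i, ((Real.exp (hX.eigenvalues i) : ℝ) : ℂ) * ∑ j,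
      ((‖B j i‖ ^ 2 * (hX.eigenvalues j - hX.eigenvalues i) : ℝ) : ℂ) =
      ∑ i, ∑ j, ((Real.exp (hX.eigenvalues j) * (‖B i j‖ ^ 2 *
        (hX.eigenvalues i - hX.eigenvalues j)) : ℝ) : ℂ) := by
    rw [Finset.sum_comm' (s := Finset.univ) (t := fun _ => Finset.univ)
      (s' := fun _ => Finset.univ) (t' := Finset.univ) (by simp)]
    refine Finset.sum_congr rfl fun i _ => ?_
    rw [Finset.mul_sum]
    refine Finset.sum_congr rfl fun j _ => ?_
    push_cast
    ring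
  rw [h4]
  have h5 : ∑ i, ((Real.exp (hX.eigenvalues i) : ℝ) : ℂ) * ∑ j,
      ((‖B i j‖ ^ 2 * (hX.eigenvalues i - hX.eigenvalues j) : ℝ) : ℂ) =
      ∑ i, ∑ j, ((Real.exp (hX.eigenvalues i) * (‖B i j‖ ^ 2 *
        (hX.eigenvalues i - hX.eigenvalues j)) : ℝ) : ℂ) := by
    refine Finset.sum_congr rfl fun i _ => ?_
    rw [Finset.mul_sum]
    refine Finset.sum_congr rfl fun j _ => ?_
    push_cast
    ring
  rw [h5, ← Finset.sum_sub_distrib]
  have h6 : (∑ i, (∑ j, ((Real.exp (hX.eigenvalues i) * (‖B i j‖ ^ 2 *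
        (hX.eigenvalues i - hX.eigenvalues j)) : ℝ) : ℂ) - ∑ j,
        ((Real.exp (hX.eigenvalues j) * (‖B i j‖ ^ 2 *
        (hX.eigenvalues i - hX.eigenvalues j)) : ℝ) : ℂ))) =
      ((∑ i, ∑ j, (Real.exp (hX.eigenvalues i) - Real.exp (hX.eigenvalues j)) *
      (hX.eigenvalues i - hX.eigenvalues j) * ‖B i j‖ ^ 2 : ℝ) : ℂ) := by
    push_cast
    refine Finset.sum_congr rfl fun i _ => ?_
    rw [← Finset.sum_sub_distrib]
    refine Finset.sum_congr rfl fun j _ => ?_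
    ring
  rw [h6, Complex.ofReal_re]

/-- Bogoliubov–Roepstorff inequality for a finite family of operators. -/
theorem roepstorff {κ : Type*} [Fintype κ] {X : Matrix ι ι ℂ} (hX : X.IsHermitian)
    (A : κ → Matrix ι ι ℂ)
    (hC : 0 < ∑ a, (trace (NormedSpace.exp X * (A a * star (A a) - star (A a) * A a))).re)
    {T : ℝ} (hT : ∑ a, (trace (NormedSpace.exp X * dblComm (A a) X)).re ≤
      T * ∑ a, (trace (NormedSpace.exp X * (A a * star (A a) - star (A a) * A a))).re) :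
    (∑ a, (trace (NormedSpace.exp X * (A a * star (A a) - star (A a) * A a))).re) /
      (Real.exp T - 1) ≤ ∑ a, (trace (NormedSpace.exp X * (star (A a) * A a))).re := by
  set U := (hX.eigenvectorUnitary : Matrix ι ι ℂ) with hU
  set q : κ × ι × ι → ℝ := fun p => Real.exp (hX.eigenvalues p.2.2) *
    ‖(star U * A p.1 * U) p.2.1 p.2.2‖ ^ 2 with hq
  set u : κ × ι × ι → ℝ := fun p => Real.exp (hX.eigenvalues p.2.1 - hX.eigenvalues p.2.2) with hu
  have hN : ∑ a, (trace (NormedSpace.exp X * (star (A a) * A a))).re = ∑ p, q p := by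
    simp only [trace_star_mul hX, Fintype.sum_prod_type, hq]
    rfl
  have hCC : ∑ a, (trace (NormedSpace.exp X * (A a * star (A a) - star (A a) * A a))).re =
      ∑ p, q p * (u p - 1) := by
    simp only [Matrix.mul_sub, Matrix.trace_sub, Complex.sub_re, trace_star_mul hX,
      trace_mul_star hX, Fintype.sum_prod_type, hq, hu]
    refine Finset.sum_congr rfl fun a _ => ?_
    rw [← Finset.sum_sub_distrib]
    refine Finset.sum_congr rfl fun i _ => ?_
    rw [← Finset.sum_sub_distrib]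
    refine Finset.sum_congr rfl fun j _ => ?_
    rw [Real.exp_sub, ← hU]
    have := (Real.exp_pos (hX.eigenvalues j)).ne'
    field_simp
  have hD : ∑ a, (trace (NormedSpace.exp X * dblComm (A a) X)).re =
      ∑ p, q p * ((u p - 1) * Real.log (u p)) := by
    simp only [trace_dblComm hX, Fintype.sum_prod_type, hq, hu, Real.log_exp]
    refine Finset.sum_congr rfl fun a _ => ?_
    refine Finset.sum_congr rfl fun i _ => ?_
    refine Finset.sum_congr rfl fun j _ => ?_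
    rw [Real.exp_sub, ← hU]
    have := (Real.exp_pos (hX.eigenvalues j)).ne'
    field_simp
  rw [hCC] at hC
  rw [hCC, hD] at hT
  rw [hCC, hN]
  exact jensen_weights Finset.univ q u (fun p _ => by simp only [hq]; positivity)
    (fun p _ => Real.exp_pos _) hC hT

end Vale.Agent.P361
end

section

/-!
Spin algebra: commutation relations and the bond inequality.
-/

namespace Vale.Agent.P361

open Matrix Finset
open scoped ComplexOrder

/-- Raising matrix `S⁺ = (S⁻)ᴴ`. -/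
noncomputable def spinRaise (n : ℕ) : Matrix (Fin (n + 1)) (Fin (n + 1)) ℂ := (spinLower n)ᴴ

/-- Diagonal Holstein–Primakoff factor. -/
noncomputable def hpA (n : ℕ) : Matrix (Fin (n + 1)) (Fin (n + 1)) ℂ :=
  diagonal fun j => ((Real.sqrt ((n : ℝ) - (j : ℕ)) : ℝ) : ℂ)

/-- Truncated boson annihilation matrix. -/
noncomputable def hpB (n : ℕ) : Matrix (Fin (n + 1)) (Fin (n + 1)) ℂ :=
  Matrix.of fun i j => if (i : ℕ) + 1 = (j : ℕ) then ((Real.sqrt ((j : ℕ) : ℝ) : ℝ) : ℂ) else 0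

theorem hpA_mul_self (n : ℕ) :
    (hpA n)ᴴ * hpA n = ((n : ℂ) / 2) • (1 : Matrix (Fin (n + 1)) (Fin (n + 1)) ℂ) + spinZ n := by
  ext i j
  by_cases hij : i = j
  · subst hij
    have hi : ((i : ℕ) : ℝ) ≤ n := by exact_mod_cast Nat.lt_succ_iff.1 i.2
    simp only [hpA, spinZ, Matrix.diagonal_conjTranspose, Matrix.diagonal_mul_diagonal,
      Matrix.diagonal_apply_eq, Matrix.add_apply, Matrix.smul_apply, Matrix.one_apply_eq,
      smul_eq_mul, mul_one, Pi.star_apply, Complex.star_def, Complex.conj_ofReal]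
    rw [← Complex.ofReal_mul, Real.mul_self_sqrt (by linarith)]
    push_cast
    ring
  · simp [hpA, spinZ, hij, Matrix.diagonal_conjTranspose, Matrix.diagonal_mul_diagonal]

theorem hpB_mul_self (n : ℕ) :
    (hpB n)ᴴ * hpB n = ((n : ℂ) / 2) • (1 : Matrix (Fin (n + 1)) (Fin (n + 1)) ℂ) - spinZ n := by
  ext i j
  rw [Matrix.mul_apply]
  simp only [hpB, Matrix.conjTranspose_apply, Matrix.of_apply]
  by_cases hij : i = j
  · subst hij
    simp only [spinZ, Matrix.sub_apply, Matrix.smul_apply, Matrix.one_apply_eq,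
      Matrix.diagonal_apply_eq, smul_eq_mul, mul_one]
    by_cases hi0 : (i : ℕ) = 0
    · rw [Finset.sum_eq_zero]
      · simp [hi0]
      · intro k _
        rw [if_neg (by omega)]
        simp
    · have hlt : (i : ℕ) - 1 < n + 1 := by omega
      rw [Finset.sum_eq_single (⟨(i : ℕ) - 1, hlt⟩ : Fin (n + 1))]
      · have : (i : ℕ) - 1 + 1 = (i : ℕ) := by omega
        simp only [this, if_true, Complex.star_def, Complex.conj_ofReal]
        rw [← Complex.ofReal_mul, Real.mul_self_sqrt (Nat.cast_nonneg _)]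
        push_cast
        ring
      · intro k _ hk
        rw [if_neg]
        · simp
        · intro h
          apply hk
          ext
          simp only
          omega
      · intro h; exact absurd (Finset.mem_univ _) h
  · have hij' : (i : ℕ) ≠ (j : ℕ) := fun h => hij (Fin.ext h)
    rw [Finset.sum_eq_zero]
    · simp [spinZ, hij]
    · intro k _
      by_cases h1 : (k : ℕ) + 1 = (i : ℕ)
      · rw [if_neg (show ¬ (k : ℕ) + 1 = (j : ℕ) by omega)]
        simp
      · rw [if_neg h1]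
        simp

theorem hpA_mul_hpB (n : ℕ) : (hpA n) * hpB n = spinRaise n := by
  ext i j
  simp only [hpA, hpB, spinRaise, spinLower, Matrix.diagonal_mul, Matrix.of_apply,
    Matrix.conjTranspose_apply]
  by_cases h : (i : ℕ) + 1 = (j : ℕ)
  · rw [if_pos h, if_pos h.symm]
    rw [Complex.star_def, Complex.conj_ofReal, ← Complex.ofReal_mul]
    congr 1
    have hi : ((i : ℕ) : ℝ) ≤ n := by exact_mod_cast Nat.lt_succ_iff.1 i.2
    rw [← Real.sqrt_mul (by linarith)]
    congr 1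
    rw [← h]
    push_cast
    ring
  · rw [if_neg h, if_neg (fun h' => h h'.symm)]
    simp

theorem hpA_isHermitian (n : ℕ) : (hpA n)ᴴ = hpA n := by
  simp only [hpA, Matrix.diagonal_conjTranspose]
  congr 1
  ext j
  simp

theorem hpB_mul_hpA (n : ℕ) : (hpB n)ᴴ * hpA n = spinLower n := by
  have h := congrArg Matrix.conjTranspose (hpA_mul_hpB n)
  rw [Matrix.conjTranspose_mul, hpA_isHermitian, spinRaise, Matrix.conjTranspose_conjTranspose] at h
  exact h

theorem lower_mul_raise (n : ℕ) :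
    spinLower n * spinRaise n = diagonal fun j : Fin (n + 1) =>
      (((j : ℕ) : ℂ) * ((n : ℂ) + 1 - (j : ℕ))) := by
  ext i j
  rw [Matrix.mul_apply]
  simp only [spinRaise, spinLower, Matrix.conjTranspose_apply, Matrix.of_apply]
  by_cases hij : i = j
  · subst hij
    simp only [Matrix.diagonal_apply_eq]
    by_cases hi0 : (i : ℕ) = 0
    · rw [Finset.sum_eq_zero]
      · simp [hi0]
      · intro k _
        rw [if_neg (by omega)]
        simp
    · have hlt : (i : ℕ) - 1 < n + 1 := by omega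
      rw [Finset.sum_eq_single (⟨(i : ℕ) - 1, hlt⟩ : Fin (n + 1))]
      · have : (i : ℕ) = (i : ℕ) - 1 + 1 := by omega
        rw [if_pos this]
        rw [Complex.star_def, Complex.conj_ofReal, ← Complex.ofReal_mul, Real.mul_self_sqrt]
        · push_cast; ring
        · have hi : ((i : ℕ) : ℝ) ≤ n := by exact_mod_cast Nat.lt_succ_iff.1 i.2
          have : (0 : ℝ) ≤ ((i : ℕ) : ℝ) := Nat.cast_nonneg _
          exact mul_nonneg this (by linarith)
      · intro k _ hk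
        rw [if_neg]
        · simp
        · intro h
          apply hk
          ext
          simp only
          omega
      · intro h; exact absurd (Finset.mem_univ _) h
  · have hij' : (i : ℕ) ≠ (j : ℕ) := fun h => hij (Fin.ext h)
    rw [Finset.sum_eq_zero]
    · simp [hij]
    · intro k _
      by_cases h1 : (i : ℕ) = (k : ℕ) + 1
      · rw [if_neg (show ¬ (j : ℕ) = (k : ℕ) + 1 by omega)]
        simp
      · rw [if_neg h1]
        simp

theorem raise_mul_lower (n : ℕ) :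
    spinRaise n * spinLower n = diagonal fun j : Fin (n + 1) =>
      ((((j : ℕ) : ℂ) + 1) * ((n : ℂ) - (j : ℕ))) := by
  ext i j
  rw [Matrix.mul_apply]
  simp only [spinRaise, spinLower, Matrix.conjTranspose_apply, Matrix.of_apply]
  by_cases hij : i = j
  · subst hij
    simp only [Matrix.diagonal_apply_eq]
    by_cases hi0 : (i : ℕ) = n
    · rw [Finset.sum_eq_zero]
      · simp [hi0]
      · intro k _
        have := k.2
        rw [if_neg (by omega)]
        simp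
    · have hlt : (i : ℕ) + 1 < n + 1 := by have := i.2; omega
      rw [Finset.sum_eq_single (⟨(i : ℕ) + 1, hlt⟩ : Fin (n + 1))]
      · rw [if_pos rfl]
        rw [Complex.star_def, Complex.conj_ofReal, ← Complex.ofReal_mul, Real.mul_self_sqrt]
        · push_cast; ring
        · have hi : ((i : ℕ) : ℝ) ≤ n := by exact_mod_cast Nat.lt_succ_iff.1 i.2
          have : (0 : ℝ) ≤ ((i : ℕ) : ℝ) := Nat.cast_nonneg _
          push_cast
          exact mul_nonneg (by linarith) (by linarith)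
      · intro k _ hk
        rw [if_neg]
        · simp
        · intro h
          apply hk
          ext
          simp only
          omega
      · intro h; exact absurd (Finset.mem_univ _) h
  · have hij' : (i : ℕ) ≠ (j : ℕ) := fun h => hij (Fin.ext h)
    rw [Finset.sum_eq_zero]
    · simp [hij]
    · intro k _
      by_cases h1 : (k : ℕ) = (i : ℕ) + 1
      · rw [if_neg (show ¬ (k : ℕ) = (j : ℕ) + 1 by omega)]
        simp
      · rw [if_neg h1]
        simp

theorem raise_lower_comm (n : ℕ) :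
    spinRaise n * spinLower n - spinLower n * spinRaise n = (2 : ℂ) • spinZ n := by
  rw [raise_mul_lower, lower_mul_raise, Matrix.diagonal_sub, spinZ, ← Matrix.diagonal_smul]
  congr 1
  ext j
  simp only [Pi.smul_apply, smul_eq_mul]
  ring

theorem lower_Z_comm (n : ℕ) :
    spinLower n * spinZ n - spinZ n * spinLower n = spinLower n := by
  ext i j
  rw [Matrix.sub_apply, spinZ, Matrix.mul_diagonal, Matrix.diagonal_mul]
  simp only [spinLower, Matrix.of_apply]
  split_ifs with h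
  · rw [h]; push_cast; ring
  · simp

theorem raise_Z_comm (n : ℕ) :
    spinRaise n * spinZ n - spinZ n * spinRaise n = -spinRaise n := by
  have h := congrArg Matrix.conjTranspose (lower_Z_comm n)
  rw [Matrix.conjTranspose_sub, Matrix.conjTranspose_mul, Matrix.conjTranspose_mul] at h
  have hz : (spinZ n)ᴴ = spinZ n := spin_isHermitian n 2
  rw [hz] at h
  rw [← neg_sub, spinRaise]
  rw [h]

theorem lower_raise_le (n : ℕ) :
    ((n : ℂ) • (((n : ℂ) / 2) • (1 : Matrix (Fin (n + 1)) (Fin (n + 1)) ℂ) - spinZ n) -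
      spinLower n * spinRaise n).PosSemidef := by
  have h : (n : ℂ) • (((n : ℂ) / 2) • (1 : Matrix (Fin (n + 1)) (Fin (n + 1)) ℂ) - spinZ n) -
      spinLower n * spinRaise n = diagonal fun j : Fin (n + 1) =>
        ((((j : ℕ) : ℝ) * ((j : ℕ) - 1) : ℝ) : ℂ) := by
    rw [lower_mul_raise]
    ext i j
    by_cases hij : i = j
    · subst hij
      simp [spinZ]
      ring
    · simp [spinZ, hij]
  rw [h]
  refine Matrix.PosSemidef.diagonal ?_
  intro j
  simp only [Pi.zero_apply]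
  rw [Complex.zero_le_real]
  rcases Nat.eq_zero_or_pos (j : ℕ) with h0 | h0
  · simp [h0]
  · have : (1 : ℝ) ≤ ((j : ℕ) : ℝ) := by exact_mod_cast h0
    exact mul_nonneg (by linarith) (by linarith)

variable {n : ℕ} {Λ : Finset Site}

theorem pair_eq (x y : Λ) :
    ∑ a : Fin 3, siteOp x (spin n a) * siteOp y (spin n a) =
      siteOp x (spinZ n) * siteOp y (spinZ n) +
      (1 / 2 : ℂ) • (siteOp x (spinRaise n) * siteOp y (spinLower n) +
        siteOp x (spinLower n) * siteOp y (spinRaise n)) := by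
  rw [Fin.sum_univ_three]
  have h0 : spin n 0 = (1 / 2 : ℂ) • (spinRaise n + spinLower n) := rfl
  have h1 : spin n 1 = (1 / (2 * Complex.I) : ℂ) • (spinRaise n - spinLower n) := rfl
  have h2 : spin n 2 = spinZ n := rfl
  rw [h0, h1, h2]
  simp only [siteOp_smul, siteOp_add, siteOp_sub, Matrix.smul_mul, Matrix.mul_smul, smul_smul]
  have hI : (1 / (2 * Complex.I) : ℂ) * (1 / (2 * Complex.I)) = -(1 / 4) := by
    rw [div_mul_div_comm, one_mul]
    have : 2 * Complex.I * (2 * Complex.I) = -4 := by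
      rw [mul_mul_mul_comm, Complex.I_mul_I]; norm_num
    rw [this]; norm_num
  rw [hI]
  simp only [Matrix.mul_add, Matrix.add_mul, Matrix.mul_sub, Matrix.sub_mul]
  module

/-- The bond inequality `2 Z_x Z_y + (R_x L_y + L_x R_y)/2 ≤ 2 S²`. -/
theorem bond_posSemidef {x y : Λ} (hxy : x ≠ y) :
    ((2 * ((n : ℂ) / 2) ^ 2) • (1 : Matrix (Λ → Fin (n + 1)) (Λ → Fin (n + 1)) ℂ) -
      ((2 : ℂ) • (siteOp x (spinZ n) * siteOp y (spinZ n)) +
      (1 / 2 : ℂ) • (siteOp x (spinRaise n) * siteOp y (spinLower n) +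
        siteOp x (spinLower n) * siteOp y (spinRaise n)))).PosSemidef := by
  set ax := siteOp x (hpA n) with hax
  set ay := siteOp y (hpA n) with hay
  set bx := siteOp x (hpB n) with hbx
  set yb := siteOp y (hpB n) with hyb
  have key : (2 * ((n : ℂ) / 2) ^ 2) • (1 : Matrix (Λ → Fin (n + 1)) (Λ → Fin (n + 1)) ℂ) -
      ((2 : ℂ) • (siteOp x (spinZ n) * siteOp y (spinZ n)) +
      (1 / 2 : ℂ) • (siteOp x (spinRaise n) * siteOp y (spinLower n) +
        siteOp x (spinLower n) * siteOp y (spinRaise n))) =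
      (1 / 2 : ℂ) • ((ax * yb - bx * ay)ᴴ * (ax * yb - bx * ay) + (ax * yb)ᴴ * (ax * yb) +
        (bx * ay)ᴴ * (bx * ay)) := by
    have hAA : ∀ z : Λ, siteOp z ((hpA n)ᴴ * hpA n) =
        ((n : ℂ) / 2) • (1 : Matrix (Λ → Fin (n + 1)) (Λ → Fin (n + 1)) ℂ) +
          siteOp z (spinZ n) := by
      intro z; rw [hpA_mul_self, siteOp_add, siteOp_smul, siteOp_one]
    have hBB : ∀ z : Λ, siteOp z ((hpB n)ᴴ * hpB n) =
        ((n : ℂ) / 2) • (1 : Matrix (Λ → Fin (n + 1)) (Λ → Fin (n + 1)) ℂ) -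
          siteOp z (spinZ n) := by
      intro z; rw [hpB_mul_self, siteOp_sub, siteOp_smul, siteOp_one]
    have e1 : (ax * yb)ᴴ * (ax * yb) = siteOp x ((hpA n)ᴴ * hpA n) *
        siteOp y ((hpB n)ᴴ * hpB n) := by
      rw [Matrix.conjTranspose_mul, hax, hyb, siteOp_conjTranspose, siteOp_conjTranspose,
        ← siteOp_mul, ← siteOp_mul]
      rw [Matrix.mul_assoc, ← Matrix.mul_assoc (siteOp x (hpA n)ᴴ), siteOp_mul,
        ← Matrix.mul_assoc, ← siteOp_commute hxy, Matrix.mul_assoc, siteOp_mul]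
    have e2 : (bx * ay)ᴴ * (bx * ay) = siteOp x ((hpB n)ᴴ * hpB n) *
        siteOp y ((hpA n)ᴴ * hpA n) := by
      rw [Matrix.conjTranspose_mul, hay, hbx, siteOp_conjTranspose, siteOp_conjTranspose,
        ← siteOp_mul, ← siteOp_mul]
      rw [Matrix.mul_assoc, ← Matrix.mul_assoc (siteOp x (hpB n)ᴴ), siteOp_mul,
        ← Matrix.mul_assoc, ← siteOp_commute hxy, Matrix.mul_assoc, siteOp_mul]
    have e3 : (ax * yb)ᴴ * (bx * ay) = siteOp x (spinRaise n) * siteOp y (spinLower n) := by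
      rw [← hpA_mul_hpB, ← hpB_mul_hpA, ← siteOp_mul, ← siteOp_mul, Matrix.conjTranspose_mul, hax,
        hyb, siteOp_conjTranspose, siteOp_conjTranspose, hpA_isHermitian, hbx, hay]
      rw [Matrix.mul_assoc, ← Matrix.mul_assoc (siteOp x (hpA n)), siteOp_mul,
        ← Matrix.mul_assoc, ← siteOp_commute hxy, Matrix.mul_assoc]
    have e4 : (bx * ay)ᴴ * (ax * yb) = siteOp x (spinLower n) * siteOp y (spinRaise n) := by
      rw [← hpA_mul_hpB, ← hpB_mul_hpA, ← siteOp_mul, ← siteOp_mul, Matrix.conjTranspose_mul, hay,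
        hbx, siteOp_conjTranspose, siteOp_conjTranspose, hpA_isHermitian, hax, hyb]
      rw [Matrix.mul_assoc, ← Matrix.mul_assoc (siteOp x (hpB n)ᴴ), siteOp_mul,
        ← Matrix.mul_assoc, ← siteOp_commute hxy, Matrix.mul_assoc]
    rw [Matrix.conjTranspose_sub, Matrix.sub_mul, Matrix.mul_sub, Matrix.mul_sub, e1, e2, e3, e4,
      hAA, hBB, hAA, hBB]
    simp only [Matrix.mul_add, Matrix.add_mul, Matrix.mul_sub, Matrix.sub_mul, Matrix.smul_mul,
      Matrix.mul_smul, Matrix.one_mul, Matrix.mul_one]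
    module
  rw [key]
  refine Matrix.PosSemidef.smul ?_ (by norm_num [Complex.le_def])
  exact ((Matrix.posSemidef_conjTranspose_mul_self _).add
    (Matrix.posSemidef_conjTranspose_mul_self _)).add (Matrix.posSemidef_conjTranspose_mul_self _)

end Vale.Agent.P361
end

section

/-!
The double commutator of a weighted raising operator with the Heisenberg exponent.
-/

namespace Vale.Agent.P361

open Matrix Finset
open scoped ComplexOrder

variable {n : ℕ} {Λ : Finset Site}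

/-- `A_f = ∑ f_x S⁺_x`. -/
noncomputable def modeOp (n : ℕ) {Λ : Finset Site} (f : Λ → ℝ) :
    Matrix (Λ → Fin (n + 1)) (Λ → Fin (n + 1)) ℂ :=
  ∑ x, (f x : ℂ) • siteOp x (spinRaise n)

theorem star_modeOp (f : Λ → ℝ) :
    star (modeOp n f) = ∑ x, (f x : ℂ) • siteOp x (spinLower n) := by
  rw [modeOp, Matrix.star_eq_conjTranspose, Matrix.conjTranspose_sum]
  refine Finset.sum_congr rfl fun x _ => ?_
  rw [Matrix.conjTranspose_smul, siteOp_conjTranspose, spinRaise,
    Matrix.conjTranspose_conjTranspose]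
  simp

/-- The pair interaction in terms of raising and lowering operators. -/
noncomputable def pairH (n : ℕ) {Λ : Finset Site} (x y : Λ) :
    Matrix (Λ → Fin (n + 1)) (Λ → Fin (n + 1)) ℂ :=
  siteOp x (spinZ n) * siteOp y (spinZ n) +
      (1 / 2 : ℂ) • (siteOp x (spinRaise n) * siteOp y (spinLower n) +
        siteOp x (spinLower n) * siteOp y (spinRaise n))

/-- Bond current. -/
noncomputable def bondW (n : ℕ) {Λ : Finset Site} (x y : Λ) :
    Matrix (Λ → Fin (n + 1)) (Λ → Fin (n + 1)) ℂ :=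
  siteOp x (spinLower n) * siteOp y (spinZ n) - siteOp x (spinZ n) * siteOp y (spinLower n)

theorem comm_prod_of_ne {x y z : Λ} (hx : z ≠ x) (hy : z ≠ y)
    (A B C : Matrix (Fin (n + 1)) (Fin (n + 1)) ℂ) :
    siteOp z C * (siteOp x A * siteOp y B) - (siteOp x A * siteOp y B) * siteOp z C = 0 := by
  rw [← Matrix.mul_assoc, siteOp_commute hx, Matrix.mul_assoc, siteOp_commute hy,
    ← Matrix.mul_assoc, sub_self]

theorem comm_prod_left {x y : Λ} (hxy : x ≠ y)
    (A B C : Matrix (Fin (n + 1)) (Fin (n + 1)) ℂ) :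
    siteOp x C * (siteOp x A * siteOp y B) - (siteOp x A * siteOp y B) * siteOp x C =
      siteOp x (C * A - A * C) * siteOp y B := by
  rw [Matrix.mul_assoc (siteOp x A), ← siteOp_commute hxy, ← Matrix.mul_assoc, ← Matrix.mul_assoc,
    siteOp_mul, siteOp_mul, ← Matrix.sub_mul, ← siteOp_sub]

theorem comm_prod_right {x y : Λ} (hxy : x ≠ y)
    (A B C : Matrix (Fin (n + 1)) (Fin (n + 1)) ℂ) :
    siteOp y C * (siteOp x A * siteOp y B) - (siteOp x A * siteOp y B) * siteOp y C =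
      siteOp x A * siteOp y (C * B - B * C) := by
  rw [← Matrix.mul_assoc, ← siteOp_commute hxy, Matrix.mul_assoc, Matrix.mul_assoc,
    siteOp_mul, siteOp_mul, ← Matrix.mul_sub, ← siteOp_sub]

theorem comm_lower_pairH_of_ne {x y z : Λ} (hx : z ≠ x) (hy : z ≠ y) :
    siteOp z (spinLower n) * pairH n x y - pairH n x y * siteOp z (spinLower n) = 0 := by
  have h1 := comm_prod_of_ne hx hy (spinZ n) (spinZ n) (spinLower n)
  have h2 := comm_prod_of_ne hx hy (spinRaise n) (spinLower n) (spinLower n)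
  have h3 := comm_prod_of_ne hx hy (spinLower n) (spinRaise n) (spinLower n)
  rw [pairH]
  have : siteOp z (spinLower n) * (siteOp x (spinZ n) * siteOp y (spinZ n) +
      (1 / 2 : ℂ) • (siteOp x (spinRaise n) * siteOp y (spinLower n) +
        siteOp x (spinLower n) * siteOp y (spinRaise n))) -
      (siteOp x (spinZ n) * siteOp y (spinZ n) +
      (1 / 2 : ℂ) • (siteOp x (spinRaise n) * siteOp y (spinLower n) +
        siteOp x (spinLower n) * siteOp y (spinRaise n))) * siteOp z (spinLower n) =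
      (siteOp z (spinLower n) * (siteOp x (spinZ n) * siteOp y (spinZ n)) -
        (siteOp x (spinZ n) * siteOp y (spinZ n)) * siteOp z (spinLower n)) +
      (1 / 2 : ℂ) • ((siteOp z (spinLower n) * (siteOp x (spinRaise n) * siteOp y (spinLower n)) -
        (siteOp x (spinRaise n) * siteOp y (spinLower n)) * siteOp z (spinLower n)) +
        (siteOp z (spinLower n) * (siteOp x (spinLower n) * siteOp y (spinRaise n)) -
        (siteOp x (spinLower n) * siteOp y (spinRaise n)) * siteOp z (spinLower n))) := by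
    simp only [Matrix.mul_add, Matrix.add_mul, Matrix.mul_smul, Matrix.smul_mul]
    module
  rw [this, h1, h2, h3]
  simp

theorem comm_lower_pairH_left {x y : Λ} (hxy : x ≠ y) :
    siteOp x (spinLower n) * pairH n x y - pairH n x y * siteOp x (spinLower n) = bondW n x y := by
  have h1 := comm_prod_left hxy (spinZ n) (spinZ n) (spinLower n)
  have h2 := comm_prod_left hxy (spinRaise n) (spinLower n) (spinLower n)
  have h3 := comm_prod_left hxy (spinLower n) (spinRaise n) (spinLower n)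
  have c2 : spinLower n * spinRaise n - spinRaise n * spinLower n = -((2 : ℂ) • spinZ n) := by
    rw [← raise_lower_comm, neg_sub]
  rw [lower_Z_comm] at h1
  rw [c2] at h2
  rw [sub_self, siteOp_zero, Matrix.zero_mul] at h3
  have : siteOp x (spinLower n) * pairH n x y - pairH n x y * siteOp x (spinLower n) =
      (siteOp x (spinLower n) * (siteOp x (spinZ n) * siteOp y (spinZ n)) -
        (siteOp x (spinZ n) * siteOp y (spinZ n)) * siteOp x (spinLower n)) +
      (1 / 2 : ℂ) • ((siteOp x (spinLower n) * (siteOp x (spinRaise n) * siteOp y (spinLower n)) -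
        (siteOp x (spinRaise n) * siteOp y (spinLower n)) * siteOp x (spinLower n)) +
        (siteOp x (spinLower n) * (siteOp x (spinLower n) * siteOp y (spinRaise n)) -
        (siteOp x (spinLower n) * siteOp y (spinRaise n)) * siteOp x (spinLower n))) := by
    rw [pairH]
    simp only [Matrix.mul_add, Matrix.add_mul, Matrix.mul_smul, Matrix.smul_mul]
    module
  rw [this, h1, h2, h3, bondW, siteOp_neg, siteOp_smul, Matrix.neg_mul, Matrix.smul_mul]
  module

theorem comm_lower_pairH_right {x y : Λ} (hxy : x ≠ y) :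
    siteOp y (spinLower n) * pairH n x y - pairH n x y * siteOp y (spinLower n) =
      -bondW n x y := by
  have h1 := comm_prod_right hxy (spinZ n) (spinZ n) (spinLower n)
  have h2 := comm_prod_right hxy (spinRaise n) (spinLower n) (spinLower n)
  have h3 := comm_prod_right hxy (spinLower n) (spinRaise n) (spinLower n)
  have c2 : spinLower n * spinRaise n - spinRaise n * spinLower n = -((2 : ℂ) • spinZ n) := by
    rw [← raise_lower_comm, neg_sub]
  rw [lower_Z_comm] at h1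
  rw [c2] at h3
  rw [sub_self, siteOp_zero, Matrix.mul_zero] at h2
  have : siteOp y (spinLower n) * pairH n x y - pairH n x y * siteOp y (spinLower n) =
      (siteOp y (spinLower n) * (siteOp x (spinZ n) * siteOp y (spinZ n)) -
        (siteOp x (spinZ n) * siteOp y (spinZ n)) * siteOp y (spinLower n)) +
      (1 / 2 : ℂ) • ((siteOp y (spinLower n) * (siteOp x (spinRaise n) * siteOp y (spinLower n)) -
        (siteOp x (spinRaise n) * siteOp y (spinLower n)) * siteOp y (spinLower n)) +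
        (siteOp y (spinLower n) * (siteOp x (spinLower n) * siteOp y (spinRaise n)) -
        (siteOp x (spinLower n) * siteOp y (spinRaise n)) * siteOp y (spinLower n))) := by
    rw [pairH]
    simp only [Matrix.mul_add, Matrix.add_mul, Matrix.mul_smul, Matrix.smul_mul]
    module
  rw [this, h1, h2, h3, bondW, siteOp_neg, siteOp_smul, Matrix.mul_neg, Matrix.mul_smul]
  module

theorem comm_raise_bondW_of_ne {x y z : Λ} (hx : z ≠ x) (hy : z ≠ y) :
    siteOp z (spinRaise n) * bondW n x y - bondW n x y * siteOp z (spinRaise n) = 0 := by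
  have h1 := comm_prod_of_ne hx hy (spinLower n) (spinZ n) (spinRaise n)
  have h2 := comm_prod_of_ne hx hy (spinZ n) (spinLower n) (spinRaise n)
  have : siteOp z (spinRaise n) * bondW n x y - bondW n x y * siteOp z (spinRaise n) =
      (siteOp z (spinRaise n) * (siteOp x (spinLower n) * siteOp y (spinZ n)) -
        (siteOp x (spinLower n) * siteOp y (spinZ n)) * siteOp z (spinRaise n)) -
      (siteOp z (spinRaise n) * (siteOp x (spinZ n) * siteOp y (spinLower n)) -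
        (siteOp x (spinZ n) * siteOp y (spinLower n)) * siteOp z (spinRaise n)) := by
    rw [bondW, Matrix.mul_sub, Matrix.sub_mul]
    abel
  rw [this, h1, h2, sub_zero]

theorem comm_raise_bondW_left {x y : Λ} (hxy : x ≠ y) :
    siteOp x (spinRaise n) * bondW n x y - bondW n x y * siteOp x (spinRaise n) =
      (2 : ℂ) • (siteOp x (spinZ n) * siteOp y (spinZ n)) +
        siteOp x (spinRaise n) * siteOp y (spinLower n) := by
  have h1 := comm_prod_left hxy (spinLower n) (spinZ n) (spinRaise n)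
  have h2 := comm_prod_left hxy (spinZ n) (spinLower n) (spinRaise n)
  rw [raise_lower_comm] at h1
  rw [raise_Z_comm] at h2
  have : siteOp x (spinRaise n) * bondW n x y - bondW n x y * siteOp x (spinRaise n) =
      (siteOp x (spinRaise n) * (siteOp x (spinLower n) * siteOp y (spinZ n)) -
        (siteOp x (spinLower n) * siteOp y (spinZ n)) * siteOp x (spinRaise n)) -
      (siteOp x (spinRaise n) * (siteOp x (spinZ n) * siteOp y (spinLower n)) -
        (siteOp x (spinZ n) * siteOp y (spinLower n)) * siteOp x (spinRaise n)) := by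
    rw [bondW, Matrix.mul_sub, Matrix.sub_mul]
    abel
  rw [this, h1, h2, siteOp_neg, siteOp_smul, Matrix.neg_mul, Matrix.smul_mul, sub_neg_eq_add]

theorem comm_raise_bondW_right {x y : Λ} (hxy : x ≠ y) :
    siteOp y (spinRaise n) * bondW n x y - bondW n x y * siteOp y (spinRaise n) =
      -((2 : ℂ) • (siteOp x (spinZ n) * siteOp y (spinZ n)) +
        siteOp x (spinLower n) * siteOp y (spinRaise n)) := by
  have h1 := comm_prod_right hxy (spinLower n) (spinZ n) (spinRaise n)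
  have h2 := comm_prod_right hxy (spinZ n) (spinLower n) (spinRaise n)
  rw [raise_Z_comm] at h1
  rw [raise_lower_comm] at h2
  have : siteOp y (spinRaise n) * bondW n x y - bondW n x y * siteOp y (spinRaise n) =
      (siteOp y (spinRaise n) * (siteOp x (spinLower n) * siteOp y (spinZ n)) -
        (siteOp x (spinLower n) * siteOp y (spinZ n)) * siteOp y (spinRaise n)) -
      (siteOp y (spinRaise n) * (siteOp x (spinZ n) * siteOp y (spinLower n)) -
        (siteOp x (spinZ n) * siteOp y (spinLower n)) * siteOp y (spinRaise n)) := by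
    rw [bondW, Matrix.mul_sub, Matrix.sub_mul]
    abel
  rw [this, h1, h2, siteOp_neg, siteOp_smul, Matrix.mul_neg, Matrix.mul_smul]
  abel

theorem dblComm_pairH (f : Λ → ℝ) {x y : Λ} (hxy : x ≠ y) :
    dblComm (modeOp n f) (pairH n x y) = ((f x - f y : ℝ) : ℂ) •
      ((f x : ℂ) • ((2 : ℂ) • (siteOp x (spinZ n) * siteOp y (spinZ n)) +
        siteOp x (spinRaise n) * siteOp y (spinLower n)) -
       (f y : ℂ) • ((2 : ℂ) • (siteOp x (spinZ n) * siteOp y (spinZ n)) +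
        siteOp x (spinLower n) * siteOp y (spinRaise n))) := by
  have h1 : star (modeOp n f) * pairH n x y - pairH n x y * star (modeOp n f) =
      ((f x - f y : ℝ) : ℂ) • bondW n x y := by
    rw [star_modeOp, Finset.sum_mul, Finset.mul_sum, ← Finset.sum_sub_distrib]
    have h2 : ∀ z : Λ, ((f z : ℂ) • siteOp z (spinLower n)) * pairH n x y -
        pairH n x y * ((f z : ℂ) • siteOp z (spinLower n)) =
        (f z : ℂ) • (siteOp z (spinLower n) * pairH n x y -
          pairH n x y * siteOp z (spinLower n)) := by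
      intro z
      rw [Matrix.smul_mul, Matrix.mul_smul, smul_sub]
    simp only [h2]
    rw [Fintype.sum_eq_add x y hxy, comm_lower_pairH_left hxy, comm_lower_pairH_right hxy]
    · push_cast
      module
    · intro z hz
      rw [comm_lower_pairH_of_ne hz.1 hz.2, smul_zero]
  unfold dblComm
  rw [h1, Matrix.mul_smul, Matrix.smul_mul, ← smul_sub]
  congr 1
  rw [modeOp, Finset.sum_mul, Finset.mul_sum, ← Finset.sum_sub_distrib]
  have h2 : ∀ z : Λ, ((f z : ℂ) • siteOp z (spinRaise n)) * bondW n x y -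
      bondW n x y * ((f z : ℂ) • siteOp z (spinRaise n)) =
      (f z : ℂ) • (siteOp z (spinRaise n) * bondW n x y -
        bondW n x y * siteOp z (spinRaise n)) := by
    intro z
    rw [Matrix.smul_mul, Matrix.mul_smul, smul_sub]
  simp only [h2]
  rw [Fintype.sum_eq_add x y hxy, comm_raise_bondW_left hxy, comm_raise_bondW_right hxy]
  · module
  · intro z hz
    rw [comm_raise_bondW_of_ne hz.1 hz.2, smul_zero]

theorem dblComm_Z (f : Λ → ℝ) (x : Λ) :
    dblComm (modeOp n f) (siteOp x (spinZ n)) =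
      ((2 * f x ^ 2 : ℝ) : ℂ) • siteOp x (spinZ n) := by
  have h1 : star (modeOp n f) * siteOp x (spinZ n) - siteOp x (spinZ n) * star (modeOp n f) =
      (f x : ℂ) • siteOp x (spinLower n) := by
    rw [star_modeOp, Finset.sum_mul, Finset.mul_sum, ← Finset.sum_sub_distrib,
      Fintype.sum_eq_single x]
    · rw [Matrix.smul_mul, Matrix.mul_smul, ← smul_sub, siteOp_mul, siteOp_mul, ← siteOp_sub,
        lower_Z_comm]
    · intro z hz
      rw [Matrix.smul_mul, Matrix.mul_smul, siteOp_commute hz, sub_self]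
  unfold dblComm
  rw [h1, modeOp, Finset.sum_mul, Finset.mul_sum, ← Finset.sum_sub_distrib,
      Fintype.sum_eq_single x]
  · rw [Matrix.smul_mul, Matrix.mul_smul, Matrix.smul_mul, Matrix.mul_smul, ← smul_sub, ← smul_sub,
      siteOp_mul, siteOp_mul, ← siteOp_sub, raise_lower_comm, siteOp_smul]
    push_cast
    module
  · intro z hz
    rw [Matrix.smul_mul, Matrix.mul_smul, Matrix.smul_mul, Matrix.mul_smul, siteOp_commute hz]
    module

theorem dblComm_add {ι : Type*} [Fintype ι] [DecidableEq ι] (A X Y : Matrix ι ι ℂ) :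
    dblComm A (X + Y) = dblComm A X + dblComm A Y := by
  unfold dblComm
  simp only [Matrix.mul_add, Matrix.add_mul, Matrix.mul_sub, Matrix.sub_mul]
  abel

theorem dblComm_smul {ι : Type*} [Fintype ι] [DecidableEq ι] (c : ℂ) (A X : Matrix ι ι ℂ) :
    dblComm A (c • X) = c • dblComm A X := by
  unfold dblComm
  simp only [Matrix.mul_smul, Matrix.smul_mul, ← smul_sub]

theorem dblComm_zero {ι : Type*} [Fintype ι] [DecidableEq ι] (A : Matrix ι ι ℂ) :
    dblComm A (0 : Matrix ι ι ℂ) = 0 := by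
  unfold dblComm
  simp

theorem dblComm_sum {ι : Type*} [Fintype ι] [DecidableEq ι] {κ : Type*} (s : Finset κ)
    (A : Matrix ι ι ℂ) (X : κ → Matrix ι ι ℂ) :
    dblComm A (∑ i ∈ s, X i) = ∑ i ∈ s, dblComm A (X i) := by
  classical
  induction s using Finset.induction_on with
  | empty => simp [dblComm_zero]
  | insert a s ha ih => rw [Finset.sum_insert ha, Finset.sum_insert ha, dblComm_add, ih]

/-- The exponent in terms of pair interactions. -/
theorem expo_eq (n : ℕ) (Λ : Finset Site) (β h : ℝ) :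
    expo n Λ β h = ((β / 2 : ℝ) : ℂ) • (∑ x : Λ, ∑ y : Λ, if IsNN x.1 y.1 then pairH n x y else 0) +
      ((β * h : ℝ) : ℂ) • ∑ x : Λ, siteOp x (spinZ n) := by
  unfold expo hamiltonian magnetization
  have h2 : spin n 2 = spinZ n := rfl
  have h3 : ∀ x y : Λ, ∑ a : Fin 3, siteOp x (spin n a) * siteOp y (spin n a) = pairH n x y :=
    fun x y => pair_eq x y
  simp only [h3, h2]
  push_cast
  module

theorem dblComm_expo (f : Λ → ℝ) (β h : ℝ) :
    dblComm (modeOp n f) (expo n Λ β h) =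
      ((β / 2 : ℝ) : ℂ) • (∑ x : Λ, ∑ y : Λ, if IsNN x.1 y.1 then
        dblComm (modeOp n f) (pairH n x y) else 0) +
      ((β * h : ℝ) : ℂ) • ∑ x : Λ, ((2 * f x ^ 2 : ℝ) : ℂ) • siteOp x (spinZ n) := by
  rw [expo_eq, dblComm_add, dblComm_smul, dblComm_smul, dblComm_sum, dblComm_sum]
  simp only [dblComm_sum, dblComm_Z]
  congr 2
  refine Finset.sum_congr rfl fun x _ => Finset.sum_congr rfl fun y _ => ?_
  split_ifs
  · rfl
  · exact dblComm_zero _

end Vale.Agent.P361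
end

section

/-!
Heisenberg model on a general finite graph: the exponent `-β (H_J - h M)`, the supporting line
inequality in `h`, and the dependence of the logarithm of the partition function on the graph.
-/

namespace Vale.Agent.P361.LRO

open Matrix Filter Topology Finset
open scoped ComplexOrder

section General

variable {V : Type} [Fintype V] [DecidableEq V]

/-- The exponent `-β (H_J - h M)`. -/
noncomputable def expoV (n : ℕ) (J : V → V → Prop) [DecidableRel J] (β h : ℝ) : Model.Op n V :=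
  -(β : ℂ) • (Model.hamiltonian n J - (h : ℂ) • Model.magnetization n V)

/-- Number of ordered pairs `(x, y)` with `J x y`. -/
noncomputable def pairsV (J : V → V → Prop) [DecidableRel J] : ℝ :=
  ∑ x : V, ∑ y : V, if J x y then (1 : ℝ) else 0

theorem totOp_eqV (n : ℕ) (J : V → V → Prop) [DecidableRel J] (β h c φ₀ : ℝ) :
    totOp (V := V) (β / 2) c (spin n)
      ((φ₀ : ℂ) • (1 : Matrix (Fin (n + 1)) (Fin (n + 1)) ℂ) + ((β * h : ℝ) : ℂ) • spin n 2) J =
      expoV n J β h + (((β / 2) * c * pairsV J + φ₀ * Fintype.card V : ℝ) : ℂ) •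
        (1 : Matrix (V → Fin (n + 1)) (V → Fin (n + 1)) ℂ) := by
  have hH : Model.hamiltonian n J = -((1 / 2 : ℂ) • ∑ x : V, ∑ y : V,
      if J x y then ∑ a : Fin 3, siteOpV x (spin n a) * siteOpV y (spin n a) else 0) := rfl
  have hM : Model.magnetization n V = ∑ x : V, siteOpV x (spin n 2) := rfl
  unfold totOp expoV pairsV pairOp
  rw [hH, hM]
  simp only [siteOpV_add, siteOpV_smul, siteOpV_one]
  have e1 : (∑ x : V, ∑ y : V, if J x y then
      ((c : ℂ) • (1 : Matrix (V → Fin (n + 1)) (V → Fin (n + 1)) ℂ) +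
        ∑ a, siteOpV x (spin n a) * siteOpV y (spin n a)) else 0) =
      ((c * ∑ x : V, ∑ y : V, (if J x y then (1 : ℝ) else 0) : ℝ) : ℂ) •
        (1 : Matrix (V → Fin (n + 1)) (V → Fin (n + 1)) ℂ) +
      ∑ x : V, ∑ y : V, if J x y then
        ∑ a, siteOpV x (spin n a) * siteOpV y (spin n a) else 0 := by
    push_cast
    rw [Finset.mul_sum, Finset.sum_smul, ← Finset.sum_add_distrib]
    refine Finset.sum_congr rfl fun x _ => ?_
    rw [Finset.mul_sum, Finset.sum_smul, ← Finset.sum_add_distrib]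
    refine Finset.sum_congr rfl fun y _ => ?_
    split_ifs <;> simp
  rw [e1, Finset.sum_add_distrib, Finset.sum_const, Finset.card_univ, ← Finset.smul_sum]
  push_cast
  module

theorem fieldF_isHermitian (n : ℕ) (φ₀ r : ℝ) :
    ((φ₀ : ℂ) • (1 : Matrix (Fin (n + 1)) (Fin (n + 1)) ℂ) +
      ((r : ℝ) : ℂ) • spin n 2).IsHermitian := by
  rw [Matrix.IsHermitian, Matrix.conjTranspose_add, Matrix.conjTranspose_smul,
    Matrix.conjTranspose_smul, spin_isHermitian n 2, Matrix.conjTranspose_one]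
  simp only [RCLike.star_def, Complex.conj_ofReal]

theorem expoV_isHermitian (n : ℕ) (J : V → V → Prop) [DecidableRel J] (hJ : ∀ x, ¬ J x x)
    (β h : ℝ) : (expoV n J β h).IsHermitian := by
  have h1 := totOp_eqV n J β h 0 0
  have h2 := totOp_isHermitian (V := V) (β / 2) 0 (spin_isHermitian n)
    (F := ((0 : ℝ) : ℂ) • (1 : Matrix (Fin (n + 1)) (Fin (n + 1)) ℂ) +
      ((β * h : ℝ) : ℂ) • spin n 2) (fieldF_isHermitian n 0 (β * h)) J hJ
  rw [h1] at h2
  simpa only [mul_zero, zero_mul, add_zero, Complex.ofReal_zero, zero_smul] using h2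

theorem logTr_eq (n : ℕ) (J : V → V → Prop) [DecidableRel J] (β h : ℝ) :
    Model.logTr n J β h = Real.log (trace (NormedSpace.exp (expoV n J β h))).re := rfl

/-- Total magnetization `⟨M⟩` of the Gibbs state of `H_J - h M`. -/
noncomputable def gibbsMagV (n : ℕ) (J : V → V → Prop) [DecidableRel J] (β h : ℝ) : ℝ :=
  (trace (NormedSpace.exp (expoV n J β h) * Model.magnetization n V)).re /
    (trace (NormedSpace.exp (expoV n J β h))).re

theorem magnetizationV_isHermitian (n : ℕ) : (Model.magnetization n V).IsHermitian := by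
  have hM : Model.magnetization n V = ∑ x : V, siteOpV x (spin n 2) := rfl
  rw [hM, Matrix.IsHermitian, Matrix.conjTranspose_sum]
  exact Finset.sum_congr rfl fun x _ => siteOpV_isHermitian x (spin_isHermitian n 2)

theorem expoV_shift (n : ℕ) (J : V → V → Prop) [DecidableRel J] (β h h' : ℝ) :
    expoV n J β h' = expoV n J β h + ((β * (h' - h) : ℝ) : ℂ) • Model.magnetization n V := by
  unfold expoV
  push_cast
  module

/-- Supporting line inequality for the logarithm of the partition function. -/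
theorem logTr_support (n : ℕ) (J : V → V → Prop) [DecidableRel J] (hJ : ∀ x, ¬ J x x)
    (β h h' : ℝ) :
    Model.logTr n J β h + β * (h' - h) * gibbsMagV n J β h ≤ Model.logTr n J β h' := by
  have hY : (((β * (h' - h) : ℝ) : ℂ) • Model.magnetization n V).IsHermitian := by
    rw [Matrix.IsHermitian, Matrix.conjTranspose_smul, magnetizationV_isHermitian n]
    simp
  have h1 := Vale.Agent.P361.peierls_bogoliubov (expoV_isHermitian n J hJ β h) hY
  rw [← expoV_shift] at h1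
  rw [logTr_eq, logTr_eq]
  refine le_trans (le_of_eq ?_) h1
  congr 1
  rw [Matrix.mul_smul, Matrix.trace_smul, smul_eq_mul, Complex.re_ofReal_mul]
  unfold gibbsMagV
  ring

theorem logZ_eqV (n : ℕ) (J : V → V → Prop) [DecidableRel J] (hJ : ∀ x, ¬ J x x)
    (β h c φ₀ : ℝ) :
    logZ (V := V) (β / 2) c (spin n)
      ((φ₀ : ℂ) • (1 : Matrix (Fin (n + 1)) (Fin (n + 1)) ℂ) + ((β * h : ℝ) : ℂ) • spin n 2) J =
      Model.logTr n J β h + ((β / 2) * c * pairsV J + φ₀ * Fintype.card V) := by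
  unfold logZ
  rw [totOp_eqV, trace_exp_add_smul_one, Real.log_mul (Real.exp_pos _).ne'
    (trace_exp_pos (expoV_isHermitian n J hJ β h)).ne', Real.log_exp, logTr_eq]
  ring

/-- Invariance under relabelling of the sites. -/
theorem logTr_relabel {W : Type} [Fintype W] [DecidableEq W] (g : V ≃ W) (n : ℕ)
    (J : W → W → Prop) [DecidableRel J] (hJ : ∀ x, ¬ J x x) (β h : ℝ) :
    Model.logTr n (fun x y : V => J (g x) (g y)) β h = Model.logTr n J β h := by
  have h1 := logZ_eqV n J hJ β h 0 0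
  have h2 := logZ_eqV n (fun x y : V => J (g x) (g y)) (fun x => hJ (g x)) β h 0 0
  have h3 := logZ_relabel g (β / 2) 0 (spin n)
    (((0 : ℝ) : ℂ) • (1 : Matrix (Fin (n + 1)) (Fin (n + 1)) ℂ) + ((β * h : ℝ) : ℂ) • spin n 2) J
  rw [h1, h2] at h3
  simpa using h3

/-- Adding pairs to the graph changes the logarithm of the partition function by at most
`β c / 2` per ordered pair. -/
theorem logTr_mono_pairs (n : ℕ) {c : ℝ}
    (hc : ((c : ℂ) • (1 : Matrix (Fin (n + 1)) (Fin (n + 1)) ℂ) -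
      ∑ a, spin n a * spin n a).PosSemidef)
    (J J' : V → V → Prop) [DecidableRel J] [DecidableRel J'] (hJ : ∀ x, ¬ J x x)
    (hJ' : ∀ x, ¬ J' x x) (hJJ : ∀ x y, J x y → J' x y) {β : ℝ} (hβ : 0 ≤ β) (h : ℝ) :
    |Model.logTr n J' β h - Model.logTr n J β h| ≤ (β / 2) * c * (pairsV J' - pairsV J) := by
  have hb : 0 ≤ β / 2 := by positivity
  set F : Matrix (Fin (n + 1)) (Fin (n + 1)) ℂ :=
    ((0 : ℝ) : ℂ) • (1 : Matrix (Fin (n + 1)) (Fin (n + 1)) ℂ) + ((β * h : ℝ) : ℂ) • spin n 2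
    with hF
  have hFh : F.IsHermitian := fieldF_isHermitian n 0 (β * h)
  have h1 := totOp_isHermitian (V := V) (β / 2) c (spin_isHermitian n) hFh J hJ
  have h2 := totOp_isHermitian (V := V) (β / 2) c (spin_isHermitian n) hFh J' hJ'
  have hpos : (totOp (V := V) (β / 2) c (spin n) F J' -
      totOp (V := V) (β / 2) c (spin n) F J).PosSemidef := by
    have e : totOp (V := V) (β / 2) c (spin n) F J' - totOp (V := V) (β / 2) c (spin n) F J =
        ((β / 2 : ℝ) : ℂ) • ∑ x : V, ∑ y : V,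
          if J' x y ∧ ¬ J x y then pairOp c (spin n) x y else 0 := by
      unfold totOp
      rw [add_sub_add_right_eq_sub, ← smul_sub, ← Finset.sum_sub_distrib]
      congr 1
      refine Finset.sum_congr rfl fun x _ => ?_
      rw [← Finset.sum_sub_distrib]
      refine Finset.sum_congr rfl fun y _ => ?_
      by_cases h1 : J x y
      · simp [h1, hJJ x y h1]
      · by_cases h2 : J' x y <;> simp [h1, h2]
    rw [e]
    refine Matrix.PosSemidef.smul ?_ (by simpa only [Complex.zero_le_real] using hb)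
    refine Matrix.posSemidef_sum _ fun x _ => Matrix.posSemidef_sum _ fun y _ => ?_
    split_ifs with h
    · refine pairOp_posSemidef (spin_isHermitian n) hc ?_
      rintro rfl
      exact hJ' _ h.1
    · exact Matrix.PosSemidef.zero
  have hpos2 : ((totOp (V := V) (β / 2) c (spin n) F J +
      ((β * c * (pairsV J' - pairsV J) : ℝ) : ℂ) •
        (1 : Matrix (V → Fin (n + 1)) (V → Fin (n + 1)) ℂ)) -
      totOp (V := V) (β / 2) c (spin n) F J').PosSemidef := by
    have e : (totOp (V := V) (β / 2) c (spin n) F J +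
      ((β * c * (pairsV J' - pairsV J) : ℝ) : ℂ) •
        (1 : Matrix (V → Fin (n + 1)) (V → Fin (n + 1)) ℂ)) -
      totOp (V := V) (β / 2) c (spin n) F J' =
        ((β / 2 : ℝ) : ℂ) • ∑ x : V, ∑ y : V,
          if J' x y ∧ ¬ J x y then (((2 * c : ℝ) : ℂ) •
            (1 : Matrix (V → Fin (n + 1)) (V → Fin (n + 1)) ℂ) - pairOp c (spin n) x y)
          else 0 := by
      unfold totOp pairsV
      have e2 : ((β * c * ((∑ x : V, ∑ y : V, if J' x y then (1 : ℝ) else 0) -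
          ∑ x : V, ∑ y : V, if J x y then (1 : ℝ) else 0) : ℝ) : ℂ) •
          (1 : Matrix (V → Fin (n + 1)) (V → Fin (n + 1)) ℂ) =
          ((β / 2 : ℝ) : ℂ) • ∑ x : V, ∑ y : V,
            if J' x y ∧ ¬ J x y then (((2 * c : ℝ) : ℂ) •
              (1 : Matrix (V → Fin (n + 1)) (V → Fin (n + 1)) ℂ)) else 0 := by
        have e3 : (∑ x : V, ∑ y : V, if J' x y ∧ ¬ J x y then (((2 * c : ℝ) : ℂ) •
            (1 : Matrix (V → Fin (n + 1)) (V → Fin (n + 1)) ℂ)) else 0) =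
            ((∑ x : V, ∑ y : V, if J' x y ∧ ¬ J x y then (1 : ℝ) else 0 : ℝ) : ℂ) •
            (((2 * c : ℝ) : ℂ) • (1 : Matrix (V → Fin (n + 1)) (V → Fin (n + 1)) ℂ)) := by
          push_cast
          rw [Finset.sum_smul]
          refine Finset.sum_congr rfl fun x _ => ?_
          rw [Finset.sum_smul]
          refine Finset.sum_congr rfl fun y _ => ?_
          split_ifs <;> simp
        have e4 : (∑ x : V, ∑ y : V, if J' x y ∧ ¬ J x y then (1 : ℝ) else 0) =
            (∑ x : V, ∑ y : V, if J' x y then (1 : ℝ) else 0) -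
              ∑ x : V, ∑ y : V, if J x y then (1 : ℝ) else 0 := by
          rw [← Finset.sum_sub_distrib]
          refine Finset.sum_congr rfl fun x _ => ?_
          rw [← Finset.sum_sub_distrib]
          refine Finset.sum_congr rfl fun y _ => ?_
          by_cases h1 : J x y
          · simp [h1, hJJ x y h1]
          · by_cases h2 : J' x y <;> simp [h1, h2]
        rw [e3, e4, smul_smul, smul_smul]
        congr 1
        push_cast
        ring
      rw [e2]
      have e5 : (∑ x : V, ∑ y : V, if J' x y ∧ ¬ J x y then (((2 * c : ℝ) : ℂ) •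
            (1 : Matrix (V → Fin (n + 1)) (V → Fin (n + 1)) ℂ) - pairOp c (spin n) x y)
          else 0) = (∑ x : V, ∑ y : V, if J' x y ∧ ¬ J x y then (((2 * c : ℝ) : ℂ) •
              (1 : Matrix (V → Fin (n + 1)) (V → Fin (n + 1)) ℂ)) else 0) -
            ((∑ x : V, ∑ y : V, if J' x y then pairOp c (spin n) x y else 0) -
            ∑ x : V, ∑ y : V, if J x y then pairOp c (spin n) x y else 0) := by
        rw [← Finset.sum_sub_distrib, ← Finset.sum_sub_distrib]
        refine Finset.sum_congr rfl fun x _ => ?_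
        rw [← Finset.sum_sub_distrib, ← Finset.sum_sub_distrib]
        refine Finset.sum_congr rfl fun y _ => ?_
        by_cases h1 : J x y
        · simp [h1, hJJ x y h1]
        · by_cases h2 : J' x y <;> simp [h1, h2]
      rw [e5]
      module
    rw [e]
    refine Matrix.PosSemidef.smul ?_ (by simpa only [Complex.zero_le_real] using hb)
    refine Matrix.posSemidef_sum _ fun x _ => Matrix.posSemidef_sum _ fun y _ => ?_
    split_ifs with h
    · refine pairOp_upper (spin_isHermitian n) hc ?_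
      rintro rfl
      exact hJ' _ h.1
    · exact Matrix.PosSemidef.zero
  have h3 : (((β * c * (pairsV J' - pairsV J) : ℝ) : ℂ) •
        (1 : Matrix (V → Fin (n + 1)) (V → Fin (n + 1)) ℂ)).IsHermitian := by
    rw [Matrix.IsHermitian, Matrix.conjTranspose_smul, Matrix.conjTranspose_one]
    simp only [RCLike.star_def, Complex.conj_ofReal]
  have i1 := Real.log_le_log (trace_exp_pos h1) (trace_exp_mono h1 h2 hpos)
  have i2 := Real.log_le_log (trace_exp_pos h2) (trace_exp_mono h2 (h1.add h3) hpos2)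
  rw [trace_exp_add_smul_one, Real.log_mul (Real.exp_pos _).ne' (trace_exp_pos h1).ne',
    Real.log_exp] at i2
  have l1 := logZ_eqV n J hJ β h c 0
  have l2 := logZ_eqV n J' hJ' β h c 0
  unfold logZ at l1 l2
  rw [← hF] at l1 l2
  rw [l1, l2] at i1 i2
  rw [abs_le]
  constructor <;> nlinarith [i1, i2]

end General

end Vale.Agent.P361.LRO
end

section

/-!
Periodic boundary conditions: the pressure on the torus `(ℤ/(2N+1))³` has the same limit as the
pressure with free boundary conditions.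
-/

namespace Vale.Agent.P361.LRO

open Matrix Filter Topology Finset
open scoped ComplexOrder

/-- Nearest neighbours on the torus of side `L`. -/
def torusAdj (L : ℕ) (x y : Fin 3 → ZMod L) : Prop :=
  ∃ i, (x i = y i + 1 ∨ y i = x i + 1) ∧ ∀ j, j ≠ i → x j = y j

instance (L : ℕ) : DecidableRel (torusAdj L) := fun x y => by
  unfold torusAdj; infer_instance

theorem torusAdj_irrefl {L : ℕ} (hL : 1 < L) (x : Fin 3 → ZMod L) : ¬ torusAdj L x x := by
  have : Fact (1 < L) := ⟨hL⟩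
  rintro ⟨i, h | h, -⟩ <;> simp at h

theorem torusAdj_symm {L : ℕ} {x y : Fin 3 → ZMod L} (h : torusAdj L x y) : torusAdj L y x := by
  obtain ⟨i, h1, h2⟩ := h
  exact ⟨i, h1.symm, fun j hj => (h2 j hj).symm⟩

/-- The torus coordinate map on the box. -/
def boxCast (N : ℕ) (x : Model.box N) : Fin 3 → ZMod (2 * N + 1) :=
  fun i => ((x.1 i : ℤ) : ZMod (2 * N + 1))

theorem mem_boxM {N : ℕ} {x : Fin 3 → ℤ} : x ∈ Model.box N ↔ ∀ i, -(N : ℤ) ≤ x i ∧ x i ≤ N := by
  simp only [Model.box, Finset.mem_Icc, Pi.le_def]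
  exact ⟨fun h i => ⟨h.1 i, h.2 i⟩, fun h => ⟨fun i => (h i).1, fun i => (h i).2⟩⟩

theorem cast_eq_imp {L : ℕ} {a b : ℤ} (h : ((a : ℤ) : ZMod L) = ((b : ℤ) : ZMod L))
    (hab : |a - b| < L) : a = b := by
  rw [← sub_eq_zero, ← Int.cast_sub, ZMod.intCast_zmod_eq_zero_iff_dvd] at h
  have := Int.eq_zero_of_abs_lt_dvd h hab
  linarith

theorem boxCast_injective (N : ℕ) : Function.Injective (boxCast N) := by
  intro x y hxy
  apply Subtype.ext
  funext i
  have hx := mem_boxM.1 x.2 i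
  have hy := mem_boxM.1 y.2 i
  refine cast_eq_imp (congrFun hxy i) ?_
  rw [abs_lt]
  push_cast
  constructor <;> linarith [hx.1, hx.2, hy.1, hy.2]

theorem card_boxM (N : ℕ) : (Model.box N).card = (2 * N + 1) ^ 3 := card_box N

theorem boxCast_bijective (N : ℕ) : Function.Bijective (boxCast N) := by
  rw [Fintype.bijective_iff_injective_and_card]
  refine ⟨boxCast_injective N, ?_⟩
  rw [Fintype.card_coe, card_boxM, Fintype.card_fun, ZMod.card, Fintype.card_fin]

noncomputable def boxEquiv (N : ℕ) : Model.box N ≃ (Fin 3 → ZMod (2 * N + 1)) :=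
  Equiv.ofBijective (boxCast N) (boxCast_bijective N)

theorem boxEquiv_apply (N : ℕ) (x : Model.box N) (i : Fin 3) :
    boxEquiv N x i = ((x.1 i : ℤ) : ZMod (2 * N + 1)) := rfl

theorem nn_iff {x y : Fin 3 → ℤ} : ∑ i, |x i - y i| = 1 ↔
    ∃ i, (x i = y i + 1 ∨ y i = x i + 1) ∧ ∀ j, j ≠ i → x j = y j := by
  constructor
  · intro h
    by_contra hcon
    push Not at hcon
    have hne : ∃ i, x i ≠ y i := by
      by_contra h2
      push Not at h2
      rw [Finset.sum_eq_zero fun i _ => by rw [h2 i, sub_self, abs_zero]] at h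
      norm_num at h
    obtain ⟨i, hi⟩ := hne
    have h1 : 1 ≤ |x i - y i| := Int.one_le_abs (sub_ne_zero.2 hi)
    have h3 : ∑ j ∈ Finset.univ.erase i, |x j - y j| = 0 := by
      have h4 := Finset.add_sum_erase Finset.univ (fun j => |x j - y j|) (Finset.mem_univ i)
      have h5 : 0 ≤ ∑ j ∈ Finset.univ.erase i, |x j - y j| :=
        Finset.sum_nonneg fun j _ => abs_nonneg _
      linarith
    have h6 : |x i - y i| = 1 := by
      have h4 := Finset.add_sum_erase Finset.univ (fun j => |x j - y j|) (Finset.mem_univ i)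
      linarith
    have h7 : ∀ j, j ≠ i → x j = y j := by
      intro j hj
      have := (Finset.sum_eq_zero_iff_of_nonneg fun j _ => abs_nonneg _).1 h3 j
        (Finset.mem_erase.2 ⟨hj, Finset.mem_univ j⟩)
      have := abs_eq_zero.1 this
      linarith
    obtain ⟨j, hj, hj2⟩ := hcon i (by
      rcases (abs_eq (by norm_num : (0 : ℤ) ≤ 1)).1 h6 with h | h
      · left; linarith
      · right; linarith)
    exact hj2 (h7 j hj)
  · rintro ⟨i, h1, h2⟩
    rw [← Finset.add_sum_erase Finset.univ (fun j => |x j - y j|) (Finset.mem_univ i),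
      Finset.sum_eq_zero fun j hj => by
        rw [h2 j (Finset.ne_of_mem_erase hj), sub_self, abs_zero]]
    rcases h1 with h1 | h1
    · rw [h1]; norm_num
    · rw [h1]; norm_num

theorem free_imp_torus {N : ℕ} (x y : Model.box N) (h : ∑ i, |x.1 i - y.1 i| = 1) :
    torusAdj (2 * N + 1) (boxEquiv N x) (boxEquiv N y) := by
  obtain ⟨i, h1, h2⟩ := nn_iff.1 h
  refine ⟨i, ?_, fun j hj => ?_⟩
  · rcases h1 with h1 | h1
    · left; rw [boxEquiv_apply, boxEquiv_apply, h1]; push_cast; ring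
    · right; rw [boxEquiv_apply, boxEquiv_apply, h1]; push_cast; ring
  · rw [boxEquiv_apply, boxEquiv_apply, h2 j hj]

/-- If `x` is not on the boundary, torus neighbours are free neighbours. -/
theorem torus_imp_free {N : ℕ} (hN : 1 ≤ N) (x y : Model.box N)
    (hx : ∀ i, -(N : ℤ) + 1 ≤ x.1 i ∧ x.1 i ≤ N - 1)
    (h : torusAdj (2 * N + 1) (boxEquiv N x) (boxEquiv N y)) : ∑ i, |x.1 i - y.1 i| = 1 := by
  obtain ⟨i, h1, h2⟩ := h
  refine nn_iff.2 ⟨i, ?_, fun j hj => ?_⟩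
  · have hxi := hx i
    have hyi := mem_boxM.1 y.2 i
    rcases h1 with h1 | h1
    · left
      rw [boxEquiv_apply, boxEquiv_apply] at h1
      have h3 : ((x.1 i : ℤ) : ZMod (2 * N + 1)) = ((y.1 i + 1 : ℤ) : ZMod (2 * N + 1)) := by
        rw [h1]; push_cast; ring
      refine cast_eq_imp h3 ?_
      rw [abs_lt]; push_cast
      constructor <;> linarith [hxi.1, hxi.2, hyi.1, hyi.2]
    · right
      rw [boxEquiv_apply, boxEquiv_apply] at h1
      have h3 : ((y.1 i : ℤ) : ZMod (2 * N + 1)) = ((x.1 i + 1 : ℤ) : ZMod (2 * N + 1)) := by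
        rw [h1]; push_cast; ring
      refine cast_eq_imp h3 ?_
      rw [abs_lt]; push_cast
      constructor <;> linarith [hxi.1, hxi.2, hyi.1, hyi.2]
  · have hxi := mem_boxM.1 x.2 j
    have hyi := mem_boxM.1 y.2 j
    have h3 : ((x.1 j : ℤ) : ZMod (2 * N + 1)) = ((y.1 j : ℤ) : ZMod (2 * N + 1)) := h2 j hj
    refine cast_eq_imp h3 ?_
    rw [abs_lt]; push_cast
    constructor <;> linarith [hxi.1, hxi.2, hyi.1, hyi.2]

theorem torus_degree {L : ℕ} [NeZero L] (x : Fin 3 → ZMod L) :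
    (Finset.univ.filter fun y => torusAdj L x y).card ≤ 6 := by
  have hsub : (Finset.univ.filter fun y => torusAdj L x y) ⊆
      (Finset.univ : Finset (Fin 3 × Bool)).image
        (fun p => Function.update x p.1 (if p.2 then x p.1 + 1 else x p.1 - 1)) := by
    intro y hy
    rw [Finset.mem_filter] at hy
    obtain ⟨i, h1, h2⟩ := hy.2
    rw [Finset.mem_image]
    rcases h1 with h1 | h1
    · refine ⟨(i, false), Finset.mem_univ _, ?_⟩
      funext j
      by_cases hj : j = i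
      · subst hj; simp [h1]
      · simp only [Bool.false_eq_true, if_false]
        rw [Function.update_of_ne hj]; exact h2 j hj
    · refine ⟨(i, true), Finset.mem_univ _, ?_⟩
      funext j
      by_cases hj : j = i
      · subst hj; simp [h1]
      · simp only [if_true]
        rw [Function.update_of_ne hj]; exact h2 j hj
  calc _ ≤ _ := Finset.card_le_card hsub
    _ ≤ (Finset.univ : Finset (Fin 3 × Bool)).card := Finset.card_image_le
    _ = 6 := by simp

/-- The torus adjacency transported to the box. -/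
def torusBox (N : ℕ) (x y : Model.box N) : Prop :=
  torusAdj (2 * N + 1) (boxEquiv N x) (boxEquiv N y)

noncomputable instance (N : ℕ) : DecidableRel (torusBox N) := fun x y => by
  unfold torusBox; infer_instance

theorem card_boundary (N : ℕ) (hN : 1 ≤ N) :
    ((Finset.univ.filter fun x : Model.box N =>
      ¬ ∀ i, -(N : ℤ) + 1 ≤ x.1 i ∧ x.1 i ≤ N - 1).card : ℝ) ≤ 3 * 2 * (2 * N + 1) ^ 2 := by
  obtain ⟨M, rfl⟩ : ∃ M, N = M + 1 := ⟨N - 1, by omega⟩
  have h1 : (Finset.univ.filter fun x : Model.box (M + 1) =>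
      ∀ i, -((M + 1 : ℕ) : ℤ) + 1 ≤ x.1 i ∧ x.1 i ≤ ((M + 1 : ℕ) : ℤ) - 1).card =
      (Model.box M).card := by
    refine Finset.card_bij (fun x _ => x.1) ?_ ?_ ?_
    · intro x hx
      rw [Finset.mem_filter] at hx
      rw [mem_boxM]
      intro i
      have := hx.2 i
      push_cast at this
      constructor <;> linarith [this.1, this.2]
    · intro x _ y _ h
      exact Subtype.ext h
    · intro x hx
      rw [mem_boxM] at hx
      refine ⟨⟨x, mem_boxM.2 fun i => ?_⟩, ?_, rfl⟩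
      · have := hx i
        push_cast
        constructor <;> linarith [this.1, this.2]
      · rw [Finset.mem_filter]
        refine ⟨Finset.mem_univ _, fun i => ?_⟩
        have := hx i
        push_cast
        constructor <;> linarith [this.1, this.2]
  have h2 := Finset.card_filter_add_card_filter_not (s := (Finset.univ : Finset (Model.box (M + 1))))
    (fun x : Model.box (M + 1) =>
      ∀ i, -((M + 1 : ℕ) : ℤ) + 1 ≤ x.1 i ∧ x.1 i ≤ ((M + 1 : ℕ) : ℤ) - 1)
  rw [h1, Finset.card_univ, Fintype.card_coe, card_boxM, card_boxM] at h2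
  have h3 : ((2 * M + 1) ^ 3 : ℝ) + ((Finset.univ.filter fun x : Model.box (M + 1) =>
      ¬ ∀ i, -((M + 1 : ℕ) : ℤ) + 1 ≤ x.1 i ∧ x.1 i ≤ ((M + 1 : ℕ) : ℤ) - 1).card : ℝ) =
      (2 * (M + 1) + 1) ^ 3 := by
    exact_mod_cast h2
  push_cast at h3 ⊢
  nlinarith [h3, (Nat.cast_nonneg M : (0 : ℝ) ≤ M)]

theorem pairs_torus_sub (N : ℕ) (hN : 1 ≤ N) :
    pairsV (torusBox N) - pairsV (fun x y : Model.box N => ∑ i, |x.1 i - y.1 i| = 1) ≤
      36 * (2 * N + 1) ^ 2 := by
  classical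
  unfold pairsV
  rw [← Finset.sum_sub_distrib]
  have hstep : ∀ x : Model.box N, (∑ y : Model.box N, if torusBox N x y then (1 : ℝ) else 0) -
      (∑ y : Model.box N, if ∑ i, |x.1 i - y.1 i| = 1 then (1 : ℝ) else 0) ≤
      if ¬ ∀ i, -(N : ℤ) + 1 ≤ x.1 i ∧ x.1 i ≤ N - 1 then (6 : ℝ) else 0 := by
    intro x
    by_cases hx : ∀ i, -(N : ℤ) + 1 ≤ x.1 i ∧ x.1 i ≤ N - 1
    · rw [if_neg (not_not.2 hx), sub_nonpos]
      refine Finset.sum_le_sum fun y _ => ?_
      by_cases h : torusBox N x y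
      · rw [if_pos h, if_pos (torus_imp_free hN x y hx h)]
      · rw [if_neg h]; split_ifs <;> norm_num
    · rw [if_pos hx]
      have h1 : (∑ y : Model.box N, if torusBox N x y then (1 : ℝ) else 0) ≤ 6 := by
        rw [Finset.sum_boole]
        have h2 : (Finset.univ.filter fun y => torusBox N x y).card =
            (Finset.univ.filter fun y => torusAdj (2 * N + 1) (boxEquiv N x) y).card := by
          refine Finset.card_bij (fun y _ => boxEquiv N y) ?_ ?_ ?_
          · intro y hy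
            rw [Finset.mem_filter] at hy ⊢
            exact ⟨Finset.mem_univ _, hy.2⟩
          · intro y _ z _ h
            exact (boxEquiv N).injective h
          · intro y hy
            refine ⟨(boxEquiv N).symm y, ?_, by simp⟩
            rw [Finset.mem_filter] at hy ⊢
            refine ⟨Finset.mem_univ _, ?_⟩
            unfold torusBox
            simpa using hy.2
        rw [h2]
        exact_mod_cast torus_degree _
      have h2 : (0 : ℝ) ≤ ∑ y : Model.box N, if ∑ i, |x.1 i - y.1 i| = 1 then (1 : ℝ) else 0 :=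
        Finset.sum_nonneg fun y _ => by split_ifs <;> norm_num
      linarith
  refine (Finset.sum_le_sum fun x _ => hstep x).trans ?_
  rw [← Finset.sum_filter, Finset.sum_const, nsmul_eq_mul]
  have := card_boundary N hN
  nlinarith [this]

/-- Pressure with periodic boundary conditions. -/
noncomputable def pressTorus (n N : ℕ) (β h : ℝ) : ℝ :=
  (β * (2 * N + 1) ^ 3)⁻¹ * Model.logTr n (torusAdj (2 * N + 1)) β h

theorem pressTorus_sub_le (n : ℕ) : ∃ C : ℝ, 0 ≤ C ∧ ∀ (N : ℕ), 1 ≤ N → ∀ β : ℝ, 0 < β → ∀ h : ℝ,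
    |pressTorus n N β h - Model.finPressure n N β h| ≤ C / (2 * N + 1) := by
  obtain ⟨c, hc0, hc⟩ := exists_upper_bound (X := ∑ a, spin n a * spin n a) (by
    rw [Matrix.IsHermitian, Matrix.conjTranspose_sum]
    refine Finset.sum_congr rfl fun a _ => ?_
    rw [Matrix.conjTranspose_mul, spin_isHermitian n a])
  refine ⟨18 * c, by positivity, fun N hN β hβ h => ?_⟩
  have hirr : ∀ x : Model.box N, ¬ (∑ i, |x.1 i - x.1 i| = 1) := by
    intro x hx
    simp at hx
  have hirr' : ∀ x : Model.box N, ¬ torusBox N x x := fun x =>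
    torusAdj_irrefl (by omega) _
  have h1 := logTr_mono_pairs n hc (fun x y : Model.box N => ∑ i, |x.1 i - y.1 i| = 1)
    (torusBox N) hirr hirr' (fun x y hxy => free_imp_torus x y hxy) hβ.le h
  have h2 : Model.logTr n (torusBox N) β h = Model.logTr n (torusAdj (2 * N + 1)) β h :=
    logTr_relabel (boxEquiv N) n (torusAdj (2 * N + 1)) (torusAdj_irrefl (by omega)) β h
  have h3 := pairs_torus_sub N hN
  rw [h2] at h1
  have hcard : ((Model.box N).card : ℝ) = (2 * N + 1) ^ 3 := by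
    rw [card_boxM]; push_cast; ring
  unfold pressTorus Model.finPressure
  rw [hcard, ← mul_sub, abs_mul, abs_of_pos (by positivity : (0 : ℝ) < (β * (2 * N + 1) ^ 3)⁻¹)]
  have h4 : |Model.logTr n (torusAdj (2 * N + 1)) β h -
      Model.logTr n (fun x y : Model.box N => ∑ i, |x.1 i - y.1 i| = 1) β h| ≤
      (β / 2) * c * (36 * (2 * N + 1) ^ 2) :=
    h1.trans (mul_le_mul_of_nonneg_left h3 (by positivity))
  refine (mul_le_mul_of_nonneg_left h4 (by positivity)).trans (le_of_eq ?_)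
  field_simp
  ring

/-- The pressure with periodic boundary conditions converges to `Model.pressure`. -/
theorem pressTorus_tendsto (n : ℕ) {β : ℝ} (hβ : 0 < β) (h : ℝ) :
    Tendsto (fun N : ℕ => pressTorus n N β h) atTop (𝓝 (Model.pressure n β h)) := by
  obtain ⟨C, hC, hb⟩ := pressTorus_sub_le n
  have h1 : Tendsto (fun N : ℕ => Model.finPressure n N β h) atTop
      (𝓝 (Model.pressure n β h)) := pressure_tendsto n hβ h
  have h2 : Tendsto (fun N : ℕ => C / (2 * (N : ℝ) + 1)) atTop (𝓝 0) := by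
    refine Tendsto.div_atTop tendsto_const_nhds ?_
    exact tendsto_atTop_add_const_right _ _
      (Tendsto.const_mul_atTop (by norm_num) tendsto_natCast_atTop_atTop)
  have h3 : Tendsto (fun N : ℕ => pressTorus n N β h - Model.finPressure n N β h) atTop
      (𝓝 0) := by
    refine squeeze_zero_norm' ?_ h2
    filter_upwards [eventually_ge_atTop 1] with N hN
    exact hb N hN β hβ h
  have h4 := h3.add h1
  simpa using h4

/-- Support line inequality for the torus pressure. -/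
theorem pressTorus_support (n N : ℕ) (hN : 1 ≤ N) {β : ℝ} (hβ : 0 < β) (h h' : ℝ) :
    pressTorus n N β h + (h' - h) * (gibbsMagV n (torusAdj (2 * N + 1)) β h / (2 * N + 1) ^ 3) ≤
      pressTorus n N β h' := by
  have h1 := logTr_support n (torusAdj (2 * N + 1)) (torusAdj_irrefl (by omega)) β h h'
  have h2 := mul_le_mul_of_nonneg_left h1 (a := (β * (2 * (N : ℝ) + 1) ^ 3)⁻¹) (by positivity)
  unfold pressTorus
  refine le_trans (le_of_eq ?_) h2
  field_simp

/-- If the torus magnetization per site at every field `h ∈ [a_N, 1]`, `a_N → 0`, is at least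
`m₀` for all large `N`, then the spontaneous magnetization is at least `m₀`. -/
theorem spontMag_ge (n : ℕ) {β : ℝ} (hβ : 0 < β) {m₀ : ℝ} {a : ℕ → ℝ}
    (ha : Tendsto a atTop (𝓝 0))
    (H : ∀ᶠ N : ℕ in atTop, ∀ h : ℝ, a N ≤ h → h ≤ 1 →
      m₀ ≤ gibbsMagV n (torusAdj (2 * N + 1)) β h / (2 * N + 1) ^ 3) :
    m₀ ≤ Model.spontMag n β := by
  have key : ∀ h₁ h₂ : ℝ, 0 < h₁ → h₁ ≤ h₂ → h₂ ≤ 1 →
      Model.pressure n β h₁ + (h₂ - h₁) * m₀ ≤ Model.pressure n β h₂ := by
    intro h₁ h₂ h0 h12 h21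
    have t1 := (pressTorus_tendsto n hβ h₁).add_const ((h₂ - h₁) * m₀)
    have t2 := pressTorus_tendsto n hβ h₂
    refine le_of_tendsto_of_tendsto t1 t2 ?_
    filter_upwards [H, eventually_ge_atTop 1, (tendsto_order.1 ha).2 h₁ h0] with N hN hN1 haN
    have h3 := pressTorus_support n N hN1 hβ h₁ h₂
    have h4 := hN h₁ haN.le (h12.trans h21)
    have h5 := mul_le_mul_of_nonneg_left h4 (by linarith : (0 : ℝ) ≤ h₂ - h₁)
    linarith
  have hconv : ConvexOn ℝ Set.univ (Model.pressure n β) := pressure_convex n hβ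
  have hcont : Continuous (Model.pressure n β) := by
    have := hconv.continuousOn isOpen_univ
    rwa [continuousOn_univ] at this
  have key0 : ∀ h₂ : ℝ, 0 < h₂ → h₂ ≤ 1 →
      Model.pressure n β 0 + h₂ * m₀ ≤ Model.pressure n β h₂ := by
    intro h₂ h20 h21
    have t1 : Tendsto (fun h₁ => Model.pressure n β h₁ + (h₂ - h₁) * m₀) (𝓝[>] 0)
        (𝓝 (Model.pressure n β 0 + (h₂ - 0) * m₀)) := by
      have : Continuous fun h₁ => Model.pressure n β h₁ + (h₂ - h₁) * m₀ := by fun_prop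
      exact this.continuousWithinAt.tendsto
    rw [sub_zero] at t1
    refine le_of_tendsto t1 ?_
    filter_upwards [Ioc_mem_nhdsGT h20] with h₁ hh
    exact key h₁ h₂ hh.1 hh.2 h21
  have hder : HasDerivWithinAt (Model.pressure n β) (Model.spontMag n β) (Set.Ioi 0) 0 :=
    spontMag_hasDeriv n hβ
  rw [hasDerivWithinAt_iff_tendsto_slope' (by simp)] at hder
  refine ge_of_tendsto hder ?_
  filter_upwards [Ioc_mem_nhdsGT (zero_lt_one' ℝ)] with h hh
  rw [slope_def_field, sub_zero, le_div_iff₀ hh.1]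
  linarith [key0 h hh.1 hh.2]

end Vale.Agent.P361.LRO
end

section

/-!
Bridge between the real swap model of `LRO/Defs.lean` and `Model.hamiltonian 1`.
-/

namespace Vale.Agent.P361.LRO

open Matrix Filter Topology Finset
open scoped ComplexOrder

section Pair

variable {V : Type} [Fintype V] [DecidableEq V] {d : Type*} [Fintype d] [DecidableEq d]

theorem siteOpV_pair_apply {x y : V} (hxy : x ≠ y) (A B : Matrix d d ℂ) (σ τ : V → d) :
    (siteOpV x A * siteOpV y B) σ τ = A (σ x) (τ x) * (B (σ y) (τ y) *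
      ∏ z ∈ (Finset.univ.erase x).erase y, (1 : Matrix d d ℂ) (σ z) (τ z)) := by
  simp only [siteOpV, prodOp_mul]
  simp only [prodOp, Matrix.of_apply]
  rw [← Finset.mul_prod_erase _ _ (Finset.mem_univ x),
    ← Finset.mul_prod_erase _ _ (Finset.mem_erase.2 ⟨hxy.symm, Finset.mem_univ y⟩)]
  congr 1
  · simp [hxy]
  · congr 1
    · simp [hxy.symm]
    · refine Finset.prod_congr rfl fun z hz => ?_
      have h1 := Finset.ne_of_mem_erase hz
      have h2 := Finset.ne_of_mem_erase (Finset.mem_of_mem_erase hz)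
      rw [if_neg h1, if_neg h2, Matrix.one_mul]

end Pair

theorem spinLower_one : spinLower 1 = !![0, 0; 1, 0] := by
  ext i j
  fin_cases i <;> fin_cases j <;> simp [spinLower]

theorem spin_one_sum (i i' j j' : Fin 2) :
    ∑ a : Fin 3, spin 1 a i i' * spin 1 a j j' =
      (1 / 2 : ℂ) * (if i = j' ∧ j = i' then 1 else 0) -
        (1 / 4 : ℂ) * (if i = i' ∧ j = j' then 1 else 0) := by
  have h0 : spin 1 0 = (1 / 2 : ℂ) • ((spinLower 1)ᴴ + spinLower 1) := rfl
  have h1 : spin 1 1 = (1 / (2 * Complex.I) : ℂ) • ((spinLower 1)ᴴ - spinLower 1) := rfl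
  have h2 : spin 1 2 = spinZ 1 := rfl
  rw [Fin.sum_univ_three, h0, h1, h2, spinLower_one]
  fin_cases i <;> fin_cases i' <;> fin_cases j <;> fin_cases j' <;>
    simp [spinZ, Matrix.conjTranspose, Matrix.transpose, Matrix.diagonal] <;>
    first
    | done
    | (ring_nf; rw [Complex.I_sq]; norm_num)
    | norm_num

section Gen

variable {V : Type} [Fintype V] [DecidableEq V]

theorem cM_swap {x y : V} (hxy : x ≠ y) :
    cM (swapM x y) = (2 : ℂ) • ∑ a : Fin 3, siteOpV x (spin 1 a) * siteOpV y (spin 1 a) +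
      (1 / 2 : ℂ) • (1 : Matrix (V → Fin 2) (V → Fin 2) ℂ) := by
  ext σ τ
  rw [cM_apply, Matrix.add_apply, Matrix.smul_apply, Matrix.smul_apply, Matrix.sum_apply]
  simp only [siteOpV_pair_apply hxy]
  rw [show (∑ a : Fin 3, spin 1 a (σ x) (τ x) * (spin 1 a (σ y) (τ y) *
      ∏ z ∈ (Finset.univ.erase x).erase y, (1 : Matrix (Fin 2) (Fin 2) ℂ) (σ z) (τ z))) =
      (∑ a : Fin 3, spin 1 a (σ x) (τ x) * spin 1 a (σ y) (τ y)) *
      ∏ z ∈ (Finset.univ.erase x).erase y, (1 : Matrix (Fin 2) (Fin 2) ℂ) (σ z) (τ z) by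
    rw [Finset.sum_mul]; exact Finset.sum_congr rfl fun a _ => by ring]
  rw [spin_one_sum]
  have hprod : (∏ z ∈ (Finset.univ.erase x).erase y,
      (1 : Matrix (Fin 2) (Fin 2) ℂ) (σ z) (τ z)) =
      if (∀ z, z ≠ x → z ≠ y → σ z = τ z) then 1 else 0 := by
    split_ifs with h
    · refine Finset.prod_eq_one fun z hz => ?_
      have h1 := Finset.ne_of_mem_erase hz
      have h2 := Finset.ne_of_mem_erase (Finset.mem_of_mem_erase hz)
      rw [Matrix.one_apply, if_pos (h z h2 h1)]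
    · push Not at h
      obtain ⟨z, h1, h2, h3⟩ := h
      refine Finset.prod_eq_zero (i := z) ?_ (by rw [Matrix.one_apply, if_neg h3])
      exact Finset.mem_erase.2 ⟨h2, Finset.mem_erase.2 ⟨h1, Finset.mem_univ z⟩⟩
  rw [hprod]
  have hsw : (σ = τ ∘ Equiv.swap x y) ↔
      ((σ x = τ y ∧ σ y = τ x) ∧ ∀ z, z ≠ x → z ≠ y → σ z = τ z) := by
    constructor
    · intro h
      refine ⟨⟨by rw [h]; simp, by rw [h]; simp⟩, fun z h1 h2 => by
        rw [h]; simp [Equiv.swap_apply_of_ne_of_ne h1 h2]⟩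
    · rintro ⟨⟨h1, h2⟩, h3⟩
      funext z
      simp only [Function.comp_apply]
      by_cases hz : z = x
      · subst hz; simpa using h1
      · by_cases hz2 : z = y
        · subst hz2; simpa using h2
        · rw [Equiv.swap_apply_of_ne_of_ne hz hz2]; exact h3 z hz hz2
  have hone : (σ = τ) ↔ ((σ x = τ x ∧ σ y = τ y) ∧ ∀ z, z ≠ x → z ≠ y → σ z = τ z) := by
    constructor
    · rintro rfl; simp
    · rintro ⟨⟨h1, h2⟩, h3⟩
      funext z
      by_cases hz : z = x
      · subst hz; exact h1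
      · by_cases hz2 : z = y
        · subst hz2; exact h2
        · exact h3 z hz hz2
  rw [swapM, Matrix.of_apply, Matrix.one_apply]
  simp only [hsw, hone, smul_eq_mul]
  have key : ∀ (P1 P2 P3 : Prop) [Decidable P1] [Decidable P2] [Decidable P3],
      (((if P1 ∧ P3 then (1 : ℝ) else 0) : ℝ) : ℂ) =
        2 * (((1 / 2 : ℂ) * (if P1 then 1 else 0) - (1 / 4 : ℂ) * (if P2 then 1 else 0)) *
          (if P3 then 1 else 0)) + 1 / 2 * (if P2 ∧ P3 then 1 else 0) := by
    intro P1 P2 P3 _ _ _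
    by_cases h1 : P1 <;> by_cases h2 : P2 <;> by_cases h3 : P3 <;> simp [h1, h2, h3] <;> norm_num
  exact key _ _ _

theorem cM_sz (x : V) : cM (szM x) = (2 : ℂ) • siteOpV x (spin 1 2) := by
  ext σ τ
  rw [cM_apply, Matrix.smul_apply, siteOpV_apply, szM]
  have h2 : spin 1 2 = spinZ 1 := rfl
  by_cases h : σ = τ
  · subst h
    rw [Matrix.diagonal_apply_eq, Finset.prod_eq_one (fun z _ => by rw [Matrix.one_apply_eq]), h2]
    simp only [spinZ, Matrix.diagonal_apply_eq]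
    rcases Fin.exists_fin_two.1 ⟨σ x, rfl⟩ with h | h
    · rw [h]; norm_num
    · rw [h]; norm_num
  · rw [Matrix.diagonal_apply_ne _ h]
    by_cases hx : σ x = τ x
    · have : ∃ z, z ≠ x ∧ σ z ≠ τ z := by
        by_contra hcon
        push Not at hcon
        apply h
        funext z
        by_cases hz : z = x
        · subst hz; exact hx
        · exact hcon z hz
      obtain ⟨z, hz, hz2⟩ := this
      rw [Finset.prod_eq_zero (Finset.mem_erase.2 ⟨hz, Finset.mem_univ z⟩)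
        (by rw [Matrix.one_apply, if_neg hz2])]
      simp
    · rw [h2, spinZ, Matrix.diagonal_apply_ne _ hx]
      simp

end Gen

end Vale.Agent.P361.LRO
end

section

/-! # The swap form of the spin-1/2 model on the torus -/

namespace Vale.Agent.P361.LRO

open Matrix Finset Filter Topology

section torus

variable {n : ℕ}

theorem single_one_inj (hn : 1 < n) {i j : Fin 3}
    (h : (Pi.single i 1 : Fin 3 → ZMod n) = Pi.single j 1) : i = j := by
  have : Fact (1 < n) := ⟨hn⟩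
  by_contra hij
  have := congrFun h i
  rw [Pi.single_eq_same, Pi.single_eq_of_ne hij] at this
  exact one_ne_zero this

theorem single_one_add_ne (hn : 3 ≤ n) (i j : Fin 3) :
    (Pi.single i 1 : Fin 3 → ZMod n) + Pi.single j 1 ≠ 0 := by
  have : Fact (1 < n) := ⟨by omega⟩
  intro h
  have h1 := congrFun h i
  rw [Pi.add_apply, Pi.single_eq_same, Pi.zero_apply] at h1
  by_cases hij : i = j
  · subst hij
    rw [Pi.single_eq_same] at h1
    have h2 : ((2 : ℕ) : ZMod n) = 0 := by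
      rw [← h1]; norm_num
    rw [ZMod.natCast_eq_zero_iff] at h2
    have := Nat.le_of_dvd (by norm_num) h2
    omega
  · rw [Pi.single_eq_of_ne hij, add_zero] at h1
    exact one_ne_zero h1

theorem torusAdj_iff_single (x y : Fin 3 → ZMod n) :
    torusAdj n x y ↔ ∃ i, y = x + Pi.single i 1 ∨ x = y + Pi.single i 1 := by
  have key : ∀ (i : Fin 3) (u v : Fin 3 → ZMod n),
      (u i = v i + 1 ∧ ∀ j, j ≠ i → u j = v j) ↔ u = v + Pi.single i 1 := by
    intro i u v
    constructor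
    · rintro ⟨h1, h2⟩
      funext j
      by_cases hj : j = i
      · subst hj
        rw [Pi.add_apply, Pi.single_eq_same, h1]
      · rw [Pi.add_apply, Pi.single_eq_of_ne hj, add_zero, h2 j hj]
    · rintro rfl
      refine ⟨by rw [Pi.add_apply, Pi.single_eq_same], fun j hj => ?_⟩
      rw [Pi.add_apply, Pi.single_eq_of_ne hj, add_zero]
  unfold torusAdj
  refine exists_congr fun i => ?_
  rw [← key i y x, ← key i x y]
  constructor
  · rintro ⟨h1 | h1, h2⟩
    · exact Or.inr ⟨h1, h2⟩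
    · exact Or.inl ⟨h1, fun j hj => (h2 j hj).symm⟩
  · rintro (⟨h1, h2⟩ | ⟨h1, h2⟩)
    · exact ⟨Or.inr h1, fun j hj => (h2 j hj).symm⟩
    · exact ⟨Or.inl h1, h2⟩

theorem ite_torusAdj (hn : 3 ≤ n) {M : Type*} [AddCommMonoid M] (x y : Fin 3 → ZMod n) (m : M) :
    (if torusAdj n x y then m else 0) =
      (∑ i : Fin 3, if y = x + Pi.single i 1 then m else 0) +
        ∑ i : Fin 3, if x = y + Pi.single i 1 then m else 0 := by
  have hn1 : 1 < n := by omega
  by_cases h : torusAdj n x y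
  · rw [if_pos h]
    rw [torusAdj_iff_single] at h
    obtain ⟨i, rfl | rfl⟩ := h
    · have e1 : ∀ j : Fin 3, (if x + Pi.single i 1 = x + Pi.single j (1 : ZMod n) then m else 0) =
          if j = i then m else 0 := by
        intro j
        by_cases hj : j = i
        · subst hj; simp
        · rw [if_neg hj, if_neg]
          intro h2
          exact hj (single_one_inj hn1 (add_left_cancel h2)).symm
      have e2 : ∀ j : Fin 3, (if x = x + Pi.single i 1 + Pi.single j (1 : ZMod n) then m else 0) =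
          0 := by
        intro j
        rw [if_neg]
        intro h2
        apply single_one_add_ne hn i j
        rw [add_assoc] at h2
        exact (left_eq_add.1 h2)
      simp only [e1, e2, Finset.sum_const_zero, add_zero, Finset.sum_ite_eq', Finset.mem_univ,
        if_true]
    · have e1 : ∀ j : Fin 3, (if y + Pi.single i 1 = y + Pi.single j (1 : ZMod n) then m else 0) =
          if j = i then m else 0 := by
        intro j
        by_cases hj : j = i
        · subst hj; simp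
        · rw [if_neg hj, if_neg]
          intro h2
          exact hj (single_one_inj hn1 (add_left_cancel h2)).symm
      have e2 : ∀ j : Fin 3, (if y = y + Pi.single i 1 + Pi.single j (1 : ZMod n) then m else 0) =
          0 := by
        intro j
        rw [if_neg]
        intro h2
        apply single_one_add_ne hn i j
        rw [add_assoc] at h2
        exact (left_eq_add.1 h2)
      simp only [e1, e2, Finset.sum_const_zero, zero_add, Finset.sum_ite_eq', Finset.mem_univ,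
        if_true]
  · rw [if_neg h]
    rw [torusAdj_iff_single] at h
    push Not at h
    rw [Finset.sum_eq_zero fun i _ => if_neg (h i).1, Finset.sum_eq_zero fun i _ => if_neg (h i).2,
      add_zero]

theorem sum_torusAdj [NeZero n] (hn : 3 ≤ n) {M : Type*} [AddCommMonoid M]
    (f : (Fin 3 → ZMod n) → (Fin 3 → ZMod n) → M) :
    (∑ x, ∑ y, if torusAdj n x y then f x y else 0) =
      (∑ z : (Fin 3 → ZMod n) × Fin 3, f z.1 (z.1 + Pi.single z.2 1)) +
        ∑ z : (Fin 3 → ZMod n) × Fin 3, f (z.1 + Pi.single z.2 1) z.1 := by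
  simp only [ite_torusAdj hn, Finset.sum_add_distrib, Fintype.sum_prod_type]
  congr 1
  · refine Finset.sum_congr rfl fun x _ => ?_
    rw [Finset.sum_comm]
    refine Finset.sum_congr rfl fun i _ => ?_
    rw [Finset.sum_ite_eq' Finset.univ (x + Pi.single i 1) (fun y => f x y), if_pos (mem_univ _)]
  · rw [Finset.sum_comm]
    refine Finset.sum_congr rfl fun y _ => ?_
    rw [Finset.sum_comm]
    refine Finset.sum_congr rfl fun i _ => ?_
    rw [Finset.sum_ite_eq' Finset.univ (y + Pi.single i 1) (fun x => f x y), if_pos (mem_univ _)]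

theorem sum_edges [NeZero n] {M : Type*} [AddCommMonoid M] (f : Tor n × Tor n → M) :
    ((edges n).map f).sum = ∑ z : (Fin 3 → ZMod n) × Fin 3, f (z.1, z.1 + Pi.single z.2 1) := by
  rw [edges, List.map_map, Finset.sum_map_toList]
  rfl

end torus

section gen

variable {V : Type} [Fintype V] [DecidableEq V]

theorem exp_add_smul_one {ι : Type*} [Fintype ι] [DecidableEq ι] (X : Matrix ι ι ℂ) (k : ℝ) :
    NormedSpace.exp (X + (k : ℂ) • (1 : Matrix ι ι ℂ)) =
      ((Real.exp k : ℝ) : ℂ) • NormedSpace.exp X := by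
  have hcomm : Commute X ((k : ℂ) • (1 : Matrix ι ι ℂ)) :=
    (Commute.one_right X).smul_right (k : ℂ)
  have h : (k : ℂ) • (1 : Matrix ι ι ℂ) = diagonal (fun _ => (k : ℂ)) := by
    ext i j
    by_cases hij : i = j
    · subst hij; simp
    · simp [hij]
  rw [Matrix.exp_add_of_commute _ _ hcomm, h, Matrix.exp_diagonal]
  have h2 : diagonal (NormedSpace.exp fun _ : ι => (k : ℂ)) =
      ((Real.exp k : ℝ) : ℂ) • (1 : Matrix ι ι ℂ) := by
    ext i j
    by_cases hij : i = j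
    · subst hij; simp [Pi.exp_def, ← Complex.exp_eq_exp_ℂ]
    · simp [hij]
  rw [h2, Matrix.mul_smul, Matrix.mul_one]

theorem cM_hM {x y : V} (hxy : x ≠ y) :
    cM (hM x y) = (1 / 4 : ℂ) • (1 : Matrix (V → Fin 2) (V → Fin 2) ℂ) -
      ∑ a : Fin 3, siteOpV x (spin 1 a) * siteOpV y (spin 1 a) := by
  have h1 := cM_swap hxy
  unfold hM
  rw [cM_smul, cM_sub, cM_one, h1]
  push_cast
  module

theorem siteDot_comm {x y : V} (hxy : x ≠ y) :
    ∑ a : Fin 3, siteOpV y (spin 1 a) * siteOpV x (spin 1 a) =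
      ∑ a : Fin 3, siteOpV x (spin 1 a) * siteOpV y (spin 1 a) :=
  Finset.sum_congr rfl fun _ _ => siteOpV_commute hxy.symm _ _

theorem rho_eq_gib [Nonempty V] (L : List (V × V)) (β : ℝ) (h : V → ℝ) (x : V)
    (hZ : Matrix.trace (NormedSpace.exp (-β • ham L h)) ≠ 0) :
    1 / 2 - rho L β h x = gib L β h ((1 / 2 : ℝ) • szM x) := by
  unfold rho gib
  rw [smul_sub, Matrix.mul_sub, Matrix.trace_sub, Matrix.mul_smul, Matrix.mul_one,
    Matrix.trace_smul, smul_eq_mul, Matrix.mul_smul, Matrix.trace_smul, smul_eq_mul]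
  field_simp
  ring

end gen

section final

variable {n : ℕ} [NeZero n]

theorem expoV_eq_cM (hn : 3 ≤ n) (β h : ℝ) :
    expoV 1 (torusAdj n) β h = cM (-β • ham (edges n) (fun _ => h)) +
      ((β / 4 * (Fintype.card (Tor n × Fin 3)) : ℝ) : ℂ) •
        (1 : Matrix (Tor n → Fin 2) (Tor n → Fin 2) ℂ) := by
  have hn1 : 1 < n := by omega
  have hne : ∀ z : Tor n × Fin 3, z.1 ≠ z.1 + Pi.single z.2 1 := by
    intro z hz
    have : Fact (1 < n) := ⟨hn1⟩
    have h2 : (Pi.single z.2 1 : Tor n) = 0 := (left_eq_add.1 hz)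
    have h3 := congrFun h2 z.2
    rw [Pi.single_eq_same, Pi.zero_apply] at h3
    exact one_ne_zero h3
  have hM : Model.magnetization 1 (Tor n) = cM (∑ x : Tor n, (1 / 2 : ℝ) • szM x) := by
    have hM : Model.magnetization 1 (Tor n) = ∑ x : Tor n, siteOpV x (spin 1 2) := rfl
    rw [hM, cM_sum]
    refine Finset.sum_congr rfl fun x _ => ?_
    rw [cM_smul, cM_sz]
    push_cast
    module
  have hH : Model.hamiltonian 1 (torusAdj n) =
      -∑ z : Tor n × Fin 3, ∑ a : Fin 3, siteOpV z.1 (spin 1 a) *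
        siteOpV (z.1 + Pi.single z.2 1) (spin 1 a) := by
    have e0 : Model.hamiltonian 1 (torusAdj n) = -((1 / 2 : ℂ) • ∑ x : Tor n, ∑ y : Tor n,
      if torusAdj n x y then ∑ a : Fin 3, siteOpV x (spin 1 a) * siteOpV y (spin 1 a) else 0) := rfl
    rw [e0, sum_torusAdj hn (fun x y => ∑ a : Fin 3, siteOpV x (spin 1 a) * siteOpV y (spin 1 a))]
    have e1 : (∑ z : Tor n × Fin 3, ∑ a : Fin 3, siteOpV (z.1 + Pi.single z.2 1) (spin 1 a) *
        siteOpV z.1 (spin 1 a)) = ∑ z : Tor n × Fin 3, ∑ a : Fin 3, siteOpV z.1 (spin 1 a) *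
        siteOpV (z.1 + Pi.single z.2 1) (spin 1 a) :=
      Finset.sum_congr rfl fun z _ => siteDot_comm (hne z)
    rw [e1]
    have e2 : ∀ X : Matrix (Tor n → Fin 2) (Tor n → Fin 2) ℂ,
        -((1 / 2 : ℂ) • (X + X)) = -X := fun X => by module
    exact e2 _
  have hham : cM (ham (edges n) (fun _ => h)) =
      ((Fintype.card (Tor n × Fin 3) : ℂ) * (1 / 4)) • (1 : Matrix (Tor n → Fin 2) (Tor n → Fin 2) ℂ) -
        (∑ z : Tor n × Fin 3, ∑ a : Fin 3, siteOpV z.1 (spin 1 a) *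
        siteOpV (z.1 + Pi.single z.2 1) (spin 1 a)) - (h : ℂ) • Model.magnetization 1 (Tor n) := by
    unfold ham
    rw [sum_edges, cM_sub, cM_sum]
    have e1 : ∀ z : Tor n × Fin 3, cM (LRO.hM (z.1, z.1 + Pi.single z.2 1).1
        (z.1, z.1 + Pi.single z.2 1).2) = (1 / 4 : ℂ) • (1 : Matrix (Tor n → Fin 2) (Tor n → Fin 2) ℂ) -
      ∑ a : Fin 3, siteOpV z.1 (spin 1 a) * siteOpV (z.1 + Pi.single z.2 1) (spin 1 a) :=
      fun z => cM_hM (hne z)
    rw [Finset.sum_congr rfl fun z _ => e1 z, Finset.sum_sub_distrib, Finset.sum_const,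
      Finset.card_univ, hM, ← cM_smul, Finset.smul_sum, ← Nat.cast_smul_eq_nsmul ℂ, smul_smul]
    congr 2
    refine Finset.sum_congr rfl fun x _ => ?_
    rw [smul_smul]
    congr 1
    ring
  have hex : expoV 1 (torusAdj n) β h = -(β : ℂ) • (Model.hamiltonian 1 (torusAdj n) -
    (h : ℂ) • Model.magnetization 1 (Tor n)) := rfl
  rw [hex, cM_smul, hham, hH]
  push_cast
  module

/-- Total magnetization in the swap form. -/
theorem gibbsMagV_eq (hn : 3 ≤ n) (β h : ℝ) :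
    gibbsMagV 1 (torusAdj n) β h =
      ∑ x : Tor n, (1 / 2 - rho (edges n) β (fun _ => h) x) := by
  have hex : NormedSpace.exp (expoV 1 (torusAdj n) β h) =
      ((Real.exp (β / 4 * (Fintype.card (Tor n × Fin 3))) : ℝ) : ℂ) •
        cM (NormedSpace.exp (-β • ham (edges n) (fun _ => h))) := by
    rw [expoV_eq_cM hn, exp_add_smul_one, exp_cM]
  have hM : Model.magnetization 1 (Tor n) = cM (∑ x : Tor n, (1 / 2 : ℝ) • szM x) := by
    have hM : Model.magnetization 1 (Tor n) = ∑ x : Tor n, siteOpV x (spin 1 2) := rfl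
    rw [hM, cM_sum]
    refine Finset.sum_congr rfl fun x _ => ?_
    rw [cM_smul, cM_sz]
    push_cast
    module
  have hc : Real.exp (β / 4 * (Fintype.card (Tor n × Fin 3))) ≠ 0 := (Real.exp_pos _).ne'
  set c := Real.exp (β / 4 * (Fintype.card (Tor n × Fin 3))) with hcdef
  unfold gibbsMagV
  rw [hex, hM, Matrix.smul_mul, ← cM_mul, Matrix.trace_smul, Matrix.trace_smul, trace_cM,
    trace_cM, smul_eq_mul, smul_eq_mul, ← Complex.ofReal_mul, ← Complex.ofReal_mul,
    Complex.ofReal_re, Complex.ofReal_re, mul_div_mul_left _ _ hc]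
  have hpos : 0 < Matrix.trace (NormedSpace.exp (-β • ham (edges n) (fun _ : Tor n => h))) := by
    have h1 := trace_exp_pos (expoV_isHermitian 1 (torusAdj n) (torusAdj_irrefl (by omega)) β h)
    rw [hex, Matrix.trace_smul, trace_cM, smul_eq_mul, ← Complex.ofReal_mul,
      Complex.ofReal_re] at h1
    exact (mul_pos_iff_of_pos_left (Real.exp_pos _)).1 h1
  simp only [rho_eq_gib _ _ _ _ hpos.ne', gib]
  rw [← Finset.sum_div, ← Matrix.trace_sum, ← Finset.mul_sum]

end final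

end Vale.Agent.P361.LRO
end

section

/-! # From the bootstrap to the spontaneous magnetization -/

namespace Vale.Agent.P361.LRO

open Matrix Finset Filter Topology

/-- Small densities on large tori at fields `h ≥ n^{-1/4}` give spontaneous magnetization. -/
theorem spontMag_ge_of_rho {β η : ℝ} (hβ : 0 < β) {n0 : ℕ}
    (H : ∀ (n : ℕ) [NeZero n], n0 ≤ n → Odd n → ∀ h : ℝ, (n : ℝ) ^ (-(1 / 4) : ℝ) ≤ h → h ≤ 1 →
      ∀ x : Tor n, rho (edges n) β (fun _ => h) x ≤ η) :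
    1 / 2 - η ≤ Model.spontMag 1 β := by
  refine spontMag_ge 1 hβ (a := fun N : ℕ => ((2 * N + 1 : ℕ) : ℝ) ^ (-(1 / 4) : ℝ)) ?_ ?_
  · have h1 : Tendsto (fun N : ℕ => ((2 * N + 1 : ℕ) : ℝ)) atTop atTop := by
      refine tendsto_natCast_atTop_atTop.comp (tendsto_atTop_mono (fun n => ?_) tendsto_id)
      simp only [id]; omega
    exact (tendsto_rpow_neg_atTop (by norm_num : (0 : ℝ) < 1 / 4)).comp h1
  · filter_upwards [eventually_ge_atTop (max n0 1)] with N hN h hh1 hh2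
    have hN1 : 1 ≤ N := le_trans (le_max_right _ _) hN
    have hN0 : n0 ≤ 2 * N + 1 := by
      have := le_trans (le_max_left _ _) hN
      omega
    have hodd : Odd (2 * N + 1) := ⟨N, rfl⟩
    have h2 := H (2 * N + 1) hN0 hodd h hh1 hh2
    rw [gibbsMagV_eq (by omega) β h]
    have hcard : (Fintype.card (Tor (2 * N + 1)) : ℝ) = (2 * (N : ℝ) + 1) ^ 3 := by
      rw [Fintype.card_fun, ZMod.card, Fintype.card_fin]
      push_cast
      ring
    rw [le_div_iff₀ (by positivity), ← hcard, mul_comm, ← nsmul_eq_mul, ← Finset.card_univ]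
    refine Finset.card_nsmul_le_sum _ _ _ fun x _ => ?_
    linarith [h2 x]

/-- The output of the bootstrap gives long range order. -/
theorem main_of_boot
    (H : ∃ β0 : ℝ, ∀ β : ℝ, β0 ≤ β → ∃ n0 : ℕ, ∀ (n : ℕ) [NeZero n], n0 ≤ n → Odd n →
      ∀ h : ℝ, (n : ℝ) ^ (-(1 / 4) : ℝ) ≤ h → h ≤ 1 →
        ∀ x : Tor n, rho (edges n) β (fun _ => h) x ≤ β ^ (-(1 / 100) : ℝ)) :
    ∃ β0 : ℝ, 0 < β0 ∧ ∀ β : ℝ, β0 ≤ β → 1 / 2 - β ^ (-(1 / 100) : ℝ) ≤ Model.spontMag 1 β := by
  obtain ⟨β0, H⟩ := H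
  refine ⟨max β0 1, lt_max_of_lt_right one_pos, fun β hβ => ?_⟩
  have h1 : β0 ≤ β := le_trans (le_max_left _ _) hβ
  have h2 : 0 < β := lt_of_lt_of_le one_pos (le_trans (le_max_right _ _) hβ)
  obtain ⟨n0, hn0⟩ := H β h1
  exact spontMag_ge_of_rho h2 hn0

end Vale.Agent.P361.LRO
end

section

/-!
P361, low-temperature order: the step of the bootstrap from the blocks.
-/

namespace Vale.Agent.P361.LRO

open Filter Finset Matrix

noncomputable section

theorem etaB_pos {β : ℝ} (hβ : 0 < β) : 0 < etaB β := Real.rpow_pos_of_pos hβ _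

theorem etaB_le_one {β : ℝ} (hβ : 1 ≤ β) : etaB β ≤ 1 := by
  unfold etaB
  exact Real.rpow_le_one_of_one_le_of_nonpos hβ (by norm_num)

theorem edges_ne {n : ℕ} [NeZero n] (hn : 2 ≤ n) : ∀ e ∈ edges n, e.1 ≠ e.2 := by
  intro e he
  unfold edges at he
  rw [List.mem_map] at he
  obtain ⟨z, -, rfl⟩ := he
  intro h
  have h1 : (Pi.single z.2 1 : Tor n) = 0 := by
    have h2 : z.1 + 0 = z.1 + Pi.single z.2 1 := by
      rw [add_zero]
      exact h
    exact (add_left_cancel h2).symm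
  have h3 := congrFun h1 z.2
  rw [Pi.single_eq_same, Pi.zero_apply] at h3
  have : Fact (1 < n) := ⟨hn⟩
  exact one_ne_zero h3

/-- in the cube the field varies slowly -/
theorem fam_log {n : ℕ} [NeZero n] {h0 lam : ℝ} {h : Tor n → ℝ} (hh : Fam n h0 lam h)
    (h0p : 0 < h0) (x : Tor n) (i : Fin 3) :
    |Real.log (h (x + Pi.single i 1)) - Real.log (h x)| ≤ lam := by
  have hp : ∀ y, 0 < h y := fun y => h0p.trans_le (hh.1 y).1
  obtain ⟨h1, h2⟩ := hh.2 x i
  have h3 := Real.log_le_log (hp _) h1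
  have h4 := Real.log_le_log (hp _) h2
  rw [Real.log_mul (Real.exp_pos _).ne' (hp _).ne', Real.log_exp] at h3 h4
  rw [abs_le]
  constructor <;> linarith

theorem fam_log_nat {n : ℕ} [NeZero n] {h0 lam : ℝ} {h : Tor n → ℝ} (hh : Fam n h0 lam h)
    (h0p : 0 < h0) (i : Fin 3) (k : ℕ) (x : Tor n) :
    |Real.log (h (x + Pi.single i (k : ZMod n))) - Real.log (h x)| ≤ k * lam := by
  induction k with
  | zero =>
    rw [Nat.cast_zero, Pi.single_zero, add_zero, sub_self, abs_zero, Nat.cast_zero, zero_mul]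
  | succ k ih =>
    have h1 : x + Pi.single i ((k + 1 : ℕ) : ZMod n) =
        x + Pi.single i (k : ZMod n) + Pi.single i 1 := by
      rw [Nat.cast_succ, Pi.single_add, add_assoc]
    rw [h1]
    have h2 := fam_log hh h0p (x + Pi.single i (k : ZMod n)) i
    have h3 := abs_add_le (Real.log (h (x + Pi.single i (k : ZMod n) + Pi.single i 1)) -
      Real.log (h (x + Pi.single i (k : ZMod n))))
      (Real.log (h (x + Pi.single i (k : ZMod n))) - Real.log (h x))
    rw [sub_add_sub_cancel] at h3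
    push_cast
    linarith

theorem fam_log_vec {n : ℕ} [NeZero n] {h0 lam : ℝ} {h : Tor n → ℝ} (hh : Fam n h0 lam h)
    (h0p : 0 < h0) (l : ℕ) (k : Fin 3 → ℕ) (hk : ∀ i, k i ≤ l) (hlam : 0 ≤ lam) (x : Tor n) :
    |Real.log (h (x + fun i => (k i : ZMod n))) - Real.log (h x)| ≤ 3 * l * lam := by
  have h1 : (x + fun i => (k i : ZMod n)) = x + Pi.single 0 (k 0 : ZMod n) +
      Pi.single 1 (k 1 : ZMod n) + Pi.single 2 (k 2 : ZMod n) := by
    funext i
    fin_cases i <;> simp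
  rw [h1]
  have e0 := fam_log_nat hh h0p 0 (k 0) x
  have e1 := fam_log_nat hh h0p 1 (k 1) (x + Pi.single 0 (k 0 : ZMod n))
  have e2 := fam_log_nat hh h0p 2 (k 2) (x + Pi.single 0 (k 0 : ZMod n) +
    Pi.single 1 (k 1 : ZMod n))
  have hb : ∀ i, (k i : ℝ) * lam ≤ l * lam := fun i =>
    mul_le_mul_of_nonneg_right (by exact_mod_cast hk i) hlam
  have b0 := hb 0
  have b1 := hb 1
  have b2 := hb 2
  rw [abs_le] at *
  constructor <;> linarith [e0.1, e0.2, e1.1, e1.2, e2.1, e2.2]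

/-- **The step from the blocks.** -/
theorem step_of {q : ℕ} {w m : ℝ → ℕ} {lam : ℝ → ℝ} (h1 : PTwist) (h7 : PEnergy q)
    (h8 : PHarn) (ht : PTrans) (h6 : PSix w lam) (hp : Par q w m lam) : PStep lam := by
  obtain ⟨c, hc, h6⟩ := h6
  obtain ⟨C1, hC1, h1⟩ := h1
  obtain ⟨C, hC, h7⟩ := h7
  have hA : (0 : ℝ) < 32 * C1 / c := by positivity
  have hCC : 0 < C1 * C := by positivity
  filter_upwards [h6 _ hA, hp _ (C1 * C) hA hCC, eventually_ge_atTop (1 : ℝ)] with β h6 hp hβ1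
  obtain ⟨hw, hm, hlam, hK10, hKw, hpar, hd1, hd2⟩ := hp
  have hβ : 0 < β := by linarith
  have hη := etaB_pos hβ
  have hη1 := etaB_le_one hβ1
  filter_upwards [h6, eventually_ge_atTop 3, eventually_ge_atTop (3 * (w β * m β))] with
    n h6 hn3 hnw3
  intro hodd _ h0 hh0 hh01 hB h hh x
  have hnw : w β * m β ≤ n := by omega
  have hn0 : (0 : ℝ) < n := by
    have : (3 : ℝ) ≤ n := by exact_mod_cast hn3
    linarith
  have h0p : 0 < h0 := (Real.rpow_pos_of_pos hn0 _).trans_le hh0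
  have hpos : ∀ y, 0 < h y := fun y => h0p.trans_le (hh.1 y).1
  set K : ℝ := 32 * C1 / c / etaB β with hK
  set κ : ℝ := c * K with hκ
  have hκ' : C1 / κ = etaB β / 32 := by
    rw [hκ, hK]
    field_simp
  have hκp : 0 < κ := by
    rw [hκ, hK]
    positivity
  -- the blocks of the cube
  set bl : (Fin 3 → Fin (m β)) → Finset (Tor n) := fun y =>
    cube n (x + fun i => ((w β * (y i : ℕ) : ℕ) : ZMod n)) (w β) with hbl
  have hwn : w β ≤ n := le_trans (Nat.le_mul_of_pos_right _ hm) hnw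
  have hcard : ∀ z : Tor n, (cube n z (w β)).card = w β ^ 3 := by
    intro z
    unfold cube
    rw [Finset.card_image_of_injective, Finset.card_univ, Fintype.card_fun, Fintype.card_fin,
      Fintype.card_fin]
    intro a b hab
    have h2 := add_left_cancel hab
    funext i
    have h3 := congrFun h2 i
    have h4 : ((a i : ℕ) : ZMod n) = ((b i : ℕ) : ZMod n) := h3
    rw [ZMod.natCast_eq_natCast_iff'] at h4
    rw [Nat.mod_eq_of_lt ((a i).2.trans_le hwn), Nat.mod_eq_of_lt ((b i).2.trans_le hwn)] at h4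
    exact Fin.ext h4
  have htw : ∀ y, (∑ z ∈ bl y, rho (edges n) β h z) / (bl y).card ≤
      etaB β / 32 + C1 * (1 + K) ^ 4 * Dst (edges n) β h (bl y) := by
    intro y
    have h2 := h1 (Tor n) (edges n) (edges_ne (by omega)) β hβ h (fun z => ⟨hpos z, (hh.1 z).2⟩)
      (bl y) K κ
      (by
        rw [← Finset.card_pos, hbl]
        dsimp only
        rw [hcard]
        positivity) hK10
      (by
        rw [hbl]
        dsimp only
        rw [hcard]
        exact_mod_cast hKw) hκp (h6 hodd h0 hh0 hh01 hB h hh _)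
    rwa [hκ'] at h2
  have hsum : ∑ y, (∑ z ∈ bl y, rho (edges n) β h z) / (bl y).card ≤
      (m β : ℝ) ^ 3 * (etaB β / 16) := by
    refine (Finset.sum_le_sum fun y _ => htw y).trans ?_
    rw [Finset.sum_add_distrib, ← Finset.mul_sum, Finset.sum_const, Finset.card_univ,
      Fintype.card_fun, Fintype.card_fin, Fintype.card_fin, nsmul_eq_mul]
    push_cast
    have h2 := h7 β hβ1 n (w β) (m β) hw hm hnw3 h (fun z => ⟨hpos z, (hh.1 z).2⟩) x
    have hK3 : 0 ≤ C1 * (1 + K) ^ 4 := by positivity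
    have h3 := mul_le_mul_of_nonneg_left h2 hK3
    have hm3 : (0 : ℝ) ≤ (m β : ℝ) ^ 3 := by positivity
    have h4 := mul_le_mul_of_nonneg_left hpar hm3
    have h5 : C1 * (1 + K) ^ 4 * ((m β : ℝ) ^ 3 * (C * (w β : ℝ) ^ q *
        (1 / β + 1 / ((w β : ℝ) * m β)))) =
        (m β : ℝ) ^ 3 * ((1 + K) ^ 4 * (C1 * C * (w β : ℝ) ^ q *
          (1 / β + 1 / ((w β : ℝ) * m β)))) := by ring
    rw [h5] at h3
    nlinarith
  -- a good point
  obtain ⟨y, z, hz, hρz⟩ : ∃ y, ∃ z ∈ bl y, rho (edges n) β h z ≤ etaB β / 16 := by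
    by_contra hcon
    push Not at hcon
    have hcp : ∀ y, (0 : ℝ) < (bl y).card := by
      intro y
      rw [hbl]
      dsimp only
      rw [hcard]
      positivity
    have h2 : ∀ y, etaB β / 16 < (∑ z ∈ bl y, rho (edges n) β h z) / (bl y).card := by
      intro y
      rw [lt_div_iff₀ (hcp y)]
      have h3 : ∑ z ∈ bl y, etaB β / 16 < ∑ z ∈ bl y, rho (edges n) β h z := by
        refine Finset.sum_lt_sum_of_nonempty ?_ fun z hz => hcon y z hz
        rw [← Finset.card_pos]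
        exact_mod_cast hcp y
      rw [Finset.sum_const, nsmul_eq_mul] at h3
      linarith
    have : Nonempty (Fin (m β)) := ⟨⟨0, hm⟩⟩
    have h3 : ∑ y : Fin 3 → Fin (m β), etaB β / 16 <
        ∑ y, (∑ z ∈ bl y, rho (edges n) β h z) / (bl y).card :=
      Finset.sum_lt_sum_of_nonempty Finset.univ_nonempty fun y _ => h2 y
    rw [Finset.sum_const, Finset.card_univ, Fintype.card_fun, Fintype.card_fin, Fintype.card_fin,
      nsmul_eq_mul] at h3
    push_cast at h3
    linarith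
  -- the vector from `x` to `z`
  obtain ⟨k, hk, hzk⟩ : ∃ k : Fin 3 → ℕ, (∀ i, k i ≤ w β * m β) ∧ z = x + fun i => (k i : ZMod n) := by
    rw [hbl] at hz
    unfold cube at hz
    dsimp only at hz
    rw [Finset.mem_image] at hz
    obtain ⟨a, -, ha⟩ := hz
    refine ⟨fun i => w β * (y i : ℕ) + (a i : ℕ), fun i => ?_, ?_⟩
    · have h2 : (y i : ℕ) + 1 ≤ m β := (y i).2
      have h3 := Nat.mul_le_mul_left (w β) h2
      have h4 : (a i : ℕ) < w β := (a i).2
      rw [mul_add, mul_one] at h3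
      exact (Nat.add_le_add_left h4.le _).trans h3
    · rw [← ha, add_assoc]
      congr 1
      funext i
      simp only [Pi.add_apply]
      push_cast
      ring
  set v : Tor n := fun i => (k i : ZMod n) with hv
  -- Harnack
  have hd0 : (0 : ℝ) ≤ 3 * (w β * m β) * lam β := by positivity
  have hlog : ∀ u, |Real.log (h (u + v)) - Real.log (h u)| ≤ 3 * (w β * m β) * lam β := by
    intro u
    have := fam_log_vec hh h0p (w β * m β) k hk hlam u
    push_cast at this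
    exact this
  obtain ⟨hM, hH⟩ := h8 (Tor n) (edges n) (edges_ne (by omega)) β hβ (fun u => h (u + v)) h
    (fun u => hpos _) hpos _ hd0 hd2 hlog x
  rw [ht n β h v x, ← hzk] at hM hH
  have hM' : 0 < 1 - 2 * rho (edges n) β h x :=
    (h8 (Tor n) (edges n) (edges_ne (by omega)) β hβ h h hpos hpos 0 le_rfl
      (by rw [mul_zero]; positivity) (fun u => by rw [sub_self, abs_zero]) x).1
  -- the end
  have h10 : 1 / (1 - 2 * rho (edges n) β h z) ≤ 1 + etaB β / 7 := by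
    rw [div_le_iff₀ hM]
    nlinarith
  have h11 : 1 / (1 - 2 * rho (edges n) β h x) ≤ 1 + 3 * (etaB β / 7) := by linarith
  rw [div_le_iff₀ hM'] at h11
  by_contra hcon
  push Not at hcon
  nlinarith

end

end Vale.Agent.P361.LRO
end

section

/-!
P361, low-temperature order: the bootstrap from the interface statements.
-/

namespace Vale.Agent.P361.LRO

open Filter Finset Matrix

noncomputable section

theorem Db_eq_Dst {V : Type} [Fintype V] [DecidableEq V] (L : List (V × V)) (β : ℝ) (h : V → ℝ)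
    (b : Finset V) : Db L β h b = Dst L β h b := by
  unfold Db Dst
  ring

theorem pTwist_of (h : TwistStmt) : PTwist := by
  obtain ⟨C, hC, H⟩ := h
  refine ⟨C, hC, ?_⟩
  intro V _ _ L _ β hβ h hh b K κ hb hK _ hκ hN
  have h1 := H V L β h K κ b hβ (fun x => (hh x).1) (by linarith) hκ hb hN
  rw [Db_eq_Dst] at h1
  linarith

theorem pEnergy_of (h : EnergyStmt) : PEnergy 2 := by
  obtain ⟨C, H⟩ := h
  refine ⟨max C 1, lt_max_of_lt_right one_pos, ?_⟩
  intro β hβ n _ w m hw hm hwm h hh x0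
  have hm' : (0 : ℝ) < (m : ℝ) ^ 3 := by positivity
  have h1 := H n β h x0 w m (by linarith) (fun x => (hh x).1) hw hm hwm
  rw [div_le_iff₀ hm'] at h1
  simp only [Db_eq_Dst] at h1
  have h2 : C * (w : ℝ) ^ 2 * (1 / β + 1 / ((w : ℝ) * m)) ≤
      max C 1 * (w : ℝ) ^ 2 * (1 / β + 1 / ((w : ℝ) * m)) := by
    rw [mul_assoc, mul_assoc]
    refine mul_le_mul_of_nonneg_right (le_max_left _ _) ?_
    have : (0 : ℝ) < β := by linarith
    positivity
  have h3 := mul_le_mul_of_nonneg_right h2 hm'.le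
  linarith

theorem pHarn_of (h : RegStmt) : PHarn := by
  intro V _ _ L _ β hβ h1 h2 hh1 hh2 d hd hd3 hl z
  exact h V L β h1 h2 d hβ hh1 hh2 hd hd3 hl z

theorem pTrans_of (h : TransStmt) : PTrans := by
  intro n _ β f v x
  exact h n β f x v

/-! ### The parameters -/

/-- the scale exponent: `β ^ (7/20) ≤ 3 ^ a ≤ 3 β ^ (7/20)` -/
def aS (β : ℝ) : ℕ := Nat.clog 3 ⌈β ^ (7 / 20 : ℝ)⌉₊

/-- the side of the blocks -/
def wS (β : ℝ) : ℕ := 3 ^ aS β

/-- the number of the blocks -/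
def mS (β : ℝ) : ℕ := ⌈β ^ (9 / 20 : ℝ)⌉₊

/-- `1 / L₀` -/
def lamS (β : ℝ) : ℝ := β ^ (-(9 / 10) : ℝ)

theorem wS_ge (β : ℝ) : β ^ (7 / 20 : ℝ) ≤ wS β := by
  refine (Nat.le_ceil _).trans ?_
  exact_mod_cast Nat.le_pow_clog (by norm_num) _

theorem wS_le {β : ℝ} (hβ : 1 < β) : (wS β : ℝ) ≤ 3 * β ^ (7 / 20 : ℝ) := by
  have h1 : 1 < β ^ (7 / 20 : ℝ) := Real.one_lt_rpow hβ (by norm_num)
  have h2 : 1 < ⌈β ^ (7 / 20 : ℝ)⌉₊ := by
    rw [Nat.lt_ceil]
    exact_mod_cast h1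
  have h3 := Nat.pow_pred_clog_lt_self (b := 3) (by norm_num) h2
  have h4 : ((3 ^ (Nat.clog 3 ⌈β ^ (7 / 20 : ℝ)⌉₊).pred : ℕ) : ℝ) < β ^ (7 / 20 : ℝ) := by
    rwa [← Nat.lt_ceil]
  have h5 : 0 < Nat.clog 3 ⌈β ^ (7 / 20 : ℝ)⌉₊ := Nat.clog_pos (by norm_num) h2
  unfold wS aS
  obtain ⟨k, hk⟩ := Nat.exists_eq_succ_of_ne_zero h5.ne'
  rw [hk] at h4 ⊢
  rw [Nat.pred_succ] at h4
  push_cast at h4 ⊢
  rw [pow_succ]
  linarith

theorem par_S : Par 2 wS mS lamS := by
  intro A C hA hC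
  have hlim : ∀ (a : ℝ), 0 < a → ∀ B : ℝ, ∀ᶠ β : ℝ in atTop, B ≤ β ^ a := fun a ha B =>
    (tendsto_rpow_atTop ha).eventually_ge_atTop B
  filter_upwards [hlim (1 / 100) (by norm_num) (10 / A), hlim (1 / 100) (by norm_num) (1 / A),
    hlim (26 / 25) (by norm_num) A,
    hlim (1 / 20) (by norm_num) (32 * (16 * A ^ 4 * (C * (9 * 2)))),
    hlim (19 / 100) (by norm_num) (7 * (9 / 2 * 18 ^ 2)),
    hlim (1 / 10) (by norm_num) 54,
    eventually_gt_atTop (1 : ℝ)] with β h1 h1' h2 h3 h4 h5 hβ1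
  have hβ : 0 < β := by linarith
  have hw1 := wS_ge β
  have hw2 := wS_le hβ1
  have hp : ∀ a : ℝ, 0 < β ^ a := fun a => Real.rpow_pos_of_pos hβ a
  have hwpos : (0 : ℝ) < wS β := (hp _).trans_le hw1
  have hm1 : β ^ (9 / 20 : ℝ) ≤ mS β := Nat.le_ceil _
  have hm2 : (mS β : ℝ) ≤ 2 * β ^ (9 / 20 : ℝ) := by
    have h6 : (mS β : ℝ) < β ^ (9 / 20 : ℝ) + 1 := Nat.ceil_lt_add_one (hp _).le
    have h7 : 1 < β ^ (9 / 20 : ℝ) := Real.one_lt_rpow hβ1 (by norm_num)
    linarith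
  have hmpos : (0 : ℝ) < mS β := (hp _).trans_le hm1
  have hmul : ∀ a b : ℝ, β ^ a * β ^ b = β ^ (a + b) := fun a b => (Real.rpow_add hβ a b).symm
  have hl1 : β ^ (4 / 5 : ℝ) ≤ wS β * mS β := by
    have h6 := mul_le_mul hw1 hm1 (hp _).le hwpos.le
    rw [hmul] at h6
    norm_num at h6 ⊢
    exact h6
  have hl2 : (wS β : ℝ) * mS β ≤ 6 * β ^ (4 / 5 : ℝ) := by
    have h6 := mul_le_mul hw2 hm2 hmpos.le (by positivity)
    have h7 : 3 * β ^ (7 / 20 : ℝ) * (2 * β ^ (9 / 20 : ℝ)) = 6 * β ^ (4 / 5 : ℝ) := by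
      have h8 := hmul (7 / 20) (9 / 20)
      norm_num at h8
      linear_combination 6 * h8
    rwa [h7] at h6
  have hη : etaB β = (β ^ (1 / 100 : ℝ))⁻¹ := by
    unfold etaB
    rw [Real.rpow_neg hβ.le]
  have hAη : A / etaB β = A * β ^ (1 / 100 : ℝ) := by
    rw [hη, div_inv_eq_mul]
  have hlam : lamS β = (β ^ (9 / 10 : ℝ))⁻¹ := by
    unfold lamS
    rw [Real.rpow_neg hβ.le]
  refine ⟨by exact_mod_cast hwpos, by exact_mod_cast hmpos, (hp _).le, ?_, ?_, ?_, ?_, ?_⟩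
  · rw [hAη]
    rw [div_le_iff₀ hA] at h1
    linarith
  · rw [hAη]
    have h6 : (β ^ (7 / 20 : ℝ)) ^ 3 ≤ (wS β : ℝ) ^ 3 := pow_le_pow_left₀ (hp _).le hw1 3
    refine le_trans ?_ h6
    rw [← Real.rpow_natCast, ← Real.rpow_mul hβ.le]
    have h7 : β ^ (7 / 20 * ((3 : ℕ) : ℝ)) = β ^ (26 / 25 : ℝ) * β ^ (1 / 100 : ℝ) := by
      rw [hmul]
      norm_num
    rw [h7]
    exact mul_le_mul_of_nonneg_right h2 (hp _).le
  · rw [hAη]
    have e1 : 1 + A * β ^ (1 / 100 : ℝ) ≤ 2 * (A * β ^ (1 / 100 : ℝ)) := by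
      rw [div_le_iff₀ hA] at h1'
      linarith
    have e2 : (1 + A * β ^ (1 / 100 : ℝ)) ^ 4 ≤ 16 * A ^ 4 * β ^ (1 / 25 : ℝ) := by
      refine (pow_le_pow_left₀ (by positivity) e1 4).trans (le_of_eq ?_)
      rw [mul_pow, mul_pow, ← Real.rpow_natCast (β ^ (1 / 100 : ℝ)), ← Real.rpow_mul hβ.le]
      norm_num
      ring
    have e3 : (wS β : ℝ) ^ 2 ≤ 9 * β ^ (7 / 10 : ℝ) := by
      refine (pow_le_pow_left₀ hwpos.le hw2 2).trans (le_of_eq ?_)
      rw [mul_pow, ← Real.rpow_natCast (β ^ (7 / 20 : ℝ)), ← Real.rpow_mul hβ.le]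
      norm_num
    have e4 : 1 / β + 1 / ((wS β : ℝ) * mS β) ≤ 2 * (β ^ (4 / 5 : ℝ))⁻¹ := by
      have e5 : 1 / ((wS β : ℝ) * mS β) ≤ (β ^ (4 / 5 : ℝ))⁻¹ := by
        rw [one_div]
        exact inv_anti₀ (hp _) hl1
      have e6 : 1 / β ≤ (β ^ (4 / 5 : ℝ))⁻¹ := by
        rw [one_div]
        refine inv_anti₀ (hp _) ?_
        conv_rhs => rw [← Real.rpow_one β]
        exact Real.rpow_le_rpow_of_exponent_le hβ1.le (by norm_num)
      linarith
    have e7 : C * (wS β : ℝ) ^ 2 * (1 / β + 1 / ((wS β : ℝ) * mS β)) ≤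
        C * (9 * β ^ (7 / 10 : ℝ)) * (2 * (β ^ (4 / 5 : ℝ))⁻¹) := by
      refine mul_le_mul (mul_le_mul_of_nonneg_left e3 hC.le) e4 (by positivity) (by positivity)
    have e8 : (1 + A * β ^ (1 / 100 : ℝ)) ^ 4 *
        (C * (wS β : ℝ) ^ 2 * (1 / β + 1 / ((wS β : ℝ) * mS β))) ≤
        16 * A ^ 4 * β ^ (1 / 25 : ℝ) * (C * (9 * β ^ (7 / 10 : ℝ)) *
          (2 * (β ^ (4 / 5 : ℝ))⁻¹)) :=
      mul_le_mul e2 e7 (by positivity) (by positivity)
    refine e8.trans ?_
    have e9 : β ^ (4 / 5 : ℝ) = β ^ (1 / 25 : ℝ) * β ^ (7 / 10 : ℝ) * (β ^ (1 / 20 : ℝ) *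
        β ^ (1 / 100 : ℝ)) := by
      rw [hmul, hmul, hmul]
      norm_num
    rw [hη, e9]
    have q1 := hp (1 / 25)
    have q2 := hp (7 / 10)
    have q3 := hp (1 / 20)
    have q4 := hp (1 / 100)
    have e10 : 16 * A ^ 4 * β ^ (1 / 25 : ℝ) * (C * (9 * β ^ (7 / 10 : ℝ)) *
        (2 * (β ^ (1 / 25 : ℝ) * β ^ (7 / 10 : ℝ) * (β ^ (1 / 20 : ℝ) *
          β ^ (1 / 100 : ℝ)))⁻¹)) =
        (16 * A ^ 4 * (C * (9 * 2))) / (β ^ (1 / 20 : ℝ) * β ^ (1 / 100 : ℝ)) := by
      field_simp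
    rw [e10, div_le_div_iff₀ (by positivity) (by norm_num)]
    have e11 : (β ^ (1 / 100 : ℝ))⁻¹ * (β ^ (1 / 20 : ℝ) * β ^ (1 / 100 : ℝ)) =
        β ^ (1 / 20 : ℝ) := by
      field_simp
    rw [e11]
    linarith
  · have e1 : (wS β : ℝ) * mS β * lamS β ≤ 6 * (β ^ (1 / 10 : ℝ))⁻¹ := by
      have e2 : (wS β : ℝ) * mS β * lamS β ≤ 6 * β ^ (4 / 5 : ℝ) * lamS β :=
        mul_le_mul_of_nonneg_right hl2 (hp _).le
      refine e2.trans (le_of_eq ?_)
      rw [hlam]
      have e3 : β ^ (9 / 10 : ℝ) = β ^ (4 / 5 : ℝ) * β ^ (1 / 10 : ℝ) := by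
        rw [hmul]
        norm_num
      rw [e3]
      have q1 := hp (4 / 5)
      have q2 := hp (1 / 10)
      field_simp
    have e0 : 0 ≤ (wS β : ℝ) * mS β * lamS β := by
      have := (hp (-(9 / 10))).le
      unfold lamS
      positivity
    have e2 : (3 * (wS β * mS β) * lamS β) ^ 2 ≤ (18 * (β ^ (1 / 10 : ℝ))⁻¹) ^ 2 := by
      refine pow_le_pow_left₀ (by linarith) (by linarith) 2
    have e3 : (18 * (β ^ (1 / 10 : ℝ))⁻¹) ^ 2 = 18 ^ 2 * (β ^ (1 / 5 : ℝ))⁻¹ := by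
      rw [mul_pow, inv_pow, ← Real.rpow_natCast (β ^ (1 / 10 : ℝ)), ← Real.rpow_mul hβ.le]
      norm_num
    rw [e3] at e2
    have e4 : β ^ (1 / 5 : ℝ) = β ^ (19 / 100 : ℝ) * β ^ (1 / 100 : ℝ) := by
      rw [hmul]
      norm_num
    rw [e4] at e2
    rw [hη]
    have q1 := hp (19 / 100)
    have q2 := hp (1 / 100)
    refine (mul_le_mul_of_nonneg_left e2 (by norm_num)).trans ?_
    rw [mul_inv]
    have e5 : 9 / 2 * (18 ^ 2 * ((β ^ (19 / 100 : ℝ))⁻¹ * (β ^ (1 / 100 : ℝ))⁻¹)) =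
        (9 / 2 * 18 ^ 2) / β ^ (19 / 100 : ℝ) * (β ^ (1 / 100 : ℝ))⁻¹ := by
      field_simp
    rw [e5]
    have e6 : (9 / 2 * 18 ^ 2) / β ^ (19 / 100 : ℝ) ≤ 1 / 7 := by
      rw [div_le_div_iff₀ q1 (by norm_num)]
      linarith
    calc _ ≤ 1 / 7 * (β ^ (1 / 100 : ℝ))⁻¹ := mul_le_mul_of_nonneg_right e6 (by positivity)
      _ = _ := by ring
  · have e1 : (wS β : ℝ) * mS β * lamS β ≤ 6 * (β ^ (1 / 10 : ℝ))⁻¹ := by
      have e2 : (wS β : ℝ) * mS β * lamS β ≤ 6 * β ^ (4 / 5 : ℝ) * lamS β :=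
        mul_le_mul_of_nonneg_right hl2 (hp _).le
      refine e2.trans (le_of_eq ?_)
      rw [hlam]
      have e3 : β ^ (9 / 10 : ℝ) = β ^ (4 / 5 : ℝ) * β ^ (1 / 10 : ℝ) := by
        rw [hmul]
        norm_num
      rw [e3]
      have q1 := hp (4 / 5)
      have q2 := hp (1 / 10)
      field_simp
    have e2 : (β ^ (1 / 10 : ℝ))⁻¹ ≤ (54 : ℝ)⁻¹ := inv_anti₀ (by norm_num) h5
    have e3 := Real.pi_gt_three
    nlinarith

/-! ### The bootstrap -/

theorem pSix_of (h : KappaStmt) : PSix wS lamS := by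
  obtain ⟨c, hc, H⟩ := h
  refine ⟨c, hc, fun A hA => ?_⟩
  obtain ⟨β0, H⟩ := H A hA
  filter_upwards [eventually_ge_atTop β0, eventually_gt_atTop (1 : ℝ)] with β hβ0 hβ1
  obtain ⟨n0, H⟩ := H β hβ0
  filter_upwards [eventually_ge_atTop n0] with n hn
  intro hodd _ h0 hh0 hh01 hB h hh x
  have hβ : 0 < β := by linarith
  have hAη : A / etaB β = A * β ^ (1 / 100 : ℝ) := by
    unfold etaB
    rw [Real.rpow_neg hβ.le, div_inv_eq_mul]
  have e1 : (wS β : ℝ) = (3 : ℝ) ^ aS β := by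
    unfold wS
    push_cast
    rfl
  have h1 := H n hn hodd (aS β) (e1 ▸ wS_ge β) (e1 ▸ wS_le hβ1) h0 hh0 hh01
    (fun h' hh' x' => hB h' hh' x') h hh x
  rw [hAη]
  exact h1

/-- **The bootstrap, assembled** (from the weakest forms of the blocks). -/
theorem bootStmt_ofP (h6 : KappaStmt) (h1 : PTwist) (h7 : EnergyStmt) (h8 : RegStmt)
    (hs : StartStmt) (ht : TransStmt) : BootStmt := by
  have hstep := step_of h1 (pEnergy_of h7) (pHarn_of h8) (pTrans_of ht) (pSix_of h6)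
    par_S
  have hlog : ∀ᶠ β : ℝ in atTop, Real.log 2 / β ≤ β ^ (-(1 / 100) : ℝ) := by
    filter_upwards [eventually_ge_atTop (1 : ℝ)] with β hβ1
    have hβ : 0 < β := by linarith
    have e1 : Real.log 2 / β ≤ 1 / β := by
      refine div_le_div_of_nonneg_right ?_ hβ.le
      linarith [Real.log_two_lt_d9]
    refine e1.trans ?_
    rw [one_div, ← Real.rpow_neg_one]
    exact Real.rpow_le_rpow_of_exponent_le hβ1 (by norm_num)
  obtain ⟨β0, H⟩ := eventually_atTop.1 (hstep.and (hlog.and (eventually_ge_atTop (1 : ℝ))))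
  refine ⟨β0, fun β hβ0 => ?_⟩
  obtain ⟨hst, hlog, hβ1⟩ := H β hβ0
  have hβ : 0 < β := by linarith
  obtain ⟨n0, Hn⟩ := eventually_atTop.1 hst
  refine ⟨n0, fun n _ hn hodd h hh hh1 x => ?_⟩
  have hn0 : (0 : ℝ) < n := by exact_mod_cast NeZero.pos n
  have ha0 : (0 : ℝ) < (n : ℝ) ^ (-(1 / 4) : ℝ) := Real.rpow_pos_of_pos hn0 _
  have hη := etaB_pos hβ
  have hlam : 0 ≤ lamS β := (Real.rpow_pos_of_pos hβ _).le
  have key := boot n (β := β) hη hlam ha0 (hh.trans hh1)
    (fun x => (hs n β x hβ).trans hlog)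
    (fun h0 hh0 hh01 hB => Hn n hn hodd h0 hh0 hh01 hB) (fun _ => h) ?_ x
  · have e1 : etaB β = β ^ (-(1 / 100) : ℝ) := rfl
    rw [← e1]
    linarith
  · refine ⟨fun _ => ⟨hh, hh1⟩, fun _ _ => ?_⟩
    have e2 : 1 ≤ Real.exp (lamS β) := Real.one_le_exp hlam
    have e3 : 0 < h := ha0.trans_le hh
    constructor <;> nlinarith

/-- **The bootstrap, assembled.** -/
theorem bootStmt_of (h6 : KappaStmt) (h1 : TwistStmt) (h7 : EnergyStmt) (h8 : RegStmt)
    (hs : StartStmt) (ht : TransStmt) : BootStmt :=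
  bootStmt_ofP h6 (pTwist_of h1) h7 h8 hs ht

end

end Vale.Agent.P361.LRO
end

section

/-!
Block (9): symmetry and positivity of the matrices of `LRO/Defs.lean`, translation covariance of
`rho` on the torus, and the base case `ρ ≤ log 2 / β` in the uniform field `1`.
-/

namespace Vale.Agent.P361.LRO.Bs

open Matrix Finset
open scoped ComplexOrder

section Gen

variable {V : Type} [Fintype V] [DecidableEq V]

theorem swapM_isSymm (x y : V) : (swapM x y).IsSymm := by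
  ext σ τ
  rw [Matrix.transpose_apply, swapM, Matrix.of_apply, Matrix.of_apply]
  have h : (τ = σ ∘ Equiv.swap x y) ↔ (σ = τ ∘ Equiv.swap x y) := by
    constructor
    · rintro rfl; funext z; simp
    · rintro rfl; funext z; simp
  simp only [h]

theorem swapM_sq (x y : V) : swapM x y * swapM x y = 1 := by
  ext σ τ
  rw [Matrix.mul_apply]
  simp only [swapM, Matrix.of_apply]
  rw [Finset.sum_eq_single (σ ∘ Equiv.swap x y)]
  · have h1 : σ = (σ ∘ Equiv.swap x y) ∘ Equiv.swap x y := by funext z; simp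
    rw [if_pos h1, one_mul, Matrix.one_apply]
    have h2 : (σ ∘ Equiv.swap x y = τ ∘ Equiv.swap x y) ↔ σ = τ := by
      constructor
      · intro h
        funext z
        have := congrFun h (Equiv.swap x y z)
        simpa using this
      · rintro rfl; rfl
    simp only [h2]
  · intro ρ _ hρ
    rw [if_neg, zero_mul]
    rintro rfl
    exact hρ (by funext z; simp)
  · intro h; exact absurd (Finset.mem_univ _) h

theorem hM_isSymm (x y : V) : (hM x y).IsSymm := by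
  unfold hM
  rw [Matrix.IsSymm, Matrix.transpose_smul, Matrix.transpose_sub, Matrix.transpose_one,
    swapM_isSymm x y]

theorem hM_sq (x y : V) : hM x y * hM x y = hM x y := by
  unfold hM
  rw [Matrix.smul_mul, Matrix.mul_smul, Matrix.sub_mul, Matrix.mul_sub, Matrix.mul_sub,
    swapM_sq, Matrix.mul_one, Matrix.one_mul, Matrix.mul_one]
  module

theorem hM_posSemidef (x y : V) : (hM x y).PosSemidef := by
  have h1 : hM x y = (hM x y)ᴴ * hM x y := by
    rw [Matrix.conjTranspose_eq_transpose_of_trivial, hM_isSymm x y, hM_sq]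
  rw [h1]
  exact Matrix.posSemidef_conjTranspose_mul_self _

theorem szM_isSymm (x : V) : (szM x).IsSymm := Matrix.isSymm_diagonal _

theorem down_posSemidef (x : V) : ((1 / 2 : ℝ) • (1 - szM x)).PosSemidef := by
  have h1 : (1 / 2 : ℝ) • (1 - szM x) =
      Matrix.diagonal (fun σ : V → Fin 2 => if σ x = 0 then (0 : ℝ) else 1) := by
    ext σ τ
    by_cases h : σ = τ
    · subst h
      simp only [szM, Matrix.smul_apply, Matrix.sub_apply, Matrix.one_apply_eq,
        Matrix.diagonal_apply_eq, smul_eq_mul]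
      split_ifs <;> norm_num
    · simp [szM, h]
  rw [h1]
  exact Matrix.PosSemidef.diagonal fun σ => by
    simp only [Pi.zero_apply]
    split_ifs <;> norm_num

theorem list_sum_isSymm (L : List (V × V)) : ((L.map fun e => hM e.1 e.2).sum).IsSymm := by
  induction L with
  | nil => simp [Matrix.IsSymm]
  | cons a L ih =>
    rw [List.map_cons, List.sum_cons, Matrix.IsSymm, Matrix.transpose_add, hM_isSymm, ih]

theorem list_sum_posSemidef (L : List (V × V)) :
    ((L.map fun e => hM e.1 e.2).sum).PosSemidef := by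
  induction L with
  | nil => exact Matrix.PosSemidef.zero
  | cons a L ih =>
    rw [List.map_cons, List.sum_cons]
    exact (hM_posSemidef _ _).add ih

theorem sum_szM_isSymm (c : V → ℝ) : (∑ x, c x • szM x).IsSymm := by
  rw [Matrix.IsSymm, Matrix.transpose_sum]
  exact Finset.sum_congr rfl fun x _ => by rw [Matrix.transpose_smul, szM_isSymm x]

theorem ham_isSymm (L : List (V × V)) (h : V → ℝ) : (ham L h).IsSymm := by
  unfold ham
  rw [Matrix.IsSymm, Matrix.transpose_sub, list_sum_isSymm L, sum_szM_isSymm]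

theorem smul_ham_isSymm (L : List (V × V)) (β : ℝ) (h : V → ℝ) : (-β • ham L h).IsSymm := by
  rw [Matrix.IsSymm, Matrix.transpose_smul, ham_isSymm L h]

theorem trace_ham_pos (L : List (V × V)) (β : ℝ) (h : V → ℝ) :
    0 < trace (NormedSpace.exp (-β • ham L h)) := trace_exp_pos_real (smul_ham_isSymm L β h)

theorem gib_add (L : List (V × V)) (β : ℝ) (h : V → ℝ) (A B : Matrix (V → Fin 2) (V → Fin 2) ℝ) :
    gib L β h (A + B) = gib L β h A + gib L β h B := by
  unfold gib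
  rw [Matrix.mul_add, Matrix.trace_add, add_div]

theorem gib_smul (L : List (V × V)) (β : ℝ) (h : V → ℝ) (c : ℝ)
    (A : Matrix (V → Fin 2) (V → Fin 2) ℝ) : gib L β h (c • A) = c * gib L β h A := by
  unfold gib
  rw [Matrix.mul_smul, Matrix.trace_smul, smul_eq_mul, mul_div_assoc]

theorem gib_sub (L : List (V × V)) (β : ℝ) (h : V → ℝ) (A B : Matrix (V → Fin 2) (V → Fin 2) ℝ) :
    gib L β h (A - B) = gib L β h A - gib L β h B := by
  unfold gib
  rw [Matrix.mul_sub, Matrix.trace_sub, sub_div]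

theorem gib_sum (L : List (V × V)) (β : ℝ) (h : V → ℝ) {κ : Type*} (s : Finset κ)
    (A : κ → Matrix (V → Fin 2) (V → Fin 2) ℝ) :
    gib L β h (∑ k ∈ s, A k) = ∑ k ∈ s, gib L β h (A k) := by
  unfold gib
  rw [Matrix.mul_sum, Matrix.trace_sum, Finset.sum_div]

theorem gib_one (L : List (V × V)) (β : ℝ) (h : V → ℝ) : gib L β h 1 = 1 := by
  unfold gib
  rw [Matrix.mul_one, div_self (trace_ham_pos L β h).ne']

theorem gib_nonneg (L : List (V × V)) (β : ℝ) (h : V → ℝ)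
    {A : Matrix (V → Fin 2) (V → Fin 2) ℝ} (hA : A.PosSemidef) : 0 ≤ gib L β h A :=
  div_nonneg (trace_exp_mul_nonneg_real (smul_ham_isSymm L β h) hA) (trace_ham_pos L β h).le

theorem rho_eq (L : List (V × V)) (β : ℝ) (h : V → ℝ) (x : V) :
    rho L β h x = 1 / 2 - 1 / 2 * gib L β h (szM x) := by
  unfold rho
  rw [gib_smul, gib_sub, gib_one]
  ring

theorem rho_nonneg (L : List (V × V)) (β : ℝ) (h : V → ℝ) (x : V) : 0 ≤ rho L β h x :=
  gib_nonneg L β h (down_posSemidef x)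

/-- Adding a multiple of the identity to the exponent. -/
theorem exp_add_smul_one {ι : Type*} [Fintype ι] [DecidableEq ι] (X : Matrix ι ι ℝ) (k : ℝ) :
    NormedSpace.exp (X + k • (1 : Matrix ι ι ℝ)) = Real.exp k • NormedSpace.exp X := by
  have hcomm : Commute X (k • (1 : Matrix ι ι ℝ)) := (Commute.one_right X).smul_right k
  rw [Matrix.exp_add_of_commute _ _ hcomm]
  have h2 : NormedSpace.exp (k • (1 : Matrix ι ι ℝ)) = Real.exp k • (1 : Matrix ι ι ℝ) := by
    have h3 : k • (1 : Matrix ι ι ℝ) = diagonal (fun _ => k) := by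
      ext i j
      by_cases hij : i = j
      · subst hij; simp
      · simp [hij]
    rw [h3, Matrix.exp_diagonal]
    ext i j
    by_cases hij : i = j
    · subst hij; simp [Pi.exp_def, ← Real.exp_eq_exp_ℝ]
    · simp [hij]
  rw [h2, Matrix.mul_smul, Matrix.mul_one]

/-- The nonnegative matrix `∑ h_e + ∑ (1/2) (1 - σ³_x) = H - ∑ S³_x + |V| / 2`. -/
noncomputable def groundM (L : List (V × V)) : Matrix (V → Fin 2) (V → Fin 2) ℝ :=
  (L.map fun e => hM e.1 e.2).sum + ∑ x, (1 / 2 : ℝ) • (1 - szM x)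

theorem ham_one_eq (L : List (V × V)) : ham L (fun _ => 1) =
    groundM L - ((Fintype.card V : ℝ) / 2) • (1 : Matrix (V → Fin 2) (V → Fin 2) ℝ) := by
  unfold ham groundM
  have h1 : (∑ x : V, (1 / 2 : ℝ) • (1 - szM x)) =
      ((Fintype.card V : ℝ) / 2) • (1 : Matrix (V → Fin 2) (V → Fin 2) ℝ) -
        ∑ x : V, (1 / 2 : ℝ) • szM x := by
    simp only [smul_sub, Finset.sum_sub_distrib, Finset.sum_const, Finset.card_univ]
    congr 1
    rw [← Nat.cast_smul_eq_nsmul ℝ, smul_smul]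
    congr 1
    ring
  rw [h1]
  abel

theorem groundM_posSemidef (L : List (V × V)) : (groundM L).PosSemidef :=
  (list_sum_posSemidef L).add (Matrix.posSemidef_sum _ fun x _ => down_posSemidef x)

theorem groundM_isSymm (L : List (V × V)) : (groundM L).IsSymm := by
  have := (groundM_posSemidef L).1
  rwa [Matrix.IsHermitian, Matrix.conjTranspose_eq_transpose_of_trivial] at this

theorem groundM_up (L : List (V × V)) : groundM L 0 0 = 0 := by
  unfold groundM
  rw [Matrix.add_apply]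
  have h1 : ∀ L : List (V × V), (L.map fun e => hM e.1 e.2).sum (0 : V → Fin 2) 0 = 0 := by
    intro L
    induction L with
    | nil => rfl
    | cons a L ih =>
      rw [List.map_cons, List.sum_cons, Matrix.add_apply, ih, add_zero]
      have h2 : (0 : V → Fin 2) = (0 : V → Fin 2) ∘ Equiv.swap a.1 a.2 := by funext z; rfl
      simp only [hM, Matrix.smul_apply, Matrix.sub_apply, Matrix.one_apply_eq, swapM,
        Matrix.of_apply, smul_eq_mul]
      rw [if_pos h2]; norm_num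
  rw [h1, zero_add, Matrix.sum_apply]
  refine Finset.sum_eq_zero fun x _ => ?_
  simp [szM]

theorem one_le_trace_ground (L : List (V × V)) (β : ℝ) :
    1 ≤ trace (NormedSpace.exp (-β • groundM L)) := by
  have hs : (-β • groundM L).IsSymm := by
    rw [Matrix.IsSymm, Matrix.transpose_smul, groundM_isSymm L]
  have h := peierls (cM_isHermitian hs) (V := 1) (by simp)
  rw [exp_cM, trace_cM_re] at h
  refine le_trans ?_ h
  have h1 : star (1 : Matrix (V → Fin 2) (V → Fin 2) ℂ) * cM (-β • groundM L) * 1 =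
      cM (-β • groundM L) := by simp
  rw [h1]
  have h0 : (1 : ℝ) = Real.exp (cM (-β • groundM L) 0 0).re := by
    simp [cM_apply, groundM_up]
  rw [h0]
  exact Finset.single_le_sum (f := fun i => Real.exp (cM (-β • groundM L) i i).re)
    (fun i _ => (Real.exp_pos _).le) (Finset.mem_univ (0 : V → Fin 2))

/-- Total number of down spins in the uniform field `1`. -/
theorem sum_rho_le (L : List (V × V)) {β : ℝ} (hβ : 0 < β) :
    β * ∑ x, rho L β (fun _ => 1) x ≤ Fintype.card V * Real.log 2 := by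
  set G := groundM L with hG
  have hs : (-β • G).IsSymm := by
    rw [Matrix.IsSymm, Matrix.transpose_smul, groundM_isSymm L]
  have hs2 : (β • G).IsSymm := by
    rw [Matrix.IsSymm, Matrix.transpose_smul, groundM_isSymm L]
  have hpb := peierls_bogoliubov_real hs hs2
  have h0 : -β • G + β • G = 0 := by module
  rw [h0, NormedSpace.exp_zero, Matrix.trace_one, Matrix.mul_smul, Matrix.trace_smul,
    smul_eq_mul] at hpb
  have hlog : 0 ≤ Real.log (trace (NormedSpace.exp (-β • G))) :=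
    Real.log_nonneg (one_le_trace_ground L β)
  have hcard : Real.log ((Fintype.card (V → Fin 2) : ℕ) : ℝ) = Fintype.card V * Real.log 2 := by
    rw [Fintype.card_fun, Fintype.card_fin]
    push_cast
    rw [Real.log_pow]
  rw [hcard] at hpb
  have hE : β * trace (NormedSpace.exp (-β • G) * G) / trace (NormedSpace.exp (-β • G)) ≤
      Fintype.card V * Real.log 2 := by linarith
  refine le_trans ?_ hE
  have hexp : NormedSpace.exp (-β • ham L (fun _ => 1)) =
      Real.exp (β * (Fintype.card V / 2)) • NormedSpace.exp (-β • G) := by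
    rw [← exp_add_smul_one]
    congr 1
    rw [ham_one_eq]
    module
  have hg : ∀ A, gib L β (fun _ => 1) A =
      trace (NormedSpace.exp (-β • G) * A) / trace (NormedSpace.exp (-β • G)) := by
    intro A
    unfold gib
    rw [hexp, Matrix.smul_mul, Matrix.trace_smul, Matrix.trace_smul, smul_eq_mul, smul_eq_mul]
    rw [mul_div_mul_left _ _ (Real.exp_pos _).ne']
  rw [mul_div_assoc, ← hg]
  refine mul_le_mul_of_nonneg_left ?_ hβ.le
  rw [hG]
  unfold groundM
  rw [gib_add, gib_sum]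
  have := gib_nonneg L β (fun _ => 1) (list_sum_posSemidef L)
  unfold rho
  linarith

/-! ### Relabelling -/

theorem subm_sub {ι κ : Type*} (e : ι ≃ κ) (A B : Matrix κ κ ℝ) :
    (A - B).submatrix e e = A.submatrix e e - B.submatrix e e := rfl

theorem subm_add {ι κ : Type*} (e : ι ≃ κ) (A B : Matrix κ κ ℝ) :
    (A + B).submatrix e e = A.submatrix e e + B.submatrix e e := rfl

theorem subm_smul {ι κ : Type*} (e : ι ≃ κ) (c : ℝ) (A : Matrix κ κ ℝ) :
    (c • A).submatrix e e = c • A.submatrix e e := rfl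

theorem subm_sum {ι κ ω : Type*} (e : ι ≃ κ) (s : Finset ω) (A : ω → Matrix κ κ ℝ) :
    (∑ k ∈ s, A k).submatrix e e = ∑ k ∈ s, (A k).submatrix e e := by
  ext i j
  simp [Matrix.sum_apply]

theorem exp_submatrix_real {ι κ : Type*} [Fintype ι] [DecidableEq ι] [Fintype κ] [DecidableEq κ]
    (e : ι ≃ κ) (Y : Matrix κ κ ℝ) :
    NormedSpace.exp (Y.submatrix e e) = (NormedSpace.exp Y).submatrix e e := by
  apply cM_injective
  rw [← exp_cM]
  have h1 : cM (Y.submatrix e e) = (cM Y).submatrix e e := rfl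
  have h2 : cM ((NormedSpace.exp Y).submatrix e e) = (cM (NormedSpace.exp Y)).submatrix e e := rfl
  rw [h1, h2, exp_submatrix_equiv, exp_cM]

theorem trace_submatrix_real {ι κ : Type*} [Fintype ι] [Fintype κ]
    (e : ι ≃ κ) (Y : Matrix κ κ ℝ) : trace (Y.submatrix e e) = trace Y := by
  simp only [Matrix.trace, Matrix.diag_apply, Matrix.submatrix_apply]
  exact Equiv.sum_comp e (fun i => Y i i)

/-- The relabelling of configurations `σ ↦ σ ∘ g⁻¹`. -/
def relab (g : V ≃ V) : (V → Fin 2) ≃ (V → Fin 2) := Equiv.arrowCongr g (Equiv.refl _)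

omit [Fintype V] [DecidableEq V] in
theorem relab_apply (g : V ≃ V) (σ : V → Fin 2) (x : V) : relab g σ (g x) = σ x := by
  simp [relab, Equiv.arrowCongr]

theorem szM_relab (g : V ≃ V) (x : V) :
    (szM (g x)).submatrix (relab g) (relab g) = szM x := by
  ext σ τ
  rw [Matrix.submatrix_apply, szM, szM]
  by_cases h : σ = τ
  · subst h
    rw [Matrix.diagonal_apply_eq, Matrix.diagonal_apply_eq, relab_apply]
  · rw [Matrix.diagonal_apply_ne _ h, Matrix.diagonal_apply_ne]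
    exact fun h2 => h ((relab g).injective h2)

theorem swapM_relab (g : V ≃ V) (x y : V) :
    (swapM (g x) (g y)).submatrix (relab g) (relab g) = swapM x y := by
  ext σ τ
  rw [Matrix.submatrix_apply, swapM, swapM, Matrix.of_apply, Matrix.of_apply]
  have hsw : ∀ z, Equiv.swap (g x) (g y) (g z) = g (Equiv.swap x y z) := by
    intro z
    rw [Equiv.swap_apply_def, Equiv.swap_apply_def]
    simp only [EmbeddingLike.apply_eq_iff_eq]
    split_ifs <;> rfl
  have h : (relab g σ = relab g τ ∘ Equiv.swap (g x) (g y)) ↔ (σ = τ ∘ Equiv.swap x y) := by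
    constructor
    · intro h
      funext z
      have := congrFun h (g z)
      rw [relab_apply, Function.comp_apply, hsw, relab_apply] at this
      exact this
    · intro h
      funext z
      obtain ⟨w, rfl⟩ := g.surjective z
      rw [relab_apply, Function.comp_apply, hsw, relab_apply, h]
      rfl
  simp only [h]

theorem hM_relab (g : V ≃ V) (x y : V) :
    (hM (g x) (g y)).submatrix (relab g) (relab g) = hM x y := by
  unfold hM
  rw [subm_smul, subm_sub, Matrix.submatrix_one_equiv, swapM_relab]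

/-- If the sum over the edges is invariant under `g`, then `rho` is covariant. -/
theorem rho_relab (L : List (V × V)) (g : V ≃ V)
    (hL : ∀ f : V → V → Matrix (V → Fin 2) (V → Fin 2) ℝ,
      (L.map fun e => f e.1 e.2).sum = (L.map fun e => f (g e.1) (g e.2)).sum)
    (β : ℝ) (h : V → ℝ) (x : V) :
    rho L β (fun y => h (g y)) x = rho L β h (g x) := by
  have h1 : (ham L h).submatrix (relab g) (relab g) = ham L (fun y => h (g y)) := by
    unfold ham
    rw [subm_sub]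
    congr 1
    · have h2 : ∀ L : List (V × V),
          ((L.map fun e => hM (g e.1) (g e.2)).sum).submatrix (relab g) (relab g) =
            (L.map fun e => hM e.1 e.2).sum := by
        intro L
        induction L with
        | nil => ext i j; rfl
        | cons a L ih =>
          rw [List.map_cons, List.sum_cons, List.map_cons, List.sum_cons, subm_add, ih, hM_relab]
      conv_lhs => rw [hL hM]
      exact h2 L
    · rw [subm_sum, ← Equiv.sum_comp g]
      refine Finset.sum_congr rfl fun y _ => ?_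
      rw [subm_smul, szM_relab]
  have h2 : NormedSpace.exp (-β • ham L (fun y => h (g y))) =
      (NormedSpace.exp (-β • ham L h)).submatrix (relab g) (relab g) := by
    rw [← exp_submatrix_real, ← h1]
    congr 1
  unfold rho gib
  rw [h2, trace_submatrix_real]
  congr 1
  have h3 : ((1 / 2 : ℝ) • (1 - szM x)) =
      ((1 / 2 : ℝ) • (1 - szM (g x))).submatrix (relab g) (relab g) := by
    rw [subm_smul, subm_sub, Matrix.submatrix_one_equiv, szM_relab]
  rw [h3, Matrix.submatrix_mul_equiv, trace_submatrix_real]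

end Gen

section Torus

variable {n : ℕ} [NeZero n]

theorem edges_map_sum {M : Type*} [AddCommMonoid M] (f : Tor n → Tor n → M) :
    ((edges n).map fun e => f e.1 e.2).sum =
      ∑ z : Tor n × Fin 3, f z.1 (z.1 + Pi.single z.2 1) := by
  unfold edges
  rw [List.map_map, ← Finset.sum_map_toList]
  rfl

theorem edges_translate {M : Type*} [AddCommMonoid M] (f : Tor n → Tor n → M) (v : Tor n) :
    ((edges n).map fun e => f e.1 e.2).sum =
      ((edges n).map fun e => f (e.1 + v) (e.2 + v)).sum := by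
  rw [edges_map_sum, edges_map_sum (fun a b => f (a + v) (b + v))]
  rw [← Equiv.sum_comp (Equiv.prodCongr (Equiv.addRight v) (Equiv.refl (Fin 3)))]
  refine Finset.sum_congr rfl fun z _ => ?_
  change f (z.1 + v) ((z.1 + v) + Pi.single z.2 1) = f (z.1 + v) ((z.1 + Pi.single z.2 1) + v)
  rw [add_right_comm]

/-- Translation covariance of `rho`. -/
theorem rho_translate (β : ℝ) (h : Tor n → ℝ) (v x : Tor n) :
    rho (edges n) β (fun y => h (y + v)) x = rho (edges n) β h (x + v) :=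
  rho_relab (edges n) (Equiv.addRight v) (fun f => edges_translate f v) β h x

/-- Base case of the bootstrap. -/
theorem base_rho {β : ℝ} (hβ : 0 < β) (x : Tor n) :
    rho (edges n) β (fun _ => 1) x ≤ Real.log 2 / β := by
  have h1 : ∀ y : Tor n, rho (edges n) β (fun _ => 1) y = rho (edges n) β (fun _ => 1) x := by
    intro y
    have := rho_translate β (fun _ : Tor n => (1 : ℝ)) (y - x) x
    rw [add_sub_cancel] at this
    exact this.symm
  have h2 := sum_rho_le (edges n) hβ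
  simp only [h1, Finset.sum_const, Finset.card_univ, nsmul_eq_mul] at h2
  have hc : (0 : ℝ) < Fintype.card (Tor n) := by exact_mod_cast Fintype.card_pos
  rw [le_div_iff₀ hβ]
  have h3 : (Fintype.card (Tor n) : ℝ) * (rho (edges n) β (fun _ => 1) x * β) ≤
      Fintype.card (Tor n) * Real.log 2 := by linarith
  exact le_of_mul_le_mul_left h3 hc

end Torus

end Vale.Agent.P361.LRO.Bs
end

section

/-! Start of the bootstrap. -/

namespace Vale.Agent.P361.LRO

theorem startStmt : StartStmt := fun _ _ _ x hβ => Bs.base_rho hβ x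

end Vale.Agent.P361.LRO
end

section

/-!
Canonical paths in a cube: the sum over all pairs of a `w`-cube of `‖ψ - P_{xy} ψ‖²` is at most
`12 w⁵` times the sum over the nearest neighbour edges of the cube; tiling of a cube of side `w k`.
-/

namespace Vale.Agent.P361.LRO.EnR

open Matrix Finset

noncomputable section

variable {V : Type} [Fintype V] [DecidableEq V]

/-- Squares of `nrm` for the three kinds of edges. -/
def ed0 (p : ℕ → ℕ → ℕ → V) (F : V → V → ℝ) (w : ℕ) : ℝ :=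
  ∑ t ∈ range (w - 1), ∑ b ∈ range w, ∑ c ∈ range w, F (p t b c) (p (t + 1) b c)

def ed1 (p : ℕ → ℕ → ℕ → V) (F : V → V → ℝ) (w : ℕ) : ℝ :=
  ∑ a ∈ range w, ∑ t ∈ range (w - 1), ∑ c ∈ range w, F (p a t c) (p a (t + 1) c)

def ed2 (p : ℕ → ℕ → ℕ → V) (F : V → V → ℝ) (w : ℕ) : ℝ :=
  ∑ a ∈ range w, ∑ b ∈ range w, ∑ t ∈ range (w - 1), F (p a b t) (p a b (t + 1))

/-- Sum over the nearest neighbour edges of the cube `p '' [0,w)³`. -/
def edgeSum (p : ℕ → ℕ → ℕ → V) (F : V → V → ℝ) (w : ℕ) : ℝ :=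
  ed0 p F w + ed1 p F w + ed2 p F w

/-- Sum over ordered pairs of points of the cube `p '' [0,w)³`. -/
def pairSum (p : ℕ → ℕ → ℕ → V) (F : V → V → ℝ) (w : ℕ) : ℝ :=
  ∑ a ∈ range w, ∑ b ∈ range w, ∑ c ∈ range w,
    ∑ a' ∈ range w, ∑ b' ∈ range w, ∑ c' ∈ range w, F (p a b c) (p a' b' c')

theorem nrm_swap_self (x : V) (ψ : (V → Fin 2) → ℝ) : nrm (Equiv.swap x x) ψ = 0 := by
  rw [Equiv.swap_self]; exact nrm_one ψ

theorem nrm_cube (p : ℕ → ℕ → ℕ → V) (ψ : (V → Fin 2) → ℝ) {w a b c a' b' c' : ℕ}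
    (ha : a < w) (hb : b < w) (hc : c < w) (ha' : a' < w) (hb' : b' < w) (hc' : c' < w) :
    nrm (Equiv.swap (p a b c) (p a' b' c')) ψ ≤
      2 * (∑ t ∈ range (w - 1), nrm (Equiv.swap (p t b c) (p (t + 1) b c)) ψ +
        ∑ t ∈ range (w - 1), nrm (Equiv.swap (p a' t c) (p a' (t + 1) c)) ψ +
        ∑ t ∈ range (w - 1), nrm (Equiv.swap (p a' b' t) (p a' b' (t + 1))) ψ) := by
  have h0 := nrm_seg (p a b c) (fun t => p t b c) ψ (a := a) (b := a') (m := w - 1)
    (by omega) (by omega)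
  have h1 := nrm_seg (p a b c) (fun t => p a' t c) ψ (a := b) (b := b') (m := w - 1)
    (by omega) (by omega)
  have h2 := nrm_seg (p a b c) (fun t => p a' b' t) ψ (a := c) (b := c') (m := w - 1)
    (by omega) (by omega)
  have h3 := nrm_swap_self (p a b c) ψ
  linarith

theorem sq_sum_three {n : ℕ} (f g h : ℕ → ℝ) :
    (2 * (∑ t ∈ range n, f t + ∑ t ∈ range n, g t + ∑ t ∈ range n, h t)) ^ 2 ≤
      12 * n * (∑ t ∈ range n, f t ^ 2 + ∑ t ∈ range n, g t ^ 2 + ∑ t ∈ range n, h t ^ 2) := by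
  have key : ∀ f : ℕ → ℝ, (∑ t ∈ range n, f t) ^ 2 ≤ n * ∑ t ∈ range n, f t ^ 2 := by
    intro f
    have := sq_sum_le_card_mul_sum_sq (s := range n) (f := f)
    simpa using this
  have hf := key f
  have hg := key g
  have hh := key h
  nlinarith [sq_nonneg (∑ t ∈ range n, f t - ∑ t ∈ range n, g t),
    sq_nonneg (∑ t ∈ range n, f t - ∑ t ∈ range n, h t),
    sq_nonneg (∑ t ∈ range n, g t - ∑ t ∈ range n, h t)]

theorem pair_le (p : ℕ → ℕ → ℕ → V) (ψ : (V → Fin 2) → ℝ) (w : ℕ) :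
    pairSum p (fun x y => nrm (Equiv.swap x y) ψ ^ 2) w ≤
      12 * (w : ℝ) ^ 5 * edgeSum p (fun x y => nrm (Equiv.swap x y) ψ ^ 2) w := by
  set F : V → V → ℝ := fun x y => nrm (Equiv.swap x y) ψ ^ 2 with hF
  have hF0 : ∀ x y, 0 ≤ F x y := fun x y => sq_nonneg _
  set S0 : ℕ → ℕ → ℝ := fun b c => ∑ t ∈ range (w - 1), F (p t b c) (p (t + 1) b c) with hS0
  set S1 : ℕ → ℕ → ℝ := fun a c => ∑ t ∈ range (w - 1), F (p a t c) (p a (t + 1) c) with hS1
  set S2 : ℕ → ℕ → ℝ := fun a b => ∑ t ∈ range (w - 1), F (p a b t) (p a b (t + 1)) with hS2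
  have hS0n : ∀ b c, 0 ≤ S0 b c := fun b c => sum_nonneg fun _ _ => hF0 _ _
  have hS1n : ∀ b c, 0 ≤ S1 b c := fun b c => sum_nonneg fun _ _ => hF0 _ _
  have hS2n : ∀ b c, 0 ≤ S2 b c := fun b c => sum_nonneg fun _ _ => hF0 _ _
  have h1 : pairSum p F w ≤ ∑ a ∈ range w, ∑ b ∈ range w, ∑ c ∈ range w,
      ∑ a' ∈ range w, ∑ b' ∈ range w, ∑ c' ∈ range w,
        (12 * w) * (S0 b c + S1 a' c + S2 a' b') := by
    unfold pairSum
    refine sum_le_sum fun a ha => sum_le_sum fun b hb => sum_le_sum fun c hc =>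
      sum_le_sum fun a' ha' => sum_le_sum fun b' hb' => sum_le_sum fun c' hc' => ?_
    simp only [mem_range] at ha hb hc ha' hb' hc'
    have h2 := nrm_cube p ψ ha hb hc ha' hb' hc'
    have h3 : F (p a b c) (p a' b' c') ≤ (2 * (∑ t ∈ range (w - 1),
        nrm (Equiv.swap (p t b c) (p (t + 1) b c)) ψ +
        ∑ t ∈ range (w - 1), nrm (Equiv.swap (p a' t c) (p a' (t + 1) c)) ψ +
        ∑ t ∈ range (w - 1), nrm (Equiv.swap (p a' b' t) (p a' b' (t + 1))) ψ)) ^ 2 :=
      pow_le_pow_left₀ (nrm_nonneg _ _) h2 2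
    have h4 := sq_sum_three (n := w - 1)
      (fun t => nrm (Equiv.swap (p t b c) (p (t + 1) b c)) ψ)
      (fun t => nrm (Equiv.swap (p a' t c) (p a' (t + 1) c)) ψ)
      (fun t => nrm (Equiv.swap (p a' b' t) (p a' b' (t + 1))) ψ)
    have h5 : ((w - 1 : ℕ) : ℝ) ≤ w := by exact_mod_cast Nat.sub_le w 1
    have h6 : 0 ≤ S0 b c + S1 a' c + S2 a' b' :=
      add_nonneg (add_nonneg (hS0n _ _) (hS1n _ _)) (hS2n _ _)
    calc F (p a b c) (p a' b' c') ≤ _ := h3
      _ ≤ 12 * ((w - 1 : ℕ) : ℝ) * (S0 b c + S1 a' c + S2 a' b') := h4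
      _ ≤ _ := by
        apply mul_le_mul_of_nonneg_right _ h6
        linarith
  refine h1.trans (le_of_eq ?_)
  simp only [← mul_sum, sum_add_distrib, sum_const, card_range, nsmul_eq_mul]
  have e0 : ∑ b ∈ range w, ∑ c ∈ range w, S0 b c = ed0 p F w := by
    unfold ed0
    rw [sum_comm]
    symm
    rw [sum_comm]
    calc ∑ b ∈ range w, ∑ t ∈ range (w - 1), ∑ c ∈ range w, F (p t b c) (p (t + 1) b c)
        = ∑ b ∈ range w, ∑ c ∈ range w, S0 b c := by
          refine sum_congr rfl fun b _ => ?_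
          rw [sum_comm]
      _ = _ := sum_comm
  have e1 : ∑ c ∈ range w, ∑ a ∈ range w, S1 a c = ed1 p F w := by
    unfold ed1
    rw [sum_comm]
    refine sum_congr rfl fun b _ => ?_
    rw [sum_comm]
  have e2 : ∑ a ∈ range w, ∑ b ∈ range w, S2 a b = ed2 p F w := rfl
  rw [edgeSum, ← e0, ← e1, ← e2]
  ring

end

end Vale.Agent.P361.LRO.EnR
end

section

/-!
The path inequality for Gibbs states, and the tiling of a cube of side `w m` by cubes of side `w`.
-/

namespace Vale.Agent.P361.LRO.EnR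

open Matrix Finset

noncomputable section

variable {V : Type} [Fintype V] [DecidableEq V]

/-- The pair inequality for every Gibbs state. -/
theorem pair_le_gib (L : List (V × V)) (β : ℝ) (h : V → ℝ) (p : ℕ → ℕ → ℕ → V) (w : ℕ) :
    pairSum p (fun x y => gib L β h (hM x y)) w ≤
      12 * (w : ℝ) ^ 5 * edgeSum p (fun x y => gib L β h (hM x y)) w := by
  set PM : Matrix (V → Fin 2) (V → Fin 2) ℝ :=
    ∑ a ∈ range w, ∑ b ∈ range w, ∑ c ∈ range w,
    ∑ a' ∈ range w, ∑ b' ∈ range w, ∑ c' ∈ range w, hM (p a b c) (p a' b' c') with hPM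
  set EM : Matrix (V → Fin 2) (V → Fin 2) ℝ :=
    ∑ t ∈ range (w - 1), ∑ b ∈ range w, ∑ c ∈ range w, hM (p t b c) (p (t + 1) b c) +
    ∑ a ∈ range w, ∑ t ∈ range (w - 1), ∑ c ∈ range w, hM (p a t c) (p a (t + 1) c) +
    ∑ a ∈ range w, ∑ b ∈ range w, ∑ t ∈ range (w - 1), hM (p a b t) (p a b (t + 1)) with hEM
  have h1 : pairSum p (fun x y => gib L β h (hM x y)) w = gib L β h PM := by
    rw [hPM]; simp only [gib_sum]; rfl
  have h2 : edgeSum p (fun x y => gib L β h (hM x y)) w = gib L β h EM := by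
    rw [hEM]; simp only [gib_sum, gib_add]; rfl
  rw [h1, h2, ← gib_smul]
  apply gib_le_of_form_le
  intro ψ
  have h3 : ψ ⬝ᵥ (PM *ᵥ ψ) =
      (1 / 4) * pairSum p (fun x y => nrm (Equiv.swap x y) ψ ^ 2) w := by
    rw [hPM]
    simp only [Matrix.sum_mulVec, dotProduct_sum, form_hM, pairSum, mul_sum]
  have h4 : ψ ⬝ᵥ (EM *ᵥ ψ) =
      (1 / 4) * edgeSum p (fun x y => nrm (Equiv.swap x y) ψ ^ 2) w := by
    rw [hEM]
    simp only [Matrix.sum_mulVec, dotProduct_sum, form_hM, edgeSum, ed0, ed1, ed2, mul_sum,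
      Matrix.add_mulVec, dotProduct_add, mul_add]
  rw [Matrix.smul_mulVec, dotProduct_smul, smul_eq_mul, h3, h4]
  have := pair_le p ψ w
  linarith

/-- Nonnegativity of `⟨h_{xy}⟩`. -/
theorem gib_hM_nonneg (L : List (V × V)) (β : ℝ) (h : V → ℝ) (x y : V) :
    0 ≤ gib L β h (hM x y) := by
  have h1 : gib L β h 0 ≤ gib L β h (hM x y) := by
    apply gib_le_of_form_le
    intro ψ
    rw [form_hM, Matrix.zero_mulVec, dotProduct_zero]
    positivity
  have h2 : gib L β h 0 = 0 := by simp [gib]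
  linarith

theorem sum_tile (g : ℕ → ℝ) (w m : ℕ) :
    ∑ u ∈ range m, ∑ a ∈ range w, g (w * u + a) = ∑ A ∈ range (w * m), g A := by
  induction m with
  | zero => simp
  | succ m ih => rw [sum_range_succ, ih, Nat.mul_succ, sum_range_add]

theorem sum_tile_edge (g : ℕ → ℝ) (hg : ∀ t, 0 ≤ g t) (w m : ℕ) :
    ∑ u ∈ range m, ∑ a ∈ range (w - 1), g (w * u + a) ≤ ∑ A ∈ range (w * m - 1), g A := by
  rcases Nat.eq_zero_or_pos w with rfl | hw
  · simp
  induction m with
  | zero => simp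
  | succ m ih =>
    rcases Nat.eq_zero_or_pos m with rfl | hm
    · simp
    rw [sum_range_succ]
    have hwm : 1 ≤ w * m := Nat.mul_pos hw hm
    have e : w * (m + 1) - 1 = (w * m - 1) + 1 + (w - 1) := by
      rw [Nat.mul_succ]; omega
    rw [e, sum_range_add, sum_range_succ]
    have e2 : w * m - 1 + 1 = w * m := by omega
    rw [e2]
    have := hg (w * m - 1)
    linarith

/-- The shifted parametrisation. -/
def shp (p : ℕ → ℕ → ℕ → V) (w u0 u1 u2 : ℕ) : ℕ → ℕ → ℕ → V :=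
  fun a b c => p (w * u0 + a) (w * u1 + b) (w * u2 + c)

theorem tile_ed0 (p : ℕ → ℕ → ℕ → V) (F : V → V → ℝ) (hF : ∀ x y, 0 ≤ F x y) (w m : ℕ) :
    ∑ u0 ∈ range m, ∑ u1 ∈ range m, ∑ u2 ∈ range m, ed0 (shp p w u0 u1 u2) F w ≤
      ed0 p F (w * m) := by
  unfold ed0 shp
  have h1 : ∀ u0 ∈ range m, ∑ u1 ∈ range m, ∑ u2 ∈ range m, ∑ t ∈ range (w - 1),
      ∑ b ∈ range w, ∑ c ∈ range w,
        F (p (w * u0 + t) (w * u1 + b) (w * u2 + c))
          (p (w * u0 + (t + 1)) (w * u1 + b) (w * u2 + c)) =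
      ∑ t ∈ range (w - 1), ∑ B ∈ range (w * m), ∑ C ∈ range (w * m),
        F (p (w * u0 + t) B C) (p (w * u0 + t + 1) B C) := by
    intro u0 _
    have e1 : ∀ u1 ∈ range m, ∑ u2 ∈ range m, ∑ t ∈ range (w - 1),
      ∑ b ∈ range w, ∑ c ∈ range w,
        F (p (w * u0 + t) (w * u1 + b) (w * u2 + c))
          (p (w * u0 + (t + 1)) (w * u1 + b) (w * u2 + c)) =
        ∑ t ∈ range (w - 1), ∑ b ∈ range w, ∑ C ∈ range (w * m),
          F (p (w * u0 + t) (w * u1 + b) C) (p (w * u0 + t + 1) (w * u1 + b) C) := by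
      intro u1 _
      rw [sum_comm]
      refine sum_congr rfl fun t _ => ?_
      rw [sum_comm]
      refine sum_congr rfl fun b _ => ?_
      rw [← sum_tile]
      rfl
    rw [sum_congr rfl e1, sum_comm]
    refine sum_congr rfl fun t _ => ?_
    rw [← sum_tile]
  rw [sum_congr rfl h1]
  exact sum_tile_edge (fun A => ∑ B ∈ range (w * m), ∑ C ∈ range (w * m),
    F (p A B C) (p (A + 1) B C)) (fun t => sum_nonneg fun _ _ => sum_nonneg fun _ _ => hF _ _) w m

theorem tile_ed1 (p : ℕ → ℕ → ℕ → V) (F : V → V → ℝ) (hF : ∀ x y, 0 ≤ F x y) (w m : ℕ) :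
    ∑ u0 ∈ range m, ∑ u1 ∈ range m, ∑ u2 ∈ range m, ed1 (shp p w u0 u1 u2) F w ≤
      ed1 p F (w * m) := by
  unfold ed1 shp
  have h1 : ∀ u0 ∈ range m, ∑ u1 ∈ range m, ∑ u2 ∈ range m, ∑ a ∈ range w,
      ∑ t ∈ range (w - 1), ∑ c ∈ range w,
        F (p (w * u0 + a) (w * u1 + t) (w * u2 + c))
          (p (w * u0 + a) (w * u1 + (t + 1)) (w * u2 + c)) ≤
      ∑ a ∈ range w, ∑ T ∈ range (w * m - 1), ∑ C ∈ range (w * m),
        F (p (w * u0 + a) T C) (p (w * u0 + a) (T + 1) C) := by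
    intro u0 _
    have e1 : ∀ u1 ∈ range m, ∑ u2 ∈ range m, ∑ a ∈ range w,
      ∑ t ∈ range (w - 1), ∑ c ∈ range w,
        F (p (w * u0 + a) (w * u1 + t) (w * u2 + c))
          (p (w * u0 + a) (w * u1 + (t + 1)) (w * u2 + c)) =
        ∑ a ∈ range w, ∑ t ∈ range (w - 1), ∑ C ∈ range (w * m),
          F (p (w * u0 + a) (w * u1 + t) C) (p (w * u0 + a) (w * u1 + t + 1) C) := by
      intro u1 _
      rw [sum_comm]
      refine sum_congr rfl fun t _ => ?_
      rw [sum_comm]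
      refine sum_congr rfl fun b _ => ?_
      rw [← sum_tile]
      rfl
    rw [sum_congr rfl e1, sum_comm]
    refine sum_le_sum fun a _ => ?_
    exact sum_tile_edge (fun B => ∑ C ∈ range (w * m),
      F (p (w * u0 + a) B C) (p (w * u0 + a) (B + 1) C))
      (fun t => sum_nonneg fun _ _ => hF _ _) w m
  refine (sum_le_sum h1).trans (le_of_eq ?_)
  rw [← sum_tile (fun A => ∑ T ∈ range (w * m - 1), ∑ C ∈ range (w * m),
        F (p A T C) (p A (T + 1) C)) w m]

theorem tile_ed2 (p : ℕ → ℕ → ℕ → V) (F : V → V → ℝ) (hF : ∀ x y, 0 ≤ F x y) (w m : ℕ) :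
    ∑ u0 ∈ range m, ∑ u1 ∈ range m, ∑ u2 ∈ range m, ed2 (shp p w u0 u1 u2) F w ≤
      ed2 p F (w * m) := by
  unfold ed2 shp
  have h1 : ∀ u0 ∈ range m, ∑ u1 ∈ range m, ∑ u2 ∈ range m, ∑ a ∈ range w,
      ∑ b ∈ range w, ∑ t ∈ range (w - 1),
        F (p (w * u0 + a) (w * u1 + b) (w * u2 + t))
          (p (w * u0 + a) (w * u1 + b) (w * u2 + (t + 1))) ≤
      ∑ a ∈ range w, ∑ B ∈ range (w * m), ∑ T ∈ range (w * m - 1),
        F (p (w * u0 + a) B T) (p (w * u0 + a) B (T + 1)) := by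
    intro u0 _
    have e1 : ∀ u1 ∈ range m, ∑ u2 ∈ range m, ∑ a ∈ range w,
      ∑ b ∈ range w, ∑ t ∈ range (w - 1),
        F (p (w * u0 + a) (w * u1 + b) (w * u2 + t))
          (p (w * u0 + a) (w * u1 + b) (w * u2 + (t + 1))) ≤
        ∑ a ∈ range w, ∑ b ∈ range w, ∑ T ∈ range (w * m - 1),
          F (p (w * u0 + a) (w * u1 + b) T) (p (w * u0 + a) (w * u1 + b) (T + 1)) := by
      intro u1 _
      rw [sum_comm]
      refine sum_le_sum fun t _ => ?_
      rw [sum_comm]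
      refine sum_le_sum fun b _ => ?_
      exact sum_tile_edge (fun T =>
        F (p (w * u0 + t) (w * u1 + b) T) (p (w * u0 + t) (w * u1 + b) (T + 1)))
        (fun t => hF _ _) w m
    refine (sum_le_sum e1).trans (le_of_eq ?_)
    rw [sum_comm]
    refine sum_congr rfl fun t _ => ?_
    rw [← sum_tile (fun B => ∑ T ∈ range (w * m - 1),
          F (p (w * u0 + t) B T) (p (w * u0 + t) B (T + 1)))]
  refine (sum_le_sum h1).trans (le_of_eq ?_)
  rw [← sum_tile (fun A => ∑ B ∈ range (w * m), ∑ T ∈ range (w * m - 1),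
        F (p A B T) (p A B (T + 1))) w m]

theorem tile_edge (p : ℕ → ℕ → ℕ → V) (F : V → V → ℝ) (hF : ∀ x y, 0 ≤ F x y) (w m : ℕ) :
    ∑ u0 ∈ range m, ∑ u1 ∈ range m, ∑ u2 ∈ range m, edgeSum (shp p w u0 u1 u2) F w ≤
      edgeSum p F (w * m) := by
  have h0 := tile_ed0 p F hF w m
  have h1 := tile_ed1 p F hF w m
  have h2 := tile_ed2 p F hF w m
  simp only [edgeSum, sum_add_distrib]
  linarith

/-- Sum of the pair sums of the blocks. -/
theorem tile_pair (L : List (V × V)) (β : ℝ) (h : V → ℝ) (p : ℕ → ℕ → ℕ → V) (w m : ℕ) :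
    ∑ u0 ∈ range m, ∑ u1 ∈ range m, ∑ u2 ∈ range m,
      pairSum (shp p w u0 u1 u2) (fun x y => gib L β h (hM x y)) w ≤
      12 * (w : ℝ) ^ 5 * edgeSum p (fun x y => gib L β h (hM x y)) (w * m) := by
  calc _ ≤ ∑ u0 ∈ range m, ∑ u1 ∈ range m, ∑ u2 ∈ range m,
      12 * (w : ℝ) ^ 5 * edgeSum (shp p w u0 u1 u2) (fun x y => gib L β h (hM x y)) w :=
        sum_le_sum fun _ _ => sum_le_sum fun _ _ => sum_le_sum fun _ _ =>
          pair_le_gib L β h _ w
    _ = 12 * (w : ℝ) ^ 5 * ∑ u0 ∈ range m, ∑ u1 ∈ range m, ∑ u2 ∈ range m,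
      edgeSum (shp p w u0 u1 u2) (fun x y => gib L β h (hM x y)) w := by
        simp only [mul_sum]
    _ ≤ _ := by
        apply mul_le_mul_of_nonneg_left _ (by positivity)
        exact tile_edge p _ (fun x y => gib_hM_nonneg L β h x y) w m

end

end Vale.Agent.P361.LRO.EnR
end

section

/-!
Cubes of the torus: conversion of the sums of `Cube.lean`, `Tile.lean` into sums over the finite
sets `cube n x w`, and the number of boundary edges of a cube.
-/

namespace Vale.Agent.P361.LRO.EnR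

open Matrix Finset

noncomputable section

/-- Parametrisation of the sites of the torus around `x`. -/
def tp (n : ℕ) (x : Tor n) : ℕ → ℕ → ℕ → Tor n :=
  fun a b c => x + ![(a : ZMod n), (b : ZMod n), (c : ZMod n)]

theorem natCast_inj_lt {n a b : ℕ} (ha : a < n) (hb : b < n) (h : (a : ZMod n) = (b : ZMod n)) :
    a = b := by
  have := (ZMod.natCast_eq_natCast_iff' a b n).mp h
  rwa [Nat.mod_eq_of_lt ha, Nat.mod_eq_of_lt hb] at this

theorem tp_inj {n : ℕ} (x : Tor n) {a b c a' b' c' : ℕ} (ha : a < n) (hb : b < n) (hc : c < n)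
    (ha' : a' < n) (hb' : b' < n) (hc' : c' < n) (h : tp n x a b c = tp n x a' b' c') :
    a = a' ∧ b = b' ∧ c = c' := by
  have h1 : (![(a : ZMod n), (b : ZMod n), (c : ZMod n)] : Tor n) =
      ![(a' : ZMod n), (b' : ZMod n), (c' : ZMod n)] := add_left_cancel h
  have e0 := congrFun h1 0
  have e1 := congrFun h1 1
  have e2 := congrFun h1 2
  simp at e0 e1 e2
  exact ⟨natCast_inj_lt ha ha' e0, natCast_inj_lt hb hb' e1, natCast_inj_lt hc hc' e2⟩

/-- Index box. -/
def box (l : ℕ) : Finset (ℕ × ℕ × ℕ) := range l ×ˢ range l ×ˢ range l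

theorem sum_box (l : ℕ) (f : ℕ → ℕ → ℕ → ℝ) :
    ∑ q ∈ box l, f q.1 q.2.1 q.2.2 = ∑ a ∈ range l, ∑ b ∈ range l, ∑ c ∈ range l, f a b c := by
  rw [box, sum_product]
  refine sum_congr rfl fun a _ => ?_
  rw [sum_product]

theorem cube_eq_image (n : ℕ) [NeZero n] (x : Tor n) (w : ℕ) :
    cube n x w = (box w).image fun q => tp n x q.1 q.2.1 q.2.2 := by
  ext z
  simp only [cube, mem_image, mem_univ, true_and, box, mem_product, mem_range, Prod.exists]
  constructor
  · rintro ⟨y, rfl⟩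
    refine ⟨y 0, y 1, y 2, ⟨(y 0).2, (y 1).2, (y 2).2⟩, ?_⟩
    rw [tp]
    congr 1
    ext i
    fin_cases i <;> rfl
  · rintro ⟨a, b, c, ⟨ha, hb, hc⟩, rfl⟩
    refine ⟨![⟨a, ha⟩, ⟨b, hb⟩, ⟨c, hc⟩], ?_⟩
    rw [tp]
    congr 1
    ext i
    fin_cases i <;> rfl

theorem tp_injOn {n : ℕ} (x : Tor n) {l : ℕ} (hl : l ≤ n) :
    Set.InjOn (fun q : ℕ × ℕ × ℕ => tp n x q.1 q.2.1 q.2.2) (box l) := by
  rintro ⟨a, b, c⟩ h ⟨a', b', c'⟩ h' he
  simp only [box, coe_product, coe_range, Set.mem_prod, Set.mem_Iio] at h h'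
  obtain ⟨h1, h2, h3⟩ := h
  obtain ⟨h1', h2', h3'⟩ := h'
  obtain ⟨e0, e1, e2⟩ := tp_inj x (h1.trans_le hl) (h2.trans_le hl) (h3.trans_le hl)
    (h1'.trans_le hl) (h2'.trans_le hl) (h3'.trans_le hl) he
  subst e0 e1 e2
  rfl

theorem card_cube {n : ℕ} [NeZero n] (x : Tor n) {l : ℕ} (hl : l ≤ n) :
    (cube n x l).card = l ^ 3 := by
  rw [cube_eq_image, card_image_of_injOn (tp_injOn x hl), box, card_product, card_product,
    card_range]
  ring

theorem sum_cube {n : ℕ} [NeZero n] (x : Tor n) {l : ℕ} (hl : l ≤ n) (f : Tor n → ℝ) :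
    ∑ z ∈ cube n x l, f z =
      ∑ a ∈ range l, ∑ b ∈ range l, ∑ c ∈ range l, f (tp n x a b c) := by
  rw [cube_eq_image, sum_image (tp_injOn x hl)]
  exact sum_box l fun a b c => f (tp n x a b c)

theorem pairSum_eq {n : ℕ} [NeZero n] (x : Tor n) {w : ℕ} (hw : w ≤ n)
    (F : Tor n → Tor n → ℝ) :
    ∑ z ∈ cube n x w, ∑ z' ∈ cube n x w, F z z' = pairSum (tp n x) F w := by
  rw [sum_cube x hw, pairSum]
  refine sum_congr rfl fun a _ => sum_congr rfl fun b _ => sum_congr rfl fun c _ => ?_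
  rw [sum_cube x hw]

theorem tp_shift (n : ℕ) (x : Tor n) (w u0 u1 u2 : ℕ) :
    tp n (x + fun i => ((w * (![u0, u1, u2] i) : ℕ) : ZMod n)) = shp (tp n x) w u0 u1 u2 := by
  funext a b c
  rw [shp, tp, tp, add_assoc]
  congr 1
  ext i
  fin_cases i <;> simp

/-- The index set of the edges of the torus. -/
theorem tp_succ0 (n : ℕ) (x : Tor n) (t b c : ℕ) :
    tp n x (t + 1) b c = tp n x t b c + Pi.single 0 1 := by
  rw [tp, tp, add_assoc]
  congr 1
  ext i
  fin_cases i <;> simp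

theorem tp_succ1 (n : ℕ) (x : Tor n) (a t c : ℕ) :
    tp n x a (t + 1) c = tp n x a t c + Pi.single 1 1 := by
  rw [tp, tp, add_assoc]
  congr 1
  ext i
  fin_cases i <;> simp

theorem tp_succ2 (n : ℕ) (x : Tor n) (a b t : ℕ) :
    tp n x a b (t + 1) = tp n x a b t + Pi.single 2 1 := by
  rw [tp, tp, add_assoc]
  congr 1
  ext i
  fin_cases i <;> simp

theorem mem_cube_iff {n : ℕ} [NeZero n] (x : Tor n) (l : ℕ) (z : Tor n) :
    z ∈ cube n x l ↔ ∃ a b c, a < l ∧ b < l ∧ c < l ∧ tp n x a b c = z := by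
  rw [cube_eq_image]
  simp only [mem_image, box, mem_product, mem_range, Prod.exists]
  constructor
  · rintro ⟨a, b, c, ⟨ha, hb, hc⟩, h⟩; exact ⟨a, b, c, ha, hb, hc, h⟩
  · rintro ⟨a, b, c, ha, hb, hc, h⟩; exact ⟨a, b, c, ⟨ha, hb, hc⟩, h⟩

theorem ed_le_aux {n : ℕ} [NeZero n] (x : Tor n) {l : ℕ} (hl : l ≤ n) (F : Tor n → Tor n → ℝ)
    (hF : ∀ x y, 0 ≤ F x y) (i : Fin 3) (s : Finset (ℕ × ℕ × ℕ)) (hs : s ⊆ box l)
    (hs' : ∀ q ∈ s, tp n x q.1 q.2.1 q.2.2 + Pi.single i 1 ∈ cube n x l) :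
    ∑ q ∈ s, F (tp n x q.1 q.2.1 q.2.2) (tp n x q.1 q.2.1 q.2.2 + Pi.single i 1) ≤
      ∑ z with (z ∈ cube n x l ∧ z + Pi.single i 1 ∈ cube n x l), F z (z + Pi.single i 1) := by
  have e : ∑ z ∈ s.image (fun q : ℕ × ℕ × ℕ => tp n x q.1 q.2.1 q.2.2),
      F z (z + Pi.single i 1) =
      ∑ q ∈ s, F (tp n x q.1 q.2.1 q.2.2) (tp n x q.1 q.2.1 q.2.2 + Pi.single i 1) :=
    sum_image ((tp_injOn x hl).mono (by exact_mod_cast hs))
  rw [← e]
  apply sum_le_sum_of_subset_of_nonneg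
  · intro z hz
    obtain ⟨q, hq, rfl⟩ := mem_image.mp hz
    rw [mem_filter]
    refine ⟨mem_univ _, ?_, hs' q hq⟩
    rw [cube_eq_image]
    exact mem_image_of_mem (fun q : ℕ × ℕ × ℕ => tp n x q.1 q.2.1 q.2.2) (hs hq)
  · intro z _ _; exact hF _ _

/-- The nearest neighbour sum of the parametrised cube is a sum over edges inside the cube. -/
theorem edgeSum_le {n : ℕ} [NeZero n] (x : Tor n) {l : ℕ} (hl : l ≤ n) (F : Tor n → Tor n → ℝ)
    (hF : ∀ x y, 0 ≤ F x y) :
    edgeSum (tp n x) F l ≤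
      ∑ e : Tor n × Fin 3 with (e.1 ∈ cube n x l ∧ e.1 + Pi.single e.2 1 ∈ cube n x l),
        F e.1 (e.1 + Pi.single e.2 1) := by
  have h0 : ed0 (tp n x) F l ≤
      ∑ z with (z ∈ cube n x l ∧ z + Pi.single 0 1 ∈ cube n x l), F z (z + Pi.single 0 1) := by
    have := ed_le_aux x hl F hF 0 (range (l - 1) ×ˢ range l ×ˢ range l) (by
      intro q hq
      simp only [box, mem_product, mem_range] at hq ⊢
      omega) (by
      intro q hq
      simp only [mem_product, mem_range] at hq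
      rw [mem_cube_iff]
      exact ⟨q.1 + 1, q.2.1, q.2.2, by omega, hq.2.1, hq.2.2, tp_succ0 _ _ _ _ _⟩)
    refine le_trans (le_of_eq ?_) this
    rw [sum_product]
    unfold ed0
    refine sum_congr rfl fun a _ => ?_
    rw [sum_product]
    refine sum_congr rfl fun b _ => sum_congr rfl fun c _ => ?_
    rw [tp_succ0]
  have h1 : ed1 (tp n x) F l ≤
      ∑ z with (z ∈ cube n x l ∧ z + Pi.single 1 1 ∈ cube n x l), F z (z + Pi.single 1 1) := by
    have := ed_le_aux x hl F hF 1 (range l ×ˢ range (l - 1) ×ˢ range l) (by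
      intro q hq
      simp only [box, mem_product, mem_range] at hq ⊢
      omega) (by
      intro q hq
      simp only [mem_product, mem_range] at hq
      rw [mem_cube_iff]
      exact ⟨q.1, q.2.1 + 1, q.2.2, hq.1, by omega, hq.2.2, tp_succ1 _ _ _ _ _⟩)
    refine le_trans (le_of_eq ?_) this
    rw [sum_product]
    unfold ed1
    refine sum_congr rfl fun a _ => ?_
    rw [sum_product]
    refine sum_congr rfl fun b _ => sum_congr rfl fun c _ => ?_
    rw [tp_succ1]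
  have h2 : ed2 (tp n x) F l ≤
      ∑ z with (z ∈ cube n x l ∧ z + Pi.single 2 1 ∈ cube n x l), F z (z + Pi.single 2 1) := by
    have := ed_le_aux x hl F hF 2 (range l ×ˢ range l ×ˢ range (l - 1)) (by
      intro q hq
      simp only [box, mem_product, mem_range] at hq ⊢
      omega) (by
      intro q hq
      simp only [mem_product, mem_range] at hq
      rw [mem_cube_iff]
      exact ⟨q.1, q.2.1, q.2.2 + 1, hq.1, hq.2.1, by omega, tp_succ2 _ _ _ _ _⟩)
    refine le_trans (le_of_eq ?_) this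
    rw [sum_product]
    unfold ed2
    refine sum_congr rfl fun a _ => ?_
    rw [sum_product]
    refine sum_congr rfl fun b _ => sum_congr rfl fun c _ => ?_
    rw [tp_succ2]
  have h3 : ∑ e : Tor n × Fin 3 with (e.1 ∈ cube n x l ∧ e.1 + Pi.single e.2 1 ∈ cube n x l),
        F e.1 (e.1 + Pi.single e.2 1) =
      ∑ i : Fin 3, ∑ z with (z ∈ cube n x l ∧ z + Pi.single i 1 ∈ cube n x l),
        F z (z + Pi.single i 1) := by
    rw [sum_filter, Fintype.sum_prod_type_right]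
    refine sum_congr rfl fun i _ => ?_
    rw [sum_filter]
  rw [h3, Fin.sum_univ_three, edgeSum]
  linarith

end

end Vale.Agent.P361.LRO.EnR
end

section

/-!
The tiling statement `TileStmt 12`.
-/

namespace Vale.Agent.P361.LRO.EnR

open Matrix Finset

noncomputable section

/-- `(Fin 3 → α) ≃ α × α × α`. -/
def fin3Equiv (α : Type) : (Fin 3 → α) ≃ α × α × α where
  toFun y := (y 0, y 1, y 2)
  invFun q := ![q.1, q.2.1, q.2.2]
  left_inv y := by ext i; fin_cases i <;> rfl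
  right_inv q := rfl

theorem sum_fin3 (m : ℕ) (f : ℕ → ℕ → ℕ → ℝ) :
    ∑ y : Fin 3 → Fin m, f (y 0) (y 1) (y 2) =
      ∑ a ∈ range m, ∑ b ∈ range m, ∑ c ∈ range m, f a b c := by
  rw [Fintype.sum_equiv (fin3Equiv (Fin m)) (fun y => f (y 0) (y 1) (y 2))
    (fun q => f q.1 q.2.1 q.2.2) (fun y => rfl), Fintype.sum_prod_type]
  rw [Finset.sum_range]
  refine sum_congr rfl fun a _ => ?_
  rw [Fintype.sum_prod_type, Finset.sum_range]
  refine sum_congr rfl fun b _ => ?_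
  rw [Finset.sum_range]

theorem edge_inj {n : ℕ} (hn : 2 ≤ n) :
    Function.Injective fun e : Tor n × Fin 3 => (e.1, e.1 + (Pi.single e.2 1 : Tor n)) := by
  rintro ⟨z, i⟩ ⟨z', i'⟩ h
  simp only [Prod.mk.injEq] at h
  obtain ⟨rfl, h⟩ := h
  have h1 : (Pi.single i 1 : Tor n) = Pi.single i' 1 := add_left_cancel h
  have : Fact (1 < n) := ⟨by omega⟩
  have h2 : i = i' := by
    by_contra hne
    have := congrFun h1 i
    rw [Pi.single_eq_same, Pi.single_eq_of_ne hne] at this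
    exact one_ne_zero this
  rw [h2]

theorem sum_edge_le {n : ℕ} [NeZero n] (hn : 2 ≤ n) (Q : Finset (Tor n))
    (F : Tor n → Tor n → ℝ) :
    ∑ e : Tor n × Fin 3 with (e.1 ∈ Q ∧ e.1 + Pi.single e.2 1 ∈ Q),
        F e.1 (e.1 + Pi.single e.2 1) ≤
      ∑ e ∈ (edges n).toFinset with (e.1 ∈ Q ∧ e.2 ∈ Q), F e.1 e.2 := by
  apply le_of_eq
  have h1 : ((edges n).toFinset.filter fun e => e.1 ∈ Q ∧ e.2 ∈ Q) =
      (univ.filter fun e : Tor n × Fin 3 => e.1 ∈ Q ∧ e.1 + Pi.single e.2 1 ∈ Q).image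
        fun e : Tor n × Fin 3 => (e.1, e.1 + (Pi.single e.2 1 : Tor n)) := by
    ext e
    simp only [mem_filter, List.mem_toFinset, edges, List.mem_map, mem_toList, mem_univ, true_and,
      mem_image, Prod.exists]
    constructor
    · rintro ⟨⟨z, i, rfl⟩, h⟩
      exact ⟨z, i, h, rfl⟩
    · rintro ⟨z, i, h, rfl⟩
      exact ⟨⟨z, i, rfl⟩, h⟩
  rw [h1, sum_image (fun a _ b _ hab => edge_inj hn hab)]

theorem tileStmt : Energy.TileStmt 12 := by
  intro n _ β h x0 w m hw hm hwm hn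
  have hwn : w ≤ n := le_trans (Nat.le_mul_of_pos_right w hm) hwm
  set G : Tor n → Tor n → ℝ := fun x y => gib (edges n) β h (LRO.hM x y) with hG
  have h1 : ∀ y : Fin 3 → Fin m,
      ∑ x ∈ cube n (x0 + fun i => ((w * (y i : ℕ) : ℕ) : ZMod n)) w,
      ∑ x' ∈ cube n (x0 + fun i => ((w * (y i : ℕ) : ℕ) : ZMod n)) w, G x x' =
      pairSum (shp (tp n x0) w (y 0) (y 1) (y 2)) G w := by
    intro y
    rw [pairSum_eq _ hwn, ← tp_shift]
    congr 4
    ext i
    fin_cases i <;> rfl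
  have h2 := tile_pair (edges n) β h (tp n x0) w m
  have h3 := edgeSum_le x0 hwm G (fun x y => gib_hM_nonneg _ _ _ _ _)
  have h4 := sum_edge_le (by omega : 2 ≤ n) (cube n x0 (w * m)) G
  calc _ = ∑ y : Fin 3 → Fin m, pairSum (shp (tp n x0) w (y 0) (y 1) (y 2)) G w :=
        sum_congr rfl fun y _ => h1 y
    _ = ∑ u0 ∈ range m, ∑ u1 ∈ range m, ∑ u2 ∈ range m,
          pairSum (shp (tp n x0) w u0 u1 u2) G w :=
        sum_fin3 m fun u0 u1 u2 => pairSum (shp (tp n x0) w u0 u1 u2) G w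
    _ ≤ 12 * (w : ℝ) ^ 5 * edgeSum (tp n x0) G (w * m) := h2
    _ ≤ _ := mul_le_mul_of_nonneg_left (h3.trans h4) (by positivity)

end

end Vale.Agent.P361.LRO.EnR
end

section

/-! # P361 LRO, block (7): `PEnergy 2` and `EnergyStmt` (helper348, helper351) -/

namespace Vale.Agent.P361.LRO

/-- **Block (7)** (Top.lean). -/
theorem pEnergy : PEnergy 2 :=
  Energy.pEnergy_of_tile (by norm_num) EnR.tileStmt fun _ _ x _ hw => EnR.card_cube x hw

/-- **Block (7)** (Top/Iface.lean). -/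
theorem energyStmt : EnergyStmt :=
  Energy.energyStmt_of_tile (by norm_num) EnR.tileStmt fun _ _ x _ hw => EnR.card_cube x hw

end Vale.Agent.P361.LRO
end

section

/-!
P361, block (8): the regularity statements `RegStmt`, `PHarn`.
-/

namespace Vale.Agent.P361.LRO.LY

open Finset Matrix Filter Topology

noncomputable section

section Conn

variable {V : Type} [Fintype V] [DecidableEq V]

theorem swapMat_eq (x y : V) : swapMat x y = swapC x y := by
  ext σ τ
  simp only [swapMat, swapC, Matrix.of_apply]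
  have : τ = σ ∘ Equiv.swap x y ↔ σ = τ ∘ Equiv.swap x y := by
    constructor
    · rintro rfl; funext z; simp
    · rintro rfl; funext z; simp
  simp only [this]

theorem gate_eq (x y : V) (p : ℝ) : gate (1 - p) p x y = gateC x y p := by
  unfold gate gateC
  rw [swapMat_eq]

theorem fieldMat_eq (b : V → ℝ) : fieldMat (fun y => ((b y / 2 : ℝ) : ℂ)) = sliceC b := by
  rw [fieldMat_eq_diagonal, sliceC]
  congr 1
  funext σ
  refine Finset.prod_congr rfl fun y _ => ?_
  generalize σ y = i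
  fin_cases i <;> simp [fieldFac]

theorem ins_eq (z : V) : ins z s3 = cM (szM z) := by
  ext σ τ
  rw [ins_apply]
  simp only [cM, szM, Matrix.map_apply, Matrix.diagonal_apply]
  by_cases h : σ = τ
  · subst h
    rw [if_pos rfl]
    have h1 : ∏ y ∈ Finset.univ.erase z, (1 : Matrix (Fin 2) (Fin 2) ℂ) (σ y) (σ y) = 1 :=
      Finset.prod_eq_one fun y _ => by simp
    rw [h1, mul_one]
    generalize σ z = i
    fin_cases i <;> simp [s3]
  · rw [if_neg h, Complex.ofReal_zero]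
    obtain ⟨y, hy⟩ := Function.ne_iff.mp h
    by_cases hyz : y = z
    · subst hyz
      have : s3 (σ y) (τ y) = 0 := by
        generalize σ y = i at hy
        generalize τ y = j at hy
        fin_cases i <;> fin_cases j <;> simp_all [s3]
      rw [this, zero_mul]
    · have h2 : ∏ y ∈ Finset.univ.erase z, (1 : Matrix (Fin 2) (Fin 2) ℂ) (σ y) (τ y) = 0 :=
        Finset.prod_eq_zero (Finset.mem_erase.mpr ⟨hyz, Finset.mem_univ y⟩)
          (Matrix.one_apply_ne hy)
      rw [h2, mul_zero]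

theorem mul_pow_comm' {m : Type} [Fintype m] [DecidableEq m] (A B : Matrix m m ℂ) (n : ℕ) :
    (A * B) ^ (n + 1) = A * (B * A) ^ n * B := by
  induction n with
  | zero => simp
  | succ n ih =>
    rw [pow_succ, ih, pow_succ]
    simp only [Matrix.mul_assoc]

/-- The two orders of the Trotter step have the same traces. -/
theorem trace_reorder {m : Type} [Fintype m] [DecidableEq m] (A B S : Matrix m m ℂ)
    (h : S * A = A * S) (n : ℕ) :
    ((A * B) ^ n * S).trace = (S * (B * A) ^ n).trace := by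
  cases n with
  | zero => simp
  | succ n =>
    rw [mul_pow_comm', mul_pow_comm' B A]
    have e2 : (B * (A * B) ^ n * A : Matrix m m ℂ) = (B * A) ^ (n + 1) := (mul_pow_comm' B A n).symm
    rw [Matrix.mul_assoc, Matrix.mul_assoc, Matrix.trace_mul_comm]
    have e3 : (B * A) ^ n * (B * S) * A = (B * A) ^ (n + 1) * S := by
      rw [pow_succ]
      simp only [Matrix.mul_assoc]
      rw [h]
    rw [e3, e2, Matrix.trace_mul_comm]

variable (L : List (V × V)) (β : ℝ) (h : V → ℝ) (N : ℕ)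

theorem stepC_eq : stepC L β h N = fieldMat (fun y => ((β * h y / N / 2 : ℝ) : ℂ)) *
    gprod L (1 - (1 - Real.exp (-(β / N))) / 2) ((1 - Real.exp (-(β / N))) / 2) := by
  unfold stepC gprod
  rw [fieldMat_eq (fun y => β * h y / N)]
  congr 2
  refine List.map_congr_left fun e _ => ?_
  rw [gate_eq]

theorem szM_comm (z : V) (b : V → ℝ) : cM (szM z) * sliceC b = sliceC b * cM (szM z) := by
  have h1 : cM (szM z) = Matrix.diagonal fun σ : V → Fin 2 =>
      (((if σ z = 0 then 1 else -1 : ℝ)) : ℂ) := by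
    ext σ τ
    simp only [cM, szM, Matrix.map_apply, Matrix.diagonal_apply]
    split_ifs <;> simp
  rw [h1, sliceC, Matrix.diagonal_mul_diagonal, Matrix.diagonal_mul_diagonal]
  congr 1
  funext σ
  ring

theorem trace_W (z : V) : (stepC L β h N ^ N * cM (szM z)).trace =
    WW L (1 - (1 - Real.exp (-(β / N))) / 2) ((1 - Real.exp (-(β / N))) / 2) N z
      (fun y => ((β * h y / N / 2 : ℝ) : ℂ)) := by
  rw [stepC_eq, trace_reorder, WW, ins_eq]
  · rfl
  · rw [fieldMat_eq (fun y => β * h y / N), szM_comm]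

theorem trace_Z : (stepC L β h N ^ N).trace =
    ZW L (1 - (1 - Real.exp (-(β / N))) / 2) ((1 - Real.exp (-(β / N))) / 2) N
      (fun y => ((β * h y / N / 2 : ℝ) : ℂ)) := by
  have h1 := trace_reorder (fieldMat (fun y => ((β * h y / N / 2 : ℝ) : ℂ)))
    (gprod L (1 - (1 - Real.exp (-(β / N))) / 2) ((1 - Real.exp (-(β / N))) / 2)) 1
    (by rw [Matrix.one_mul, Matrix.mul_one]) N
  rw [Matrix.mul_one, Matrix.one_mul] at h1
  rw [stepC_eq, h1, ZW]
  rfl

end Conn

/-- Division of two real complex numbers. -/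
theorem re_div_of_im {z w : ℂ} (hz : z.im = 0) (hw : w.im = 0) : (z / w).re = z.re / w.re := by
  have e1 : z = ((z.re : ℝ) : ℂ) := by apply Complex.ext <;> simp [hz]
  have e2 : w = ((w.re : ℝ) : ℂ) := by apply Complex.ext <;> simp [hw]
  rw [e1, e2, ← Complex.ofReal_div, Complex.ofReal_re, Complex.ofReal_re, Complex.ofReal_re]

theorem finReg : FinReg := by
  intro V _ _ L β h h' s N z hβ hh hh' hs hs' hd hN hZ hZ'
  have hN0 : (0 : ℝ) < N := by
    have : 0 < N := by omega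
    exact_mod_cast this
  have hp0 : 0 ≤ (1 - Real.exp (-(β / N))) / 2 := by
    have : Real.exp (-(β / N)) ≤ 1 := Real.exp_le_one_iff.mpr (by
      have : 0 ≤ β / N := by positivity
      linarith)
    linarith
  have hp1 : 0 ≤ 1 - (1 - Real.exp (-(β / N))) / 2 := by
    have := Real.exp_pos (-(β / N))
    linarith
  have hab : 0 < 1 - (1 - Real.exp (-(β / N))) / 2 + (1 - Real.exp (-(β / N))) / 2 := by
    linarith
  set c : V → ℝ := fun y => β * h y / N / 2 with hc
  set c' : V → ℝ := fun y => β * h' y / N / 2 with hc'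
  have hcp : ∀ y, 0 < c y := fun y => by
    have := hh y
    rw [hc]; positivity
  have hcp' : ∀ y, 0 < c' y := fun y => by
    have := hh' y
    rw [hc']; positivity
  have hlog : ∀ y, |Real.log (c' y) - Real.log (c y)| ≤ s := fun y => by
    have e1 : c' y = (β / N / 2) * h' y := by rw [hc']; ring
    have e2 : c y = (β / N / 2) * h y := by rw [hc]; ring
    have h0 : β / N / 2 ≠ 0 := by positivity
    rw [e1, e2, Real.log_mul h0 (hh' y).ne', Real.log_mul h0 (hh y).ne', add_sub_add_left_eq_sub,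
      abs_sub_comm]
    exact hd y
  have key := finite_harnack L hp1 hp0 hab hN z hcp hcp' hs' hlog
  have im0 : ∀ y, (((c y : ℝ)) : ℂ).im = 0 := fun y => Complex.ofReal_im _
  have im0' : ∀ y, (((c' y : ℝ)) : ℂ).im = 0 := fun y => Complex.ofReal_im _
  have r1 := re_ZW_div (l := L) hp1 hp0 hab hN z (al := 0) le_rfl (by positivity)
    (s := fun y => ((c y : ℝ) : ℂ)) (fun g hg x => by
      rw [Complex.ofReal_im, Complex.ofReal_re, abs_zero, zero_mul]
      rw [sub_zero, abs_lt] at hg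
      exact mul_pos (hcp x) (Real.cos_pos_of_mem_Ioo ⟨by linarith [hg.1], hg.2⟩))
  have r1' := re_ZW_div (l := L) hp1 hp0 hab hN z (al := 0) le_rfl (by positivity)
    (s := fun y => ((c' y : ℝ) : ℂ)) (fun g hg x => by
      rw [Complex.ofReal_im, Complex.ofReal_re, abs_zero, zero_mul]
      rw [sub_zero, abs_lt] at hg
      exact mul_pos (hcp' x) (Real.cos_pos_of_mem_Ioo ⟨by linarith [hg.1], hg.2⟩))
  rw [Real.cos_zero] at r1 r1'
  have eZ := trace_Z L β h N
  have eZ' := trace_Z L β h' N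
  have eW := trace_W L β h N z
  have eW' := trace_W L β h' N z
  rw [re_div_of_im (ZW_im im0) (WW_im im0)] at r1 key
  rw [re_div_of_im (ZW_im im0') (WW_im im0')] at r1' key
  rw [eW, eW', eZ, eZ']
  rw [eZ] at hZ
  rw [eZ'] at hZ'
  refine ⟨?_, ?_, key⟩
  · by_contra hcon
    rw [not_lt] at hcon
    have : (ZW L (1 - (1 - Real.exp (-(β / N))) / 2) ((1 - Real.exp (-(β / N))) / 2) N
      (fun y => ((c y : ℝ) : ℂ))).re / (WW L (1 - (1 - Real.exp (-(β / N))) / 2)
        ((1 - Real.exp (-(β / N))) / 2) N z (fun y => ((c y : ℝ) : ℂ))).re ≤ 0 :=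
      div_nonpos_of_nonneg_of_nonpos hZ.le hcon
    linarith
  · by_contra hcon
    rw [not_lt] at hcon
    have : (ZW L (1 - (1 - Real.exp (-(β / N))) / 2) ((1 - Real.exp (-(β / N))) / 2) N
      (fun y => ((c' y : ℝ) : ℂ))).re / (WW L (1 - (1 - Real.exp (-(β / N))) / 2)
        ((1 - Real.exp (-(β / N))) / 2) N z (fun y => ((c' y : ℝ) : ℂ))).re ≤ 0 :=
      div_nonpos_of_nonneg_of_nonpos hZ'.le hcon
    linarith

/-- Block (8). -/
theorem regStmt : RegStmt := regStmt_of finReg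

/-- Block (8), the form of `Top.lean`. -/
theorem pHarn : PHarn := fun V _ _ L _ β hβ h h' hh hh' d hd hd' hl z =>
  regStmt V L β h h' d hβ hh hh' hd hd' hl z

end

end Vale.Agent.P361.LRO.LY
end

section

/-!
P361, block (1): the limit `N → ∞` of the twist inequality.
-/

namespace Vale.Agent.P361.LRO

open Finset Matrix Filter Topology

noncomputable section

variable {V : Type} [Fintype V] [DecidableEq V]

section lim

set_option linter.unusedSectionVars false

open scoped Matrix.Norms.Operator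

theorem norm_one_le_real {m : Type} [Fintype m] [DecidableEq m] : ‖(1 : Matrix m m ℝ)‖ ≤ 1 := by
  rcases isEmpty_or_nonempty m with h | h
  · have : (1 : Matrix m m ℝ) = 0 := Subsingleton.elim _ _
    rw [this, norm_zero]
    exact zero_le_one
  · rw [norm_one]

theorem gate_first (x y : V) (β : ℝ) :
    Tendsto (fun N : ℕ => (N : ℝ) • (((1 - β / (2 * N)) •
      (1 : Matrix (V → Fin 2) (V → Fin 2) ℝ) + (β / (2 * N)) • swapM x y) - 1)) atTop
      (𝓝 (-β • hM x y)) := by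
  refine Tendsto.congr' ?_ tendsto_const_nhds
  filter_upwards [eventually_gt_atTop 0] with N hN
  have hN' : (N : ℝ) ≠ 0 := by exact_mod_cast hN.ne'
  ext σ τ
  simp only [hM, Matrix.smul_apply, Matrix.add_apply, Matrix.sub_apply, smul_eq_mul]
  field_simp
  ring

theorem slice_first (β : ℝ) (h : V → ℝ) :
    Tendsto (fun N : ℕ => (N : ℝ) • ((Matrix.diagonal fun σ : V → Fin 2 =>
      ∏ x, (1 + β * h x / (2 * N) * if σ x = 0 then 1 else -1)) - 1)) atTop
      (𝓝 (β • ∑ x, (h x / 2) • szM x)) := by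
  have key : ∀ σ : V → Fin 2, Tendsto (fun N : ℕ => (N : ℝ) *
      ((∏ x, (1 + β * h x / (2 * N) * if σ x = 0 then (1 : ℝ) else -1)) - 1)) atTop
      (𝓝 (∑ x, β * (h x / 2) * if σ x = 0 then (1 : ℝ) else -1)) := by
    intro σ
    have h1 := Trot.first_prod (R := ℝ) Finset.univ
      (fun (x : V) (N : ℕ) => 1 + β * h x / (2 * N) * if σ x = 0 then (1 : ℝ) else -1)
      (fun x => β * (h x / 2) * if σ x = 0 then (1 : ℝ) else -1) (fun x _ => by
        refine Tendsto.congr' ?_ tendsto_const_nhds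
        filter_upwards [eventually_gt_atTop 0] with N hN
        have hN' : (N : ℝ) ≠ 0 := by exact_mod_cast hN.ne'
        simp only [smul_eq_mul]
        field_simp
        ring)
    simpa only [smul_eq_mul] using h1
  have hlim : (β • ∑ x, (h x / 2) • szM x : Matrix (V → Fin 2) (V → Fin 2) ℝ) =
      Matrix.diagonal fun σ : V → Fin 2 => ∑ x, β * (h x / 2) * if σ x = 0 then (1 : ℝ) else -1 := by
    ext σ τ
    simp only [Matrix.smul_apply, Matrix.sum_apply, szM, Matrix.diagonal_apply, smul_eq_mul]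
    by_cases hst : σ = τ
    · simp only [hst, if_true]
      rw [Finset.mul_sum]
      refine Finset.sum_congr rfl fun x _ => ?_
      ring
    · simp [hst]
  rw [hlim]
  have hfun : (fun N : ℕ => (N : ℝ) • ((Matrix.diagonal fun σ : V → Fin 2 =>
      ∏ x, (1 + β * h x / (2 * N) * if σ x = 0 then (1 : ℝ) else -1)) - 1)) =
      fun N : ℕ => Matrix.diagonal fun σ : V → Fin 2 => (N : ℝ) *
      ((∏ x, (1 + β * h x / (2 * N) * if σ x = 0 then (1 : ℝ) else -1)) - 1) := by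
    funext N
    ext σ τ
    simp only [Matrix.smul_apply, Matrix.sub_apply, Matrix.diagonal_apply, smul_eq_mul,
      Matrix.one_apply]
    split_ifs <;> simp
  rw [hfun]
  have hcont : Continuous (fun d : (V → Fin 2) → ℝ => Matrix.diagonal d) :=
    continuous_id.matrix_diagonal
  exact (hcont.tendsto _).comp (tendsto_pi_nhds.2 key)

theorem stepM_first (L : List (V × V)) (β : ℝ) (h : V → ℝ) :
    Tendsto (fun N : ℕ => (N : ℝ) • (stepM L β h N - 1)) atTop (𝓝 (-β • ham L h)) := by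
  have h1 := Trot.first_list (R := Matrix (V → Fin 2) (V → Fin 2) ℝ) L
    (fun e N => (1 - β / (2 * N)) • (1 : Matrix (V → Fin 2) (V → Fin 2) ℝ) +
    (β / (2 * N)) • swapM e.1 e.2) (fun e => -β • hM e.1 e.2) fun e _ => gate_first e.1 e.2 β
  have h2 := Trot.first_mul h1 (slice_first β h)
  have h4 : ∀ M : List (V × V), (M.map fun e => -β • hM e.1 e.2).sum =
      -β • (M.map fun e => hM e.1 e.2).sum := by
    intro M
    induction M with
    | nil => simp
    | cons e M ih => rw [List.map_cons, List.sum_cons, ih, List.map_cons, List.sum_cons, smul_add]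
  have h3 : (L.map fun e => -β • hM e.1 e.2).sum + (β • ∑ x, (h x / 2) • szM x) =
      -β • ham L h := by
    rw [h4, ham, smul_sub, sub_eq_add_neg, ← neg_smul (-β), neg_neg]
  rw [h3] at h2
  exact h2

/-- **The word converges to the Gibbs operator.** -/
theorem stepM_tendsto (L : List (V × V)) (β : ℝ) (h : V → ℝ) :
    Tendsto (fun N : ℕ => stepM L β h N ^ N) atTop (𝓝 (NormedSpace.exp (-β • ham L h))) :=
  Trot.pow_tendsto_exp norm_one_le_real (stepM_first L β h)

end lim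

/-- The twisted weight. -/
def ZTw (W : Matrix (V → Fin 2) (V → Fin 2) ℝ) (b : Finset V) (θ φ : ℝ) : ℝ :=
  Matrix.trace (W * rotT b θ φ)

theorem continuous_rotM (θ : ℝ) (i j : Fin 2) : Continuous fun φ : ℝ => rotM θ φ i j := by
  fin_cases i <;> fin_cases j <;> simp only [rotM] <;> simp <;> fun_prop

theorem continuous_rotT (b : Finset V) (θ : ℝ) (σ τ : V → Fin 2) :
    Continuous fun φ : ℝ => rotT b θ φ σ τ := by
  unfold rotT
  simp only [Matrix.of_apply]
  refine continuous_finsetProd _ fun x _ => ?_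
  by_cases hx : x ∈ b
  · simp only [hx, if_true]
    exact continuous_rotM θ (σ x) (τ x)
  · simp only [hx, if_false]
    exact continuous_const

theorem ZTw_eq (W : Matrix (V → Fin 2) (V → Fin 2) ℝ) (b : Finset V) (θ φ : ℝ) :
    ZTw W b θ φ = ∑ σ, ∑ τ, W σ τ * rotT b θ φ τ σ := by
  simp only [ZTw, Matrix.trace, Matrix.diag_apply, Matrix.mul_apply]

theorem int_ZTw (W : Matrix (V → Fin 2) (V → Fin 2) ℝ) (b : Finset V) (θ : ℝ) {g : ℝ → ℝ}
    (hg : Continuous g) :
    (∫ φ in (0 : ℝ)..Real.pi, g φ * ZTw W b θ φ) =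
      ∑ σ, ∑ τ, W σ τ * ∫ φ in (0 : ℝ)..Real.pi, g φ * rotT b θ φ τ σ := by
  have h1 : ∀ σ τ, Continuous fun φ => g φ * (W σ τ * rotT b θ φ τ σ) := fun σ τ =>
    hg.mul (continuous_const.mul (continuous_rotT b θ τ σ))
  have h2 : ∀ σ, Continuous fun φ => ∑ τ, g φ * (W σ τ * rotT b θ φ τ σ) := fun σ =>
    continuous_finsetSum _ fun τ _ => h1 σ τ
  have h3 : (fun φ => g φ * ZTw W b θ φ) = fun φ => ∑ σ, ∑ τ, g φ * (W σ τ * rotT b θ φ τ σ) := by
    funext φ
    rw [ZTw_eq, Finset.mul_sum]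
    exact Finset.sum_congr rfl fun σ _ => Finset.mul_sum _ _ _
  rw [h3, intervalIntegral.integral_finsetSum fun σ _ => (h2 σ).intervalIntegrable _ _]
  refine Finset.sum_congr rfl fun σ _ => ?_
  rw [intervalIntegral.integral_finsetSum fun τ _ => (h1 σ τ).intervalIntegrable _ _]
  refine Finset.sum_congr rfl fun τ _ => ?_
  rw [← intervalIntegral.integral_const_mul]
  refine intervalIntegral.integral_congr fun φ _ => ?_
  ring

theorem tendsto_int_ZTw {W : ℕ → Matrix (V → Fin 2) (V → Fin 2) ℝ}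
    {W0 : Matrix (V → Fin 2) (V → Fin 2) ℝ} (hW : Tendsto W atTop (𝓝 W0)) (b : Finset V) (θ : ℝ)
    {g : ℝ → ℝ} (hg : Continuous g) :
    Tendsto (fun N => ∫ φ in (0 : ℝ)..Real.pi, g φ * ZTw (W N) b θ φ) atTop
      (𝓝 (∫ φ in (0 : ℝ)..Real.pi, g φ * ZTw W0 b θ φ)) := by
  simp only [int_ZTw _ b θ hg]
  refine tendsto_finsetSum _ fun σ _ => tendsto_finsetSum _ fun τ _ => ?_
  refine Tendsto.mul_const _ ?_
  have h1 := tendsto_pi_nhds.1 hW σ
  exact tendsto_pi_nhds.1 h1 τ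

/-- **The limit of the twist inequality.** -/
theorem twist_limit {W : ℕ → Matrix (V → Fin 2) (V → Fin 2) ℝ}
    {W0 : Matrix (V → Fin 2) (V → Fin 2) ℝ} (hW : Tendsto W atTop (𝓝 W0)) (b : Finset V) (θ : ℝ)
    {k : ℕ → ℝ} {κ : ℝ} (hk : ∃ᶠ N in atTop, κ ≤ k N)
    (hpos : ∀ᶠ N in atTop, ∀ φ, 0 ≤ ZTw (W N) b θ φ)
    (hin : ∀ᶠ N in atTop, k N * (∫ φ in (0 : ℝ)..Real.pi,
        Real.sin φ * (1 - Real.cos φ) * ZTw (W N) b θ φ) ≤
      ∫ φ in (0 : ℝ)..Real.pi, Real.sin φ * ZTw (W N) b θ φ) :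
    κ * (∫ φ in (0 : ℝ)..Real.pi, Real.sin φ * (1 - Real.cos φ) * ZTw W0 b θ φ) ≤
      ∫ φ in (0 : ℝ)..Real.pi, Real.sin φ * ZTw W0 b θ φ := by
  have h1 := (tendsto_int_ZTw hW b θ (g := fun φ => Real.sin φ * (1 - Real.cos φ))
    (by fun_prop)).const_mul κ
  have h2 := tendsto_int_ZTw hW b θ (g := Real.sin) (by fun_prop)
  refine le_of_tendsto_of_tendsto_of_frequently h1 h2 ?_
  refine (hk.and_eventually (hpos.and hin)).mono fun N hN => ?_
  obtain ⟨h3, h4, h5⟩ := hN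
  refine le_trans (mul_le_mul_of_nonneg_right h3 ?_) h5
  refine intervalIntegral.integral_nonneg Real.pi_pos.le fun φ hφ => ?_
  have h6 := Real.sin_nonneg_of_nonneg_of_le_pi hφ.1 hφ.2
  have h7 : 0 ≤ 1 - Real.cos φ := by linarith [Real.cos_le_one φ]
  exact mul_nonneg (mul_nonneg h6 h7) (h4 φ)

end

end Vale.Agent.P361.LRO
end

section

/-!
P361, block (1): scalar part of the block twist.
-/

namespace Vale.Agent.P361.LRO

open Finset MeasureTheory intervalIntegral

/-! ## The twist integral -/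

/-- `Z(t) = c ∏ (1 - p_j (1 - t))` -/
noncomputable def zt {ι : Type*} [Fintype ι] (c : ℝ) (p : ι → ℝ) (t : ℝ) : ℝ :=
  c * ∏ j, (1 - p j * (1 - t))

theorem zt_nonneg {ι : Type*} [Fintype ι] {c : ℝ} {p : ι → ℝ} (hc : 0 ≤ c)
    (hp0 : ∀ j, 0 ≤ p j) (hp1 : ∀ j, p j ≤ 1 / 2) {t : ℝ} (ht : -1 ≤ t) :
    0 ≤ zt c p t := by
  unfold zt
  refine mul_nonneg hc (prod_nonneg fun j _ => ?_)
  have h1 : p j * (1 - t) ≤ 1 / 2 * 2 := by
    have := hp0 j
    have := hp1 j
    nlinarith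
  linarith

theorem continuous_zt {ι : Type*} [Fintype ι] (c : ℝ) (p : ι → ℝ) : Continuous (zt c p) := by
  unfold zt
  fun_prop

theorem hasDerivAt_zt {ι : Type*} [Fintype ι] [DecidableEq ι] (c : ℝ) (p : ι → ℝ) (t : ℝ) :
    HasDerivAt (zt c p) (c * ∑ j, (∏ i ∈ univ.erase j, (1 - p i * (1 - t))) * p j) t := by
  unfold zt
  have h : ∀ j ∈ (univ : Finset ι), HasDerivAt (fun t => 1 - p j * (1 - t)) (p j) t := by
    intro j _
    have h1 : HasDerivAt (fun t : ℝ => 1 - t) (-1) t := by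
      simpa using (hasDerivAt_id t).const_sub 1
    have h2 := (h1.const_mul (p j)).const_sub 1
    simpa using h2
  have h3 := HasDerivAt.fun_finsetProd h
  simp only [smul_eq_mul] at h3
  exact h3.const_mul c

/-- `κ ∫ (1-t) Z ≤ ∫ Z`. -/
theorem zint {ι : Type*} [Fintype ι] {c : ℝ} {p : ι → ℝ} (hc : 0 ≤ c)
    (hp0 : ∀ j, 0 ≤ p j) (hp1 : ∀ j, p j ≤ 1 / 2) :
    (∑ j, p j) * ∫ t in (-1 : ℝ)..1, (1 - t) * zt c p t ≤ ∫ t in (-1 : ℝ)..1, zt c p t := by
  classical
  have hcz := continuous_zt c p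
  set D : ℝ → ℝ := fun t => c * ∑ j, (∏ i ∈ univ.erase j, (1 - p i * (1 - t))) * p j with hD
  have hcD : Continuous D := by
    rw [hD]
    refine continuous_const.mul (continuous_finsetSum _ fun j _ => ?_)
    exact (continuous_finsetProd _ fun i _ => by fun_prop).mul continuous_const
  have hder : ∀ t, HasDerivAt (zt c p) (D t) t := fun t => hasDerivAt_zt c p t
  have hge : ∀ t ∈ Set.Icc (-1 : ℝ) 1, (∑ j, p j) * zt c p t ≤ D t := by
    intro t ht
    rw [hD]
    simp only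
    unfold zt
    rw [← mul_assoc, mul_comm (∑ j, p j) c, mul_assoc]
    refine mul_le_mul_of_nonneg_left ?_ hc
    rw [sum_mul]
    refine sum_le_sum fun j _ => ?_
    rw [← mul_prod_erase univ _ (mem_univ j)]
    have hf : ∀ i, 0 ≤ 1 - p i * (1 - t) := by
      intro i
      have := hp0 i
      have := hp1 i
      have := ht.1
      have := ht.2
      nlinarith
    have hprod : 0 ≤ ∏ i ∈ univ.erase j, (1 - p i * (1 - t)) := prod_nonneg fun i _ => hf i
    have hle : 1 - p j * (1 - t) ≤ 1 := by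
      have := hp0 j
      have := ht.2
      nlinarith
    have := mul_le_mul_of_nonneg_right hle hprod
    nlinarith [hp0 j]
  -- integration by parts for (1-t) Z
  have hparts : ∫ t in (-1 : ℝ)..1, ((-1) * zt c p t + (1 - t) * D t) =
      (1 - 1) * zt c p 1 - (1 - (-1)) * zt c p (-1) := by
    have h : ∀ t ∈ Set.uIcc (-1 : ℝ) 1, HasDerivAt (fun t => (1 - t) * zt c p t)
        ((-1) * zt c p t + (1 - t) * D t) t := by
      intro t _
      have h1 : HasDerivAt (fun t : ℝ => 1 - t) (-1) t := by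
        simpa using (hasDerivAt_id t).const_sub 1
      exact h1.mul (hder t)
    have hint : IntervalIntegrable (fun t => (-1) * zt c p t + (1 - t) * D t) volume (-1) 1 := by
      apply Continuous.intervalIntegrable
      fun_prop
    exact intervalIntegral.integral_eq_sub_of_hasDerivAt h hint
  have i1 : IntervalIntegrable (fun t => (-1) * zt c p t) volume (-1) 1 := by
    apply Continuous.intervalIntegrable; fun_prop
  have i2 : IntervalIntegrable (fun t => (1 - t) * D t) volume (-1) 1 := by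
    apply Continuous.intervalIntegrable; fun_prop
  rw [intervalIntegral.integral_add i1 i2, intervalIntegral.integral_const_mul] at hparts
  have hmono : ∫ t in (-1 : ℝ)..1, (∑ j, p j) * ((1 - t) * zt c p t) ≤
      ∫ t in (-1 : ℝ)..1, (1 - t) * D t := by
    refine intervalIntegral.integral_mono_on (by norm_num) ?_ i2 ?_
    · apply Continuous.intervalIntegrable; fun_prop
    · intro t ht
      have h1 := hge t ht
      have h2 : 0 ≤ 1 - t := by linarith [ht.2]
      nlinarith [mul_le_mul_of_nonneg_left h1 h2]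
  rw [intervalIntegral.integral_const_mul] at hmono
  have hz : 0 ≤ zt c p (-1) := zt_nonneg hc hp0 hp1 le_rfl
  linarith

/-! ## Spin averages, `J = N / 2` -/

/-- `A(J) = avg_{M=-J..J} e^{kM}`, `N = 2J`. -/
noncomputable def sA (k : ℝ) (N : ℕ) : ℝ :=
  (∑ j ∈ range (N + 1), Real.exp (k * ((N : ℝ) / 2 - j))) / ((N : ℝ) + 1)

/-- `b(J) = ∑ M e^{kM} / (J (J+1) (2J+1))`, `N = 2J`. -/
noncomputable def sB (k : ℝ) (N : ℕ) : ℝ :=
  (∑ j ∈ range (N + 1), ((N : ℝ) / 2 - j) * Real.exp (k * ((N : ℝ) / 2 - j))) /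
    (((N : ℝ) + 1) * ((N : ℝ) / 2) * ((N : ℝ) / 2 + 1))

theorem sA_pos (k : ℝ) (N : ℕ) : 0 < sA k N := by
  unfold sA
  refine div_pos (sum_pos (fun j _ => Real.exp_pos _) ⟨0, by simp⟩) (by positivity)

theorem sA_step_lower {k : ℝ} (hk : 0 ≤ k) (N : ℕ) : Real.exp (-k) * sA k (N + 2) ≤ sA k N := by
  unfold sA
  have hN : (0 : ℝ) < (N : ℝ) + 1 := by positivity
  have h1 : Real.exp (-k) * ∑ j ∈ range (N + 2 + 1), Real.exp (k * (((N + 2 : ℕ) : ℝ) / 2 - j)) =
      (∑ j ∈ range (N + 1), Real.exp (k * ((N : ℝ) / 2 - j))) +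
        Real.exp (k * ((N : ℝ) / 2 - (N + 1 : ℕ))) + Real.exp (k * ((N : ℝ) / 2 - (N + 2 : ℕ))) := by
    rw [mul_sum, ← sum_range_succ, ← sum_range_succ]
    refine sum_congr rfl fun j _ => ?_
    rw [← Real.exp_add]
    congr 1
    push_cast
    ring
  have hmin : ∀ j ∈ range (N + 1), Real.exp (k * ((N : ℝ) / 2 - N)) ≤
      Real.exp (k * ((N : ℝ) / 2 - j)) := by
    intro j hj
    apply Real.exp_le_exp.2
    have : (j : ℝ) ≤ N := by exact_mod_cast Nat.lt_succ_iff.1 (mem_range.1 hj)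
    exact mul_le_mul_of_nonneg_left (by linarith) hk
  have hsum : ((N : ℝ) + 1) * Real.exp (k * ((N : ℝ) / 2 - N)) ≤
      ∑ j ∈ range (N + 1), Real.exp (k * ((N : ℝ) / 2 - j)) := by
    have := sum_le_sum hmin
    simpa using this
  have e1 : Real.exp (k * ((N : ℝ) / 2 - (N + 1 : ℕ))) ≤ Real.exp (k * ((N : ℝ) / 2 - N)) := by
    apply Real.exp_le_exp.2
    push_cast
    exact mul_le_mul_of_nonneg_left (by linarith) hk
  have e2 : Real.exp (k * ((N : ℝ) / 2 - (N + 2 : ℕ))) ≤ Real.exp (k * ((N : ℝ) / 2 - N)) := by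
    apply Real.exp_le_exp.2
    push_cast
    exact mul_le_mul_of_nonneg_left (by linarith) hk
  have m1 := mul_le_mul_of_nonneg_right e1 hN.le
  have m2 := mul_le_mul_of_nonneg_right e2 hN.le
  rw [← mul_div_assoc, h1, div_le_div_iff₀ (by positivity) hN]
  push_cast at m1 m2 ⊢
  linarith

theorem sA_eq_cosh (k : ℝ) (N : ℕ) :
    sA k N = (∑ j ∈ range (N + 1), Real.cosh (k * ((N : ℝ) / 2 - j))) / ((N : ℝ) + 1) := by
  unfold sA
  congr 1
  have h : ∑ j ∈ range (N + 1), Real.exp (k * ((N : ℝ) / 2 - j)) =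
      ∑ j ∈ range (N + 1), Real.exp (-(k * ((N : ℝ) / 2 - j))) := by
    rw [← sum_range_reflect]
    refine sum_congr rfl fun j hj => ?_
    have hj' : j ≤ N := Nat.lt_succ_iff.1 (mem_range.1 hj)
    congr 1
    rw [show N + 1 - 1 - j = N - j by omega, Nat.cast_sub hj']
    ring
  have h2 : ∑ j ∈ range (N + 1), Real.cosh (k * ((N : ℝ) / 2 - j)) =
      ((∑ j ∈ range (N + 1), Real.exp (k * ((N : ℝ) / 2 - j))) +
        ∑ j ∈ range (N + 1), Real.exp (-(k * ((N : ℝ) / 2 - j)))) / 2 := by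
    rw [← sum_add_distrib, sum_div]
    exact sum_congr rfl fun j _ => Real.cosh_eq _
  rw [h2, ← h]
  ring

theorem sA_step_upper (k : ℝ) (N : ℕ) : sA k N ≤ sA k (N + 2) := by
  rw [sA_eq_cosh, sA_eq_cosh]
  have hN : (0 : ℝ) < (N : ℝ) + 1 := by positivity
  have h1 : ∑ j ∈ range (N + 2 + 1), Real.cosh (k * (((N + 2 : ℕ) : ℝ) / 2 - j)) =
      (∑ j ∈ range (N + 1), Real.cosh (k * ((N : ℝ) / 2 - j))) +
        Real.cosh (k * ((N : ℝ) / 2 + 1)) + Real.cosh (k * ((N : ℝ) / 2 + 1)) := by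
    rw [sum_range_succ', sum_range_succ]
    have e0 : ∑ j ∈ range (N + 1), Real.cosh (k * (((N + 2 : ℕ) : ℝ) / 2 - (j + 1 : ℕ))) =
        ∑ j ∈ range (N + 1), Real.cosh (k * ((N : ℝ) / 2 - j)) := by
      refine sum_congr rfl fun j _ => ?_
      congr 1
      push_cast
      ring
    rw [e0]
    have e1 : Real.cosh (k * (((N + 2 : ℕ) : ℝ) / 2 - ((N + 1 : ℕ) + 1 : ℕ))) =
        Real.cosh (k * ((N : ℝ) / 2 + 1)) := by
      rw [← Real.cosh_neg]
      congr 1
      push_cast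
      ring
    have e2 : Real.cosh (k * (((N + 2 : ℕ) : ℝ) / 2 - (0 : ℕ))) =
        Real.cosh (k * ((N : ℝ) / 2 + 1)) := by
      congr 1
      push_cast
      ring
    rw [e1, e2]
  have hmax : ∀ j ∈ range (N + 1), Real.cosh (k * ((N : ℝ) / 2 - j)) ≤
      Real.cosh (k * ((N : ℝ) / 2 + 1)) := by
    intro j hj
    rw [Real.cosh_le_cosh]
    have : (j : ℝ) ≤ N := by exact_mod_cast Nat.lt_succ_iff.1 (mem_range.1 hj)
    have hj0 : (0 : ℝ) ≤ j := by positivity
    rw [abs_mul, abs_mul]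
    refine mul_le_mul_of_nonneg_left ?_ (abs_nonneg k)
    rw [abs_le, abs_of_nonneg (by positivity : (0 : ℝ) ≤ (N : ℝ) / 2 + 1)]
    constructor <;> linarith
  have hsum : ∑ j ∈ range (N + 1), Real.cosh (k * ((N : ℝ) / 2 - j)) ≤
      ((N : ℝ) + 1) * Real.cosh (k * ((N : ℝ) / 2 + 1)) := by
    have := sum_le_sum hmax
    simpa using this
  rw [h1, div_le_div_iff₀ hN (by positivity)]
  push_cast
  nlinarith

theorem sA_mono (k : ℝ) (N m : ℕ) : sA k N ≤ sA k (N + 2 * m) := by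
  induction m with
  | zero => simp
  | succ m ih =>
    refine ih.trans ?_
    have := sA_step_upper k (N + 2 * m)
    rwa [show N + 2 * m + 2 = N + 2 * (m + 1) by ring] at this

theorem sA_lower {k : ℝ} (hk : 0 ≤ k) (N m : ℕ) :
    Real.exp (-(k * m)) * sA k (N + 2 * m) ≤ sA k N := by
  induction m with
  | zero => simp
  | succ m ih =>
    have h := sA_step_lower hk (N + 2 * m)
    rw [show N + 2 * m + 2 = N + 2 * (m + 1) by ring] at h
    refine le_trans ?_ ih
    have e : Real.exp (-(k * ((m + 1 : ℕ) : ℝ))) = Real.exp (-(k * m)) * Real.exp (-k) := by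
      rw [← Real.exp_add]
      congr 1
      push_cast
      ring
    rw [e, mul_assoc]
    exact mul_le_mul_of_nonneg_left h (Real.exp_pos _).le

theorem sB_nonneg {k : ℝ} (hk : 0 ≤ k) (N : ℕ) : 0 ≤ sB k N := by
  unfold sB
  refine div_nonneg ?_ (by positivity)
  have h : ∑ j ∈ range (N + 1), ((N : ℝ) / 2 - j) * Real.exp (k * ((N : ℝ) / 2 - j)) =
      ∑ j ∈ range (N + 1), (-((N : ℝ) / 2 - j)) * Real.exp (-(k * ((N : ℝ) / 2 - j))) := by
    rw [← sum_range_reflect]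
    refine sum_congr rfl fun j hj => ?_
    have hj' : j ≤ N := Nat.lt_succ_iff.1 (mem_range.1 hj)
    rw [show N + 1 - 1 - j = N - j by omega, Nat.cast_sub hj']
    congr 1
    · ring
    · congr 1
      ring
  have h2 : 0 ≤ (∑ j ∈ range (N + 1), ((N : ℝ) / 2 - j) * Real.exp (k * ((N : ℝ) / 2 - j))) +
      ∑ j ∈ range (N + 1), ((N : ℝ) / 2 - j) * Real.exp (k * ((N : ℝ) / 2 - j)) := by
    nth_rewrite 2 [h]
    rw [← sum_add_distrib]
    refine sum_nonneg fun j _ => ?_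
    have e : ((N : ℝ) / 2 - j) * Real.exp (k * ((N : ℝ) / 2 - j)) +
        (-((N : ℝ) / 2 - j)) * Real.exp (-(k * ((N : ℝ) / 2 - j))) =
        ((N : ℝ) / 2 - j) * (Real.exp (k * ((N : ℝ) / 2 - j)) -
          Real.exp (-(k * ((N : ℝ) / 2 - j)))) := by ring
    rw [e]
    rcases le_total 0 ((N : ℝ) / 2 - j) with h0 | h0
    · refine mul_nonneg h0 (sub_nonneg.2 (Real.exp_le_exp.2 ?_))
      have := mul_nonneg hk h0
      linarith
    · refine mul_nonneg_of_nonpos_of_nonpos h0 (sub_nonpos.2 (Real.exp_le_exp.2 ?_))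
      have := mul_nonpos_of_nonneg_of_nonpos hk h0
      linarith
  linarith

theorem sB_mul_le (k : ℝ) (N : ℕ) : sB k N * ((N : ℝ) / 2) ≤ sA k N := by
  rcases Nat.eq_zero_or_pos N with rfl | hN
  · simpa using (sA_pos k 0).le
  have hN' : (0 : ℝ) < N := by exact_mod_cast hN
  unfold sB sA
  have h1 : ∑ j ∈ range (N + 1), ((N : ℝ) / 2 - j) * Real.exp (k * ((N : ℝ) / 2 - j)) ≤
      ((N : ℝ) / 2) * ∑ j ∈ range (N + 1), Real.exp (k * ((N : ℝ) / 2 - j)) := by
    rw [mul_sum]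
    refine sum_le_sum fun j _ => mul_le_mul_of_nonneg_right ?_ (Real.exp_pos _).le
    have : (0 : ℝ) ≤ j := by positivity
    linarith
  set S := ∑ j ∈ range (N + 1), Real.exp (k * ((N : ℝ) / 2 - j)) with hS
  have hS0 : 0 ≤ S := sum_nonneg fun j _ => (Real.exp_pos _).le
  set T := ∑ j ∈ range (N + 1), ((N : ℝ) / 2 - j) * Real.exp (k * ((N : ℝ) / 2 - j))
  have e : T / (((N : ℝ) + 1) * ((N : ℝ) / 2) * ((N : ℝ) / 2 + 1)) * ((N : ℝ) / 2) =
      T / (((N : ℝ) + 1) * ((N : ℝ) / 2 + 1)) := by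
    field_simp
  rw [e, div_le_div_iff₀ (by positivity) (by positivity)]
  have : T * ((N : ℝ) + 1) ≤ ((N : ℝ) / 2) * S * ((N : ℝ) + 1) :=
    mul_le_mul_of_nonneg_right h1 (by positivity)
  nlinarith [mul_nonneg hS0 hN'.le]

/-- scalar inequality `A (1 - M/J) ≤ 2 (A - b M)` for `|M| ≤ J`, `0 ≤ b`, `b J ≤ A`. -/
theorem one_sub_le {A b J M : ℝ} (hJ : 0 < J) (hb : 0 ≤ b) (hbJ : b * J ≤ A) (h1 : -J ≤ M)
    (h2 : M ≤ J) : A * (1 - M / J) ≤ 2 * (A - b * M) := by
  have hA : 0 ≤ A := le_trans (mul_nonneg hb hJ.le) hbJ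
  have e : 2 * (A - b * M) - A * (1 - M / J) = ((A * (J + M)) - 2 * b * J * M) / J := by
    field_simp
    ring
  have h : 0 ≤ ((A * (J + M)) - 2 * b * J * M) / J := by
    refine div_nonneg ?_ hJ.le
    rcases le_total 0 M with h0 | h0
    · nlinarith [mul_le_mul_of_nonneg_right hbJ h0]
    · have : 0 ≤ -(b * J * M) := by
        have := mul_nonneg (mul_nonneg hb hJ.le) (neg_nonneg.2 h0)
        linarith
      nlinarith [mul_nonneg hA (by linarith : 0 ≤ J + M)]
  linarith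

/-- The final inequality of (1) for a joint law of `(J, M)`: `J = N/2`, `N = Nmax - 2 m`,
`Nmax = |b|`, `d = m / |b|`, `rhobar = avg (1/2 - M/|b|)`. -/
theorem rhobar_le {ι : Type*} [Fintype ι] (w : ι → ℝ) (hw : ∀ i, 0 ≤ w i) (hw1 : ∑ i, w i = 1)
    (N : ι → ℕ) (m : ι → ℕ) (Nb : ℕ) (hNb : 0 < Nb) (hN : ∀ i, N i + 2 * m i = Nb) (M : ι → ℝ)
    (hM1 : ∀ i, -((N i : ℝ) / 2) ≤ M i) (hM2 : ∀ i, M i ≤ (N i : ℝ) / 2) {k κ : ℝ} (hk : 0 ≤ k)
    (hκ : 0 < κ)
    (h : κ * ∑ i, w i * (sA k (N i) - sB k (N i) * M i) ≤ ∑ i, w i * sA k (N i)) :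
    ∑ i, w i * (1 / 2 - M i / Nb) ≤
      (1 + k * Nb) * (∑ i, w i * ((m i : ℝ) / Nb)) + Real.exp 1 / κ := by
  have hNb' : (0 : ℝ) < Nb := by exact_mod_cast hNb
  have hNi : ∀ i, ((N i : ℝ)) / 2 = (Nb : ℝ) / 2 - m i := by
    intro i
    have : ((N i : ℝ)) + 2 * m i = Nb := by exact_mod_cast hN i
    linarith
  set Amax := sA k Nb with hAmax
  have hAp : 0 < Amax := sA_pos k Nb
  have hAle : ∀ i, sA k (N i) ≤ Amax := by
    intro i
    have := sA_mono k (N i) (m i)
    rwa [hN i] at this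
  have hAge : ∀ i, Real.exp (-(k * m i)) * Amax ≤ sA k (N i) := by
    intro i
    have := sA_lower hk (N i) (m i)
    rwa [hN i] at this
  -- pointwise bound
  have hpt : ∀ i, (1 / 2 - M i / Nb) ≤ (1 + k * Nb) * ((m i : ℝ) / Nb) +
      Real.exp 1 / Amax * (sA k (N i) - sB k (N i) * M i) := by
    intro i
    have hG : 0 ≤ sA k (N i) - sB k (N i) * M i := by
      have h1 := sB_nonneg hk (N i)
      have h2 := sB_mul_le k (N i)
      nlinarith [mul_le_mul_of_nonneg_left (hM2 i) h1]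
    have hm0 : (0 : ℝ) ≤ m i := by positivity
    have hd0 : 0 ≤ (m i : ℝ) / Nb := by positivity
    have hsplit : 1 / 2 - M i / Nb = (m i : ℝ) / Nb + ((N i : ℝ) / 2 - M i) / Nb := by
      rw [hNi i]
      field_simp
      ring
    rcases Nat.eq_zero_or_pos (N i) with h0 | h0
    · have hM0 : (N i : ℝ) / 2 - M i ≤ 0 := by
        have := hM1 i
        rw [h0] at this ⊢
        simp at this ⊢
        linarith
      have : ((N i : ℝ) / 2 - M i) / Nb ≤ 0 := div_nonpos_of_nonpos_of_nonneg hM0 hNb'.le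
      have e1 : 0 ≤ k * Nb * ((m i : ℝ) / Nb) := by positivity
      have e2 : 0 ≤ Real.exp 1 / Amax * (sA k (N i) - sB k (N i) * M i) :=
        mul_nonneg (by positivity) hG
      rw [hsplit]
      nlinarith
    have hN0 : (0 : ℝ) < N i := by exact_mod_cast h0
    have hJ : (0 : ℝ) < (N i : ℝ) / 2 := by positivity
    have hNle : (N i : ℝ) ≤ Nb := by
      have := hNi i
      linarith
    -- (N/2 - M)/Nb ≤ (1/2)(1 - M/J)
    have hq0 : 0 ≤ 1 - M i / ((N i : ℝ) / 2) := by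
      rw [sub_nonneg, div_le_one hJ]
      exact hM2 i
    have hq : ((N i : ℝ) / 2 - M i) / Nb ≤ 1 / 2 * (1 - M i / ((N i : ℝ) / 2)) := by
      have e : (N i : ℝ) / 2 - M i = (N i : ℝ) / 2 * (1 - M i / ((N i : ℝ) / 2)) := by
        field_simp
      rw [e, mul_div_right_comm]
      refine mul_le_mul_of_nonneg_right ?_ hq0
      rw [div_le_iff₀ hNb']
      linarith
    have hkey := one_sub_le hJ (sB_nonneg hk (N i)) (sB_mul_le k (N i)) (hM1 i) (hM2 i)
    rcases le_total (k * m i) 1 with hc | hc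
    · have hAi : Amax ≤ Real.exp 1 * sA k (N i) := by
        have h1 : Real.exp (-1) * Amax ≤ sA k (N i) :=
          le_trans (mul_le_mul_of_nonneg_right (Real.exp_le_exp.2 (by linarith)) hAp.le) (hAge i)
        have h2 := mul_le_mul_of_nonneg_left h1 (Real.exp_pos 1).le
        rw [← mul_assoc, ← Real.exp_add] at h2
        simpa using h2
      have h3 : 1 - M i / ((N i : ℝ) / 2) ≤
          Real.exp 1 / Amax * (sA k (N i) * (1 - M i / ((N i : ℝ) / 2))) := by
        rw [← mul_assoc, div_mul_eq_mul_div]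
        refine le_mul_of_one_le_left hq0 ?_
        rw [le_div_iff₀ hAp]
        linarith
      have h4 : Real.exp 1 / Amax * (sA k (N i) * (1 - M i / ((N i : ℝ) / 2))) ≤
          Real.exp 1 / Amax * (2 * (sA k (N i) - sB k (N i) * M i)) :=
        mul_le_mul_of_nonneg_left hkey (by positivity)
      have e1 : 0 ≤ k * Nb * ((m i : ℝ) / Nb) := by positivity
      rw [hsplit]
      nlinarith
    · have h5 : 1 - M i / ((N i : ℝ) / 2) ≤ 2 := by
        have : -1 ≤ M i / ((N i : ℝ) / 2) := by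
          rw [le_div_iff₀ hJ]
          linarith [hM1 i]
        linarith
      have h6 : 1 ≤ k * Nb * ((m i : ℝ) / Nb) := by
        rw [mul_assoc, mul_div_cancel₀ _ hNb'.ne']
        exact hc
      have e2 : 0 ≤ Real.exp 1 / Amax * (sA k (N i) - sB k (N i) * M i) :=
        mul_nonneg (by positivity) hG
      rw [hsplit]
      nlinarith
  have hsum := sum_le_sum fun i (_ : i ∈ univ) => mul_le_mul_of_nonneg_left (hpt i) (hw i)
  refine hsum.trans ?_
  have e1 : ∑ i, w i * ((1 + k * Nb) * ((m i : ℝ) / Nb) +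
      Real.exp 1 / Amax * (sA k (N i) - sB k (N i) * M i)) =
      (1 + k * Nb) * (∑ i, w i * ((m i : ℝ) / Nb)) +
        Real.exp 1 / Amax * ∑ i, w i * (sA k (N i) - sB k (N i) * M i) := by
    rw [mul_sum, mul_sum, ← sum_add_distrib]
    exact sum_congr rfl fun i _ => by ring
  rw [e1]
  have hA1 : ∑ i, w i * sA k (N i) ≤ Amax := by
    calc ∑ i, w i * sA k (N i) ≤ ∑ i, w i * Amax :=
          sum_le_sum fun i _ => mul_le_mul_of_nonneg_left (hAle i) (hw i)
      _ = Amax := by rw [← sum_mul, hw1, one_mul]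
  have h7 : ∑ i, w i * (sA k (N i) - sB k (N i) * M i) ≤ Amax / κ := by
    rw [le_div_iff₀ hκ]
    linarith
  have h8 : Real.exp 1 / Amax * ∑ i, w i * (sA k (N i) - sB k (N i) * M i) ≤ Real.exp 1 / κ := by
    refine (mul_le_mul_of_nonneg_left h7 (by positivity)).trans (le_of_eq ?_)
    field_simp
  linarith

end Vale.Agent.P361.LRO
end

section

/-!
P361, block (1): real-rootedness of the charge law gives the block twist inequality.
-/

namespace Vale.Agent.P361.LRO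

open Finset MeasureTheory intervalIntegral

/-- Factorization of a real polynomial all of whose complex roots are real and `≤ -1`. -/
theorem exists_factor (F : Polynomial ℝ) (hF1 : 0 < F.eval 1)
    (hroots : ∀ τ : ℂ, (F.map (algebraMap ℝ ℂ)).eval τ = 0 → ∃ r : ℝ, r ≤ -1 ∧ τ = (r : ℂ)) :
    ∃ (ι : Type) (_ : Fintype ι) (p : ι → ℝ), (∀ j, 0 ≤ p j) ∧ (∀ j, p j ≤ 1 / 2) ∧
      (∀ t : ℝ, F.eval t = zt (F.eval 1) p t) := by
  classical
  set G := F.map (algebraMap ℝ ℂ) with hG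
  have hev : ∀ t : ℝ, G.eval (t : ℂ) = ((F.eval t : ℝ) : ℂ) := by
    intro t
    rw [hG, Polynomial.eval_map_algebraMap]
    have := Polynomial.aeval_algebraMap_apply ℂ t F
    simpa using this
  have hGne : G ≠ 0 := by
    intro h0
    have := hev 1
    rw [h0] at this
    simp only [Polynomial.eval_zero] at this
    have h2 : F.eval 1 = 0 := by exact_mod_cast this.symm
    linarith
  have hsp : G.Splits := IsAlgClosed.splits G
  have hroot : ∀ τ ∈ G.roots, ∃ r : ℝ, r ≤ -1 ∧ τ = (r : ℂ) := by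
    intro τ hτ
    exact hroots τ ((Polynomial.mem_roots hGne).1 hτ)
  have hprod : ∀ t : ℂ, G.eval t = G.leadingCoeff * ∏ j : G.roots, (t - (j : ℂ)) := by
    intro t
    rw [hsp.eval_eq_prod_roots t]
    congr 1
    rw [Finset.prod_eq_multiset_prod, ← Multiset.map_univ]
  refine ⟨G.roots, inferInstance, fun j => 1 / (1 - ((j : ℂ)).re), ?_, ?_, ?_⟩
  · intro j
    obtain ⟨r, hr, hjr⟩ := hroot (j : ℂ) (Multiset.coe_mem)
    have hre : ((j : ℂ)).re = r := by rw [hjr]; simp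
    change 0 ≤ 1 / (1 - ((j : ℂ)).re)
    rw [hre]
    apply div_nonneg <;> linarith
  · intro j
    obtain ⟨r, hr, hjr⟩ := hroot (j : ℂ) (Multiset.coe_mem)
    have hre : ((j : ℂ)).re = r := by rw [hjr]; simp
    change 1 / (1 - ((j : ℂ)).re) ≤ 1 / 2
    rw [hre, div_le_div_iff₀ (by linarith) (by norm_num)]
    linarith
  · intro t
    have h1 := hev t
    have h2 := hev 1
    rw [hprod] at h1 h2
    have hfac : ∀ j : G.roots, ((t : ℂ) - (j : ℂ)) = (((1 : ℝ) : ℂ) - (j : ℂ)) *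
        (((1 - 1 / (1 - ((j : ℂ)).re) * (1 - t) : ℝ)) : ℂ) := by
      intro j
      obtain ⟨r, hr, hjr⟩ := hroot (j : ℂ) (Multiset.coe_mem)
      rw [hjr]
      simp only [Complex.ofReal_re]
      rw [← Complex.ofReal_sub, ← Complex.ofReal_sub, ← Complex.ofReal_mul]
      congr 1
      have : (1 - r) ≠ 0 := by linarith
      field_simp
      ring
    rw [Finset.prod_congr rfl fun j _ => hfac j, Finset.prod_mul_distrib, ← mul_assoc, h2] at h1
    unfold zt
    rw [← Complex.ofReal_prod] at h1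
    exact_mod_cast h1.symm

variable {X : Type} [Fintype X] [DecidableEq X]

/-- The twisted partition function, block charge `Q = ∑_{x ∈ b} j_x`, angle `φ`. -/
noncomputable def Zf (μ : Equiv.Perm X → ℝ) (θ : X → ℝ) (b : Finset X) (φ : ℝ) : ℝ :=
  ∑ π, ∑ s, μ π * wt θ π s * Real.cos (φ * ∑ x ∈ b, jj π s x)

/-- Integer valued block charge. -/
def qz (π : Equiv.Perm X) (s : X → Fin 2) (b : Finset X) : ℤ :=
  ∑ x ∈ b, (((s x : ℕ) : ℤ) - ((s (π x) : ℕ) : ℤ))

omit [Fintype X] [DecidableEq X] in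
theorem qz_cast (π : Equiv.Perm X) (s : X → Fin 2) (b : Finset X) :
    ((qz π s b : ℤ) : ℝ) = ∑ x ∈ b, jj π s x := by
  unfold qz jj
  push_cast
  rfl

/-- The Chebyshev polynomial of the law of `Q`. -/
noncomputable def FP (μ : Equiv.Perm X → ℝ) (θ : X → ℝ) (b : Finset X) : Polynomial ℝ :=
  ∑ π, ∑ s, Polynomial.C (μ π * wt θ π s) * Polynomial.Chebyshev.T ℝ (qz π s b)

theorem FP_eval_cos (μ : Equiv.Perm X → ℝ) (θ : X → ℝ) (b : Finset X) (φ : ℝ) :
    (FP μ θ b).eval (Real.cos φ) = Zf μ θ b φ := by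
  unfold FP Zf
  rw [Polynomial.eval_finsetSum]
  refine sum_congr rfl fun π _ => ?_
  rw [Polynomial.eval_finsetSum]
  refine sum_congr rfl fun s _ => ?_
  rw [Polynomial.eval_mul, Polynomial.eval_C, Polynomial.Chebyshev.T_real_cos, ← qz_cast,
    mul_comm φ]

theorem FP_eval_one (μ : Equiv.Perm X → ℝ) (θ : X → ℝ) (b : Finset X) :
    (FP μ θ b).eval 1 = ZZ μ θ := by
  have h := FP_eval_cos μ θ b 0
  rw [Real.cos_zero] at h
  rw [h]
  unfold Zf ZZ
  simp

theorem FP_deriv_one (μ : Equiv.Perm X → ℝ) (θ : X → ℝ) (b : Finset X) :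
    (FP μ θ b).derivative.eval 1 = ∑ π, ∑ s, μ π * wt θ π s * (∑ x ∈ b, jj π s x) ^ 2 := by
  unfold FP
  rw [Polynomial.derivative_sum, Polynomial.eval_finsetSum]
  refine sum_congr rfl fun π _ => ?_
  rw [Polynomial.derivative_sum, Polynomial.eval_finsetSum]
  refine sum_congr rfl fun s _ => ?_
  rw [Polynomial.derivative_C_mul, Polynomial.Chebyshev.T_derivative_eq_U, Polynomial.eval_mul,
    Polynomial.eval_C, Polynomial.eval_mul, Polynomial.Chebyshev.U_eval_one, ← qz_cast]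
  simp
  ring_nf
  tauto

/-- The exponent `1 + j_x`. -/
def ex (π : Equiv.Perm X) (s : X → Fin 2) (x : X) : ℕ :=
  if s x = s (π x) then 1 else if s x = 1 then 2 else 0

omit [Fintype X] [DecidableEq X] in
theorem ex_cast (π : Equiv.Perm X) (s : X → Fin 2) (x : X) :
    ((ex π s x : ℕ) : ℤ) = 1 + (((s x : ℕ) : ℤ) - ((s (π x) : ℕ) : ℤ)) := by
  unfold ex
  generalize s x = a
  generalize s (π x) = b
  fin_cases a <;> fin_cases b <;> simp

omit [DecidableEq X] in
theorem sum_ex (π : Equiv.Perm X) (s : X → Fin 2) : ∑ x, ex π s x = Fintype.card X := by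
  have h : ((∑ x, ex π s x : ℕ) : ℤ) = ((Fintype.card X : ℕ) : ℤ) := by
    push_cast
    simp only [ex_cast]
    rw [sum_add_distrib, sum_sub_distrib, Equiv.sum_comp π fun x => ((s x : ℕ) : ℤ)]
    simp
  exact_mod_cast h

omit [Fintype X] [DecidableEq X] in
theorem sum_ex_b (π : Equiv.Perm X) (s : X → Fin 2) (b : Finset X) :
    ((∑ x ∈ b, ex π s x : ℕ) : ℤ) = (b.card : ℤ) + qz π s b := by
  push_cast
  simp only [ex_cast]
  rw [sum_add_distrib]
  unfold qz
  simp

theorem gen_eq (μ : Equiv.Perm X → ℝ) (θ : X → ℝ) (ζ : X → ℂ) :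
    gen μ θ ζ = ∑ π, ∑ s, ((μ π * wt θ π s : ℝ) : ℂ) * ∏ x, ζ x ^ ex π s x := by
  unfold gen
  refine sum_congr rfl fun π _ => sum_congr rfl fun s _ => ?_
  congr 1
  refine prod_congr rfl fun x _ => ?_
  unfold ex
  split_ifs <;> simp

theorem gen_smulF (μ : Equiv.Perm X → ℝ) (θ : X → ℝ) (ζ : X → ℂ) (l : ℂ) :
    gen μ θ (fun x => l * ζ x) = l ^ Fintype.card X * gen μ θ ζ := by
  rw [gen_eq, gen_eq, mul_sum]
  refine sum_congr rfl fun π _ => ?_
  rw [mul_sum]
  refine sum_congr rfl fun s _ => ?_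
  simp only [mul_pow]
  rw [prod_mul_distrib, prod_pow_eq_pow_sum, sum_ex]
  ring

/-- The Laurent polynomial of the law of `Q`. -/
noncomputable def SQ (μ : Equiv.Perm X → ℝ) (θ : X → ℝ) (b : Finset X) (w : ℂ) : ℂ :=
  ∑ π, ∑ s, ((μ π * wt θ π s : ℝ) : ℂ) * w ^ qz π s b

theorem gen_block (μ : Equiv.Perm X → ℝ) (θ : X → ℝ) (b : Finset X) {w : ℂ} (hw : w ≠ 0) :
    gen μ θ (fun x => if x ∈ b then w else 1) = w ^ b.card * SQ μ θ b w := by
  rw [gen_eq]
  unfold SQ
  rw [mul_sum]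
  refine sum_congr rfl fun π _ => ?_
  rw [mul_sum]
  refine sum_congr rfl fun s _ => ?_
  have h1 : ∏ x, (if x ∈ b then w else 1) ^ ex π s x = ∏ x ∈ b, w ^ ex π s x := by
    rw [← prod_subset (subset_univ b)]
    · refine prod_congr rfl fun x hx => ?_
      rw [if_pos hx]
    · intro x _ hx
      rw [if_neg hx, one_pow]
  have h2 : ∏ x ∈ b, w ^ ex π s x = w ^ b.card * w ^ qz π s b := by
    rw [prod_pow_eq_pow_sum, ← zpow_natCast, sum_ex_b, zpow_add₀ hw, zpow_natCast]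
  rw [h1, h2]
  ring

/-- Flip of all spins. -/
def flipE : (X → Fin 2) ≃ (X → Fin 2) where
  toFun s := fun x => Fin.rev (s x)
  invFun s := fun x => Fin.rev (s x)
  left_inv s := by funext x; simp
  right_inv s := by funext x; simp

omit [DecidableEq X] in
theorem wt_flipF (θ : X → ℝ) (π : Equiv.Perm X) (s : X → Fin 2) :
    wt θ π (flipE s) = wt θ π s := by
  unfold wt flipE
  refine prod_congr rfl fun x _ => ?_
  simp

omit [Fintype X] [DecidableEq X] in
theorem qz_flip (π : Equiv.Perm X) (s : X → Fin 2) (b : Finset X) :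
    qz π (flipE s) b = - qz π s b := by
  unfold qz flipE
  rw [← sum_neg_distrib]
  refine sum_congr rfl fun x _ => ?_
  change ((Fin.rev (s x) : ℕ) : ℤ) - ((Fin.rev (s (π x)) : ℕ) : ℤ) = _
  generalize s x = a
  generalize s (π x) = c
  fin_cases a <;> fin_cases c <;> simp

theorem SQ_inv (μ : Equiv.Perm X → ℝ) (θ : X → ℝ) (b : Finset X) (w : ℂ) :
    SQ μ θ b w⁻¹ = SQ μ θ b w := by
  unfold SQ
  refine sum_congr rfl fun π _ => ?_
  rw [← Equiv.sum_comp flipE]
  refine sum_congr rfl fun s _ => ?_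
  rw [wt_flipF, qz_flip, inv_zpow', neg_neg]

theorem FP_eval_ccos (μ : Equiv.Perm X → ℝ) (θ : X → ℝ) (b : Finset X) (φ : ℂ) :
    ((FP μ θ b).map (algebraMap ℝ ℂ)).eval (Complex.cos φ) =
      SQ μ θ b (Complex.exp (φ * Complex.I)) := by
  have h1 : ((FP μ θ b).map (algebraMap ℝ ℂ)).eval (Complex.cos φ) =
      ∑ π, ∑ s, ((μ π * wt θ π s : ℝ) : ℂ) * Complex.cos (qz π s b * φ) := by
    unfold FP
    rw [Polynomial.map_sum, Polynomial.eval_finsetSum]
    refine sum_congr rfl fun π _ => ?_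
    rw [Polynomial.map_sum, Polynomial.eval_finsetSum]
    refine sum_congr rfl fun s _ => ?_
    rw [Polynomial.map_mul, Polynomial.map_C, Polynomial.Chebyshev.map_T, Polynomial.eval_mul,
      Polynomial.eval_C, Polynomial.Chebyshev.T_complex_cos]
    rfl
  have h2 : (2 : ℂ) * ((FP μ θ b).map (algebraMap ℝ ℂ)).eval (Complex.cos φ) =
      SQ μ θ b (Complex.exp (φ * Complex.I)) + SQ μ θ b (Complex.exp (φ * Complex.I))⁻¹ := by
    rw [h1]
    unfold SQ
    rw [mul_sum, ← sum_add_distrib]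
    refine sum_congr rfl fun π _ => ?_
    rw [mul_sum, ← sum_add_distrib]
    refine sum_congr rfl fun s _ => ?_
    rw [← Complex.exp_neg, ← Complex.exp_int_mul, ← Complex.exp_int_mul, Complex.cos]
    ring_nf
  rw [SQ_inv] at h2
  linear_combination h2 / 2

theorem SQ_ne_zero_of_im_pos {μ : Equiv.Perm X → ℝ} {θ : X → ℝ} (hst : Stable μ θ)
    (b : Finset X) {w : ℂ} (hw : 0 < w.im) : SQ μ θ b w ≠ 0 := by
  have hw0 : w ≠ 0 := by
    rintro rfl
    simp at hw
  intro h0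
  set δ : ℝ := w.im / (2 * (|w.re| + 1)) with hδ
  have hδ0 : 0 < δ := by positivity
  set l : ℂ := 1 + δ * Complex.I with hl
  have hlim : l.im = δ := by simp [hl]
  have hlre : l.re = 1 := by simp [hl]
  have h1 : gen μ θ (fun x => l * (if x ∈ b then w else 1)) ≠ 0 := by
    apply hst
    intro x
    split_ifs
    · rw [Complex.mul_im, hlim, hlre]
      have h2 : δ * (|w.re| + 1) = w.im / 2 := by
        rw [hδ]
        field_simp
      have h3 : -(δ * |w.re|) ≤ δ * w.re := by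
        have := neg_abs_le w.re
        nlinarith
      nlinarith
    · rw [mul_one, hlim]
      exact hδ0
  apply h1
  rw [gen_smulF, gen_block μ θ b hw0, h0]
  simp

theorem SQ_pos_real {μ : Equiv.Perm X → ℝ} {θ : X → ℝ} (hμ : ∀ π, 0 ≤ μ π)
    (hθ : ∀ x, 0 ≤ θ x) (hZ : 0 < ZZ μ θ) (b : Finset X) {r : ℝ} (hr : 0 < r) :
    SQ μ θ b (r : ℂ) ≠ 0 := by
  have hwt : ∀ π s, 0 ≤ wt θ π s := by
    intro π s
    unfold wt
    refine prod_nonneg fun x _ => ?_
    split_ifs
    · norm_num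
    · exact hθ x
  have h1 : SQ μ θ b (r : ℂ) = ((∑ π, ∑ s, μ π * wt θ π s * r ^ qz π s b : ℝ) : ℂ) := by
    unfold SQ
    push_cast
    rfl
  rw [h1]
  intro h0
  have h2 : (∑ π, ∑ s, μ π * wt θ π s * r ^ qz π s b : ℝ) = 0 := by exact_mod_cast h0
  have h3 : ∀ π, ∑ s, μ π * wt θ π s * r ^ qz π s b = 0 := by
    intro π
    exact (sum_eq_zero_iff_of_nonneg (fun π _ => sum_nonneg fun s _ =>
      mul_nonneg (mul_nonneg (hμ π) (hwt π s)) (zpow_pos hr _).le)).1 h2 π (mem_univ _)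
  have h4 : ZZ μ θ = 0 := by
    unfold ZZ
    refine sum_eq_zero fun π _ => sum_eq_zero fun s _ => ?_
    have := (sum_eq_zero_iff_of_nonneg (fun s _ =>
      mul_nonneg (mul_nonneg (hμ π) (hwt π s)) (zpow_pos hr _).le)).1 (h3 π) s (mem_univ _)
    rcases mul_eq_zero.1 this with h | h
    · exact h
    · exact absurd h (zpow_pos hr _).ne'
  linarith

theorem FP_roots {μ : Equiv.Perm X → ℝ} {θ : X → ℝ} (hμ : ∀ π, 0 ≤ μ π)
    (hθ : ∀ x, 0 ≤ θ x) (hZ : 0 < ZZ μ θ) (hst : Stable μ θ) (b : Finset X) (τ : ℂ)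
    (hτ : ((FP μ θ b).map (algebraMap ℝ ℂ)).eval τ = 0) : ∃ r : ℝ, r ≤ -1 ∧ τ = (r : ℂ) := by
  obtain ⟨φ, rfl⟩ := Complex.cos_surjective τ
  rw [FP_eval_ccos] at hτ
  set w := Complex.exp (φ * Complex.I) with hw
  have hw0 : w ≠ 0 := Complex.exp_ne_zero _
  have hcos : Complex.cos φ = (w + w⁻¹) / 2 := by
    rw [hw, ← Complex.exp_neg, Complex.cos]
    ring_nf
  have him : w.im = 0 := by
    rcases lt_trichotomy w.im 0 with h | h | h
    · exfalso
      have h1 : 0 < (w⁻¹).im := by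
        rw [Complex.inv_im]
        apply div_pos (by linarith)
        exact Complex.normSq_pos.2 hw0
      have := SQ_ne_zero_of_im_pos hst b h1
      rw [SQ_inv] at this
      exact this hτ
    · exact h
    · exact absurd hτ (SQ_ne_zero_of_im_pos hst b h)
  have hwr : w = ((w.re : ℝ) : ℂ) := by
    apply Complex.ext
    · simp
    · simp [him]
  have hneg : w.re < 0 := by
    rcases lt_trichotomy w.re 0 with h | h | h
    · exact h
    · exfalso
      apply hw0
      rw [hwr, h]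
      simp
    · exfalso
      rw [hwr] at hτ
      exact SQ_pos_real hμ hθ hZ b h hτ
  refine ⟨(w.re + w.re⁻¹) / 2, ?_, ?_⟩
  · have h1 : (w.re + w.re⁻¹) / 2 + 1 = (w.re + 1) ^ 2 / (2 * w.re) := by
      have hne : w.re ≠ 0 := hneg.ne
      field_simp
      ring
    have h2 : (w.re + 1) ^ 2 / (2 * w.re) ≤ 0 :=
      div_nonpos_of_nonneg_of_nonpos (sq_nonneg _) (by linarith)
    linarith
  · rw [hcos]
    conv_lhs => rw [hwr]
    push_cast
    rfl

theorem KK_block (μ : Equiv.Perm X → ℝ) (θ : X → ℝ) (b : Finset X) :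
    KK μ θ (fun z => if z ∈ b then 1 else 0) =
      (∑ π, ∑ s, μ π * wt θ π s * (∑ x ∈ b, jj π s x) ^ 2) / ZZ μ θ := by
  unfold KK EE
  congr 1
  refine sum_congr rfl fun π _ => sum_congr rfl fun s _ => ?_
  congr 2
  simp

/-- **Block twist, `t`-form.** -/
theorem kap_int_t {μ : Equiv.Perm X → ℝ} {θ : X → ℝ} (hμ : ∀ π, 0 ≤ μ π)
    (hθ : ∀ x, 0 ≤ θ x) (hZ : 0 < ZZ μ θ) (hst : Stable μ θ) (b : Finset X) :
    KK μ θ (fun z => if z ∈ b then 1 else 0) *
        (∫ t in (-1 : ℝ)..1, (1 - t) * (FP μ θ b).eval t) ≤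
      ∫ t in (-1 : ℝ)..1, (FP μ θ b).eval t := by
  classical
  obtain ⟨ι, hι, p, hp0, hp1, hF⟩ := exists_factor (FP μ θ b) (by rw [FP_eval_one]; exact hZ)
    (FP_roots hμ hθ hZ hst b)
  rw [FP_eval_one] at hF
  have hd1 : HasDerivAt (fun t => (FP μ θ b).eval t) ((FP μ θ b).derivative.eval 1) 1 :=
    (FP μ θ b).hasDerivAt 1
  have hd2 := hasDerivAt_zt (ZZ μ θ) p 1
  have hfun : (fun t => (FP μ θ b).eval t) = zt (ZZ μ θ) p := funext hF
  rw [hfun] at hd1
  have hd3 := hd1.unique hd2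
  have hsum : ∑ j, p j = KK μ θ (fun z => if z ∈ b then 1 else 0) := by
    rw [KK_block, ← FP_deriv_one, hd3, eq_div_iff hZ.ne', mul_comm]
    congr 1
    refine sum_congr rfl fun j _ => ?_
    simp
  have h := zint hZ.le hp0 hp1
  rw [hsum] at h
  simp only [← hF] at h
  exact h

/-- **Block twist, angle form.** -/
theorem kap_int {μ : Equiv.Perm X → ℝ} {θ : X → ℝ} (hμ : ∀ π, 0 ≤ μ π)
    (hθ : ∀ x, 0 ≤ θ x) (hZ : 0 < ZZ μ θ) (hst : Stable μ θ) (b : Finset X) :
    KK μ θ (fun z => if z ∈ b then 1 else 0) *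
        (∫ φ in (0 : ℝ)..Real.pi, Real.sin φ * (1 - Real.cos φ) * Zf μ θ b φ) ≤
      ∫ φ in (0 : ℝ)..Real.pi, Real.sin φ * Zf μ θ b φ := by
  have hsub : ∀ g : ℝ → ℝ, Continuous g →
      (∫ φ in (0 : ℝ)..Real.pi, Real.sin φ * g (Real.cos φ)) = ∫ t in (-1 : ℝ)..1, g t := by
    intro g hg
    have h := integral_comp_mul_deriv (a := 0) (b := Real.pi) (f := Real.cos)
      (f' := fun φ => -Real.sin φ) (g := g) (fun x _ => Real.hasDerivAt_cos x)
      (by fun_prop) hg
    rw [Real.cos_zero, Real.cos_pi, integral_symm (-1 : ℝ) 1] at h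
    have h2 : (∫ φ in (0 : ℝ)..Real.pi, (g ∘ Real.cos) φ * -Real.sin φ) =
        - ∫ φ in (0 : ℝ)..Real.pi, Real.sin φ * g (Real.cos φ) := by
      rw [← intervalIntegral.integral_neg]
      refine integral_congr fun φ _ => ?_
      simp only [Function.comp]
      ring
    rw [h2] at h
    linarith
  have hc : Continuous fun t : ℝ => (FP μ θ b).eval t := (FP μ θ b).continuous
  have h1 := hsub (fun t => (FP μ θ b).eval t) hc
  have h2 := hsub (fun t => (1 - t) * (FP μ θ b).eval t) (by fun_prop)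
  simp only [FP_eval_cos] at h1 h2
  have h3 := kap_int_t hμ hθ hZ hst b
  rw [← h1, ← h2] at h3
  simpa only [mul_assoc] using h3

end Vale.Agent.P361.LRO
end

section

/-!
P361, block (1): the twisted dictionary. `∑ μ wt cos (φ Q_B)` is the loop sum with the
slices `1 + θ (cos φ σ³ + sin φ σ¹)` on `B` and `1 + θ σ³` off `B`.
-/

namespace Vale.Agent.P361.LRO

open Finset Matrix

noncomputable section

variable {X : Type} [Fintype X] [DecidableEq X]

/-- The slice in the charge picture with the twist `c = e^{iφ}`. -/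
def chA (θ : ℝ) (c d : ℂ) : Matrix (Fin 2) (Fin 2) ℂ := !![1, θ * d; θ * c, 1]

theorem chA_apply (θ φ : ℝ) (a b : Fin 2) :
    chA θ (Complex.exp (φ * Complex.I)) (Complex.exp (-(φ * Complex.I))) a b =
      ((if a = b then 1 else θ : ℝ) : ℂ) *
        Complex.exp ((φ * (((a : ℕ) : ℝ) - ((b : ℕ) : ℝ)) : ℝ) * Complex.I) := by
  fin_cases a <;> fin_cases b <;> simp [chA] 

theorem chA_apply_one (θ : ℝ) (a b : Fin 2) :
    chA θ 1 1 a b = ((if a = b then 1 else θ : ℝ) : ℂ) := by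
  fin_cases a <;> fin_cases b <;> simp [chA]

def rotU : Matrix (Fin 2) (Fin 2) ℂ := !![1, 1; Complex.I, -Complex.I]
def rotW : Matrix (Fin 2) (Fin 2) ℂ := !![1 / 2, -Complex.I / 2; 1 / 2, Complex.I / 2]

theorem rotW_mul_rotU : rotW * rotU = 1 := by
  unfold rotW rotU
  ext i j
  fin_cases i <;> fin_cases j <;> simp [Matrix.mul_apply, Fin.sum_univ_two] <;> ring_nf <;>
    simp [Complex.I_sq] <;> norm_num

theorem rotU_chA (θ φ : ℝ) :
    rotU * chA θ (Complex.exp (φ * Complex.I)) (Complex.exp (-(φ * Complex.I))) * rotW =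
      (rotM θ φ).map (algebraMap ℝ ℂ) := by
  have h1 : Complex.exp (φ * Complex.I) = Complex.cos φ + Complex.sin φ * Complex.I := by
    rw [Complex.exp_mul_I]
  have h2 : Complex.exp (-(φ * Complex.I)) = Complex.cos φ - Complex.sin φ * Complex.I := by
    rw [← neg_mul, Complex.exp_mul_I, Complex.cos_neg, Complex.sin_neg]
    ring
  rw [h1, h2]
  unfold rotU rotW chA rotM
  ext i j
  fin_cases i <;> fin_cases j <;>
    simp [Matrix.mul_apply, Fin.sum_univ_two] <;> ring_nf <;> simp [Complex.I_sq] <;> ring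

theorem rotU_chA_one (θ : ℝ) :
    rotU * chA θ 1 1 * rotW = (rotM θ 0).map (algebraMap ℝ ℂ) := by
  have h := rotU_chA θ 0
  simpa using h

/-- The slices in the spin picture. -/
def spA (θ : X → ℝ) (B : Finset X) (φ : ℝ) (z : X) : Matrix (Fin 2) (Fin 2) ℝ :=
  if z ∈ B then rotM (θ z) φ else rotM (θ z) 0

/-- The slices in the charge picture. -/
def caA (θ : X → ℝ) (B : Finset X) (φ : ℝ) (z : X) : Matrix (Fin 2) (Fin 2) ℂ :=
  if z ∈ B then chA (θ z) (Complex.exp (φ * Complex.I)) (Complex.exp (-(φ * Complex.I)))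
  else chA (θ z) 1 1

omit [Fintype X] in
theorem rotU_caA (θ : X → ℝ) (B : Finset X) (φ : ℝ) (z : X) :
    rotU * caA θ B φ z * rotW = (spA θ B φ z).map (algebraMap ℝ ℂ) := by
  unfold caA spA
  split_ifs
  · exact rotU_chA _ _
  · exact rotU_chA_one _

theorem prod_caA (θ : X → ℝ) (B : Finset X) (φ : ℝ) (π : Equiv.Perm X) (s : X → Fin 2) :
    ∏ z, caA θ B φ z (s z) (s (π z)) =
      (wt θ π s : ℂ) * Complex.exp ((φ * ∑ z ∈ B, jj π s z : ℝ) * Complex.I) := by
  have h1 : ∀ z, caA θ B φ z (s z) (s (π z)) =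
      ((if s z = s (π z) then 1 else θ z : ℝ) : ℂ) *
        (if z ∈ B then Complex.exp ((φ * jj π s z : ℝ) * Complex.I) else 1) := by
    intro z
    unfold caA jj
    by_cases hz : z ∈ B
    · rw [if_pos hz, if_pos hz, chA_apply]
    · rw [if_neg hz, if_neg hz, chA_apply_one, mul_one]
  simp only [h1, Finset.prod_mul_distrib]
  congr 1
  · unfold wt
    push_cast
    rfl
  · rw [Finset.prod_ite_mem, Finset.univ_inter, ← Complex.exp_sum]
    congr 1
    rw [Finset.mul_sum]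
    push_cast
    rw [Finset.sum_mul]

/-- **Twisted dictionary**: `∑ μ wt cos (φ Q_B)` in the spin picture. -/
theorem Zf_eq_NZ (μ : Equiv.Perm X → ℝ) (θ : X → ℝ) (B : Finset X) (φ : ℝ) :
    Zf μ θ B φ = Dict.NZ μ (spA θ B φ) := by
  have h1 : (Br.NZ μ (caA θ B φ)) = Br.NZ μ (fun z => (spA θ B φ z).map (algebraMap ℝ ℂ)) := by
    rw [← Br.NZ_conj μ (caA θ B φ) rotW_mul_rotU]
    congr 1
    funext z
    exact rotU_caA θ B φ z
  have h2 : Br.NZ μ (fun z => (spA θ B φ z).map (algebraMap ℝ ℂ)) =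
      ((Dict.NZ μ (spA θ B φ) : ℝ) : ℂ) := by
    unfold Br.NZ Dict.NZ
    push_cast
    refine Finset.sum_congr rfl fun π _ => ?_
    rw [smul_eq_mul, Complex.ofReal_mul, Complex.real_smul]
    congr 1
    push_cast
    rfl
  have h3 : (Br.NZ μ (caA θ B φ)).re = Zf μ θ B φ := by
    unfold Br.NZ Zf
    rw [Complex.re_sum]
    refine Finset.sum_congr rfl fun π _ => ?_
    rw [Complex.real_smul, Complex.re_ofReal_mul, Complex.re_sum, Finset.mul_sum]
    refine Finset.sum_congr rfl fun s _ => ?_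
    rw [prod_caA, Complex.re_ofReal_mul, Complex.exp_ofReal_mul_I_re]
    ring
  rw [← h3, h1, h2, Complex.ofReal_re]

end

end Vale.Agent.P361.LRO
end

section

/-!
P361, bridge: the partition function of the physical circuit is the trace of a product of
matrices on `V → Fin 2`.
-/

namespace Vale.Agent.P361.LRO.Br

open Finset Matrix

noncomputable section

section chain

variable {Y : Type} [Fintype Y] [DecidableEq Y] {R : Type} [CommRing R]

/-- Expansion of a product of matrices. -/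
theorem chain : ∀ (n : ℕ) (M : Fin n → Matrix Y Y R) (b : Y) (g : Y → R),
    ∑ t : Fin n → Y, (∏ k : Fin n, M k (t k) ((Fin.cons b t : Fin (n + 1) → Y) k.castSucc)) *
      g ((Fin.cons b t : Fin (n + 1) → Y) (Fin.last n)) =
    ∑ a, g a * ((List.ofFn M).reverse).prod a b
  | 0, M, b, g => by
    simp only [List.ofFn_zero, List.reverse_nil, List.prod_nil, Finset.univ_unique,
      Finset.sum_singleton, Finset.univ_eq_empty, Finset.prod_empty, one_mul]
    rw [Finset.sum_eq_single b]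
    · simp
    · intro a _ h
      rw [Matrix.one_apply_ne h, mul_zero]
    · intro h
      exact absurd (Finset.mem_univ b) h
  | n + 1, M, b, g => by
    rw [← (Fin.consEquiv fun _ : Fin (n + 1) => Y).sum_comp, Fintype.sum_prod_type]
    have h : ∀ t₀ : Y, ∑ t' : Fin n → Y, (∏ k : Fin (n + 1), M k
        ((Fin.consEquiv (fun _ : Fin (n + 1) => Y)) (t₀, t') k)
        ((Fin.cons b ((Fin.consEquiv (fun _ : Fin (n + 1) => Y)) (t₀, t')) :
          Fin (n + 2) → Y) k.castSucc)) *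
        g ((Fin.cons b ((Fin.consEquiv (fun _ : Fin (n + 1) => Y)) (t₀, t')) :
          Fin (n + 2) → Y) (Fin.last (n + 1))) =
        M 0 t₀ b * ∑ a, g a * ((List.ofFn fun k : Fin n => M k.succ).reverse).prod a t₀ := by
      intro t₀
      rw [← chain n (fun k => M k.succ) t₀ g, Finset.mul_sum]
      refine Finset.sum_congr rfl fun t' _ => ?_
      rw [Fin.prod_univ_succ, ← mul_assoc]
      congr 1
    rw [Finset.sum_congr rfl fun t₀ _ => h t₀, List.ofFn_succ, List.reverse_cons, List.prod_append,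
      List.prod_singleton]
    simp only [Matrix.mul_apply, Finset.mul_sum]
    rw [Finset.sum_comm]
    refine Finset.sum_congr rfl fun a _ => Finset.sum_congr rfl fun t₀ _ => ?_
    ring

/-- Cyclic products. -/
theorem cyclic (n : ℕ) (M : Fin (n + 1) → Matrix Y Y R) :
    ∑ s : Fin (n + 1) → Y, ∏ k, M k (s k) (s (k - 1)) =
      Matrix.trace (M 0 * ((List.ofFn fun k : Fin n => M k.succ).reverse).prod) := by
  rw [← (Fin.consEquiv fun _ : Fin (n + 1) => Y).sum_comp, Fintype.sum_prod_type, Matrix.trace]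
  refine Finset.sum_congr rfl fun b _ => ?_
  rw [Matrix.diag_apply, Matrix.mul_apply, ← chain n (fun k => M k.succ) b fun a => M 0 b a]
  refine Finset.sum_congr rfl fun t _ => ?_
  rw [Fin.prod_univ_succ, mul_comm]
  congr 1
  · refine Finset.prod_congr rfl fun k _ => ?_
    have h : k.succ - 1 = k.castSucc := by
      rw [← Fin.coeSucc_eq_succ, add_sub_cancel_right]
    rw [h]
    rfl
  · have h : (0 : Fin (n + 1)) - 1 = Fin.last n := by
      rw [sub_eq_iff_eq_add]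
      simp
    rw [h]
    rfl

end chain

end

end Vale.Agent.P361.LRO.Br
end

section

/-! P361 LRO, dictionary (D2): the trace formula of the physical circuit. -/

namespace Vale.Agent.P361.LRO.Dict

open Finset Matrix

noncomputable section

section down

variable {M : Type*} [Monoid M]

theorem reverse_prod_eq_down (n : ℕ) (f : ℕ → M) :
    ((List.ofFn fun k : Fin n => f (k + 1)).reverse).prod = down f n := by
  induction n with
  | zero => simp [down]
  | succ n ih =>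
    rw [List.ofFn_succ', List.concat_eq_append, List.reverse_append, List.reverse_singleton,
      List.singleton_append, List.prod_cons]
    simp only [Fin.val_last, Fin.val_castSucc]
    rw [ih]; rfl

theorem down_swap (G : M) (T : ℕ → M) (n : ℕ) :
    down (fun k => G * T k) n * G = G * down (fun k => T k * G) n := by
  induction n with
  | zero => simp [down]
  | succ n ih =>
    simp only [down]
    rw [mul_assoc (G * T (n + 1)), ih]
    simp only [mul_assoc]

theorem down_congr {f g : ℕ → M} {n : ℕ} (h : ∀ k, 1 ≤ k → k ≤ n → f k = g k) :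
    down f n = down g n := by
  induction n with
  | zero => rfl
  | succ n ih =>
    simp only [down]
    rw [ih fun k h1 h2 => h k h1 (by omega), h (n + 1) (by omega) le_rfl]

theorem down_const (a : M) (n : ℕ) : down (fun _ => a) n = a ^ n := by
  induction n with
  | zero => simp [down]
  | succ n ih => simp only [down]; rw [ih, pow_succ']

theorem down_split (f : ℕ → M) (m n : ℕ) :
    down f (m + n) = down (fun k => f (n + k)) m * down f n := by
  induction m with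
  | zero => simp [down]
  | succ m ih =>
    have : m + 1 + n = (m + n) + 1 := by omega
    rw [this]
    simp only [down]
    rw [ih, mul_assoc]
    congr 2
    omega

end down

variable {R : Type} [CommRing R] [Algebra ℝ R]

section B

variable {V : Type} [Fintype V] [DecidableEq V] {N : ℕ}

omit [Algebra ℝ R] in
theorem sum_tens_base (B : Fin (N + 1) → Matrix (V → Fin 2) (V → Fin 2) R) :
    ∑ s : Fin (N + 1) × V → Fin 2, tens B s (s ∘ base N)
      = Matrix.trace (B 0 * ((List.ofFn fun k : Fin N => B k.succ).reverse).prod) := by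
  classical
  rw [← Br.cyclic, ← (Equiv.curry (Fin (N + 1)) V (Fin 2)).sum_comp]
  rfl

/-- (D2) The trace formula. -/
theorem NZ_phys (L : List (V × V)) (β : ℝ) (N : ℕ)
    (A : Fin (N + 1) × V → Matrix (Fin 2) (Fin 2) R) :
    NZ (phys L β N) A = Matrix.trace
      (down (fun k => layM (fun x => A (Fin.ofNat (N + 1) k, x)) * gatM L (β / (2 * N))) N *
        layM (fun x => A (0, x))) := by
  set p : ℝ := β / (2 * N) with hp
  set T : Fin (N + 1) → Matrix (V → Fin 2) (V → Fin 2) R := fun k => layM fun x => A (k, x)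
    with hT
  have h0 : NZ (phys L β N) A
      = ∑ π, law (gates L N p) (base N) π • ∑ s : Fin (N + 1) × V → Fin 2, tens T s (s ∘ π) := by
    rw [NZ, phys]
    refine Finset.sum_congr rfl fun π _ => ?_
    congr 1
    refine Finset.sum_congr rfl fun s _ => ?_
    rw [tens, Fintype.prod_prod_type]
    rfl
  rw [h0, law_sum, actL_gates, sum_tens_base]
  rcases N with _ | n
  · simp [down, hT]
  · have e0 : (if (0 : Fin (n + 1 + 1)) = Fin.last (n + 1) then T 0 else gatM L p * T 0)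
        = gatM L p * T 0 := by
      rw [if_neg]
      exact (Fin.last_pos).ne
    have e1 : ((List.ofFn fun k : Fin (n + 1) => (fun k : Fin (n + 1 + 1) =>
        if k = Fin.last (n + 1) then T k else gatM L p * T k) k.succ).reverse).prod
        = T (Fin.last (n + 1)) * down (fun k => gatM L p * T (Fin.ofNat (n + 1 + 1) k)) n := by
      rw [List.ofFn_succ', List.concat_eq_append, List.reverse_append, List.reverse_singleton,
        List.singleton_append, List.prod_cons]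
      congr 1
      · simp
      · rw [← reverse_prod_eq_down]
        congr 3
        funext k
        have hk : k.castSucc.succ ≠ Fin.last (n + 1) := by
          intro h
          have := congrArg Fin.val h
          simp at this
          omega
        have hk' : k.castSucc.succ = Fin.ofNat (n + 1 + 1) ((k : ℕ) + 1) := by
          apply Fin.ext
          rw [Fin.val_ofNat, Nat.mod_eq_of_lt (by omega)]
          simp
        simp only [if_neg hk]
        rw [hk']
    have elast : Fin.ofNat (n + 1 + 1) (n + 1) = Fin.last (n + 1) := by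
      apply Fin.ext
      rw [Fin.val_ofNat, Nat.mod_eq_of_lt (by omega)]
      simp
    simp only [e0] at *
    rw [e1]
    rw [Matrix.trace_mul_comm (gatM L p * T 0)]
    have e2 : T (Fin.last (n + 1)) * down (fun k => gatM L p * T (Fin.ofNat (n + 1 + 1) k)) n *
        (gatM L p * T 0)
        = down (fun k => T (Fin.ofNat (n + 1 + 1) k) * gatM L p) (n + 1) * T 0 := by
      rw [← mul_assoc, mul_assoc (T (Fin.last (n + 1))), down_swap, ← mul_assoc, down, elast]
      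
    rw [e2]

end B

end

end Vale.Agent.P361.LRO.Dict
end

section

/-!
P361, block (1): the twisted partition function of the physical circuit is
`Tr (stepM ^ N * rotT)`.
-/

namespace Vale.Agent.P361.LRO

open Finset Matrix

noncomputable section

variable {V : Type} [Fintype V] [DecidableEq V]

theorem rotM_zero_zero : rotM 0 0 = 1 := by
  unfold rotM
  ext i j
  fin_cases i <;> fin_cases j <;> simp

theorem rotM_zero_apply (θ : ℝ) (a b : Fin 2) :
    rotM θ 0 a b = if a = b then 1 + θ * (if a = 0 then 1 else -1) else 0 := by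
  unfold rotM
  fin_cases a <;> fin_cases b <;> simp <;> ring

theorem rotM_symm (θ φ : ℝ) (a b : Fin 2) : rotM θ φ a b = rotM θ φ b a := by
  unfold rotM
  fin_cases a <;> fin_cases b <;> simp

/-- The diagonal slice. -/
def diaM (β : ℝ) (h : V → ℝ) (N : ℕ) : Matrix (V → Fin 2) (V → Fin 2) ℝ :=
  Matrix.diagonal fun σ : V → Fin 2 => ∏ x, (1 + β * h x / (2 * N) * if σ x = 0 then 1 else -1)

theorem layM_phys (K β : ℝ) (h : V → ℝ) (b : Finset V) (N : ℕ) (φ : ℝ) {k : ℕ} (h1 : 1 ≤ k)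
    (h2 : k ≤ N) :
    Dict.layM (fun x => spA (th β N h (blk K b)) (hatb N b) φ (Fin.ofNat (N + 1) k, x)) =
      diaM β h N := by
  have hk : Fin.ofNat (N + 1) k ≠ 0 := by
    intro h0
    have h3 := congrArg Fin.val h0
    simp only [Fin.ofNat, Fin.val_zero] at h3
    rw [Nat.mod_eq_of_lt (by omega)] at h3
    omega
  ext σ τ
  unfold Dict.layM diaM
  rw [Matrix.of_apply, Matrix.diagonal_apply]
  have h4 : ∀ x, spA (th β N h (blk K b)) (hatb N b) φ (Fin.ofNat (N + 1) k, x) (σ x) (τ x) =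
      if σ x = τ x then 1 + β * h x / (2 * N) * (if σ x = 0 then 1 else -1) else 0 := by
    intro x
    unfold spA hatb
    rw [if_neg (by
      simp only [Finset.mem_product, Finset.mem_singleton, not_and]
      exact fun h5 => absurd h5 hk)]
    rw [rotM_zero_apply]
    unfold th
    simp only [if_neg hk]
  simp only [h4]
  by_cases hst : σ = τ
  · subst hst
    simp
  · rw [if_neg hst]
    obtain ⟨x, hx⟩ := Function.ne_iff.1 hst
    exact Finset.prod_eq_zero (Finset.mem_univ x) (if_neg hx)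

theorem layM_zero (K β : ℝ) (h : V → ℝ) (b : Finset V) (N : ℕ) (φ : ℝ) :
    Dict.layM (fun x => spA (th β N h (blk K b)) (hatb N b) φ (0, x)) =
      rotT b (Real.tanh (K / (2 * b.card))) φ := by
  ext σ τ
  unfold Dict.layM rotT
  rw [Matrix.of_apply, Matrix.of_apply]
  refine Finset.prod_congr rfl fun x _ => ?_
  unfold spA hatb th blk
  by_cases hx : x ∈ b
  · simp [hx]
  · simp only [Finset.mem_product, Finset.mem_singleton, hx, and_false, if_false, if_true]
    rw [rotM_zero_zero, Matrix.one_apply]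

theorem swapM_transposeR (x y : V) : (swapM x y)ᵀ = swapM x y := by
  ext σ τ
  unfold swapM
  rw [Matrix.transpose_apply, Matrix.of_apply, Matrix.of_apply]
  congr 1
  apply propext
  constructor
  · rintro rfl
    funext z
    simp
  · rintro rfl
    funext z
    simp

theorem gatM_transpose (L : List (V × V)) (p : ℝ) :
    (Dict.gatM L p : Matrix (V → Fin 2) (V → Fin 2) ℝ)ᵀ =
      (L.map fun e => (1 - p) • (1 : Matrix (V → Fin 2) (V → Fin 2) ℝ) + p • swapM e.1 e.2).prod := by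
  unfold Dict.gatM
  rw [Matrix.transpose_list_prod]
  congr 1
  rw [List.map_map, ← List.map_reverse, List.reverse_reverse]
  refine List.map_congr_left fun e _ => ?_
  simp only [Function.comp_apply]
  unfold Dict.gatR
  rw [Dict.swapR_real, Matrix.transpose_add, Matrix.transpose_smul, Matrix.transpose_smul,
    Matrix.transpose_one, swapM_transposeR]

theorem rotT_transpose (b : Finset V) (t φ : ℝ) : (rotT b t φ)ᵀ = rotT b t φ := by
  ext σ τ
  unfold rotT
  rw [Matrix.transpose_apply, Matrix.of_apply, Matrix.of_apply]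
  refine Finset.prod_congr rfl fun x _ => ?_
  split_ifs with h1 h2 h3
  · exact rotM_symm _ _ _ _
  · rfl
  · exact absurd h2.symm h3
  · rename_i h4
    exact absurd h4.symm h2
  · rfl

/-- **Twisted dictionary for the physical circuit.** -/
theorem Zf_phys (L : List (V × V)) (β : ℝ) (h : V → ℝ) (K : ℝ) (b : Finset V) (N : ℕ) (φ : ℝ) :
    Zf (phys L β N) (th β N h (blk K b)) (hatb N b) φ =
      Matrix.trace (stepM L β h N ^ N * rotT b (Real.tanh (K / (2 * b.card))) φ) := by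
  rw [Zf_eq_NZ, Dict.NZ_phys, layM_zero]
  rw [Dict.down_congr (g := fun _ => diaM β h N * Dict.gatM L (β / (2 * N))) (fun k h1 h2 => by
    rw [layM_phys K β h b N φ h1 h2]), Dict.down_const]
  rw [← Matrix.trace_transpose, Matrix.transpose_mul, Matrix.transpose_pow, Matrix.transpose_mul,
    gatM_transpose, rotT_transpose, Matrix.trace_mul_comm]
  unfold diaM
  rw [Matrix.diagonal_transpose]
  rfl

end

end Vale.Agent.P361.LRO
end

section

/-!
P361, block (1): assembly.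
-/

namespace Vale.Agent.P361.LRO

open Finset Matrix Filter Topology

noncomputable section

variable {V : Type} [Fintype V] [DecidableEq V]

theorem Zf_nonneg {X : Type} [Fintype X] [DecidableEq X] {μ : Equiv.Perm X → ℝ} {θ : X → ℝ}
    (hμ : ∀ π, 0 ≤ μ π) (hθ : ∀ x, 0 ≤ θ x) (hZ : 0 < ZZ μ θ) (hst : Stable μ θ) (b : Finset X)
    (φ : ℝ) : 0 ≤ Zf μ θ b φ := by
  obtain ⟨ι, hι, p, hp0, hp1, hF⟩ := exists_factor (FP μ θ b) (by rw [FP_eval_one]; exact hZ)
    (FP_roots hμ hθ hZ hst b)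
  rw [← FP_eval_cos, hF]
  exact zt_nonneg (by rw [FP_eval_one]; exact hZ.le) hp0 hp1 (Real.neg_one_le_cos φ)

/-- The law of the physical circuit. -/
theorem isLaw_phys' (L : List (V × V)) {β : ℝ} (hβ : 0 ≤ β) {N : ℕ} (hN : β ≤ N) :
    IsLaw (phys L β N) := by
  refine ⟨_, _, ?_, rfl⟩
  intro g hg
  unfold gates at hg
  rw [List.mem_flatMap] at hg
  obtain ⟨k, -, hk⟩ := hg
  rw [List.mem_map] at hk
  obtain ⟨e, -, rfl⟩ := hk
  rcases Nat.eq_zero_or_pos N with h0 | h0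
  · subst h0
    simp
  · have hN' : (0 : ℝ) < N := by exact_mod_cast h0
    constructor
    · positivity
    · show β / (2 * N) ≤ 1 / 2
      rw [div_le_iff₀ (by positivity)]
      linarith

/-- **Block twist for the Gibbs state.** -/
theorem twist_gibbs (hSR : ∀ (X : Type) [Fintype X] [DecidableEq X] (μ : Equiv.Perm X → ℝ)
      (θ : X → ℝ), IsLaw μ → (∀ x, 0 ≤ θ x ∧ θ x ≤ 1) → Stable μ θ)
    (L : List (V × V)) {β : ℝ} (hβ : 0 < β) {h : V → ℝ} (hh : ∀ x, 0 ≤ h x) {K κ : ℝ}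
    (hK : 0 ≤ K) (b : Finset V) (hκ : ∃ᶠ N : ℕ in atTop, κ ≤ kap L β N h K b) :
    κ * (∫ φ in (0 : ℝ)..Real.pi, Real.sin φ * (1 - Real.cos φ) *
        ZTw (NormedSpace.exp (-β • ham L h)) b (Real.tanh (K / (2 * b.card))) φ) ≤
      ∫ φ in (0 : ℝ)..Real.pi, Real.sin φ *
        ZTw (NormedSpace.exp (-β • ham L h)) b (Real.tanh (K / (2 * b.card))) φ := by
  have hT : 0 ≤ Real.tanh (K / (2 * b.card)) := by
    rw [Real.tanh_eq_sinh_div_cosh]
    exact div_nonneg (Real.sinh_nonneg_iff.2 (by positivity)) (Real.cosh_pos _).le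
  have hT1 : Real.tanh (K / (2 * b.card)) ≤ 1 := (Real.tanh_lt_one _).le
  have hgood : ∀ᶠ N : ℕ in atTop, IsLaw (phys L β N) ∧
      ∀ z, 0 ≤ th β N h (blk K b) z ∧ th β N h (blk K b) z ≤ 1 := by
    have h1 : ∀ᶠ N : ℕ in atTop, β ≤ N := eventually_atTop.2 (by
      obtain ⟨n, hn⟩ := exists_nat_ge β
      exact ⟨n, fun m hm => hn.trans (by exact_mod_cast hm)⟩)
    have h2 : ∀ᶠ N : ℕ in atTop, β * (∑ x, h x) / 2 ≤ N := eventually_atTop.2 (by
      obtain ⟨n, hn⟩ := exists_nat_ge (β * (∑ x, h x) / 2)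
      exact ⟨n, fun m hm => hn.trans (by exact_mod_cast hm)⟩)
    filter_upwards [h1, h2, eventually_gt_atTop 0] with N hN1 hN2 hN0
    have hN' : (0 : ℝ) < N := by exact_mod_cast hN0
    refine ⟨isLaw_phys' L hβ.le hN1, fun z => ?_⟩
    unfold th
    split_ifs with hz
    · unfold blk
      split_ifs
      · exact ⟨hT, hT1⟩
      · exact ⟨le_rfl, zero_le_one⟩
    · constructor
      · exact div_nonneg (mul_nonneg hβ.le (hh _)) (by positivity)
      · rw [div_le_one (by positivity)]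
        have h3 : h z.2 ≤ ∑ x, h x := Finset.single_le_sum (fun x _ => hh x) (Finset.mem_univ _)
        have h4 : β * h z.2 ≤ β * ∑ x, h x := mul_le_mul_of_nonneg_left h3 hβ.le
        linarith
  refine twist_limit (stepM_tendsto L β h) b _ hκ ?_ ?_
  · filter_upwards [hgood] with N hN φ
    obtain ⟨hl, ht⟩ := hN
    unfold ZTw
    rw [← Zf_phys]
    exact Zf_nonneg hl.nonneg (fun z => (ht z).1) (ZZ_pos hl fun z => (ht z).1)
      (hSR _ _ _ hl ht) _ φ
  · filter_upwards [hgood] with N hN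
    obtain ⟨hl, ht⟩ := hN
    unfold ZTw
    simp only [← Zf_phys]
    exact kap_int hl.nonneg (fun z => (ht z).1) (ZZ_pos hl fun z => (ht z).1) (hSR _ _ _ hl ht) _

end

end Vale.Agent.P361.LRO
end

section

/-!
Block (1) of the low temperature order proof (P361): the symmetrisation lemma
`1 - symM A ≤ ½ ∑_{pairs in A} (1 - swap)`.
-/

namespace Vale.Agent.P361.LRO.Tw

open Finset Matrix

set_option linter.unusedSectionVars false

variable {V : Type} [Fintype V] [DecidableEq V]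

/-- Number of down spins (`1`) of `σ` in `A`. -/
def dn (A : Finset V) (σ : V → Fin 2) : ℕ := ∑ x ∈ A, (σ x : ℕ)

/-- `σ` and `τ` agree outside `A` and have the same number of down spins in `A`. -/
def Rel (A : Finset V) (σ τ : V → Fin 2) : Prop :=
  (∀ x, x ∉ A → σ x = τ x) ∧ dn A σ = dn A τ

instance (A : Finset V) (σ τ : V → Fin 2) : Decidable (Rel A σ τ) := by
  unfold Rel; infer_instance

theorem Rel.refl (A : Finset V) (σ : V → Fin 2) : Rel A σ σ := ⟨fun _ _ => rfl, rfl⟩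

theorem Rel.symm {A : Finset V} {σ τ : V → Fin 2} (h : Rel A σ τ) : Rel A τ σ :=
  ⟨fun x hx => (h.1 x hx).symm, h.2.symm⟩

theorem Rel.trans {A : Finset V} {σ τ ρ : V → Fin 2} (h : Rel A σ τ) (h' : Rel A τ ρ) :
    Rel A σ ρ :=
  ⟨fun x hx => (h.1 x hx).trans (h'.1 x hx), h.2.trans h'.2⟩

/-- Averaging over the permutations of `A`. -/
noncomputable def symM (A : Finset V) : Matrix (V → Fin 2) (V → Fin 2) ℝ :=
  Matrix.of fun σ τ => if Rel A σ τ then ((A.card.choose (dn A σ) : ℕ) : ℝ)⁻¹ else 0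

theorem dn_insert {a : V} {A : Finset V} (ha : a ∉ A) (σ : V → Fin 2) :
    dn (insert a A) σ = (σ a : ℕ) + dn A σ := by
  unfold dn; rw [Finset.sum_insert ha]

theorem dn_comp_swap {A : Finset V} {x y : V} (hx : x ∈ A) (hy : y ∈ A) (σ : V → Fin 2) :
    dn A (σ ∘ Equiv.swap x y) = dn A σ := by
  unfold dn
  refine Finset.sum_equiv (Equiv.swap x y) ?_ (fun i _ => rfl)
  intro i
  by_cases h1 : i = x
  · subst h1; simp [hx, hy]
  · by_cases h2 : i = y
    · subst h2; simp [hx, hy]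
    · rw [Equiv.swap_apply_of_ne_of_ne h1 h2]

theorem dn_le (A : Finset V) (σ : V → Fin 2) : dn A σ ≤ A.card := by
  unfold dn
  calc ∑ x ∈ A, (σ x : ℕ) ≤ ∑ x ∈ A, 1 := Finset.sum_le_sum fun x _ => by
        have := (σ x).isLt; omega
    _ = A.card := by simp

theorem swap_comp_swap (x y : V) (σ : V → Fin 2) :
    (σ ∘ Equiv.swap x y) ∘ Equiv.swap x y = σ := by
  funext i; simp

theorem rel_swap_iff {a y : V} {A : Finset V} (ha : a ∉ A) (hy : y ∈ insert a A)
    (σ τ : V → Fin 2) :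
    Rel A (σ ∘ Equiv.swap a y) τ ↔ (σ y = τ a ∧ Rel (insert a A) σ τ) := by
  have haA : a ∈ insert a A := Finset.mem_insert_self a A
  have hd : dn (insert a A) (σ ∘ Equiv.swap a y) = dn (insert a A) σ := dn_comp_swap haA hy σ
  rw [dn_insert ha (σ ∘ Equiv.swap a y)] at hd
  have hsa : (σ ∘ Equiv.swap a y) a = σ y := by simp
  rw [hsa] at hd
  constructor
  · rintro ⟨h1, h2⟩
    have h3 : σ y = τ a := by rw [← hsa]; exact h1 a ha
    refine ⟨h3, ?_, ?_⟩
    · intro x hx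
      have hxa : x ≠ a := fun h => hx (h ▸ haA)
      have hxy : x ≠ y := fun h => hx (h ▸ hy)
      have hxA : x ∉ A := fun h => hx (Finset.mem_insert_of_mem h)
      have := h1 x hxA
      simpa [Equiv.swap_apply_of_ne_of_ne hxa hxy] using this
    · rw [dn_insert ha τ, ← hd, h2, h3]
  · rintro ⟨h3, h1, h2⟩
    refine ⟨?_, ?_⟩
    · intro x hxA
      by_cases hxa : x = a
      · subst hxa; rw [hsa]; exact h3
      · have hx : x ∉ insert a A := by
          intro h; rcases Finset.mem_insert.1 h with h | h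
          · exact hxa h
          · exact hxA h
        have hxy : x ≠ y := fun h => hx (h ▸ hy)
        have := h1 x hx
        simpa [Equiv.swap_apply_of_ne_of_ne hxa hxy] using this
    · have h4 := h2
      rw [dn_insert ha τ, ← hd, h3] at h4
      omega

theorem card_filter_one (A : Finset V) (σ : V → Fin 2) :
    (A.filter fun y => σ y = 1).card = dn A σ := by
  unfold dn
  rw [Finset.card_filter]
  refine Finset.sum_congr rfl fun x _ => ?_
  rcases Fin.exists_fin_two.1 ⟨σ x, rfl⟩ with h | h <;> simp [h]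

theorem card_filter_zero (A : Finset V) (σ : V → Fin 2) :
    (A.filter fun y => σ y = 0).card + dn A σ = A.card := by
  rw [← card_filter_one, ← Finset.card_filter_add_card_filter_not (s := A) (fun y => σ y = 0)]
  congr 1
  congr 1
  refine Finset.filter_congr fun x _ => ?_
  constructor
  · intro h; rw [h]; decide
  · intro h
    rcases Fin.exists_fin_two.1 ⟨σ x, rfl⟩ with h' | h'
    · exact absurd h' h
    · exact h'

/-- The recursion of the symmetrisation kernel. -/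
theorem symM_rec {a : V} {A : Finset V} (ha : a ∉ A) (σ τ : V → Fin 2) :
    (((insert a A).card : ℕ) : ℝ) * symM (insert a A) σ τ
      = ∑ y ∈ insert a A, symM A (σ ∘ Equiv.swap a y) τ := by
  have hc : (insert a A).card = A.card + 1 := Finset.card_insert_of_notMem ha
  by_cases hR : Rel (insert a A) σ τ
  · have hL : symM (insert a A) σ τ
        = (((insert a A).card.choose (dn (insert a A) τ) : ℕ) : ℝ)⁻¹ := by
      unfold symM; simp only [Matrix.of_apply]; rw [if_pos hR, hR.2]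
    have hS : ∑ y ∈ insert a A, symM A (σ ∘ Equiv.swap a y) τ
        = ((((insert a A).filter fun y => σ y = τ a).card : ℕ) : ℝ)
            * (((A.card.choose (dn A τ) : ℕ) : ℝ)⁻¹) := by
      rw [Finset.card_filter]
      push_cast
      rw [Finset.sum_mul]
      refine Finset.sum_congr rfl fun y hy => ?_
      unfold symM; simp only [Matrix.of_apply]
      by_cases h : σ y = τ a
      · have hr : Rel A (σ ∘ Equiv.swap a y) τ := (rel_swap_iff ha hy σ τ).2 ⟨h, hR⟩
        rw [if_pos hr, hr.2]; simp [h]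
      · have hr : ¬ Rel A (σ ∘ Equiv.swap a y) τ := fun h' => h ((rel_swap_iff ha hy σ τ).1 h').1
        rw [if_neg hr]; simp [h]
    rw [hL, hS]
    have hdτ := dn_insert ha τ
    have hle := dn_le A τ
    have hpos1 : (0 : ℝ) < ((A.card.choose (dn A τ) : ℕ) : ℝ) := by
      exact_mod_cast Nat.choose_pos hle
    have hpos2 : (0 : ℝ) < (((insert a A).card.choose (dn (insert a A) τ) : ℕ) : ℝ) := by
      exact_mod_cast Nat.choose_pos (dn_le _ _)
    rw [← div_eq_mul_inv, ← div_eq_mul_inv, div_eq_div_iff hpos2.ne' hpos1.ne']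
    rcases Fin.exists_fin_two.1 ⟨τ a, rfl⟩ with h | h
    · -- τ a = 0
      have h0 : τ a = 0 := h
      rw [h0] at hdτ ⊢
      have hcard := card_filter_zero (insert a A) σ
      rw [hR.2] at hcard
      have hdt : dn (insert a A) τ = dn A τ := by rw [hdτ]; simp
      rw [hdt, hc] at hcard
      rw [hdt, hc]
      have key := Nat.choose_mul_succ_eq A.card (dn A τ)
      have e1 : (Finset.filter (fun y => σ y = 0) (insert a A)).card = A.card + 1 - dn A τ := by
        omega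
      rw [e1]
      have key' : ((A.card.choose (dn A τ) * (A.card + 1) : ℕ) : ℝ)
          = (((A.card + 1).choose (dn A τ) * (A.card + 1 - dn A τ) : ℕ) : ℝ) := by
        exact_mod_cast key
      rw [Nat.cast_mul, Nat.cast_mul] at key'
      linarith [key', mul_comm ((A.card.choose (dn A τ) : ℕ) : ℝ) ((A.card + 1 : ℕ) : ℝ),
        mul_comm (((A.card + 1).choose (dn A τ) : ℕ) : ℝ) ((A.card + 1 - dn A τ : ℕ) : ℝ)]
    · have h1 : τ a = 1 := h
      rw [h1] at hdτ ⊢
      have hcard := card_filter_one (insert a A) σ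
      rw [hR.2] at hcard
      have hdt : dn (insert a A) τ = dn A τ + 1 := by rw [hdτ]; simp [add_comm]
      rw [hdt] at hcard
      rw [hcard, hdt, hc]
      have key := Nat.add_one_mul_choose_eq A.card (dn A τ)
      have key' : (((A.card + 1) * A.card.choose (dn A τ) : ℕ) : ℝ)
          = (((A.card + 1).choose (dn A τ + 1) * (dn A τ + 1) : ℕ) : ℝ) := by
        exact_mod_cast key
      rw [Nat.cast_mul, Nat.cast_mul] at key'
      linarith [key', mul_comm (((A.card + 1).choose (dn A τ + 1) : ℕ) : ℝ)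
        ((dn A τ + 1 : ℕ) : ℝ)]
  · have hL : symM (insert a A) σ τ = 0 := by
      unfold symM; simp only [Matrix.of_apply]; rw [if_neg hR]
    rw [hL, mul_zero]
    symm
    refine Finset.sum_eq_zero fun y hy => ?_
    unfold symM; simp only [Matrix.of_apply]
    rw [if_neg fun h' => hR ((rel_swap_iff ha hy σ τ).1 h').2]

theorem symM_empty : symM (∅ : Finset V) = 1 := by
  ext σ τ
  unfold symM; simp only [Matrix.of_apply]
  by_cases h : σ = τ
  · subst h; rw [if_pos (Rel.refl _ _)]; simp [dn]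
  · rw [if_neg, Matrix.one_apply_ne h]
    intro h'; exact h (funext fun x => h'.1 x (Finset.notMem_empty x))

theorem symM_rowsum (A : Finset V) : ∀ σ : V → Fin 2, ∑ τ, symM A σ τ = 1 := by
  induction A using Finset.induction_on with
  | empty =>
    intro σ; rw [symM_empty]; simp [Matrix.one_apply]
  | insert a A ha ih =>
    intro σ
    have h1 : (((insert a A).card : ℕ) : ℝ) * ∑ τ, symM (insert a A) σ τ
        = ((insert a A).card : ℕ) := by
      rw [Finset.mul_sum]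
      rw [Finset.sum_congr rfl fun τ _ => symM_rec ha σ τ]
      rw [Finset.sum_comm]
      rw [Finset.sum_congr rfl fun y _ => ih (σ ∘ Equiv.swap a y)]
      simp
    have hc : (((insert a A).card : ℕ) : ℝ) ≠ 0 := by
      have : (insert a A).card ≠ 0 := by
        rw [Finset.card_insert_of_notMem ha]; omega
      exact_mod_cast this
    have h2 : (((insert a A).card : ℕ) : ℝ) * ∑ τ, symM (insert a A) σ τ
        = (((insert a A).card : ℕ) : ℝ) * 1 := by rw [h1, mul_one]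
    exact mul_left_cancel₀ hc h2

theorem symM_symm (A : Finset V) (σ τ : V → Fin 2) : symM A σ τ = symM A τ σ := by
  unfold symM; simp only [Matrix.of_apply]
  by_cases h : Rel A σ τ
  · rw [if_pos h, if_pos h.symm, h.2]
  · rw [if_neg h, if_neg fun h' => h h'.symm]

theorem symM_transpose (A : Finset V) : (symM A)ᵀ = symM A := by
  ext σ τ; rw [Matrix.transpose_apply]; exact symM_symm A τ σ

theorem symM_congr {A : Finset V} {σ τ : V → Fin 2} (h : Rel A σ τ) (ρ : V → Fin 2) :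
    symM A τ ρ = symM A σ ρ := by
  unfold symM; simp only [Matrix.of_apply]
  by_cases h' : Rel A σ ρ
  · rw [if_pos h', if_pos (h.symm.trans h'), h.2]
  · rw [if_neg h', if_neg fun h'' => h' (h.trans h'')]

theorem symM_mul_self (A : Finset V) : symM A * symM A = symM A := by
  ext σ ρ
  rw [Matrix.mul_apply]
  have : ∀ τ, symM A σ τ * symM A τ ρ = symM A σ τ * symM A σ ρ := by
    intro τ
    by_cases h : Rel A σ τ
    · rw [symM_congr h ρ]
    · have : symM A σ τ = 0 := by unfold symM; simp only [Matrix.of_apply]; rw [if_neg h]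
      rw [this, zero_mul, zero_mul]
  rw [Finset.sum_congr rfl fun τ _ => this τ, ← Finset.sum_mul, symM_rowsum, one_mul]

theorem swapM_mul_apply (x y : V) (M : Matrix (V → Fin 2) (V → Fin 2) ℝ) (σ τ : V → Fin 2) :
    (swapM x y * M) σ τ = M (σ ∘ Equiv.swap x y) τ := by
  rw [Matrix.mul_apply, Finset.sum_eq_single (σ ∘ Equiv.swap x y)]
  · unfold swapM; simp only [Matrix.of_apply]
    rw [swap_comp_swap, if_pos rfl, one_mul]
  · intro ρ _ hρ
    unfold swapM; simp only [Matrix.of_apply]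
    rw [if_neg, zero_mul]
    intro h; exact hρ (by rw [h, swap_comp_swap])
  · intro h; exact absurd (Finset.mem_univ _) h

theorem swapM_transpose (x y : V) : (swapM x y : Matrix (V → Fin 2) (V → Fin 2) ℝ)ᵀ = swapM x y := by
  ext σ τ
  rw [Matrix.transpose_apply]
  unfold swapM; simp only [Matrix.of_apply]
  have : (τ = σ ∘ Equiv.swap x y) ↔ (σ = τ ∘ Equiv.swap x y) := by
    constructor
    · intro h; rw [h, swap_comp_swap]
    · intro h; rw [h, swap_comp_swap]
  simp only [this]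

theorem swapM_mul_self (x y : V) :
    (swapM x y * swapM x y : Matrix (V → Fin 2) (V → Fin 2) ℝ) = 1 := by
  ext σ τ
  rw [swapM_mul_apply]
  unfold swapM; simp only [Matrix.of_apply]
  have : (σ ∘ Equiv.swap x y = τ ∘ Equiv.swap x y) ↔ (σ = τ) := by
    constructor
    · intro h
      have h2 := congrArg (fun f => f ∘ Equiv.swap x y) h
      simpa only [swap_comp_swap] using h2
    · intro h; rw [h]
  simp only [this, Matrix.one_apply]

theorem swapM_self (x : V) : (swapM x x : Matrix (V → Fin 2) (V → Fin 2) ℝ) = 1 := by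
  ext σ τ
  unfold swapM; simp only [Matrix.of_apply]
  rw [Equiv.swap_self, Matrix.one_apply]
  simp

theorem swapM_comm (x y : V) : (swapM x y : Matrix (V → Fin 2) (V → Fin 2) ℝ) = swapM y x := by
  unfold swapM; rw [Equiv.swap_comm]

/-- `1 - swap` is positive semidefinite. -/
theorem one_sub_swapM_posSemidef (x y : V) :
    (1 - swapM x y : Matrix (V → Fin 2) (V → Fin 2) ℝ).PosSemidef := by
  have h : (1 - swapM x y : Matrix (V → Fin 2) (V → Fin 2) ℝ)
      = (1 / 2 : ℝ) • ((1 - swapM x y)ᴴ * (1 - swapM x y)) := by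
    rw [Matrix.conjTranspose_eq_transpose_of_trivial, Matrix.transpose_sub,
      Matrix.transpose_one, swapM_transpose, sub_mul, mul_sub, mul_sub, swapM_mul_self,
      mul_one, one_mul, mul_one]
    ext σ τ
    simp only [Matrix.sub_apply, Matrix.smul_apply, smul_eq_mul]
    ring
  rw [h]
  exact (Matrix.posSemidef_conjTranspose_mul_self _).smul (by norm_num)

theorem one_sub_symM_posSemidef (A : Finset V) :
    (1 - symM A : Matrix (V → Fin 2) (V → Fin 2) ℝ).PosSemidef := by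
  have h : (1 - symM A : Matrix (V → Fin 2) (V → Fin 2) ℝ) = (1 - symM A)ᴴ * (1 - symM A) := by
    rw [Matrix.conjTranspose_eq_transpose_of_trivial, Matrix.transpose_sub,
      Matrix.transpose_one, symM_transpose, sub_mul, mul_sub, mul_sub, symM_mul_self,
      mul_one, one_mul, mul_one]
    abel
  rw [h]
  exact Matrix.posSemidef_conjTranspose_mul_self _

theorem symM_posSemidef (A : Finset V) :
    (symM A : Matrix (V → Fin 2) (V → Fin 2) ℝ).PosSemidef := by
  have h : (symM A : Matrix (V → Fin 2) (V → Fin 2) ℝ) = (symM A)ᴴ * symM A := by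
    rw [Matrix.conjTranspose_eq_transpose_of_trivial, symM_transpose, symM_mul_self]
  rw [h]
  exact Matrix.posSemidef_conjTranspose_mul_self _

/-- `X = ∑_{y ∈ A} (1 - swap a y)`. -/
def XM (a : V) (A : Finset V) : Matrix (V → Fin 2) (V → Fin 2) ℝ := ∑ y ∈ A, (1 - swapM a y)

theorem XM_posSemidef (a : V) (A : Finset V) : (XM a A).PosSemidef := by
  unfold XM
  exact Matrix.posSemidef_sum _ fun y _ => one_sub_swapM_posSemidef a y

/-- one step of the symmetrisation inequality -/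
theorem step_psd {a : V} {A : Finset V} (ha : a ∉ A) :
    (XM a A - ((A.card : ℝ) + 1) • (symM A - symM (insert a A))).PosSemidef := by
  have hrec : ((A.card : ℝ) + 1) • symM (insert a A)
      = symM A + (∑ y ∈ A, swapM a y) * symM A := by
    ext σ τ
    rw [Matrix.smul_apply, smul_eq_mul, Matrix.add_apply, Finset.sum_mul, Matrix.sum_apply]
    have h := symM_rec ha σ τ
    rw [Finset.card_insert_of_notMem ha, Finset.sum_insert ha] at h
    push_cast at h
    rw [h, Equiv.swap_self]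
    congr 1
    refine Finset.sum_congr rfl fun y _ => ?_
    rw [swapM_mul_apply]
  have hX : XM a A = (A.card : ℝ) • (1 : Matrix (V → Fin 2) (V → Fin 2) ℝ)
      - ∑ y ∈ A, swapM a y := by
    unfold XM
    rw [Finset.sum_sub_distrib, Finset.sum_const, Nat.cast_smul_eq_nsmul]
  have hTT : (∑ y ∈ A, (swapM a y : Matrix (V → Fin 2) (V → Fin 2) ℝ))ᵀ
      = ∑ y ∈ A, swapM a y := by
    rw [Matrix.transpose_sum]
    exact Finset.sum_congr rfl fun y _ => swapM_transpose a y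
  have hrec' : ((A.card : ℝ) + 1) • symM (insert a A)
      = symM A + symM A * (∑ y ∈ A, swapM a y) := by
    have h := congrArg Matrix.transpose hrec
    rw [Matrix.transpose_smul, Matrix.transpose_add, Matrix.transpose_mul, hTT,
      symM_transpose, symM_transpose] at h
    exact h
  have hcomm : (∑ y ∈ A, swapM a y) * symM A = symM A * (∑ y ∈ A, swapM a y) := by
    have := hrec.symm.trans hrec'
    exact add_left_cancel this
  have hXc : XM a A * symM A = symM A * XM a A := by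
    rw [hX, sub_mul, mul_sub, hcomm, Matrix.smul_mul, Matrix.mul_smul, one_mul, mul_one]
  have key : XM a A - ((A.card : ℝ) + 1) • (symM A - symM (insert a A))
      = (1 - symM A)ᴴ * XM a A * (1 - symM A) := by
    rw [Matrix.conjTranspose_eq_transpose_of_trivial, Matrix.transpose_sub,
      Matrix.transpose_one, symM_transpose]
    have h1 : (1 - symM A) * XM a A * (1 - symM A) = XM a A - XM a A * symM A := by
      rw [sub_mul, one_mul, mul_sub, mul_one, sub_mul]
      rw [← hXc, mul_assoc (XM a A) (symM A) (symM A), symM_mul_self]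
      abel
    rw [h1, smul_sub, hrec, hX, sub_mul, Matrix.smul_mul, one_mul, add_smul, one_smul]
    abel
  rw [key]
  exact (XM_posSemidef a A).conjTranspose_mul_mul_same _

/-- **Symmetrisation lemma.** `1 - Π_A ≤ ¼ ∑_{x,y ∈ A} (1 - swap x y)`. -/
theorem sym_psd (A : Finset V) :
    ((1 / 4 : ℝ) • (∑ x ∈ A, ∑ y ∈ A, (1 - swapM x y)) - (1 - symM A) :
      Matrix (V → Fin 2) (V → Fin 2) ℝ).PosSemidef := by
  induction A using Finset.induction_on with
  | empty =>
    simp only [Finset.sum_empty, smul_zero, symM_empty, sub_self]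
    exact Matrix.PosSemidef.zero
  | insert a A ha ih =>
    have hsum : (∑ x ∈ insert a A, ∑ y ∈ insert a A,
        (1 - swapM x y : Matrix (V → Fin 2) (V → Fin 2) ℝ))
        = (∑ x ∈ A, ∑ y ∈ A, (1 - swapM x y)) + (2 : ℝ) • XM a A := by
      rw [Finset.sum_insert ha]
      rw [Finset.sum_insert ha]
      rw [Finset.sum_congr rfl fun x _ => Finset.sum_insert ha]
      rw [Finset.sum_add_distrib]
      have h1 : ∑ x ∈ A, (1 - swapM x a : Matrix (V → Fin 2) (V → Fin 2) ℝ) = XM a A := by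
        unfold XM; exact Finset.sum_congr rfl fun x _ => by rw [swapM_comm]
      rw [h1, swapM_self, sub_self, zero_add, two_smul]
      unfold XM
      abel
    have hdec : ((1 / 4 : ℝ) • (∑ x ∈ insert a A, ∑ y ∈ insert a A, (1 - swapM x y))
        - (1 - symM (insert a A)) : Matrix (V → Fin 2) (V → Fin 2) ℝ)
        = ((1 / 4 : ℝ) • (∑ x ∈ A, ∑ y ∈ A, (1 - swapM x y)) - (1 - symM A))
          + (((A.card : ℝ) + 1)⁻¹ •
              (XM a A - ((A.card : ℝ) + 1) • (symM A - symM (insert a A)))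
            + (1 / 2 - ((A.card : ℝ) + 1)⁻¹) • XM a A) := by
      have hne : ((A.card : ℝ) + 1) ≠ 0 := by positivity
      rw [hsum]
      ext σ τ
      simp only [Matrix.sub_apply, Matrix.add_apply, Matrix.smul_apply, smul_eq_mul]
      field_simp
      ring
    rw [hdec]
    refine ih.add (Matrix.PosSemidef.add ?_ ?_)
    · exact (step_psd ha).smul (by positivity)
    · by_cases hA : A = ∅
      · subst hA
        have : XM a (∅ : Finset V) = 0 := by unfold XM; simp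
        rw [this, smul_zero]; exact Matrix.PosSemidef.zero
      · refine (XM_posSemidef a A).smul ?_
        have h1 : (1 : ℝ) ≤ A.card := by
          exact_mod_cast Finset.card_pos.2 (Finset.nonempty_iff_ne_empty.2 hA)
        have h2 : ((A.card : ℝ) + 1)⁻¹ ≤ 1 / 2 := by
          rw [inv_le_comm₀ (by linarith) (by norm_num)]
          norm_num; linarith
        linarith

end Vale.Agent.P361.LRO.Tw
end

section

/-!
P361, block (1): the Gibbs operator is positive semidefinite and conserves the number of downs.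
-/

namespace Vale.Agent.P361.LRO.Tw

open Finset Matrix

noncomputable section

variable {V : Type} [Fintype V] [DecidableEq V]

theorem expH_psd (L : List (V × V)) (β : ℝ) (h : V → ℝ) :
    (NormedSpace.exp (-β • ham L h)).PosSemidef := by
  obtain ⟨C, hC⟩ := EnR.exp_ham_factor L β h
  rw [hC, ← Matrix.conjTranspose_eq_transpose_of_trivial]
  exact Matrix.posSemidef_conjTranspose_mul_self C

/-- The number of downs. -/
def numD : Matrix (V → Fin 2) (V → Fin 2) ℝ :=
  Matrix.diagonal fun σ => ((dn univ σ : ℕ) : ℝ)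

theorem numD_swapM (x y : V) : Commute (numD : Matrix (V → Fin 2) (V → Fin 2) ℝ) (swapM x y) := by
  unfold Commute SemiconjBy
  ext σ τ
  unfold numD
  rw [Matrix.diagonal_mul, Matrix.mul_diagonal]
  simp only [swapM, Matrix.of_apply]
  split_ifs with h
  · rw [h, dn_comp_swap (mem_univ x) (mem_univ y)]
    ring
  · simp

theorem numD_ham (L : List (V × V)) (h : V → ℝ) :
    Commute (numD : Matrix (V → Fin 2) (V → Fin 2) ℝ) (ham L h) := by
  unfold ham
  refine Commute.sub_right ?_ ?_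
  · induction L with
    | nil => simp
    | cons e L ih =>
      rw [List.map_cons, List.sum_cons]
      refine Commute.add_right ?_ ih
      unfold hM
      exact ((Commute.one_right _).sub_right (numD_swapM _ _)).smul_right _
  · refine Commute.sum_right _ _ _ fun x _ => Commute.smul_right ?_ _
    unfold numD szM
    exact Matrix.commute_diagonal _ _

theorem expH_cons (L : List (V × V)) (β : ℝ) (h : V → ℝ) (σ τ : V → Fin 2)
    (hd : NormedSpace.exp (-β • ham L h) σ τ ≠ 0) : dn univ σ = dn univ τ := by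
  have h1 : Commute (numD : Matrix (V → Fin 2) (V → Fin 2) ℝ)
      (NormedSpace.exp (-β • ham L h)) := ((numD_ham L h).smul_right _).exp_right
  have h2 := congrFun (congrFun h1.eq σ) τ
  unfold numD at h2
  rw [Matrix.diagonal_mul, Matrix.mul_diagonal, mul_comm] at h2
  exact_mod_cast mul_left_cancel₀ hd h2

theorem trace_expH_pos (L : List (V × V)) (β : ℝ) (h : V → ℝ) :
    0 < Matrix.trace (NormedSpace.exp (-β • ham L h)) := by
  have hC : NormedSpace.exp (-β • ham L h) = (NormedSpace.exp (-(β / 2) • ham L h))ᴴ *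
      NormedSpace.exp (-(β / 2) • ham L h) := by
    rw [Matrix.conjTranspose_eq_transpose_of_trivial, ← Matrix.exp_transpose, transpose_smul,
      EnR.ham_transpose, ← Matrix.exp_add_of_commute _ _ rfl, ← add_smul]
    congr 2
    ring
  refine lt_of_le_of_ne (expH_psd L β h).trace_nonneg fun h0 => ?_
  rw [hC] at h0
  have h1 := (Matrix.trace_conjTranspose_mul_self_eq_zero_iff).1 h0.symm
  exact (Matrix.isUnit_exp (-(β / 2) • ham L h)).ne_zero h1

end

end Vale.Agent.P361.LRO.Tw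
end

section

/-!
Block (1) of the low temperature order proof (P361): the twisted partition function as a sum over
subsets of the block, and its moments.
-/

namespace Vale.Agent.P361.LRO.Tw

open Finset Matrix MeasureTheory intervalIntegral

set_option linter.unusedSectionVars false

variable {V : Type} [Fintype V] [DecidableEq V]

/-! ### Beta integrals -/

theorem cont_bern (p r : ℕ) : Continuous fun q : ℝ => (1 - q) ^ p * q ^ r := by fun_prop

theorem beta_step (p r : ℕ) :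
    ((r : ℝ) + 1) * ∫ q in (0 : ℝ)..1, (1 - q) ^ (p + 1) * q ^ r
      = ((p : ℝ) + 1) * ∫ q in (0 : ℝ)..1, (1 - q) ^ p * q ^ (r + 1) := by
  have hder : ∀ q ∈ Set.uIcc (0 : ℝ) 1,
      HasDerivAt (fun q : ℝ => (1 - q) ^ (p + 1) * q ^ (r + 1))
        (((r : ℝ) + 1) * ((1 - q) ^ (p + 1) * q ^ r)
          - ((p : ℝ) + 1) * ((1 - q) ^ p * q ^ (r + 1))) q := by
    intro q _
    have h1 : HasDerivAt (fun q : ℝ => 1 - q) (-1) q := by
      simpa using (hasDerivAt_id q).const_sub 1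
    have h2 := (h1.fun_pow (p + 1)).fun_mul ((hasDerivAt_id' q).fun_pow (r + 1))
    have e : ((r : ℝ) + 1) * ((1 - q) ^ (p + 1) * q ^ r) - ((p : ℝ) + 1) * ((1 - q) ^ p * q ^ (r + 1))
        = ((p + 1 : ℕ) : ℝ) * (1 - q) ^ (p + 1 - 1) * -1 * q ^ (r + 1)
          + (1 - q) ^ (p + 1) * (((r + 1 : ℕ) : ℝ) * q ^ (r + 1 - 1) * 1) := by
      simp only [Nat.add_sub_cancel, Nat.cast_add, Nat.cast_one]
      ring
    rw [e]
    exact h2
  have hint : IntervalIntegrable (fun q : ℝ => ((r : ℝ) + 1) * ((1 - q) ^ (p + 1) * q ^ r)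
          - ((p : ℝ) + 1) * ((1 - q) ^ p * q ^ (r + 1))) volume 0 1 := by
    apply Continuous.intervalIntegrable
    fun_prop
  have h := integral_eq_sub_of_hasDerivAt hder hint
  rw [intervalIntegral.integral_sub, intervalIntegral.integral_const_mul,
    intervalIntegral.integral_const_mul] at h
  · simp at h
    linarith
  · apply Continuous.intervalIntegrable; fun_prop
  · apply Continuous.intervalIntegrable; fun_prop

theorem beta_int (p : ℕ) : ∀ r : ℕ, ∫ q in (0 : ℝ)..1, (1 - q) ^ p * q ^ r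
    = ((p.factorial * r.factorial : ℕ) : ℝ) / ((p + r + 1).factorial : ℕ) := by
  induction p with
  | zero =>
    intro r
    simp only [pow_zero, one_mul, Nat.factorial_zero, integral_pow]
    rw [zero_add, Nat.factorial_succ]
    have h1 : ((r.factorial : ℕ) : ℝ) ≠ 0 := by exact_mod_cast Nat.factorial_ne_zero r
    have h2 : ((r : ℝ) + 1) ≠ 0 := by positivity
    push_cast
    field_simp
    simp
  | succ p ih =>
    intro r
    have h := beta_step p r
    rw [ih (r + 1)] at h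
    have h2 : ((r : ℝ) + 1) ≠ 0 := by positivity
    have h3 : p + (r + 1) + 1 = p + 1 + r + 1 := by ring
    rw [h3] at h
    have h4 : (((p + 1 + r + 1).factorial : ℕ) : ℝ) ≠ 0 := by
      exact_mod_cast Nat.factorial_ne_zero _
    have h5 : (∫ q in (0 : ℝ)..1, (1 - q) ^ (p + 1) * q ^ r)
        = (((p : ℝ) + 1) * (((p.factorial * (r + 1).factorial : ℕ) : ℝ)
            / ((p + 1 + r + 1).factorial : ℕ))) / ((r : ℝ) + 1) := by
      rw [← h]; field_simp
    rw [h5, Nat.factorial_succ r, Nat.factorial_succ p]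
    push_cast
    field_simp

theorem beta_choose {a m : ℕ} (h : m ≤ a) :
    ∫ q in (0 : ℝ)..1, (1 - q) ^ (a - m) * q ^ m
      = (((a : ℝ) + 1))⁻¹ * ((a.choose m : ℕ) : ℝ)⁻¹ := by
  rw [beta_int, Nat.sub_add_cancel h, Nat.factorial_succ]
  have h1 := Nat.choose_mul_factorial_mul_factorial h
  have h2 : (((a.choose m : ℕ) : ℝ)) * (m.factorial : ℕ) * ((a - m).factorial : ℕ)
      = (a.factorial : ℕ) := by exact_mod_cast h1
  have h3 : (((a.choose m : ℕ) : ℝ)) ≠ 0 := by exact_mod_cast (Nat.choose_pos h).ne'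
  have h4 : ((m.factorial : ℕ) : ℝ) ≠ 0 := by exact_mod_cast Nat.factorial_ne_zero _
  have h5 : (((a - m).factorial : ℕ) : ℝ) ≠ 0 := by exact_mod_cast Nat.factorial_ne_zero _
  have h6 : ((a : ℝ) + 1) ≠ 0 := by positivity
  push_cast
  rw [← h2]
  field_simp

theorem beta_choose' {a m : ℕ} (h : m ≤ a) :
    ∫ q in (0 : ℝ)..1, q * ((1 - q) ^ (a - m) * q ^ m)
      = (((a : ℝ) + 1) * ((a : ℝ) + 2))⁻¹ * (((m : ℝ) + 1) * ((a.choose m : ℕ) : ℝ)⁻¹) := by
  have h0 : (∫ q in (0 : ℝ)..1, q * ((1 - q) ^ (a - m) * q ^ m))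
      = ∫ q in (0 : ℝ)..1, (1 - q) ^ (a - m) * q ^ (m + 1) := by
    congr 1; funext q; ring
  have e : a - m + (m + 1) + 1 = a + 1 + 1 := by omega
  rw [h0, beta_int, e, Nat.factorial_succ (a + 1), Nat.factorial_succ a, Nat.factorial_succ m]
  have h1 := Nat.choose_mul_factorial_mul_factorial h
  have h2 : (((a.choose m : ℕ) : ℝ)) * (m.factorial : ℕ) * ((a - m).factorial : ℕ)
      = (a.factorial : ℕ) := by exact_mod_cast h1
  have h3 : (((a.choose m : ℕ) : ℝ)) ≠ 0 := by exact_mod_cast (Nat.choose_pos h).ne'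
  have h4 : ((m.factorial : ℕ) : ℝ) ≠ 0 := by exact_mod_cast Nat.factorial_ne_zero _
  have h5 : (((a - m).factorial : ℕ) : ℝ) ≠ 0 := by exact_mod_cast Nat.factorial_ne_zero _
  have h6 : ((a : ℝ) + 1) ≠ 0 := by positivity
  have h7 : ((a : ℝ) + 2) ≠ 0 := by positivity
  have h8 : ((a : ℝ) + 1 + 1) ≠ 0 := by positivity
  push_cast
  rw [← h2]
  field_simp
  ring

/-! ### The twist -/

/-- The spin 1/2 coherent vector. -/
noncomputable def vq (q : ℝ) (i : Fin 2) : ℝ := if i = 0 then √(1 - q) else √q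

/-- The twisted slice on the block `b`: `(1 - θ) + 2 θ |v⟩⟨v|` at each site of `b`. -/
noncomputable def TM (b : Finset V) (θ q : ℝ) : Matrix (V → Fin 2) (V → Fin 2) ℝ :=
  Matrix.of fun σ τ => ∏ x, (if x ∈ b then
    (1 - θ) * (if σ x = τ x then 1 else 0) + 2 * θ * (vq q (σ x) * vq q (τ x))
    else (if σ x = τ x then 1 else 0))

/-- The weight of a subset. -/
noncomputable def wS (θ : ℝ) (n k : ℕ) : ℝ := (2 * θ) ^ k * (1 - θ) ^ (n - k)

theorem prod_vq (A : Finset V) (q : ℝ) (σ : V → Fin 2) :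
    ∏ x ∈ A, vq q (σ x) = √(1 - q) ^ (A.card - dn A σ) * √q ^ (dn A σ) := by
  unfold vq
  rw [Finset.prod_ite, Finset.prod_const, Finset.prod_const]
  have h0 := card_filter_zero A σ
  have h1 : (A.filter fun x => ¬ σ x = 0).card = dn A σ := by
    have := Finset.card_filter_add_card_filter_not (s := A) (fun y => σ y = 0)
    omega
  rw [h1]
  congr 2
  omega

theorem prod_vq_vq (A : Finset V) {q : ℝ} (h0 : 0 ≤ q) (h1 : q ≤ 1) {σ τ : V → Fin 2}
    (h : dn A σ = dn A τ) :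
    ∏ x ∈ A, (vq q (σ x) * vq q (τ x)) = (1 - q) ^ (A.card - dn A σ) * q ^ (dn A σ) := by
  rw [Finset.prod_mul_distrib, prod_vq, prod_vq, ← h]
  have e1 : √(1 - q) * √(1 - q) = 1 - q := Real.mul_self_sqrt (by linarith)
  have e2 : √q * √q = q := Real.mul_self_sqrt h0
  calc √(1 - q) ^ (A.card - dn A σ) * √q ^ dn A σ * (√(1 - q) ^ (A.card - dn A σ) * √q ^ dn A σ)
      = (√(1 - q) * √(1 - q)) ^ (A.card - dn A σ) * (√q * √q) ^ dn A σ := by
        rw [mul_pow, mul_pow]; ring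
    _ = _ := by rw [e1, e2]

theorem TM_expand (b : Finset V) (θ q : ℝ) (σ τ : V → Fin 2) :
    TM b θ q σ τ = ∑ A ∈ b.powerset, wS θ b.card A.card *
      (if ∀ x, x ∉ A → σ x = τ x then ∏ x ∈ A, (vq q (σ x) * vq q (τ x)) else 0) := by
  unfold TM
  simp only [Matrix.of_apply]
  rw [← Finset.prod_mul_prod_compl b]
  have e1 : ∏ x ∈ b, (if x ∈ b then
      (1 - θ) * (if σ x = τ x then 1 else 0) + 2 * θ * (vq q (σ x) * vq q (τ x))
      else (if σ x = τ x then (1 : ℝ) else 0))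
      = ∏ x ∈ b, (2 * θ * (vq q (σ x) * vq q (τ x))
          + (1 - θ) * (if σ x = τ x then 1 else 0)) := by
    refine Finset.prod_congr rfl fun x hx => ?_
    rw [if_pos hx, add_comm]
  have e2 : ∏ x ∈ bᶜ, (if x ∈ b then
      (1 - θ) * (if σ x = τ x then 1 else 0) + 2 * θ * (vq q (σ x) * vq q (τ x))
      else (if σ x = τ x then (1 : ℝ) else 0))
      = ∏ x ∈ bᶜ, (if σ x = τ x then (1 : ℝ) else 0) := by
    refine Finset.prod_congr rfl fun x hx => ?_
    rw [if_neg (Finset.mem_compl.1 hx)]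
  rw [e1, e2, Finset.prod_add, Finset.sum_mul]
  refine Finset.sum_congr rfl fun A hA => ?_
  have hAb : A ⊆ b := Finset.mem_powerset.1 hA
  rw [Finset.prod_mul_distrib (f := fun _ => 2 * θ), Finset.prod_const,
    Finset.prod_mul_distrib (f := fun _ => 1 - θ), Finset.prod_const,
    Finset.card_sdiff_of_subset hAb]
  unfold wS
  have e3 : (∏ x ∈ b \ A, (if σ x = τ x then (1 : ℝ) else 0))
      * ∏ x ∈ bᶜ, (if σ x = τ x then (1 : ℝ) else 0)
      = if ∀ x, x ∉ A → σ x = τ x then 1 else 0 := by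
    rw [Finset.prod_ite_zero, Finset.prod_ite_zero, Finset.prod_const_one, Finset.prod_const_one]
    by_cases h : ∀ x, x ∉ A → σ x = τ x
    · rw [if_pos h, if_pos, if_pos, one_mul]
      · intro x hx; exact h x fun h' => (Finset.mem_compl.1 hx) (hAb h')
      · intro x hx; exact h x (Finset.mem_sdiff.1 hx).2
    · rw [if_neg h]
      push Not at h
      obtain ⟨x, hx, hne⟩ := h
      by_cases hxb : x ∈ b
      · rw [if_neg (c := ∀ i ∈ b \ A, σ i = τ i), zero_mul]
        intro h'; exact hne (h' x (Finset.mem_sdiff.2 ⟨hxb, hx⟩))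
      · rw [if_neg (c := ∀ i ∈ bᶜ, σ i = τ i), mul_zero]
        intro h'; exact hne (h' x (Finset.mem_compl.2 hxb))
  calc (2 * θ) ^ A.card * (∏ x ∈ A, (vq q (σ x) * vq q (τ x)))
        * ((1 - θ) ^ (b.card - A.card) * ∏ x ∈ b \ A, (if σ x = τ x then (1 : ℝ) else 0))
        * ∏ x ∈ bᶜ, (if σ x = τ x then (1 : ℝ) else 0)
      = (2 * θ) ^ A.card * (1 - θ) ^ (b.card - A.card)
        * ((∏ x ∈ A, (vq q (σ x) * vq q (τ x)))
        * ((∏ x ∈ b \ A, (if σ x = τ x then (1 : ℝ) else 0))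
            * ∏ x ∈ bᶜ, (if σ x = τ x then (1 : ℝ) else 0))) := by ring
    _ = _ := by
        rw [e3]
        congr 1
        split_ifs <;> simp

/-- `R` conserves the total number of down spins. -/
def Cons (R : Matrix (V → Fin 2) (V → Fin 2) ℝ) : Prop :=
  ∀ σ τ, R σ τ ≠ 0 → dn univ σ = dn univ τ

theorem dn_eq_of_off {A : Finset V} {σ τ : V → Fin 2} (h : ∀ x, x ∉ A → σ x = τ x)
    (hd : dn univ σ = dn univ τ) : dn A σ = dn A τ := by
  unfold dn at hd ⊢
  rw [← Finset.sum_add_sum_compl A, ← Finset.sum_add_sum_compl A (fun x => (τ x : ℕ))] at hd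
  have : ∑ x ∈ Aᶜ, (σ x : ℕ) = ∑ x ∈ Aᶜ, (τ x : ℕ) :=
    Finset.sum_congr rfl fun x hx => by rw [h x (Finset.mem_compl.1 hx)]
  omega

theorem trace_TM (b : Finset V) (θ : ℝ) {q : ℝ} (h0 : 0 ≤ q) (h1 : q ≤ 1)
    {R : Matrix (V → Fin 2) (V → Fin 2) ℝ} (hR : Cons R) :
    Matrix.trace (R * TM b θ q) = ∑ A ∈ b.powerset, wS θ b.card A.card *
      ∑ σ, ∑ τ, (if Rel A τ σ then R σ τ else 0) *
        ((1 - q) ^ (A.card - dn A σ) * q ^ (dn A σ)) := by
  rw [Matrix.trace]
  simp only [Matrix.diag_apply, Matrix.mul_apply]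
  have h : ∀ σ τ, R σ τ * TM b θ q τ σ = ∑ A ∈ b.powerset, wS θ b.card A.card *
      ((if Rel A τ σ then R σ τ else 0) * ((1 - q) ^ (A.card - dn A σ) * q ^ (dn A σ))) := by
    intro σ τ
    rw [TM_expand, Finset.mul_sum]
    refine Finset.sum_congr rfl fun A _ => ?_
    by_cases hz : R σ τ = 0
    · rw [hz]; simp
    · have hd := hR σ τ hz
      by_cases hoff : ∀ x, x ∉ A → τ x = σ x
      · have hdA : dn A τ = dn A σ := dn_eq_of_off hoff hd.symm
        have hrel : Rel A τ σ := ⟨hoff, hdA⟩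
        rw [if_pos hoff, if_pos hrel, prod_vq_vq A h0 h1 hdA, hdA]
        ring
      · have hrel : ¬ Rel A τ σ := fun h' => hoff h'.1
        rw [if_neg hoff, if_neg hrel]; ring
  rw [Finset.sum_congr rfl fun σ _ => Finset.sum_congr rfl fun τ _ => h σ τ]
  rw [Finset.sum_congr rfl fun σ _ => Finset.sum_comm]
  rw [Finset.sum_comm]
  refine Finset.sum_congr rfl fun A _ => ?_
  rw [Finset.mul_sum]
  refine Finset.sum_congr rfl fun σ _ => ?_
  rw [Finset.mul_sum]

theorem integral_TM (b : Finset V) (θ : ℝ) {R : Matrix (V → Fin 2) (V → Fin 2) ℝ} (hR : Cons R)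
    {g : ℝ → ℝ} (hg : Continuous g) :
    ∫ q in (0 : ℝ)..1, g q * Matrix.trace (R * TM b θ q) = ∑ A ∈ b.powerset, wS θ b.card A.card *
      ∑ σ, ∑ τ, (if Rel A τ σ then R σ τ else 0) *
        ∫ q in (0 : ℝ)..1, g q * ((1 - q) ^ (A.card - dn A σ) * q ^ (dn A σ)) := by
  have h : ∫ q in (0 : ℝ)..1, g q * Matrix.trace (R * TM b θ q)
      = ∫ q in (0 : ℝ)..1, ∑ A ∈ b.powerset, ∑ σ : V → Fin 2, ∑ τ : V → Fin 2,
        wS θ b.card A.card * ((if Rel A τ σ then R σ τ else 0) *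
          (g q * ((1 - q) ^ (A.card - dn A σ) * q ^ (dn A σ)))) := by
    refine integral_congr fun q hq => ?_
    rw [Set.uIcc_of_le (by norm_num)] at hq
    rw [trace_TM b θ hq.1 hq.2 hR, Finset.mul_sum]
    refine Finset.sum_congr rfl fun A _ => ?_
    rw [Finset.mul_sum, Finset.mul_sum]
    refine Finset.sum_congr rfl fun σ _ => ?_
    rw [Finset.mul_sum, Finset.mul_sum]
    refine Finset.sum_congr rfl fun τ _ => ?_
    ring
  rw [h, intervalIntegral.integral_finsetSum]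
  · refine Finset.sum_congr rfl fun A _ => ?_
    rw [intervalIntegral.integral_finsetSum]
    · rw [Finset.mul_sum]
      refine Finset.sum_congr rfl fun σ _ => ?_
      rw [intervalIntegral.integral_finsetSum]
      · rw [Finset.mul_sum]
        refine Finset.sum_congr rfl fun τ _ => ?_
        rw [intervalIntegral.integral_const_mul, intervalIntegral.integral_const_mul]
      · intro τ _
        apply Continuous.intervalIntegrable
        fun_prop
    · intro σ _
      apply Continuous.intervalIntegrable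
      fun_prop
  · intro A _
    apply Continuous.intervalIntegrable
    fun_prop

/-- Number of down spins in `A`, as a matrix. -/
def NM (A : Finset V) : Matrix (V → Fin 2) (V → Fin 2) ℝ :=
  Matrix.diagonal fun σ => (dn A σ : ℝ)

theorem integral_Z (b : Finset V) (θ : ℝ) {R : Matrix (V → Fin 2) (V → Fin 2) ℝ} (hR : Cons R) :
    ∫ q in (0 : ℝ)..1, Matrix.trace (R * TM b θ q) = ∑ A ∈ b.powerset, wS θ b.card A.card *
      (((A.card : ℝ) + 1)⁻¹ * Matrix.trace (R * symM A)) := by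
  have h := integral_TM b θ hR (g := fun _ => 1) continuous_const
  simp only [one_mul] at h
  rw [h]
  refine Finset.sum_congr rfl fun A _ => ?_
  congr 1
  rw [Matrix.trace, Finset.mul_sum]
  refine Finset.sum_congr rfl fun σ _ => ?_
  rw [Matrix.diag_apply, Matrix.mul_apply, Finset.mul_sum]
  refine Finset.sum_congr rfl fun τ _ => ?_
  rw [beta_choose (dn_le A σ)]
  unfold symM
  simp only [Matrix.of_apply]
  by_cases hr : Rel A τ σ
  · rw [if_pos hr, if_pos hr, hr.2]; ring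
  · rw [if_neg hr, if_neg hr]; ring

theorem integral_qZ (b : Finset V) (θ : ℝ) {R : Matrix (V → Fin 2) (V → Fin 2) ℝ} (hR : Cons R) :
    ∫ q in (0 : ℝ)..1, q * Matrix.trace (R * TM b θ q)
      = ∑ A ∈ b.powerset, wS θ b.card A.card *
      ((((A.card : ℝ) + 1) * ((A.card : ℝ) + 2))⁻¹ *
        (Matrix.trace (R * symM A) + Matrix.trace (R * (symM A * NM A)))) := by
  rw [integral_TM b θ hR (g := fun q => q) continuous_id]
  refine Finset.sum_congr rfl fun A _ => ?_
  congr 1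
  rw [Matrix.trace, Matrix.trace, ← Finset.sum_add_distrib, Finset.mul_sum]
  refine Finset.sum_congr rfl fun σ _ => ?_
  rw [Matrix.diag_apply, Matrix.diag_apply, Matrix.mul_apply, Matrix.mul_apply,
    ← Finset.sum_add_distrib, Finset.mul_sum]
  refine Finset.sum_congr rfl fun τ _ => ?_
  rw [beta_choose' (dn_le A σ)]
  unfold NM
  rw [Matrix.mul_diagonal]
  unfold symM
  simp only [Matrix.of_apply]
  by_cases hr : Rel A τ σ
  · rw [if_pos hr, if_pos hr, hr.2]; ring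
  · rw [if_neg hr, if_neg hr]; ring

end Vale.Agent.P361.LRO.Tw
end

section

/-!
Block (1) of the low temperature order proof (P361): the operator part.
-/

namespace Vale.Agent.P361.LRO.Tw

open Finset Matrix MeasureTheory intervalIntegral

set_option linter.unusedSectionVars false

variable {V : Type} [Fintype V] [DecidableEq V]

open scoped MatrixOrder in
theorem exists_factor_real {m : Type*} [Fintype m] [DecidableEq m] {A : Matrix m m ℝ}
    (hA : A.PosSemidef) : ∃ B : Matrix m m ℝ, A = Bᴴ * B := by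
  obtain ⟨b, hb⟩ := CStarAlgebra.nonneg_iff_eq_star_mul_self.mp hA.nonneg
  exact ⟨b, hb⟩

theorem tr_mul_nonneg {m : Type*} [Fintype m] [DecidableEq m] {A B : Matrix m m ℝ}
    (hA : A.PosSemidef) (hB : B.PosSemidef) : 0 ≤ Matrix.trace (A * B) := by
  obtain ⟨C, rfl⟩ := exists_factor_real hB
  rw [← Matrix.mul_assoc, Matrix.trace_mul_comm, ← Matrix.mul_assoc]
  exact (hA.mul_mul_conjTranspose_same C).trace_nonneg

/-- The density of down spins. -/
theorem half_sub_szM (x : V) : (1 / 2 : ℝ) • (1 - szM x)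
    = (Matrix.diagonal fun σ : V → Fin 2 => ((σ x : ℕ) : ℝ)) := by
  unfold szM
  rw [← Matrix.diagonal_one, Matrix.diagonal_sub, ← Matrix.diagonal_smul]
  congr 1
  funext σ
  simp only [Pi.smul_apply, smul_eq_mul]
  rcases Fin.exists_fin_two.1 ⟨σ x, rfl⟩ with h | h
  · rw [h]; norm_num
  · rw [h]; norm_num

theorem NM_eq_sum (A : Finset V) : (NM A : Matrix (V → Fin 2) (V → Fin 2) ℝ)
    = ∑ x ∈ A, (1 / 2 : ℝ) • (1 - szM x) := by
  rw [Finset.sum_congr rfl fun x _ => half_sub_szM x]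
  ext σ τ
  rw [Matrix.sum_apply]
  unfold NM dn
  by_cases h : σ = τ
  · subst h
    simp only [Matrix.diagonal_apply_eq]
    push_cast
    rfl
  · simp only [Matrix.diagonal_apply_ne _ h]
    simp

/-- `symM A` commutes with `NM A`. -/
theorem symM_NM (A : Finset V) : symM A * NM A = NM A * symM A := by
  ext σ τ
  unfold NM
  rw [Matrix.mul_diagonal, Matrix.diagonal_mul]
  by_cases h : Rel A σ τ
  · rw [h.2, mul_comm]
  · have : symM A σ τ = 0 := by unfold symM; simp only [Matrix.of_apply]; rw [if_neg h]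
    rw [this, mul_zero, zero_mul]

theorem card_sub_NM_posSemidef (A : Finset V) :
    (((A.card : ℝ) • (1 : Matrix (V → Fin 2) (V → Fin 2) ℝ)) - NM A).PosSemidef := by
  have h : ((A.card : ℝ) • (1 : Matrix (V → Fin 2) (V → Fin 2) ℝ)) - NM A
      = Matrix.diagonal fun σ : V → Fin 2 => (A.card : ℝ) - (dn A σ : ℝ) := by
    unfold NM
    rw [← Matrix.diagonal_one, ← Matrix.diagonal_smul, Matrix.diagonal_sub]
    congr 1
    funext σ
    simp
  rw [h]
  refine Matrix.PosSemidef.diagonal fun σ => ?_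
  have : (dn A σ : ℝ) ≤ (A.card : ℝ) := by exact_mod_cast dn_le A σ
  simp only [Pi.zero_apply]
  linarith

/-- `N (1 - Π) ≤ |A| (1 - Π)`. -/
theorem card_NM_psd (A : Finset V) :
    ((symM A * NM A) - (NM A - (A.card : ℝ) • (1 - symM A))).PosSemidef := by
  have h : (symM A * NM A) - (NM A - (A.card : ℝ) • (1 - symM A))
      = (1 - symM A)ᴴ * (((A.card : ℝ) • (1 : Matrix (V → Fin 2) (V → Fin 2) ℝ)) - NM A)
        * (1 - symM A) := by
    rw [Matrix.conjTranspose_eq_transpose_of_trivial, Matrix.transpose_sub,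
      Matrix.transpose_one, symM_transpose]
    have e1 : symM A * NM A * symM A = symM A * NM A := by
      rw [mul_assoc, ← symM_NM, ← mul_assoc, symM_mul_self]
    have e2 : NM A * symM A = symM A * NM A := (symM_NM A).symm
    simp only [sub_mul, mul_sub, one_mul, mul_one, Matrix.smul_mul, Matrix.mul_smul, smul_sub,
      symM_mul_self, e1, e2]
    abel
  rw [h]
  exact (card_sub_NM_posSemidef A).conjTranspose_mul_mul_same _

theorem sum_hM (A : Finset V) : (1 / 4 : ℝ) • (∑ x ∈ A, ∑ y ∈ A, (1 - swapM x y))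
    = (1 / 2 : ℝ) • ∑ x ∈ A, ∑ y ∈ A, (hM x y : Matrix (V → Fin 2) (V → Fin 2) ℝ) := by
  unfold hM
  simp only [← Finset.smul_sum]
  rw [smul_smul]
  norm_num

theorem hM_posSemidef (x y : V) : (hM x y).PosSemidef := by
  unfold hM
  exact (one_sub_swapM_posSemidef x y).smul (by norm_num)

theorem hM_self (x : V) : (hM x x : Matrix (V → Fin 2) (V → Fin 2) ℝ) = 0 := by
  unfold hM
  rw [swapM_self, sub_self, smul_zero]

theorem rotM_eq (θ : ℝ) {φ : ℝ} (h0 : 0 ≤ φ) (h1 : φ ≤ Real.pi) (i j : Fin 2) :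
    rotM θ φ i j = (1 - θ) * (if i = j then 1 else 0)
      + 2 * θ * (vq ((1 - Real.cos φ) / 2) i * vq ((1 - Real.cos φ) / 2) j) := by
  have hc : √(1 - (1 - Real.cos φ) / 2) = Real.cos (φ / 2) := by
    have e : 1 - (1 - Real.cos φ) / 2 = Real.cos (φ / 2) ^ 2 := by
      rw [Real.cos_sq]; ring_nf
    rw [e, Real.sqrt_sq]
    exact Real.cos_nonneg_of_mem_Icc ⟨by linarith [Real.pi_pos], by linarith⟩
  have hs : √((1 - Real.cos φ) / 2) = Real.sin (φ / 2) := by
    have e : (1 - Real.cos φ) / 2 = Real.sin (φ / 2) ^ 2 := by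
      rw [Real.sin_sq, Real.cos_sq]; ring_nf
    rw [e, Real.sqrt_sq]
    exact Real.sin_nonneg_of_nonneg_of_le_pi (by linarith) (by linarith)
  have hcos : Real.cos φ = 2 * Real.cos (φ / 2) ^ 2 - 1 := by
    rw [← Real.cos_two_mul]; ring_nf
  have hsin : Real.sin φ = 2 * Real.sin (φ / 2) * Real.cos (φ / 2) := by
    rw [← Real.sin_two_mul]; ring_nf
  have hsq := Real.sin_sq_add_cos_sq (φ / 2)
  unfold rotM vq
  rw [hc, hs]
  fin_cases i <;> fin_cases j
  · simp; rw [hcos]; ring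
  · simp; rw [hsin]; ring
  · simp; rw [hsin]; ring
  · have hs2 : Real.sin (φ / 2) * Real.sin (φ / 2) = 1 - Real.cos (φ / 2) ^ 2 := by
      linarith [hsq, sq (Real.sin (φ / 2))]
    simp; rw [hcos, hs2]; ring

theorem rotT_eq (b : Finset V) (θ : ℝ) {φ : ℝ} (h0 : 0 ≤ φ) (h1 : φ ≤ Real.pi) :
    rotT b θ φ = TM b θ ((1 - Real.cos φ) / 2) := by
  ext σ τ
  unfold rotT TM
  simp only [Matrix.of_apply]
  refine Finset.prod_congr rfl fun x _ => ?_
  by_cases hx : x ∈ b
  · rw [if_pos hx, if_pos hx, rotM_eq θ h0 h1]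
  · rw [if_neg hx, if_neg hx]

theorem continuous_vq (i : Fin 2) : Continuous fun q : ℝ => vq q i := by
  unfold vq
  split_ifs
  · exact Real.continuous_sqrt.comp (continuous_const.sub continuous_id)
  · exact Real.continuous_sqrt

theorem continuous_TM (b : Finset V) (θ : ℝ) (W : Matrix (V → Fin 2) (V → Fin 2) ℝ) :
    Continuous fun q : ℝ => Matrix.trace (W * TM b θ q) := by
  have h : (fun q : ℝ => Matrix.trace (W * TM b θ q))
      = fun q : ℝ => ∑ σ, ∑ τ, W σ τ * TM b θ q τ σ := by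
    funext q; rw [Matrix.trace]; rfl
  rw [h]
  refine continuous_finsetSum _ fun σ _ => continuous_finsetSum _ fun τ _ => ?_
  refine continuous_const.mul ?_
  unfold TM
  simp only [Matrix.of_apply]
  refine continuous_finsetProd _ fun x _ => ?_
  by_cases hx : x ∈ b
  · simp only [if_pos hx]
    exact continuous_const.add (continuous_const.mul
      ((continuous_vq _).mul (continuous_vq _)))
  · simp only [if_neg hx]
    exact continuous_const

theorem change_var {F : ℝ → ℝ} (hF : Continuous F) :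
    ∫ φ in (0 : ℝ)..Real.pi, Real.sin φ * F ((1 - Real.cos φ) / 2)
      = 2 * ∫ q in (0 : ℝ)..1, F q := by
  have h := intervalIntegral.integral_comp_mul_deriv (a := 0) (b := Real.pi)
    (f := fun φ => (1 - Real.cos φ) / 2) (f' := fun φ => Real.sin φ / 2) (g := F)
    (fun φ _ => by
      have := ((Real.hasDerivAt_cos φ).const_sub 1).div_const 2
      simpa using this)
    (by fun_prop) hF
  simp only [Function.comp_apply, Real.cos_zero, sub_self, zero_div, Real.cos_pi, sub_neg_eq_add] at h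
  have e : ((1 : ℝ) + 1) / 2 = 1 := by norm_num
  rw [e] at h
  rw [← h, ← intervalIntegral.integral_const_mul]
  congr 1
  funext φ
  ring

/-- The final inequality with `θ`. -/
theorem op_core {W : Matrix (V → Fin 2) (V → Fin 2) ℝ} (hW : W.PosSemidef) (hsym : Cons W)
    {b : Finset V} {θ κ : ℝ} (hθ : 0 < θ) (hθ1 : θ ≤ 1)
    (h6 : 6 * (1 + θ) ≤ (b.card : ℝ) * (2 * θ)) (hκ : 0 < κ)
    (hk : 2 * κ * ∫ q in (0 : ℝ)..1, q * Matrix.trace (W * TM b θ q)
      ≤ ∫ q in (0 : ℝ)..1, Matrix.trace (W * TM b θ q)) :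
    2 * κ * ((2 / 3) * ((1 + θ) ^ (b.card + 1) / (((b.card : ℝ) + 1) * (2 * θ)))
        * ((∑ x ∈ b, Matrix.trace (W * ((1 / 2 : ℝ) • (1 - szM x)))) / b.card)
      - (1 / 12) * ((2 * θ) ^ 2 * (1 + θ) ^ (b.card - 2))
        * ∑ x ∈ b, ∑ y ∈ b, Matrix.trace (W * hM x y))
      ≤ (1 + θ) ^ (b.card + 1) / (((b.card : ℝ) + 1) * (2 * θ)) * Matrix.trace W := by
  set n : ℝ := (b.card : ℝ) with hn
  have hn6 : 6 ≤ n := by
    by_contra hlt
    push Not at hlt
    have : n * (2 * θ) < 6 * (2 * θ) := by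
      exact mul_lt_mul_of_pos_right hlt (by linarith)
    nlinarith
  have hnpos : 0 < n := by linarith
  set r : V → ℝ := fun x => Matrix.trace (W * ((1 / 2 : ℝ) • (1 - szM x))) with hr
  set H : V → V → ℝ := fun x y => Matrix.trace (W * hM x y) with hH
  have hH0 : ∀ x y, 0 ≤ H x y := fun x y => tr_mul_nonneg hW (hM_posSemidef x y)
  have hHd : ∀ x, H x x = 0 := by
    intro x; rw [hH]; simp only [hM_self]; simp
  have hWtr : 0 ≤ Matrix.trace W := hW.trace_nonneg
  set Q := (1 + θ) ^ (b.card + 1) / ((n + 1) * (2 * θ)) with hQ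
  have hQ0 : 0 ≤ Q := by rw [hQ]; positivity
  have hw0 : ∀ A : Finset V, 0 ≤ wS θ b.card A.card := fun A => by
    unfold wS
    exact mul_nonneg (by positivity) (pow_nonneg (by linarith) _)
  have hxy : 2 * θ + (1 - θ) = 1 + θ := by ring
  -- first integral
  have I1 : ∫ q in (0 : ℝ)..1, Matrix.trace (W * TM b θ q) ≤ Q * Matrix.trace W := by
    rw [integral_Z b θ hsym]
    have h1 := sum_one_le (x := 2 * θ) (y := 1 - θ) (by linarith) (by linarith) b
    rw [hxy] at h1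
    calc ∑ A ∈ b.powerset, wS θ b.card A.card *
          (((A.card : ℝ) + 1)⁻¹ * Matrix.trace (W * symM A))
        ≤ ∑ A ∈ b.powerset, (2 * θ) ^ A.card * (1 - θ) ^ (b.card - A.card)
            * ((A.card : ℝ) + 1)⁻¹ * Matrix.trace W := by
          refine Finset.sum_le_sum fun A _ => ?_
          have h2 : Matrix.trace (W * symM A) ≤ Matrix.trace W := by
            have := tr_mul_nonneg hW (one_sub_symM_posSemidef A)
            rw [mul_sub, mul_one, Matrix.trace_sub] at this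
            linarith
          have h3 : 0 ≤ (2 * θ) ^ A.card * (1 - θ) ^ (b.card - A.card) := hw0 A
          calc wS θ b.card A.card * (((A.card : ℝ) + 1)⁻¹ * Matrix.trace (W * symM A))
              = (2 * θ) ^ A.card * (1 - θ) ^ (b.card - A.card)
                  * ((A.card : ℝ) + 1)⁻¹ * Matrix.trace (W * symM A) := by unfold wS; ring
            _ ≤ _ := mul_le_mul_of_nonneg_left h2 (by positivity)
      _ = (∑ A ∈ b.powerset, (2 * θ) ^ A.card * (1 - θ) ^ (b.card - A.card)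
            * ((A.card : ℝ) + 1)⁻¹) * Matrix.trace W := by rw [Finset.sum_mul]
      _ ≤ Q * Matrix.trace W := mul_le_mul_of_nonneg_right h1 hWtr
  -- second integral
  have I2 : (∑ A ∈ b.powerset, (wS θ b.card A.card * (((A.card : ℝ) + 1) * ((A.card : ℝ) + 2))⁻¹)
        * ∑ x ∈ A, r x)
      - (1 / 12) * ∑ A ∈ b.powerset, wS θ b.card A.card * ∑ x ∈ A, ∑ y ∈ A, H x y
      ≤ ∫ q in (0 : ℝ)..1, q * Matrix.trace (W * TM b θ q) := by
    rw [integral_qZ b θ hsym, Finset.mul_sum, ← Finset.sum_sub_distrib]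
    refine Finset.sum_le_sum fun A _ => ?_
    have ha : (0 : ℝ) ≤ (A.card : ℝ) := by positivity
    set a : ℝ := (A.card : ℝ) with haa
    have p1 : 0 ≤ Matrix.trace (W * symM A) := tr_mul_nonneg hW (symM_posSemidef A)
    have p2 : ∑ x ∈ A, r x - a * Matrix.trace (W * (1 - symM A))
        ≤ Matrix.trace (W * (symM A * NM A)) := by
      have h := tr_mul_nonneg hW (card_NM_psd A)
      have e : Matrix.trace (W * NM A) = ∑ x ∈ A, r x := by
        rw [NM_eq_sum, Finset.mul_sum, Matrix.trace_sum]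
      rw [mul_sub, mul_sub, Matrix.trace_sub, Matrix.trace_sub, e, Matrix.mul_smul,
        Matrix.trace_smul, smul_eq_mul] at h
      linarith
    have p3 : Matrix.trace (W * (1 - symM A)) ≤ (1 / 2) * ∑ x ∈ A, ∑ y ∈ A, H x y := by
      have h := tr_mul_nonneg hW (sym_psd A)
      rw [sum_hM, mul_sub, Matrix.trace_sub, Matrix.mul_smul, Matrix.trace_smul, smul_eq_mul,
        Finset.mul_sum, Matrix.trace_sum] at h
      have e : ∑ x ∈ A, Matrix.trace (W * ∑ y ∈ A, hM x y) = ∑ x ∈ A, ∑ y ∈ A, H x y := by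
        refine Finset.sum_congr rfl fun x _ => ?_
        rw [Finset.mul_sum, Matrix.trace_sum]
      rw [e] at h
      linarith
    have p4 : 0 ≤ ∑ x ∈ A, ∑ y ∈ A, H x y :=
      Finset.sum_nonneg fun x _ => Finset.sum_nonneg fun y _ => hH0 x y
    set SH := ∑ x ∈ A, ∑ y ∈ A, H x y with hSH
    set Sr := ∑ x ∈ A, r x with hSr
    have hc : 0 ≤ ((a + 1) * (a + 2))⁻¹ := by positivity
    have hc6 : ((a + 1) * (a + 2))⁻¹ * a ≤ 1 / 6 := by
      rw [inv_mul_le_iff₀ (by positivity)]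
      -- a ≤ (a+1)(a+2)/6, integer a
      rcases Nat.eq_zero_or_pos A.card with h0 | h0
      · rw [haa, h0]; norm_num
      · rcases Nat.eq_or_lt_of_le h0 with h1 | h1
        · have : a = 1 := by rw [haa, ← h1]; norm_num
          rw [this]; norm_num
        · have : (2 : ℝ) ≤ a := by rw [haa]; exact_mod_cast h1
          nlinarith
    have q1 : Sr - a * ((1 / 2) * SH) ≤ Matrix.trace (W * symM A) + Matrix.trace (W * (symM A * NM A)) := by
      have : a * Matrix.trace (W * (1 - symM A)) ≤ a * ((1 / 2) * SH) :=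
        mul_le_mul_of_nonneg_left p3 ha
      linarith
    have q2 := mul_le_mul_of_nonneg_left q1 hc
    have q3 : ((a + 1) * (a + 2))⁻¹ * Sr - (1 / 12) * SH
        ≤ ((a + 1) * (a + 2))⁻¹ * (Matrix.trace (W * symM A) + Matrix.trace (W * (symM A * NM A))) := by
      refine le_trans ?_ q2
      have : (((a + 1) * (a + 2))⁻¹ * a) * ((1 / 2) * SH) ≤ (1 / 6) * ((1 / 2) * SH) :=
        mul_le_mul_of_nonneg_right hc6 (by linarith)
      nlinarith
    have q4 := mul_le_mul_of_nonneg_left q3 (hw0 A)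
    calc wS θ b.card A.card * ((a + 1) * (a + 2))⁻¹ * Sr - 1 / 12 * (wS θ b.card A.card * SH)
        = wS θ b.card A.card * (((a + 1) * (a + 2))⁻¹ * Sr - (1 / 12) * SH) := by ring
      _ ≤ _ := q4
  -- averages
  have hr0 : ∀ x, 0 ≤ r x := by
    intro x
    rw [hr]
    refine tr_mul_nonneg hW ?_
    rw [half_sub_szM]
    exact Matrix.PosSemidef.diagonal fun σ => by simp
  have I3 : (2 / 3) * Q * ((∑ x ∈ b, r x) / n)
      ≤ ∑ A ∈ b.powerset, (wS θ b.card A.card * (((A.card : ℝ) + 1) * ((A.card : ℝ) + 2))⁻¹)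
        * ∑ x ∈ A, r x := by
    have h1 := sum_mem_avg b (fun k => wS θ b.card k * (((k : ℝ) + 1) * ((k : ℝ) + 2))⁻¹) r
    have h2 := le_sum_two (x := 2 * θ) (y := 1 - θ) (by linarith) (by linarith) b
      (by rw [hxy]; exact h6)
    rw [hxy] at h2
    have h3 : (2 / 3) * Q ≤ ∑ A ∈ b.powerset,
        wS θ b.card A.card * (((A.card : ℝ) + 1) * ((A.card : ℝ) + 2))⁻¹ * (A.card : ℝ) := h2
    have hs : 0 ≤ ∑ x ∈ b, r x := Finset.sum_nonneg fun x _ => hr0 x
    have h4 := mul_le_mul_of_nonneg_right h3 hs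
    rw [← h1] at h4
    rw [← mul_div_assoc, div_le_iff₀ hnpos]
    linarith
  -- pairs
  have I4 : ∑ A ∈ b.powerset, wS θ b.card A.card * ∑ x ∈ A, ∑ y ∈ A, H x y
      = (2 * θ) ^ 2 * (1 + θ) ^ (b.card - 2) * ∑ x ∈ b, ∑ y ∈ b, H x y := by
    have h1 : ∑ A ∈ b.powerset, wS θ b.card A.card * ∑ x ∈ A, ∑ y ∈ A, H x y
        = ∑ A ∈ b.powerset, ∑ x ∈ b, ∑ y ∈ b,
            H x y * (if x ∈ A ∧ y ∈ A then wS θ b.card A.card else 0) := by
      refine Finset.sum_congr rfl fun A hA => ?_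
      have hAb : A ⊆ b := Finset.mem_powerset.1 hA
      rw [Finset.mul_sum, ← Finset.sum_subset hAb]
      · refine Finset.sum_congr rfl fun x hx => ?_
        rw [Finset.mul_sum, ← Finset.sum_subset hAb]
        · refine Finset.sum_congr rfl fun y hy => ?_
          rw [if_pos ⟨hx, hy⟩, mul_comm]
        · intro y _ hy; rw [if_neg fun h' => hy h'.2, mul_zero]
      · intro x _ hx
        refine Finset.sum_eq_zero fun y _ => ?_
        rw [if_neg fun h' => hx h'.1, mul_zero]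
    rw [h1, Finset.sum_comm, Finset.mul_sum]
    refine Finset.sum_congr rfl fun x hx => ?_
    rw [Finset.sum_comm, Finset.mul_sum]
    refine Finset.sum_congr rfl fun y hy => ?_
    by_cases hxy' : x = y
    · subst hxy'
      rw [hHd]; simp
    · rw [← Finset.mul_sum]
      unfold wS
      rw [sum_pair b hx hy hxy', hxy, mul_comm]
  have hfin : 2 * κ * ((2 / 3) * Q * ((∑ x ∈ b, r x) / n)
      - (1 / 12) * ((2 * θ) ^ 2 * (1 + θ) ^ (b.card - 2)) * ∑ x ∈ b, ∑ y ∈ b, H x y)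
      ≤ 2 * κ * ∫ q in (0 : ℝ)..1, q * Matrix.trace (W * TM b θ q) := by
    refine mul_le_mul_of_nonneg_left ?_ (by linarith)
    rw [I4] at I2
    linarith
  exact hfin.trans (hk.trans I1)

theorem tanh_eq (u : ℝ) : Real.tanh u = (Real.exp (2 * u) - 1) / (Real.exp (2 * u) + 1) := by
  rw [Real.tanh_eq_sinh_div_cosh, Real.sinh_eq, Real.cosh_eq]
  have h1 : Real.exp (2 * u) = Real.exp u * Real.exp u := by rw [← Real.exp_add]; ring_nf
  have h2 : Real.exp (-u) = (Real.exp u)⁻¹ := Real.exp_neg u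
  have h3 := Real.exp_pos u
  rw [h1, h2]
  field_simp

/-- **The operator part of the block twist.** -/
theorem op_part {W : Matrix (V → Fin 2) (V → Fin 2) ℝ} (hW : W.PosSemidef)
    (hsym : ∀ σ τ : V → Fin 2, W σ τ ≠ 0 → ∑ x, (σ x : ℕ) = ∑ x, (τ x : ℕ))
    {b : Finset V} {K κ : ℝ} (hK : 10 ≤ K) (hKb : K ≤ b.card) (hκ : 0 < κ)
    (hk : κ * ∫ φ in (0 : ℝ)..Real.pi, Real.sin φ * (1 - Real.cos φ)
        * Matrix.trace (W * rotT b (Real.tanh (K / (2 * b.card))) φ)
      ≤ ∫ φ in (0 : ℝ)..Real.pi, Real.sin φ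
        * Matrix.trace (W * rotT b (Real.tanh (K / (2 * b.card))) φ)) :
    (∑ x ∈ b, Matrix.trace (W * ((1 / 2 : ℝ) • (1 - szM x)))) / b.card
      ≤ (1 / κ) * Matrix.trace W
        + K ^ 3 * (2 / (b.card : ℝ) ^ 2 * ∑ x ∈ b, ∑ y ∈ b, Matrix.trace (W * hM x y)) := by
  have hn10 : (10 : ℝ) ≤ b.card := hK.trans hKb
  have hnpos : (0 : ℝ) < b.card := by linarith
  set θ := Real.tanh (K / (2 * b.card)) with hθdef
  set v : ℝ := K / b.card with hv
  have hv0 : 0 < v := by rw [hv]; positivity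
  have hv1 : v ≤ 1 := by rw [hv]; exact (div_le_one hnpos).2 hKb
  have hnv : (b.card : ℝ) * v = K := by rw [hv]; field_simp
  set E := Real.exp v with hE
  have hE1 : 1 + v + v ^ 2 / 2 ≤ E := Real.quadratic_le_exp_of_nonneg hv0.le
  have hEpos : 0 < E := Real.exp_pos v
  have hEgt : 1 < E := by nlinarith
  have hθE : θ = (E - 1) / (E + 1) := by
    rw [hθdef, tanh_eq, hE, hv]
    have : 2 * (K / (2 * (b.card : ℝ))) = K / b.card := by field_simp
    rw [this]
  have hθ0 : 0 < θ := by rw [hθE]; exact div_pos (by linarith) (by linarith)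
  have hθ1 : θ ≤ 1 := by
    rw [hθE]; exact (div_le_one (by linarith)).2 (by linarith)
  have hE1' : (E + 1) * θ = E - 1 := by rw [hθE]; field_simp
  -- 6 (1 + θ) ≤ n 2 θ
  have hEn : 6 * E ≤ (b.card : ℝ) * (E - 1) := by
    have h1 : 0.6 * v * E ≤ E - 1 := by
      have hq : 0 < 1 - 0.6 * v := by linarith
      have h2 : (1 + v + v ^ 2 / 2) * (1 - 0.6 * v) ≤ E * (1 - 0.6 * v) :=
        mul_le_mul_of_nonneg_right hE1 hq.le
      have h3 : 1 ≤ (1 + v + v ^ 2 / 2) * (1 - 0.6 * v) := by nlinarith [mul_nonneg hv0.le (sub_nonneg.2 hv1), mul_nonneg (mul_nonneg hv0.le hv0.le) (sub_nonneg.2 hv1)]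
      linarith
    have h4 : (b.card : ℝ) * (0.6 * v * E) ≤ (b.card : ℝ) * (E - 1) :=
      mul_le_mul_of_nonneg_left h1 hnpos.le
    have h5 : (b.card : ℝ) * (0.6 * v * E) = 0.6 * K * E := by rw [← hnv]; ring
    rw [h5] at h4
    nlinarith
  have h6 : 6 * (1 + θ) ≤ (b.card : ℝ) * (2 * θ) := by
    have hpos : 0 < E + 1 := by linarith
    refine le_of_mul_le_mul_left ?_ hpos
    have e1 : (E + 1) * (6 * (1 + θ)) = 12 * E := by
      have : (E + 1) * (6 * (1 + θ)) = 6 * ((E + 1) + (E + 1) * θ) := by ring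
      rw [this, hE1']; ring
    have e2 : (E + 1) * ((b.card : ℝ) * (2 * θ)) = 2 * ((b.card : ℝ) * (E - 1)) := by
      have : (E + 1) * ((b.card : ℝ) * (2 * θ)) = 2 * ((b.card : ℝ) * ((E + 1) * θ)) := by ring
      rw [this, hE1']
    rw [e1, e2]; linarith
  -- 2 θ ≤ v (1 + θ)
  have hpr : 2 * θ ≤ v * (1 + θ) := by
    have hpos : 0 < E + 1 := by linarith
    refine le_of_mul_le_mul_left ?_ hpos
    have e1 : (E + 1) * (v * (1 + θ)) = 2 * (v * E) := by
      have : (E + 1) * (v * (1 + θ)) = v * ((E + 1) + (E + 1) * θ) := by ring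
      rw [this, hE1']; ring
    have e2 : (E + 1) * (2 * θ) = 2 * (E - 1) := by rw [← hE1']; ring
    rw [e1, e2]
    have h7 : 1 - v ≤ Real.exp (-v) := by
      have := Real.add_one_le_exp (-v); linarith
    have h8 : Real.exp (-v) * E = 1 := by rw [hE, ← Real.exp_add]; simp
    have h9 : (1 - v) * E ≤ Real.exp (-v) * E := mul_le_mul_of_nonneg_right h7 hEpos.le
    rw [h8] at h9
    linarith
  -- the twist inequality in the variable q
  have hkq : 2 * κ * ∫ q in (0 : ℝ)..1, q * Matrix.trace (W * TM b θ q)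
      ≤ ∫ q in (0 : ℝ)..1, Matrix.trace (W * TM b θ q) := by
    have c1 := change_var (continuous_TM b θ W)
    have c2 := change_var (continuous_id.mul (continuous_TM b θ W))
    have hI1 : ∫ φ in (0 : ℝ)..Real.pi, Real.sin φ * Matrix.trace (W * rotT b θ φ)
        = 2 * ∫ q in (0 : ℝ)..1, Matrix.trace (W * TM b θ q) := by
      rw [← c1]
      refine integral_congr fun φ hφ => ?_
      rw [Set.uIcc_of_le Real.pi_pos.le] at hφ
      rw [rotT_eq b θ hφ.1 hφ.2]
    have hI2 : ∫ φ in (0 : ℝ)..Real.pi, Real.sin φ * (1 - Real.cos φ) * Matrix.trace (W * rotT b θ φ)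
        = 4 * ∫ q in (0 : ℝ)..1, q * Matrix.trace (W * TM b θ q) := by
      have c2' : ∫ φ in (0 : ℝ)..Real.pi, Real.sin φ *
          ((1 - Real.cos φ) / 2 * Matrix.trace (W * TM b θ ((1 - Real.cos φ) / 2)))
          = 2 * ∫ q in (0 : ℝ)..1, q * Matrix.trace (W * TM b θ q) := c2
      have : (4 : ℝ) * ∫ q in (0 : ℝ)..1, q * Matrix.trace (W * TM b θ q)
          = 2 * (2 * ∫ q in (0 : ℝ)..1, q * Matrix.trace (W * TM b θ q)) := by ring
      rw [this, ← c2', ← intervalIntegral.integral_const_mul]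
      refine integral_congr fun φ hφ => ?_
      rw [Set.uIcc_of_le Real.pi_pos.le] at hφ
      rw [rotT_eq b θ hφ.1 hφ.2]
      ring
    rw [hI1, hI2] at hk
    linarith
  have core := op_core hW (fun σ τ h => hsym σ τ h) hθ0 hθ1 h6 hκ hkq
  set n : ℝ := (b.card : ℝ) with hn
  set SR := (∑ x ∈ b, Matrix.trace (W * ((1 / 2 : ℝ) • (1 - szM x)))) / n with hSR
  set SH := ∑ x ∈ b, ∑ y ∈ b, Matrix.trace (W * hM x y) with hSH
  have hSH0 : 0 ≤ SH := Finset.sum_nonneg fun x _ => Finset.sum_nonneg fun y _ =>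
    tr_mul_nonneg hW (hM_posSemidef x y)
  have hWtr : 0 ≤ Matrix.trace W := hW.trace_nonneg
  set Q := (1 + θ) ^ (b.card + 1) / ((n + 1) * (2 * θ)) with hQ
  have hQpos : 0 < Q := by rw [hQ]; positivity
  have hcard2 : 2 ≤ b.card := by
    have : (2 : ℝ) ≤ (b.card : ℝ) := by linarith
    exact_mod_cast this
  -- (2θ)^2 (1+θ)^(n-2) ≤ Q * (2 K^3 / n^2)
  have hpair : (2 * θ) ^ 2 * (1 + θ) ^ (b.card - 2) ≤ Q * (2 * K ^ 3 / n ^ 2) := by
    have e3 : (1 + θ) ^ (b.card + 1) = (1 + θ) ^ 3 * (1 + θ) ^ (b.card - 2) := by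
      rw [← pow_add]; congr 1; omega
    have hc3 : (2 * θ) ^ 3 ≤ (v * (1 + θ)) ^ 3 := pow_le_pow_left₀ (by linarith) hpr 3
    have hP : 0 ≤ (1 + θ) ^ (b.card - 2) := by positivity
    have e4 : K ^ 3 = n ^ 3 * v ^ 3 := by rw [← hnv]; ring
    have e5 : Q * (2 * K ^ 3 / n ^ 2)
        = ((1 + θ) ^ 3 * (1 + θ) ^ (b.card - 2)) * (2 * n * v ^ 3) / ((n + 1) * (2 * θ)) := by
      rw [hQ, e3, e4]; field_simp
    rw [e5, le_div_iff₀ (by positivity)]
    have h10 : (n + 1) * (2 * θ) ^ 3 ≤ (2 * n) * (v * (1 + θ)) ^ 3 :=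
      mul_le_mul (by linarith) hc3 (by positivity) (by positivity)
    calc (2 * θ) ^ 2 * (1 + θ) ^ (b.card - 2) * ((n + 1) * (2 * θ))
        = ((n + 1) * (2 * θ) ^ 3) * (1 + θ) ^ (b.card - 2) := by ring
      _ ≤ ((2 * n) * (v * (1 + θ)) ^ 3) * (1 + θ) ^ (b.card - 2) :=
          mul_le_mul_of_nonneg_right h10 hP
      _ = _ := by ring
  have h11 : (2 * θ) ^ 2 * (1 + θ) ^ (b.card - 2) * SH ≤ Q * (2 * K ^ 3 / n ^ 2) * SH :=
    mul_le_mul_of_nonneg_right hpair hSH0
  have h12 : Q * (2 * κ * ((2 / 3) * SR - (1 / 12) * (2 * K ^ 3 / n ^ 2) * SH))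
      ≤ Q * Matrix.trace W := by
    refine le_trans ?_ core
    have : Q * (2 * κ * ((2 / 3) * SR - (1 / 12) * (2 * K ^ 3 / n ^ 2) * SH))
        = 2 * κ * ((2 / 3) * Q * SR - (1 / 12) * (Q * (2 * K ^ 3 / n ^ 2) * SH)) := by ring
    rw [this]
    refine mul_le_mul_of_nonneg_left ?_ (by linarith)
    linarith
  have h13 := le_of_mul_le_mul_left h12 hQpos
  have h14 : (2 / 3) * SR - (1 / 12) * (2 * K ^ 3 / n ^ 2) * SH ≤ Matrix.trace W / (2 * κ) := by
    rw [le_div_iff₀ (by linarith)]; linarith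
  have h15 : 0 ≤ K ^ 3 * (2 / n ^ 2 * SH) := by positivity
  have h16 : (1 / 12) * (2 * K ^ 3 / n ^ 2) * SH = (1 / 12) * (K ^ 3 * (2 / n ^ 2 * SH)) := by ring
  have h17 : Matrix.trace W / (2 * κ) = (1 / 2) * ((1 / κ) * Matrix.trace W) := by
    field_simp
  have h18 : 0 ≤ (1 / κ) * Matrix.trace W := by positivity
  rw [h16, h17] at h14
  linarith

end Vale.Agent.P361.LRO.Tw
end

section

/-!
P361, block (1): the block twist.
-/

namespace Vale.Agent.P361.LRO

open Finset Matrix Filter Topology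

noncomputable section

variable {V : Type} [Fintype V] [DecidableEq V]

/-- **Block twist.** -/
theorem block_twist (L : List (V × V)) {β : ℝ} (hβ : 0 < β) {h : V → ℝ} (hh : ∀ x, 0 ≤ h x)
    {b : Finset V} {K κ : ℝ} (hK : 10 ≤ K) (hKb : K ≤ b.card) (hκ : 0 < κ)
    (hf : ∃ᶠ N : ℕ in atTop, κ ≤ kap L β N h K b) :
    (∑ x ∈ b, rho L β h x) / b.card ≤ 1 / κ + K ^ 3 * Dst L β h b := by
  have h1 := twist_gibbs (fun X _ _ μ θ hμ hθ => SR.stable_of_isLaw hμ hθ) L hβ hh
    (by linarith) b hf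
  have h2 := Tw.op_part (Tw.expH_psd L β h) (fun σ τ hd => Tw.expH_cons L β h σ τ hd)
    hK hKb hκ h1
  have h3 := Tw.trace_expH_pos L β h
  have h4 := div_le_div_of_nonneg_right h2 h3.le
  set T := Matrix.trace (NormedSpace.exp (-β • ham L h)) with hT
  have e1 : (∑ x ∈ b, rho L β h x) / b.card =
      (∑ x ∈ b, Matrix.trace (NormedSpace.exp (-β • ham L h) * ((1 / 2 : ℝ) • (1 - szM x)))) /
        b.card / T := by
    unfold rho gib
    rw [← hT, ← Finset.sum_div]
    ring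
  have e2 : 1 / κ + K ^ 3 * Dst L β h b = (1 / κ * T + K ^ 3 * (2 / (b.card : ℝ) ^ 2 *
      ∑ x ∈ b, ∑ y ∈ b, Matrix.trace (NormedSpace.exp (-β • ham L h) * hM x y))) / T := by
    unfold Dst gib
    rw [← hT]
    have e3 : ∑ x ∈ b, ∑ y ∈ b, Matrix.trace (NormedSpace.exp (-β • ham L h) * hM x y) / T =
        (∑ x ∈ b, ∑ y ∈ b, Matrix.trace (NormedSpace.exp (-β • ham L h) * hM x y)) / T := by
      rw [Finset.sum_div]
      exact Finset.sum_congr rfl fun x _ => (Finset.sum_div _ _ _).symm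
    rw [e3, add_div, mul_div_assoc (1 / κ), div_self h3.ne', mul_one]
    ring
  rw [e1, e2]
  exact h4

theorem gib_nonneg_of_form (L : List (V × V)) (β : ℝ) (h : V → ℝ)
    {A : Matrix (V → Fin 2) (V → Fin 2) ℝ} (hA : A.PosSemidef) : 0 ≤ gib L β h A := by
  have h1 := EnR.gib_le_of_form_le L β h (A := 0) (B := A) fun ψ => by
    have := hA.dotProduct_mulVec_nonneg ψ
    simpa using this
  have h2 : gib L β h (0 : Matrix (V → Fin 2) (V → Fin 2) ℝ) = 0 := by
    unfold gib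
    simp
  linarith

theorem Dst_nonneg (L : List (V × V)) (β : ℝ) (h : V → ℝ) (b : Finset V) : 0 ≤ Dst L β h b := by
  unfold Dst
  refine mul_nonneg (by positivity) (Finset.sum_nonneg fun x _ => Finset.sum_nonneg fun y _ => ?_)
  refine gib_nonneg_of_form L β h ?_
  unfold hM
  exact (Tw.one_sub_swapM_posSemidef x y).smul (by norm_num)

/-- **Block (1).** -/
theorem pTwist : PTwist := by
  refine ⟨1, one_pos, ?_⟩
  intro V _ _ L _ β hβ h hh b K κ _ hK hKb hκ hf
  have h1 := block_twist L hβ (fun x => (hh x).1.le) hK hKb hκ hf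
  have h2 := Dst_nonneg L β h b
  have hK0 : 0 < K := by linarith
  have h3 : K ^ 3 ≤ (1 + K) ^ 4 := by
    have e : (1 + K) ^ 4 - K ^ 3 = 1 + 4 * K + 6 * K ^ 2 + 3 * K ^ 3 + K ^ 4 := by ring
    have : 0 ≤ 1 + 4 * K + 6 * K ^ 2 + 3 * K ^ 3 + K ^ 4 := by positivity
    linarith
  have h4 : K ^ 3 * Dst L β h b ≤ (1 + K) ^ 4 * Dst L β h b := mul_le_mul_of_nonneg_right h3 h2
  linarith

end

end Vale.Agent.P361.LRO
end

section

/-!
P361 LRO, block (6), master file, part 1: the physical conductances satisfy `Ind.Low`.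
-/

namespace Vale.Agent.P361.LRO.Net

open Finset Filter Vale.Agent.P361.LRO

noncomputable section

/-- The physical conductances (off-diagonal) of the profile `h`. -/
def cF (n : ℕ) [NeZero n] (β : ℝ) (N : ℕ) (T : Tor n → ℝ) (h : Tor n → ℝ) :
    Ind.Nd n N → Ind.Nd n N → ℝ :=
  c0 (phys (edges n) β N) (th β N h T)

theorem LBn_cF {n : ℕ} [NeZero n] {β : ℝ} {N : ℕ} {T h : Tor n → ℝ}
    {E G : Finset (Ind.Nd n N)} {A : ℝ} :
    Ind.LBn (cF n β N T h) E G A ↔ LB (phys (edges n) β N) (th β N h T) E G A := by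
  unfold Ind.LBn LB cF
  simp only [netK_c0]

theorem RBn_cF {n : ℕ} [NeZero n] {β : ℝ} {N : ℕ} {T h : Tor n → ℝ}
    {E : Finset (Ind.Nd n N)} {q : Ind.Nd n N → ℝ} {R : ℝ} :
    Ind.RBn (cF n β N T h) E q R ↔ RB (phys (edges n) β N) (th β N h T) E q R := by
  unfold Ind.RBn RB cF
  simp only [netK_c0]

section

variable {V : Type} {β : ℝ} {N : ℕ} {T : V → ℝ}

theorem th_zero (h : V → ℝ) (x : V) : th β N h T (0, x) = T x := by
  unfold th; rw [if_pos rfl]

theorem th_ne (h : V → ℝ) {z : Fin (N + 1) × V} (hz : z.1 ≠ 0) :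
    th β N h T z = β * h z.2 / (2 * N) := by
  unfold th; rw [if_neg hz]

theorem th_nonneg (hβ : 0 ≤ β) {h : V → ℝ} (hh : ∀ x, 0 ≤ h x) (hT : ∀ x, 0 ≤ T x)
    (z : Fin (N + 1) × V) : 0 ≤ th β N h T z := by
  unfold th
  split_ifs
  · exact hT _
  · exact div_nonneg (mul_nonneg hβ (hh _)) (by positivity)

theorem th_le_one (hβ : 0 ≤ β) (hN : β ≤ N) {h : V → ℝ} (hh : ∀ x, h x ≤ 1)
    (hT : ∀ x, T x ≤ 1) (z : Fin (N + 1) × V) : th β N h T z ≤ 1 := by
  unfold th
  split_ifs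
  · exact hT _
  · rcases eq_or_lt_of_le hβ with h0 | h0
    · rw [← h0]; simp
    · have hNp : (0 : ℝ) < N := h0.trans_le hN
      rw [div_le_one (by positivity)]
      have := mul_le_mul_of_nonneg_left (hh z.2) hβ
      linarith

theorem th_mono (hβ : 0 ≤ β) {h h' : V → ℝ} (hh : ∀ x, h' x ≤ h x)
    (z : Fin (N + 1) × V) : th β N h' T z ≤ th β N h T z := by
  unfold th
  split_ifs
  · exact le_rfl
  · exact div_le_div_of_nonneg_right (mul_le_mul_of_nonneg_left (hh _) hβ) (by positivity)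

/-- The path of slice parameters is the path of profiles. -/
theorem path_thM (hβ : 0 ≤ β) (hT : ∀ x, 0 ≤ T x) (h h' : V → ℝ) {s : ℝ} (hs : 0 ≤ s) :
    path (th β N h T) (th β N h' T) s =
      th β N (fun x => max (h' x) (Real.exp (-s) * h x)) T := by
  funext z
  unfold path
  by_cases hz : z.1 = 0
  · unfold th
    have h1 : Real.exp (-s) ≤ 1 := Real.exp_le_one_iff.mpr (by linarith)
    have h2 : Real.exp (-s) * T z.2 ≤ T z.2 := mul_le_of_le_one_left (hT _) h1
    rw [if_pos hz, if_pos hz, if_pos hz]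
    exact max_eq_left h2
  · rw [th_ne h hz, th_ne h' hz, th_ne _ hz]
    have hc : 0 ≤ β / (2 * (N : ℝ)) := by positivity
    have e : ∀ y : ℝ, β * y / (2 * (N : ℝ)) = β / (2 * N) * y := fun y => by ring
    rw [e, e, e, mul_max_of_nonneg _ _ hc]
    congr 1
    ring

end

theorem sum_layers {n N : ℕ} [NeZero n] (f : Fin (N + 1) × Tor n → ℝ) (g : Tor n → ℝ)
    (h0 : ∀ x, f (0, x) = 0) (h1 : ∀ k x, k ≠ 0 → f (k, x) = g x) :
    ∑ z, f z = N * ∑ x, g x := by
  rw [Fintype.sum_prod_type, Fin.sum_univ_succ]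
  have e1 : ∑ x, f (0, x) = 0 := Finset.sum_eq_zero fun x _ => h0 x
  have e2 : ∀ i : Fin N, ∑ x, f (i.succ, x) = ∑ x, g x := fun i =>
    Finset.sum_congr rfl fun x _ => h1 _ _ (Fin.succ_ne_zero i)
  rw [e1, zero_add, Finset.sum_congr rfl fun i _ => e2 i, Finset.sum_const, Finset.card_univ,
    Fintype.card_fin, nsmul_eq_mul]

/-- Hypothesis from the blocks (2), (5): magnetizations close to one on the whole family. -/
def MagHyp (n : ℕ) [NeZero n] (β : ℝ) (N : ℕ) (T : Tor n → ℝ) (h0 lam ε : ℝ) : Prop :=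
  ∀ h, Fam n h0 lam h → ∀ z : Fin (N + 1) × Tor n, z.1 ≠ 0 →
    1 - ε ^ 2 ≤ mag (phys (edges n) β N) (th β N h T) z

theorem fam_path {n : ℕ} [NeZero n] {h0 lam : ℝ} {h h' : Tor n → ℝ} (hp : 0 ≤ h0)
    (hh : Fam n h0 lam h) (hh' : Fam n h0 lam h') {s : ℝ} (hs : 0 ≤ s) :
    Fam n h0 lam fun x => max (h' x) (Real.exp (-s) * h x) :=
  hh'.max_smul hh.lip hh.le_one (fun x => hp.trans (hh.ge x)) (Real.exp_pos _).le
    (Real.exp_le_one_iff.mpr (by linarith))

theorem low_cF {n N : ℕ} [NeZero n] {β h0 lam ε : ℝ} {T : Tor n → ℝ} (hβ : 0 < β) (hN : β ≤ N)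
    (hG : Good (phys (edges n) β N)) (hT0 : ∀ x, 0 ≤ T x) (hT1 : ∀ x, T x ≤ 1)
    (hh0 : 0 < h0) (hlam : 0 ≤ lam) (hε : 0 ≤ ε) (hε1 : ε ^ 2 ≤ 1 / 2)
    (hM : MagHyp n β N T h0 lam ε) : Ind.Low n N β h0 lam ε (cF n β N T) where
  prim := by
    intro h h' hh hh' hle E G hEG hEq S hS hSum A hA hLB
    rw [LBn_cF] at hLB ⊢
    have hp : ∀ g, Fam n h0 lam g → ∀ x, 0 ≤ g x := fun g hg x => hh0.le.trans (hg.ge x)
    have hbS : (0 : ℝ) < β * S := by linarith
    have hEq' : ∀ z ∈ E ∪ G, th β N h' T z = th β N h T z := by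
      intro z hz
      by_cases hz0 : z.1 = 0
      · unfold th; rw [if_pos hz0, if_pos hz0]
      · rw [th_ne _ hz0, th_ne _ hz0, hEq z hz hz0]
    have key := LB_lower hG (θ := th β N h T) (θ' := th β N h' T) (E := E) (G := G) (ε := ε)
      (S := Real.log (β * S)) (B := β * S / 2) (C := A) hε
      (th_nonneg hβ.le (hp _ hh') hT0) (th_mono hβ.le hle) (th_le_one hβ.le hN hh.le_one hT1)
      (fun z hz => hEq' z (Finset.mem_union_left _ hz))
      (fun z hz => hEq' z (Finset.mem_union_right _ hz)) hEG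
      (by
        intro z hz
        by_cases hz0 : z.1 = 0
        · unfold th at hz; rw [if_pos hz0, if_pos hz0] at hz; exact absurd hz (lt_irrefl _)
        · rw [th_ne _ hz0]
          have h1 : 0 < h' z.2 := hh0.trans_le (hh'.ge _)
          have h2 : (0 : ℝ) < N := hβ.trans_le hN
          positivity)
      (by
        intro s hs z hz
        by_cases hz0 : z.1 = 0
        · unfold th at hz; rw [if_pos hz0, if_pos hz0] at hz; exact absurd hz (lt_irrefl _)
        · rw [path_thM hβ.le hT0 h h' hs]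
          exact hM _ (fam_path hh0.le hh hh' hs) z hz0)
      (Real.log_nonneg hS)
      (by
        have h2 : (0 : ℝ) < N := hβ.trans_le hN
        have e := sum_layers (n := n) (N := N)
          (fun z => if th β N h' T z < th β N h T z then th β N h T z else 0)
          (fun x => if h' x < h x then β * h x / (2 * N) else 0)
          (by intro x; simp [th_zero])
          (by
            intro k x hk
            simp only [th_ne (z := (k, x)) _ hk]
            have : β * h' x / (2 * (N : ℝ)) < β * h x / (2 * N) ↔ h' x < h x := by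
              rw [div_lt_div_iff_of_pos_right (by positivity), mul_lt_mul_iff_right₀ hβ]
            simp only [this])
        rw [e]
        have e2 : ∀ x, (if h' x < h x then β * h x / (2 * N) else 0)
            = β / (2 * N) * (if h' x = h x then 0 else h x) := by
          intro x
          rcases lt_or_eq_of_le (hle x) with h3 | h3
          · rw [if_pos h3, if_neg h3.ne]; ring
          · rw [if_neg (by rw [h3]; exact lt_irrefl _), if_pos h3]; ring
        rw [Finset.sum_congr rfl fun x _ => e2 x, ← Finset.mul_sum]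
        have e3 : (N : ℝ) * (β / (2 * N) * ∑ x, (if h' x = h x then 0 else h x))
            = β / 2 * ∑ x, (if h' x = h x then 0 else h x) := by
          field_simp
        rw [e3]
        have := mul_le_mul_of_nonneg_left hSum (by positivity : (0 : ℝ) ≤ β / 2)
        linarith)
      hLB
    intro a haE haG
    refine le_trans ?_ (key a haE haG)
    have e1 : Real.exp (-(4 * ε * Real.log (β * S))) = (β * S) ^ (-(4 * ε)) := by
      rw [Real.rpow_def_of_pos hbS]; congr 1; ring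
    have e2 : Real.exp (-Real.log (β * S)) = (β * S)⁻¹ := by
      rw [Real.exp_neg, Real.exp_log hbS]
    rw [e1, e2]
    have e3 : 2 * ε * (β * S / 2) * (β * S)⁻¹ = ε := by
      rw [show 2 * ε * (β * S / 2) * (β * S)⁻¹ = ε * ((β * S) * (β * S)⁻¹) by ring,
        mul_inv_cancel₀ hbS.ne', mul_one]
    rw [e3]
    linarith
  dual := by
    intro hh1 hh2 h' hh' E q hE hqE hq0 hq hq1 R hR hRB
    rw [RBn_cF] at hRB ⊢
    have hfam1 : Fam n h0 lam fun _ => 1 := fam_const hh2 le_rfl zero_le_one hlam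
    have h2 : (0 : ℝ) < N := hβ.trans_le hN
    have hp' : ∀ x, 0 ≤ h' x := fun x => hh0.le.trans (hh'.ge x)
    have hmon := th_mono (N := N) (T := T) hβ.le (h := fun _ => 1) (h' := h') hh'.le_one
    have hS : 0 ≤ Real.log (h0⁻¹) := Real.log_nonneg ((one_le_inv₀ hh0).2 hh2)
    have hexp : Real.exp (Real.log (h0⁻¹)) = h0⁻¹ := Real.exp_log (inv_pos.2 hh0)
    have key := ode_RB hG (θ0 := th β N h' T) (θ1 := th β N (fun _ => 1) T)
      (th_nonneg hβ.le hp' hT0) hmon (th_le_one hβ.le hN (fun _ => le_rfl) hT1) (E := E)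
      (by
        intro z hz
        by_cases hz0 : z.1 = 0
        · unfold th; rw [if_pos hz0, if_pos hz0]
        · rw [th_ne _ hz0, th_ne _ hz0, hE z hz hz0])
      hq1 (τ := 2 * ε) (by positivity)
      (by
        intro s hs z hz
        by_cases hz0 : z.1 = 0
        · unfold th at hz; rw [if_pos hz0, if_pos hz0] at hz; exact absurd hz (lt_irrefl _)
        · have h3 := hM _ (fam_path hh0.le hfam1 hh' hs) z hz0
          rw [← path_thM hβ.le hT0 (fun _ => 1) h' hs] at h3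
          have h4 : (path (th β N (fun _ => 1) T) (th β N h' T) s) =
              fun x => max (th β N h' T x) (Real.exp (-s) * th β N (fun _ => 1) T x) := rfl
          rw [h4] at h3
          exact ⟨sqrt_mag_le hε h3, by linarith⟩)
      hR hRB hS
      (by
        intro z
        rw [hexp]
        by_cases hz0 : z.1 = 0
        · unfold th; rw [if_pos hz0, if_pos hz0]
          exact le_mul_of_one_le_left (hT0 _) ((one_le_inv₀ hh0).2 hh2)
        · rw [th_ne _ hz0, th_ne _ hz0]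
          have h3 : (1 : ℝ) ≤ h0⁻¹ * h' z.2 := by
            rw [← div_eq_inv_mul, le_div_iff₀ hh0]; simpa using hh'.ge z.2
          calc β * 1 / (2 * (N : ℝ)) ≤ β * (h0⁻¹ * h' z.2) / (2 * N) := by gcongr
            _ = h0⁻¹ * (β * h' z.2 / (2 * N)) := by ring)
    intro a ha
    refine (key a ha).trans ?_
    have hK : 0 ≤ KK (phys (edges n) β N) (th β N h' T) a := by
      unfold KK EE
      refine div_nonneg (Finset.sum_nonneg fun π _ => Finset.sum_nonneg fun s _ => ?_) ?_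
      · exact mul_nonneg (mul_nonneg (hG.nn π) (wt_nonneg (th_nonneg hβ.le hp' hT0) π s))
          (sq_nonneg _)
      · exact (ZZ_pos hG.nn hG.pos (th_nonneg hβ.le hp' hT0)).le
    refine mul_le_mul_of_nonneg_right ?_ hK
    rw [hexp]
    have e1 : Real.exp (2 * (2 * ε) * Real.log (h0⁻¹)) = h0 ^ (-(4 * ε)) := by
      rw [Real.rpow_def_of_pos hh0, Real.log_inv]; congr 1; ring
    rw [e1]
    refine mul_le_mul_of_nonneg_left ?_ (Real.rpow_nonneg hh0.le _)
    have hsum : ∑ z ∈ univ.filter (fun z => th β N h' T z < th β N (fun _ => 1) T z),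
        q z ^ 2 / th β N (fun _ => 1) T z ≤ (2 * N / β) * ∑ z, q z ^ 2 := by
      rw [Finset.mul_sum]
      refine le_trans (Finset.sum_le_sum_of_subset_of_nonneg (Finset.filter_subset _ _) ?_)
        (Finset.sum_le_sum fun z _ => ?_)
      · intro z _ _
        exact div_nonneg (sq_nonneg _) (th_nonneg hβ.le (fun _ => zero_le_one) hT0 z)
      · by_cases hz0 : z.1 = 0
        · have : z = (0, z.2) := Prod.ext hz0 rfl
          rw [this, hq0]; simp
        · rw [th_ne _ hz0]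
          apply le_of_eq
          field_simp
    have h5 : 0 ≤ ∑ z ∈ univ.filter (fun z => th β N h' T z < th β N (fun _ => 1) T z),
        q z ^ 2 / th β N (fun _ => 1) T z :=
      Finset.sum_nonneg fun z _ =>
        div_nonneg (sq_nonneg _) (th_nonneg hβ.le (fun _ => zero_le_one) hT0 z)
    have h6 : 4 * (h0⁻¹ - 1) * ∑ z ∈ univ.filter
        (fun z => th β N h' T z < th β N (fun _ => 1) T z), q z ^ 2 / th β N (fun _ => 1) T z
        ≤ 4 * h0⁻¹ * ((2 * N / β) * ∑ z, q z ^ 2) := by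
      have h7 : 0 < h0⁻¹ := inv_pos.2 hh0
      refine le_trans (mul_le_mul_of_nonneg_right (by linarith : 4 * (h0⁻¹ - 1) ≤ 4 * h0⁻¹) h5) ?_
      exact mul_le_mul_of_nonneg_left hsum (by positivity)
    have e4 : 4 * h0⁻¹ * ((2 * N / β) * ∑ z, q z ^ 2) = 8 * N / (β * h0) * ∑ z, q z ^ 2 := by
      field_simp
      ring
    linarith

end

end Vale.Agent.P361.LRO.Net
end

section

/-!
P361 LRO, block (6), master file, part 2: the physical conductances satisfy `Ind.Local`.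
-/

namespace Vale.Agent.P361.LRO.Net

open Finset Filter Vale.Agent.P361.LRO

noncomputable section

/-- LOC with the constant `cl` (form of `Skel/Low.lean`, `Loc/LowLoc.lean`). -/
def LocBound (cl : ℝ) : Prop :=
  ∀ {V : Type} [Fintype V] [DecidableEq V] (L : List (V × V)),
    (∀ x, (L.filter fun e => e.1 = x ∨ e.2 = x).length ≤ 6) →
    ∀ (β : ℝ), 1 ≤ β → ∀ N : ℕ, 8 * β ≤ N → ∀ h T : V → ℝ,
    (∀ x, 0 ≤ h x ∧ h x ≤ 1) → (∀ x, 0 ≤ T x ∧ T x ≤ 1) →
    (∀ (k k' : Fin (N + 1)) (x : V), 0 < k → k < k' → ((k' : ℝ) - (k : ℝ)) * β / N ≤ 1 →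
      cl * (β * h x / (2 * N)) ^ 2 ≤ cc (phys L β N) (th β N h T) (k, x) (k', x)) ∧
    (∀ (k k' : Fin (N + 1)) (x y : V), 0 < k → k < k' → 1 / 4 ≤ ((k' : ℝ) - (k : ℝ)) * β / N →
      ((k' : ℝ) - (k : ℝ)) * β / N ≤ 1 → ((x, y) ∈ L ∨ (y, x) ∈ L) → x ≠ y →
      cl * (β * h x / (2 * N)) * (β * h y / (2 * N)) ≤
        cc (phys L β N) (th β N h T) (k, x) (k', y)) ∧
    (∀ (k : Fin (N + 1)) (x : V), 0 < k → (k : ℝ) * β / N ≤ 1 →
      cl * T x * (β * h x / (2 * N)) ≤ cc (phys L β N) (th β N h T) (0, x) (k, x))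

theorem mem_edges {n : ℕ} [NeZero n] (x : Tor n) (i : Fin 3) :
    (x, x + Pi.single i 1) ∈ edges n := by
  unfold edges
  rw [List.mem_map]
  exact ⟨(x, i), by simp, rfl⟩

theorem edges_deg {n : ℕ} [NeZero n] (x : Tor n) :
    ((edges n).filter fun e => e.1 = x ∨ e.2 = x).length ≤ 6 := by
  unfold edges
  rw [List.filter_map, List.length_map]
  have hnd : ((Finset.univ : Finset (Tor n × Fin 3)).toList).Nodup := Finset.nodup_toList _
  set p : Tor n × Fin 3 → Bool :=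
    (fun e : Tor n × Tor n => decide (e.1 = x ∨ e.2 = x)) ∘ fun z => (z.1, z.1 + Pi.single z.2 1)
    with hp
  have h1 : (((Finset.univ : Finset (Tor n × Fin 3)).toList).filter p).length =
      ((((Finset.univ : Finset (Tor n × Fin 3)).toList).filter p).toFinset).card :=
    (List.toFinset_card_of_nodup (hnd.filter p)).symm
  rw [h1]
  have h2 : (((Finset.univ : Finset (Tor n × Fin 3)).toList).filter p).toFinset ⊆
      ((Finset.univ : Finset (Fin 3)).image fun i => (x, i)) ∪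
        ((Finset.univ : Finset (Fin 3)).image fun i => (x - Pi.single i 1, i)) := by
    intro z hz
    rw [List.mem_toFinset, List.mem_filter] at hz
    have h3 := hz.2
    simp only [hp, Function.comp, decide_eq_true_eq] at h3
    rw [Finset.mem_union, Finset.mem_image, Finset.mem_image]
    rcases h3 with h3 | h3
    · exact Or.inl ⟨z.2, Finset.mem_univ _, Prod.ext h3.symm rfl⟩
    · exact Or.inr ⟨z.2, Finset.mem_univ _, Prod.ext (by simp [← h3]) rfl⟩
  refine (Finset.card_le_card h2).trans ((Finset.card_union_le _ _).trans ?_)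
  have h4 := Finset.card_image_le (s := (Finset.univ : Finset (Fin 3))) (f := fun i => (x, i))
  have h5 := Finset.card_image_le (s := (Finset.univ : Finset (Fin 3)))
    (f := fun i => (x - (Pi.single i 1 : Tor n), i))
  rw [Finset.card_univ, Fintype.card_fin] at h4 h5
  omega

theorem half_le_tanh {y : ℝ} (h0 : 0 ≤ y) (h1 : y ≤ 1) : y / 2 ≤ Real.tanh y := by
  rw [Real.tanh_eq_sinh_div_cosh, le_div_iff₀ (Real.cosh_pos y)]
  have h2 : y ≤ Real.sinh y := Real.self_le_sinh_iff.2 h0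
  have h3 : Real.cosh y ≤ 2 := by
    have := Real.cosh_le_cosh.2 (show |y| ≤ |(1 : ℝ)| by
      rw [abs_of_nonneg h0, abs_one]; exact h1)
    refine this.trans ?_
    rw [Real.cosh_eq]
    have he := Real.exp_one_lt_d9
    have he2 : Real.exp (-1) ≤ 1 := Real.exp_le_one_iff.2 (by norm_num)
    linarith
  have h4 := Real.cosh_pos y
  nlinarith

theorem local_cF {n N W m : ℕ} [NeZero n] (hn : 2 ≤ n) {β K cl : ℝ} {b : Finset (Tor n)}
    {h : Tor n → ℝ} (hcl : 0 < cl) (hL : LocBound cl) (hβ : 1 ≤ β) (hN8 : 8 * β ≤ N)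
    (hN : N = m * W) (hW : 0 < W) (hw : Ind.Win β m)
    (hG : Good (phys (edges n) β N)) (hK : 0 ≤ K) (hb : b.Nonempty) (hKb : K ≤ 2 * b.card)
    (hh : ∀ x, 0 ≤ h x ∧ h x ≤ 1) :
    Ind.Local n N W β K (cl / 8) b h (cF n β N (blk K b) h) := by
  have hb0 : (0 : ℝ) < b.card := by exact_mod_cast hb.card_pos
  have hNp : (0 : ℝ) < N := by linarith
  have hβ0 : (0 : ℝ) < β := by linarith
  have hm0 : (0 : ℝ) < m := by exact_mod_cast hw.pos
  have hW0 : (0 : ℝ) < W := by exact_mod_cast hW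
  have hT : ∀ x, 0 ≤ blk K b x ∧ blk K b x ≤ 1 := by
    intro x
    unfold blk
    split_ifs
    · refine ⟨?_, (Real.tanh_lt_one _).le⟩
      rw [Real.tanh_eq_sinh_div_cosh]
      exact div_nonneg (Real.sinh_nonneg_iff.2 (by positivity)) (Real.cosh_pos _).le
    · norm_num
  have hθ : ∀ z, 0 ≤ th β N h (blk K b) z ∧ th β N h (blk K b) z ≤ 1 := fun z =>
    ⟨th_nonneg hβ0.le (fun x => (hh x).1) (fun x => (hT x).1) z,
      th_le_one hβ0.le (by linarith) (fun x => (hh x).2) (fun x => (hT x).2) z⟩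
  obtain ⟨l1, l2, l3⟩ := hL (edges n) (edges_deg (n := n)) β hβ N hN8 h (blk K b) hh hT
  have hsymm : ∀ u v, cF n β N (blk K b) h u v = cF n β N (blk K b) h v u := by
    intro u v
    unfold cF c0
    by_cases huv : u = v
    · subst huv; rfl
    · rw [if_neg huv, if_neg (Ne.symm huv), cc_comm]
  have hval : ∀ u v, u ≠ v → cF n β N (blk K b) h u v =
      cc (phys (edges n) β N) (th β N h (blk K b)) u v := fun u v huv => if_neg huv
  have hNm : (N : ℝ) = m * W := by rw [hN]; push_cast; ring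
  have hWN : (W : ℝ) * β / N = β / m := by rw [hNm]; field_simp
  have cast_fin : ∀ k l : Fin (N + 1), (((l : ℕ) : ℝ) - ((k : ℕ) : ℝ)) = ((l : ℝ) - (k : ℝ)) :=
    fun k l => rfl
  refine ⟨hsymm, ?_, ?_, ?_, ?_, ?_⟩
  · intro u v
    unfold cF c0
    split_ifs with huv
    · exact le_rfl
    · exact hG.ccnn _ hθ u v huv
  · intro k x hk
    have h1 : ∑ v, cF n β N (blk K b) h (k, x) v =
        vv (phys (edges n) β N) (th β N h (blk K b)) (k, x) :=
      netV_c0 (phys (edges n) β N) (th β N h (blk K b)) (k, x)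
    rw [h1]
    refine (hG.vle _ hθ _).trans ?_
    rw [th_ne (z := (k, x)) _ hk]
  · intro k l x hk hkl hl hx
    have hne : (k, x) ≠ (l, x) := fun e => (ne_of_lt hkl) (congrArg Prod.fst e)
    rw [hval _ _ hne]
    have hl' : (((l : ℕ) : ℝ)) ≤ ((k : ℕ) : ℝ) + 3 * W := by exact_mod_cast hl
    have h1 := l1 k l x (Fin.pos_iff_ne_zero.2 hk) hkl (by
      have h2 : (((l : ℕ) : ℝ) - ((k : ℕ) : ℝ)) * β / N ≤ 3 * (W * β / N) := by
        rw [show 3 * (W * β / (N : ℝ)) = (3 * W) * β / N by ring]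
        gcongr
        linarith
      rw [hWN] at h2
      have := hw.hi
      linarith)
    rw [hx] at h1
    refine le_trans ?_ h1
    have e : cl * (β * 1 / (2 * (N : ℝ))) ^ 2 = cl / 4 * (β / N) ^ 2 := by ring
    rw [e]
    gcongr
    linarith
  · intro k l x i hk hl hsep h3 h4 hx hxi
    have hxne : x ≠ x + Pi.single i 1 := by
      intro e
      have h1 : (Pi.single i 1 : Tor n) = 0 := by
        have h2 : x + 0 = x + Pi.single i 1 := by rw [add_zero]; exact e
        exact (add_left_cancel h2).symm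
      have h2 := congrFun h1 i
      rw [Pi.single_eq_same, Pi.zero_apply] at h2
      have : Fact (1 < n) := ⟨hn⟩
      exact one_ne_zero h2
    have hne : (k, x) ≠ (l, x + Pi.single i 1) := fun e => hxne (congrArg Prod.snd e)
    have hbd : ∀ k l : Fin (N + 1), (k : ℕ) + W ≤ l → (l : ℕ) ≤ k + 3 * W →
        1 / 4 ≤ ((l : ℝ) - (k : ℝ)) * β / N ∧ ((l : ℝ) - (k : ℝ)) * β / N ≤ 1 := by
      intro k l h5 h6
      have h5' : ((k : ℕ) : ℝ) + W ≤ ((l : ℕ) : ℝ) := by exact_mod_cast h5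
      have h6' : (((l : ℕ) : ℝ)) ≤ ((k : ℕ) : ℝ) + 3 * W := by exact_mod_cast h6
      constructor
      · have h7 : (W * β / N : ℝ) ≤ (((l : ℕ) : ℝ) - ((k : ℕ) : ℝ)) * β / N := by
          gcongr
          linarith
        rw [hWN] at h7
        exact hw.lo.trans h7
      · have h7 : (((l : ℕ) : ℝ) - ((k : ℕ) : ℝ)) * β / N ≤ 3 * (W * β / N) := by
          rw [show 3 * (W * β / (N : ℝ)) = (3 * W) * β / N by ring]
          gcongr
          linarith
        rw [hWN] at h7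
        have := hw.hi
        exact h7.trans (by linarith)
    have efin : ∀ c : ℝ, cl * (β * 1 / (2 * (N : ℝ))) * (β * 1 / (2 * N)) ≤ c →
        cl / 8 * (β / N) ^ 2 ≤ c := by
      intro c hc
      refine le_trans ?_ hc
      have e : cl * (β * 1 / (2 * (N : ℝ))) * (β * 1 / (2 * N)) = cl / 4 * (β / N) ^ 2 := by ring
      rw [e]
      gcongr
      linarith
    rcases hsep with h5 | h5
    · have hkl : k < l := by
        rw [Fin.lt_def]; omega
      rw [hval _ _ hne]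
      obtain ⟨b1, b2⟩ := hbd k l h5 h3
      have h6 := l2 k l x (x + Pi.single i 1) (Fin.pos_iff_ne_zero.2 hk) hkl b1 b2
        (Or.inl (mem_edges x i)) hxne
      rw [hx, hxi] at h6
      exact efin _ h6
    · have hkl : l < k := by
        rw [Fin.lt_def]; omega
      rw [hsymm, hval _ _ (Ne.symm hne)]
      obtain ⟨b1, b2⟩ := hbd l k h5 h4
      have h6 := l2 l k (x + Pi.single i 1) x (Fin.pos_iff_ne_zero.2 hl) hkl b1 b2
        (Or.inr (mem_edges x i)) (Ne.symm hxne)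
      rw [hx, hxi] at h6
      exact efin _ h6
  · intro k x hk hkW hxb hx
    have hne : ((0 : Fin (N + 1)), x) ≠ (k, x) := fun e => hk (congrArg Prod.fst e).symm
    rw [hval _ _ hne]
    have hkW' : ((k : ℕ) : ℝ) ≤ W := by exact_mod_cast hkW
    have h1 := l3 k x (Fin.pos_iff_ne_zero.2 hk) (by
      have h2 : ((k : ℕ) : ℝ) * β / N ≤ W * β / N := by gcongr
      rw [hWN] at h2
      have := hw.hi
      exact h2.trans (by linarith))
    rw [hx] at h1
    refine le_trans ?_ h1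
    have h2 : K / b.card / 4 ≤ blk K b x := by
      unfold blk
      rw [if_pos hxb]
      have h3 := half_le_tanh (y := K / (2 * b.card)) (by positivity)
        ((div_le_one (by positivity)).2 hKb)
      refine le_trans (le_of_eq ?_) h3
      field_simp
      ring
    have e : cl / 8 * (K / b.card) * (β / N) = cl * (K / b.card / 4) * (β * 1 / (2 * N)) := by
      ring
    rw [e]
    gcongr

end

end Vale.Agent.P361.LRO.Net
end

section

/-!
# P361, long range order, block SR: the derivative of the stiffness in the slice parameters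

Omega-form: `W : Ω → ℝ` is the law at `θ = 1`, `n : Ω → V → ℕ` the exponents, `j = n - 1` the
charges; the law at `θ` has the weight `W ω * ∏ x, if n ω x = 1 then 1 else θ x`.
-/

namespace Vale.Agent.P361.LRO.SR

open Finset
open scoped BigOperators

noncomputable section

variable {Ω V : Type*} [Fintype Ω] [Fintype V] [DecidableEq V]

/-- charge -/
def jc (n : Ω → V → ℕ) (ω : Ω) (x : V) : ℝ := (n ω x : ℝ) - 1

/-- weight at `θ` -/
def wθ (W : Ω → ℝ) (n : Ω → V → ℕ) (θ : V → ℝ) (ω : Ω) : ℝ :=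
  W ω * ∏ x, (if n ω x = 1 then 1 else θ x)

/-- partition function at `θ` -/
def Zθ (W : Ω → ℝ) (n : Ω → V → ℕ) (θ : V → ℝ) : ℝ := ∑ ω, wθ W n θ ω

/-- expectation at `θ` -/
def Eθ (W : Ω → ℝ) (n : Ω → V → ℕ) (θ : V → ℝ) (f : Ω → ℝ) : ℝ :=
  (∑ ω, wθ W n θ ω * f ω) / Zθ W n θ

/-- conductances `- E[j_x j_y]` -/
def cθ (W : Ω → ℝ) (n : Ω → V → ℕ) (θ : V → ℝ) (x y : V) : ℝ :=
  - Eθ W n θ (fun ω => jc n ω x * jc n ω y)

/-- `v_z = E[j_z^2]`. -/
def vθ (W : Ω → ℝ) (n : Ω → V → ℕ) (θ : V → ℝ) (z : V) : ℝ :=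
  Eθ W n θ (fun ω => jc n ω z ^ 2)

/-- `K(a) = E[(a.j)^2]` -/
def Kθ (W : Ω → ℝ) (n : Ω → V → ℕ) (θ : V → ℝ) (a : V → ℝ) : ℝ :=
  Eθ W n θ (fun ω => (∑ x, a x * jc n ω x) ^ 2)

section Deriv

variable (W : Ω → ℝ) (n : Ω → V → ℕ)

lemma jc_sq (hn : ∀ ω x, n ω x ≤ 2) (ω : Ω) (x : V) :
    jc n ω x ^ 2 = if n ω x = 1 then 0 else 1 := by
  have h := hn ω x
  unfold jc
  interval_cases hh : n ω x <;> norm_num

/-- derivative of a single weight. -/
lemma wθ_deriv (hn : ∀ ω x, n ω x ≤ 2) (θ : ℝ → V → ℝ) (r : V → ℝ) (s : ℝ)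
    (hθ : ∀ x, HasDerivAt (fun t => θ t x) (-(r x * θ s x)) s) (ω : Ω) :
    HasDerivAt (fun t => wθ W n (θ t) ω)
      (-∑ z, r z * (wθ W n (θ s) ω * jc n ω z ^ 2)) s := by
  have h1 : ∀ x ∈ (Finset.univ : Finset V),
      HasDerivAt (fun t => (if n ω x = 1 then (1:ℝ) else θ t x))
        (-(r x * jc n ω x ^ 2 * (if n ω x = 1 then (1:ℝ) else θ s x))) s := by
    intro x _
    rw [jc_sq n hn]
    by_cases h : n ω x = 1
    · simp only [h, if_true]
      simpa using hasDerivAt_const s (1:ℝ)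
    · simp only [h, if_false]
      simpa using hθ x
  have h2 := (HasDerivAt.fun_finsetProd h1).const_mul (W ω)
  refine h2.congr_deriv ?_
  unfold wθ
  rw [← Finset.sum_neg_distrib, Finset.mul_sum]
  refine Finset.sum_congr rfl fun z _ => ?_
  rw [← Finset.mul_prod_erase Finset.univ (fun x => (if n ω x = 1 then (1:ℝ) else θ s x))
    (Finset.mem_univ z)]
  simp only [smul_eq_mul]
  ring

/-- (D1) derivative of an expectation. -/
theorem Eθ_deriv (hn : ∀ ω x, n ω x ≤ 2) (θ : ℝ → V → ℝ) (r : V → ℝ) (s : ℝ)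
    (hθ : ∀ x, HasDerivAt (fun t => θ t x) (-(r x * θ s x)) s)
    (hZ : Zθ W n (θ s) ≠ 0) (f : Ω → ℝ) :
    HasDerivAt (fun t => Eθ W n (θ t) f)
      (-∑ z, r z * (Eθ W n (θ s) (fun ω => jc n ω z ^ 2 * f ω)
        - Eθ W n (θ s) (fun ω => jc n ω z ^ 2) * Eθ W n (θ s) f)) s := by
  have hN : HasDerivAt (fun t => ∑ ω, wθ W n (θ t) ω * f ω)
      (∑ ω, (-∑ z, r z * (wθ W n (θ s) ω * jc n ω z ^ 2)) * f ω) s :=
    HasDerivAt.fun_sum fun ω _ => (wθ_deriv W n hn θ r s hθ ω).mul_const (f ω)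
  have hD : HasDerivAt (fun t => Zθ W n (θ t))
      (∑ ω, (-∑ z, r z * (wθ W n (θ s) ω * jc n ω z ^ 2))) s :=
    HasDerivAt.fun_sum fun ω _ => (wθ_deriv W n hn θ r s hθ ω)
  have h := hN.fun_div hD hZ
  refine h.congr_deriv ?_
  have e1 : ∑ ω, (-∑ z, r z * (wθ W n (θ s) ω * jc n ω z ^ 2)) * f ω
      = -∑ z, r z * (∑ ω, wθ W n (θ s) ω * (jc n ω z ^ 2 * f ω)) := by
    simp only [neg_mul, Finset.sum_mul, Finset.sum_neg_distrib, Finset.mul_sum]
    rw [Finset.sum_comm]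
    congr 1
    refine Finset.sum_congr rfl fun z _ => Finset.sum_congr rfl fun ω _ => ?_
    ring
  have e2 : ∑ ω, (-∑ z, r z * (wθ W n (θ s) ω * jc n ω z ^ 2))
      = -∑ z, r z * (∑ ω, wθ W n (θ s) ω * jc n ω z ^ 2) := by
    simp only [Finset.sum_neg_distrib, Finset.mul_sum]
    rw [Finset.sum_comm]
  rw [e1, e2]
  have e3 : ∀ (Z N0 : ℝ), ∑ z, r z * ((∑ ω, wθ W n (θ s) ω * (jc n ω z ^ 2 * f ω)) / Z
      - (∑ ω, wθ W n (θ s) ω * jc n ω z ^ 2) / Z * (N0 / Z))
      = (∑ z, r z * (∑ ω, wθ W n (θ s) ω * (jc n ω z ^ 2 * f ω))) / Z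
        - (∑ z, r z * (∑ ω, wθ W n (θ s) ω * jc n ω z ^ 2)) / Z * (N0 / Z) := by
    intro Z N0
    rw [Finset.sum_div, Finset.sum_div, Finset.sum_mul, ← Finset.sum_sub_distrib]
    refine Finset.sum_congr rfl fun z _ => ?_
    ring
  unfold Eθ
  rw [e3]
  field_simp
  ring

end Deriv

section OneNode

variable (W : Ω → ℝ) (n : Ω → V → ℕ)

/-- sum over the event `A = {j_z ≠ 0}` with the slice parameter at `z` set to `1`. -/
def QA (θ : V → ℝ) (z : V) (X : Ω → ℝ) : ℝ :=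
  ∑ ω, if n ω z = 1 then 0 else wθ W n (Function.update θ z 1) ω * X ω

/-- sum over the event `B = {j_z = 0}`. -/
def QB (θ : V → ℝ) (z : V) (X : Ω → ℝ) : ℝ :=
  ∑ ω, if n ω z = 1 then wθ W n (Function.update θ z 1) ω * X ω else 0

lemma wθ_update (θ : V → ℝ) (z : V) (ω : Ω) :
    wθ W n θ ω = (if n ω z = 1 then 1 else θ z) * wθ W n (Function.update θ z 1) ω := by
  unfold wθ
  rw [← Finset.mul_prod_erase Finset.univ (fun x => (if n ω x = 1 then (1:ℝ) else θ x))
    (Finset.mem_univ z),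
    ← Finset.mul_prod_erase Finset.univ
      (fun x => (if n ω x = 1 then (1:ℝ) else Function.update θ z 1 x)) (Finset.mem_univ z)]
  have h : ∏ x ∈ Finset.univ.erase z, (if n ω x = 1 then (1:ℝ) else Function.update θ z 1 x)
      = ∏ x ∈ Finset.univ.erase z, (if n ω x = 1 then (1:ℝ) else θ x) := by
    refine Finset.prod_congr rfl fun x hx => ?_
    rw [Function.update_of_ne (Finset.ne_of_mem_erase hx)]
  rw [h]
  simp only [Function.update_self, ite_self]
  ring

lemma sum_split (θ : V → ℝ) (z : V) (X : Ω → ℝ) :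
    ∑ ω, wθ W n θ ω * X ω = QB W n θ z X + θ z * QA W n θ z X := by
  unfold QA QB
  rw [Finset.mul_sum, ← Finset.sum_add_distrib]
  refine Finset.sum_congr rfl fun ω _ => ?_
  rw [wθ_update W n θ z ω]
  split_ifs <;> ring

lemma Zθ_split (θ : V → ℝ) (z : V) :
    Zθ W n θ = QB W n θ z (fun _ => 1) + θ z * QA W n θ z (fun _ => 1) := by
  rw [← sum_split]
  unfold Zθ
  simp

lemma sum_jsq (hn : ∀ ω x, n ω x ≤ 2) (θ : V → ℝ) (z : V) (X : Ω → ℝ) :
    ∑ ω, wθ W n θ ω * (jc n ω z ^ 2 * X ω) = θ z * QA W n θ z X := by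
  unfold QA
  rw [Finset.mul_sum]
  refine Finset.sum_congr rfl fun ω _ => ?_
  rw [wθ_update W n θ z ω, jc_sq n hn]
  split_ifs <;> ring

lemma sum_jz (hn : ∀ ω x, n ω x ≤ 2) (θ : V → ℝ) (z : V) (X : Ω → ℝ) :
    ∑ ω, wθ W n θ ω * (jc n ω z * X ω) = θ z * QA W n θ z (fun ω => jc n ω z * X ω) := by
  rw [← sum_jsq W n hn]
  refine Finset.sum_congr rfl fun ω _ => ?_
  have h : jc n ω z ^ 2 * (jc n ω z * X ω) = jc n ω z * X ω := by
    have h := jc_sq n hn ω z
    by_cases h1 : n ω z = 1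
    · have : jc n ω z = 0 := by simp [jc, h1]
      rw [this]; ring
    · rw [if_neg h1] at h
      rw [h, one_mul]
  rw [h]

/-- (D2) the one-node inequality in covariance form, from Theorem 1 of note 8371
(hypothesis `hT1`: `E_A - E_B ≤ abar² + δ (L - abar²)` with `π x = E_A[-j_z j_x]`). -/
theorem cov_le (hn : ∀ ω x, n ω x ≤ 2) (θ : V → ℝ) (z : V) (a : V → ℝ) (δ : ℝ)
    (hθ : 0 ≤ θ z) (hA : 0 ≤ QA W n θ z (fun _ => 1)) (hB : 0 < QB W n θ z (fun _ => 1))
    (hA0 : QA W n θ z (fun _ => 1) = 0 → ∀ X, QA W n θ z X = 0)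
    (hT1 : 0 < QA W n θ z (fun _ => 1) →
      QA W n θ z (fun ω => (∑ x, a x * jc n ω x) ^ 2) / QA W n θ z (fun _ => 1)
        - QB W n θ z (fun ω => (∑ x, a x * jc n ω x) ^ 2) / QB W n θ z (fun _ => 1)
      ≤ (∑ x, QA W n θ z (fun ω => - (jc n ω z * jc n ω x)) / QA W n θ z (fun _ => 1)
            * (a x - a z)) ^ 2
        + δ * (∑ x, QA W n θ z (fun ω => - (jc n ω z * jc n ω x)) / QA W n θ z (fun _ => 1)
            * (a x - a z) ^ 2
          - (∑ x, QA W n θ z (fun ω => - (jc n ω z * jc n ω x)) / QA W n θ z (fun _ => 1)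
            * (a x - a z)) ^ 2)) :
    Eθ W n θ (fun ω => jc n ω z ^ 2 * (∑ x, a x * jc n ω x) ^ 2)
      - Eθ W n θ (fun ω => jc n ω z ^ 2) * Eθ W n θ (fun ω => (∑ x, a x * jc n ω x) ^ 2)
    ≤ (1 - vθ W n θ z) * ((1 - δ) * ((∑ x, cθ W n θ z x * (a x - a z)) ^ 2 / vθ W n θ z)
        + δ * ∑ x, cθ W n θ z x * (a x - a z) ^ 2) := by
  set wA := QA W n θ z (fun _ => 1) with hwA
  set wB := QB W n θ z (fun _ => 1) with hwB
  set t := θ z with ht
  set P := QA W n θ z (fun ω => (∑ x, a x * jc n ω x) ^ 2) with hP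
  set R := QB W n θ z (fun ω => (∑ x, a x * jc n ω x) ^ 2) with hR
  have hZ : Zθ W n θ = wB + t * wA := Zθ_split W n θ z
  have hZpos : 0 < wB + t * wA := by positivity
  have e1 : Eθ W n θ (fun ω => jc n ω z ^ 2 * (∑ x, a x * jc n ω x) ^ 2) = t * P / (wB + t * wA) := by
    unfold Eθ; rw [sum_jsq W n hn, hZ]
  have e2 : Eθ W n θ (fun ω => jc n ω z ^ 2) = t * wA / (wB + t * wA) := by
    unfold Eθ
    have := sum_jsq W n hn θ z (fun _ => 1)
    simp only [mul_one] at this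
    rw [this, hZ]
  have e3 : Eθ W n θ (fun ω => (∑ x, a x * jc n ω x) ^ 2) = (R + t * P) / (wB + t * wA) := by
    unfold Eθ; rw [sum_split W n θ z, hZ]
  have e4 : ∀ x, cθ W n θ z x
      = t * QA W n θ z (fun ω => - (jc n ω z * jc n ω x)) / (wB + t * wA) := by
    intro x
    unfold cθ Eθ
    rw [sum_jz W n hn, hZ, ← neg_div]
    congr 1
    have : QA W n θ z (fun ω => - (jc n ω z * jc n ω x)) = - QA W n θ z (fun ω => jc n ω z * jc n ω x) := by
      unfold QA
      rw [← Finset.sum_neg_distrib]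
      refine Finset.sum_congr rfl fun ω _ => ?_
      split_ifs <;> ring
    rw [this]; ring
  have ev : vθ W n θ z = t * wA / (wB + t * wA) := by
    unfold vθ; exact e2
  rcases hA.eq_or_lt with hA' | hA'
  · -- wA = 0
    have hz := hA0 hA'.symm
    have hP0 : P = 0 := hz _
    have hc0 : ∀ x, cθ W n θ z x = 0 := by
      intro x; rw [e4, hz]; simp
    rw [e1, e2, hP0, ← hA']
    simp [hc0]
  rcases hθ.eq_or_lt with ht' | ht'
  · have hc0 : ∀ x, cθ W n θ z x = 0 := by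
      intro x; rw [e4, ← ht']; simp
    rw [e1, e2, ← ht']
    simp [hc0]
  · have hT := hT1 hA'
    set π : V → ℝ := fun x => QA W n θ z (fun ω => - (jc n ω z * jc n ω x)) / wA with hπ
    have hc : ∀ x, cθ W n θ z x = (t * wA / (wB + t * wA)) * π x := by
      intro x; rw [e4, hπ]; field_simp
    have hF : ∑ x, cθ W n θ z x * (a x - a z) = (t * wA / (wB + t * wA)) * ∑ x, π x * (a x - a z) := by
      rw [Finset.mul_sum]; refine Finset.sum_congr rfl fun x _ => ?_; rw [hc]; ring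
    have hS : ∑ x, cθ W n θ z x * (a x - a z) ^ 2
        = (t * wA / (wB + t * wA)) * ∑ x, π x * (a x - a z) ^ 2 := by
      rw [Finset.mul_sum]; refine Finset.sum_congr rfl fun x _ => ?_; rw [hc]; ring
    rw [e1, e2, e3, ev, hF, hS]
    set ab := ∑ x, π x * (a x - a z)
    set L := ∑ x, π x * (a x - a z) ^ 2
    set v := t * wA / (wB + t * wA) with hv
    have hv0 : 0 < v := by positivity
    have h1v : 1 - v = wB / (wB + t * wA) := by rw [hv]; field_simp; ring
    have hlhs : t * P / (wB + t * wA) - v * ((R + t * P) / (wB + t * wA))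
        = (1 - v) * v * (P / wA - R / wB) := by
      rw [h1v, hv]; field_simp; ring
    have hrhs : (1 - v) * ((1 - δ) * ((v * ab) ^ 2 / v) + δ * (v * L))
        = (1 - v) * v * (ab ^ 2 + δ * (L - ab ^ 2)) := by
      field_simp; ring
    rw [hlhs, hrhs]
    apply mul_le_mul_of_nonneg_left hT
    have : 0 ≤ 1 - v := by rw [h1v]; positivity
    positivity

end OneNode

end

end Vale.Agent.P361.LRO.SR
end

section

/-!
Theorem 1 (star-mesh inequality) for symmetric homogeneous stable laws.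
-/

namespace Vale.Agent.P361.LRO.T1

open MvPolynomial

section thm

variable {Om V : Type*} [Fintype Om] [Fintype V] [DecidableEq V]

/-- sums over the configurations which are charged at `z` -/
noncomputable def sA (W : Om → ℝ) (n : Om → V → ℕ) (z : V) (F : Om → ℝ) : ℝ :=
  ∑ w, if n w z = 1 then 0 else W w * F w

/-- sums over the configurations which are not charged at `z` -/
noncomputable def sB (W : Om → ℝ) (n : Om → V → ℕ) (z : V) (F : Om → ℝ) : ℝ :=
  ∑ w, if n w z = 1 then W w * F w else 0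

/-- the conditional expectations -/
noncomputable def EA (W : Om → ℝ) (n : Om → V → ℕ) (z : V) (F : Om → ℝ) : ℝ :=
  sA W n z F / sA W n z fun _ => 1

noncomputable def EB (W : Om → ℝ) (n : Om → V → ℕ) (z : V) (F : Om → ℝ) : ℝ :=
  sB W n z F / sB W n z fun _ => 1

omit [Fintype V] [DecidableEq V] in
theorem sA_eq {W : Om → ℝ} {n : Om → V → ℕ} (hn : ∀ w x, n w x ≤ 2) (z : V) (F : Om → ℝ) :
    sA W n z F = Sk W n z 0 F + Sk W n z 2 F := by
  rw [sA, Sk, Sk, ← Finset.sum_add_distrib]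
  refine Finset.sum_congr rfl fun w _ => ?_
  have h := hn w z
  interval_cases h1 : n w z <;> simp

omit [Fintype V] [DecidableEq V] in
theorem sB_eq (W : Om → ℝ) (n : Om → V → ℕ) (z : V) (F : Om → ℝ) :
    sB W n z F = Sk W n z 1 F := rfl

omit [Fintype V] [DecidableEq V] in
theorem Sk_symm {W : Om → ℝ} {n : Om → V → ℕ} (hn : ∀ w x, n w x ≤ 2) (ι : Equiv.Perm Om)
    (hWι : ∀ w, W (ι w) = W w) (hnι : ∀ w x, n (ι w) x = 2 - n w x) (z : V) {k : ℕ} (hk : k ≤ 2)
    (F : Om → ℝ) : Sk W n z k F = Sk W n z (2 - k) fun w => F (ι w) := by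
  rw [Sk, Sk, ← Equiv.sum_comp ι]
  refine Finset.sum_congr rfl fun w _ => ?_
  have h := hn w z
  rw [hnι, hWι]
  by_cases h1 : n w z = 2 - k
  · rw [if_pos (by omega), if_pos h1]
  · rw [if_neg (by omega), if_neg h1]

/-- the two weights: `2 w₁ ≤ w₀` -/
theorem two_mul_le {W : Om → ℝ} {n : Om → V → ℕ} (hn : ∀ w x, n w x ≤ 2) {N : ℕ}
    (hdeg : ∀ w, W w ≠ 0 → ∑ x, n w x = N) (hst : RStable (gen W n)) (z : V) (w0 w1 : ℝ)
    (hw1 : 0 < w1) (hw0 : 0 ≤ w0)
    (h00 : Sk W n z 0 (fun _ => 1) = w1) (h20 : Sk W n z 2 (fun _ => 1) = w1)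
    (h10 : Sk W n z 1 (fun _ => 1) = w0) : 2 * w1 ≤ w0 := by
  by_contra hlt
  rw [not_le] at hlt
  set r : ℝ := Real.sqrt (4 * w1 ^ 2 - w0 ^ 2) with hr
  have hr2 : r ^ 2 = 4 * w1 ^ 2 - w0 ^ 2 := Real.sq_sqrt (by nlinarith)
  have hrpos : 0 < r := Real.sqrt_pos.2 (by nlinarith)
  set t : ℂ := ⟨-w0 / (2 * w1), r / (2 * w1)⟩ with ht
  have htim : 0 < t.im := by
    change 0 < r / (2 * w1)
    positivity
  have hzero : (w1 : ℂ) + w0 * t + w1 * t ^ 2 = 0 := by
    apply Complex.ext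
    · simp only [ht, Complex.add_re, Complex.mul_re, Complex.ofReal_re, Complex.ofReal_im,
        pow_two, Complex.mul_im, zero_mul, sub_zero, Complex.zero_re]
      field_simp
      nlinarith [hr2]
    · simp only [ht, Complex.add_im, Complex.mul_re, Complex.ofReal_re, Complex.ofReal_im,
        pow_two, Complex.mul_im, zero_mul, Complex.zero_im]
      field_simp
      ring
  set u : ℂ := ⟨(|t.re| + 1) / t.im, 1⟩ with hu
  have hval : aeval (fun x => u * (if x = z then t else 1)) (gen W n) = 0 := by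
    rw [aeval_smul_hom (gen_hom hdeg), gen_aeval]
    have h1 : ∀ w, (W w : ℂ) * ∏ x, (if x = z then t else 1) ^ n w x =
        ((if n w z = 0 then W w * 1 else 0 : ℝ) : ℂ) +
          ((if n w z = 1 then W w * 1 else 0 : ℝ) : ℂ) * t +
          ((if n w z = 2 then W w * 1 else 0 : ℝ) : ℂ) * t ^ 2 := by
      intro w
      have h2 : ∏ x, (if x = z then t else (1 : ℂ)) ^ n w x = t ^ n w z := by
        rw [Finset.prod_eq_single z]
        · rw [if_pos rfl]
        · intro x _ hx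
          rw [if_neg hx, one_pow]
        · intro h
          exact absurd (Finset.mem_univ z) h
      rw [h2]
      have h := hn w z
      interval_cases h1 : n w z <;> simp
    simp only [h1]
    rw [Finset.sum_add_distrib, Finset.sum_add_distrib, ← Finset.sum_mul, ← Finset.sum_mul,
      ← Complex.ofReal_sum, ← Complex.ofReal_sum, ← Complex.ofReal_sum]
    have e0 : ∑ w, (if n w z = 0 then W w * 1 else 0) = w1 := h00
    have e1 : ∑ w, (if n w z = 1 then W w * 1 else 0) = w0 := h10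
    have e2 : ∑ w, (if n w z = 2 then W w * 1 else 0) = w1 := h20
    rw [e0, e1, e2, hzero, mul_zero]
  refine hst _ (fun x => ?_) hval
  by_cases hx : x = z
  · rw [if_pos hx, Complex.mul_im]
    change 0 < (|t.re| + 1) / t.im * t.im + 1 * t.re
    rw [div_mul_cancel₀ _ htim.ne', one_mul]
    have := neg_abs_le t.re
    linarith
  · rw [if_neg hx, mul_one]
    change (0 : ℝ) < 1
    exact one_pos

/-- **Theorem 1.** -/
theorem theorem_one {W : Om → ℝ} (hW : ∀ w, 0 ≤ W w) {n : Om → V → ℕ} (hn : ∀ w x, n w x ≤ 2)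
    (hdeg : ∀ w, W w ≠ 0 → ∑ x, n w x = Fintype.card V) (ι : Equiv.Perm Om)
    (hWι : ∀ w, W (ι w) = W w) (hnι : ∀ w x, n (ι w) x = 2 - n w x)
    (hst : ∀ y : V → ℂ, (∀ x, 0 < (y x).im) → ∑ w, (W w : ℂ) * ∏ x, y x ^ n w x ≠ 0)
    (z : V) (a : V → ℝ) (π : V → ℝ) (abar L eps : ℝ)
    (hπ : ∀ x, π x = EA W n z fun w => -((n w z : ℝ) - 1) * ((n w x : ℝ) - 1))
    (habar : abar = ∑ x, π x * (a x - a z)) (hL : L = ∑ x, π x * (a x - a z) ^ 2)
    (heps : eps = Real.sqrt (1 - 2 * sA W n z (fun _ => 1) /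
      (sA W n z (fun _ => 1) + sB W n z (fun _ => 1)))) :
    EA W n z (fun w => (∑ x, a x * ((n w x : ℝ) - 1)) ^ 2) -
        EB W n z (fun w => (∑ x, a x * ((n w x : ℝ) - 1)) ^ 2) ≤
      abar ^ 2 + 2 * eps / (1 + eps ^ 2) * (L - abar ^ 2) := by
  have hst' : RStable (gen W n) := by
    intro y hy
    rw [gen_aeval]
    exact hst y hy
  set w1 : ℝ := Sk W n z 2 (fun _ => 1) with hw1
  set w0 : ℝ := Sk W n z 1 (fun _ => 1) with hw0
  have h00 : Sk W n z 0 (fun _ => 1) = w1 := Sk_symm hn ι hWι hnι z (by norm_num) _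
  have hw1n : 0 ≤ w1 := Finset.sum_nonneg fun w _ => by
    split_ifs
    · rw [mul_one]
      exact hW w
    · exact le_rfl
  have hw0n : 0 ≤ w0 := Finset.sum_nonneg fun w _ => by
    split_ifs
    · rw [mul_one]
      exact hW w
    · exact le_rfl
  have hsA1 : sA W n z (fun _ => 1) = 2 * w1 := by
    rw [sA_eq hn, h00]
    ring
  have hsB1 : sB W n z (fun _ => 1) = w0 := rfl
  have hEBn : 0 ≤ EB W n z (fun w => (∑ x, a x * ((n w x : ℝ) - 1)) ^ 2) := by
    refine div_nonneg (Finset.sum_nonneg fun w _ => ?_) (by rw [hsB1]; exact hw0n)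
    split_ifs
    · exact mul_nonneg (hW w) (sq_nonneg _)
    · exact le_rfl
  rcases hw1n.eq_or_lt with h0 | h0
  · -- no charge at `z`
    have hEA0 : ∀ F, EA W n z F = 0 := by
      intro F
      rw [EA, hsA1, ← h0, mul_zero, div_zero]
    have h1 : abar = 0 := by
      rw [habar]
      refine Finset.sum_eq_zero fun x _ => ?_
      rw [hπ, hEA0, zero_mul]
    have h2 : L = 0 := by
      rw [hL]
      refine Finset.sum_eq_zero fun x _ => ?_
      rw [hπ, hEA0, zero_mul]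
    rw [hEA0, h1, h2]
    simp only [zero_sub, ne_eq, OfNat.ofNat_ne_zero, not_false_eq_true, zero_pow, sub_self,
      mul_zero, add_zero]
    linarith
  -- the shifted coefficients
  set b : V → ℝ := fun x => a x - a z with hb
  have hbz : b z = 0 := sub_self _
  set A : Om → ℝ := fun w => ∑ x, ((n w x : ℝ) - 1) * b x with hA
  set Q : Om → ℝ := fun w => ∑ x, ((n w x : ℝ) - 1) * b x ^ 2 with hQ
  have hjι : ∀ w x, ((n (ι w) x : ℝ) - 1) = -((n w x : ℝ) - 1) := by
    intro w x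
    rw [hnι, Nat.cast_sub (hn w x)]
    push_cast
    ring
  have hAι : ∀ w, A (ι w) = -A w := by
    intro w
    simp only [hA]
    rw [← Finset.sum_neg_distrib]
    refine Finset.sum_congr rfl fun x _ => ?_
    rw [hjι]
    ring
  have hQι : ∀ w, Q (ι w) = -Q w := by
    intro w
    simp only [hQ]
    rw [← Finset.sum_neg_distrib]
    refine Finset.sum_congr rfl fun x _ => ?_
    rw [hjι]
    ring
  have hneg : ∀ (k : ℕ) (F : Om → ℝ), Sk W n z k (fun w => -F w) = -Sk W n z k F := by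
    intro k F
    have h := Sk_smul W n z k (-1) F
    have h' : (fun w => -1 * F w) = fun w => -F w := by
      funext w
      ring
    rw [h'] at h
    rw [h]
    ring
  set al : ℝ := Sk W n z 2 A with hal
  set E2 : ℝ := Sk W n z 2 (fun w => A w ^ 2) with hE2
  set E0 : ℝ := Sk W n z 1 (fun w => A w ^ 2) with hE0
  set la : ℝ := -Sk W n z 2 Q with hla
  have h0A : Sk W n z 0 A = -al := by
    rw [Sk_symm hn ι hWι hnι z (by norm_num) A]
    simp only [hAι]
    exact hneg 2 A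
  have h1A : Sk W n z 1 A = 0 := by
    have h := Sk_symm hn ι hWι hnι z (k := 1) (by norm_num) A
    simp only [hAι] at h
    have h' := hneg 1 A
    have h2 : Sk W n z 1 A = -Sk W n z 1 A := h.trans h'
    linarith
  have h0E : Sk W n z 0 (fun w => A w ^ 2) = E2 := by
    rw [Sk_symm hn ι hWι hnι z (by norm_num) fun w => A w ^ 2]
    simp only [hAι, neg_sq]
    rfl
  have h0L : Sk W n z 0 Q = la := by
    rw [Sk_symm hn ι hWι hnι z (by norm_num) Q]
    simp only [hQι]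
    exact hneg 2 Q
  have h1L : Sk W n z 1 Q = 0 := by
    have h := Sk_symm hn ι hWι hnι z (k := 1) (by norm_num) Q
    simp only [hQι] at h
    have h' := hneg 1 Q
    have h2 : Sk W n z 1 Q = -Sk W n z 1 Q := h.trans h'
    linarith
  have h2L : Sk W n z 2 Q = -la := by
    rw [hla, neg_neg]
  have hle : 2 * w1 ≤ w0 := two_mul_le hn hdeg hst' z w0 w1 h0 hw0n h00 rfl rfl
  have hw0p : 0 < w0 := by linarith
  -- the root
  have heps2 : eps ^ 2 = (w0 - 2 * w1) / (w0 + 2 * w1) := by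
    rw [heps, hsA1, hsB1, Real.sq_sqrt]
    · field_simp
      ring
    · rw [sub_nonneg, div_le_one (by positivity)]
      linarith
  have heps0 : 0 ≤ eps := by
    rw [heps]
    exact Real.sqrt_nonneg _
  have heps1 : eps < 1 := by
    have h1 : eps ^ 2 < 1 := by
      rw [heps2, div_lt_one (by positivity)]
      linarith
    nlinarith
  have h1e : 0 < 1 - eps := by linarith
  have h1e' : 0 < 1 + eps := by linarith
  have heq : w1 * (1 + ((1 - eps) / (1 + eps)) ^ 2) = w0 * ((1 - eps) / (1 + eps)) := by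
    have h1 : eps ^ 2 * (w0 + 2 * w1) = w0 - 2 * w1 := by
      rw [heps2]
      field_simp
    field_simp
    linear_combination h1
  have hcore := one_node_core hn hdeg hst' z b hbz w0 w1 al E2 E0 la h0 h00 rfl rfl h0A h1A rfl
    h0E rfl rfl h0L h1L h2L ((1 - eps) / (1 + eps)) (div_pos h1e h1e')
    ((div_le_one h1e').2 (by linarith)) heq
  -- the conditional expectations
  have hsum : ∀ w, W w ≠ 0 → ∑ x, a x * ((n w x : ℝ) - 1) = A w := by
    intro w hw
    have h1 : ∑ x, ((n w x : ℝ) - 1) = 0 := by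
      rw [Finset.sum_sub_distrib, ← Nat.cast_sum, hdeg w hw]
      simp
    have h2 : A w = ∑ x, a x * ((n w x : ℝ) - 1) - a z * ∑ x, ((n w x : ℝ) - 1) := by
      simp only [hA, hb]
      rw [Finset.mul_sum, ← Finset.sum_sub_distrib]
      refine Finset.sum_congr rfl fun x _ => ?_
      ring
    rw [h2, h1, mul_zero, sub_zero]
  have hSk : ∀ k, Sk W n z k (fun w => (∑ x, a x * ((n w x : ℝ) - 1)) ^ 2) =
      Sk W n z k (fun w => A w ^ 2) := by
    intro k
    rw [Sk, Sk]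
    refine Finset.sum_congr rfl fun w _ => ?_
    by_cases hw : W w = 0
    · rw [hw, zero_mul, zero_mul]
    · rw [hsum w hw]
  have hEA2 : EA W n z (fun w => (∑ x, a x * ((n w x : ℝ) - 1)) ^ 2) = E2 / w1 := by
    rw [EA, hsA1, sA_eq hn, hSk, hSk, h0E]
    field_simp
    ring
  have hEB2 : EB W n z (fun w => (∑ x, a x * ((n w x : ℝ) - 1)) ^ 2) = E0 / w0 := by
    rw [EB, hsB1, sB_eq, hSk]
  have hpi : ∀ c : V → ℝ, ∑ x, π x * c x =
      (Sk W n z 0 (fun w => ∑ x, ((n w x : ℝ) - 1) * c x) -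
        Sk W n z 2 (fun w => ∑ x, ((n w x : ℝ) - 1) * c x)) / (2 * w1) := by
    intro c
    have h1 : ∀ x, π x * c x = (sA W n z (fun w => -((n w z : ℝ) - 1) *
        (((n w x : ℝ) - 1) * c x))) / (2 * w1) := by
      intro x
      rw [hπ, EA, hsA1, div_mul_eq_mul_div, sA, sA, Finset.sum_mul]
      congr 1
      refine Finset.sum_congr rfl fun w _ => ?_
      split_ifs
      · ring
      · ring
    simp only [h1]
    rw [← Finset.sum_div]
    congr 1
    simp only [sA, Sk]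
    rw [Finset.sum_comm, ← Finset.sum_sub_distrib]
    refine Finset.sum_congr rfl fun w _ => ?_
    have h := hn w z
    have h2 : ∑ x, -((n w z : ℝ) - 1) * (((n w x : ℝ) - 1) * c x) =
        -((n w z : ℝ) - 1) * ∑ x, ((n w x : ℝ) - 1) * c x := by
      rw [Finset.mul_sum]
    by_cases h3 : n w z = 1
    · simp [h3]
    · simp only [if_neg h3]
      rw [← Finset.mul_sum, h2]
      interval_cases h1 : n w z
      · simp
      · exact absurd rfl h3
      · simp
        ring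
  have habar2 : abar = -al / w1 := by
    have h1 := hpi b
    rw [← habar] at h1
    rw [h1]
    change (Sk W n z 0 A - Sk W n z 2 A) / (2 * w1) = _
    rw [h0A]
    field_simp
    ring
  have hL2 : L = la / w1 := by
    have h1 := hpi fun x => b x ^ 2
    rw [← hL] at h1
    rw [h1]
    change (Sk W n z 0 Q - Sk W n z 2 Q) / (2 * w1) = _
    rw [h0L, h2L]
    field_simp
    ring
  rw [hEA2, hEB2, habar2, hL2]
  set s : ℝ := (1 - eps) / (1 + eps) with hs
  have hs0 : 0 < s := div_pos h1e h1e'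
  have hK : 2 * eps / (1 + eps ^ 2) = (1 - s ^ 2) / (1 + s ^ 2) := by
    rw [hs, div_eq_div_iff (by positivity) (by positivity)]
    field_simp
    ring
  have hw0s : w0 = w1 * (1 + s ^ 2) / s := by
    rw [eq_div_iff hs0.ne', ← heq]
  rw [hK, hw0s]
  have h5 : 0 < w1 * (1 + s ^ 2) := by positivity
  have h6 : E2 / w1 - E0 / (w1 * (1 + s ^ 2) / s) =
      (E2 * (1 + s ^ 2) - s * E0) / (w1 * (1 + s ^ 2)) := by
    field_simp
  have h7 : (-al / w1) ^ 2 + (1 - s ^ 2) / (1 + s ^ 2) * (la / w1 - (-al / w1) ^ 2) =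
      (la * (1 - s ^ 2) + 2 * s ^ 2 * al ^ 2 / w1) / (w1 * (1 + s ^ 2)) := by
    field_simp
    ring
  rw [h6, h7]
  exact div_le_div_of_nonneg_right (by linarith) h5.le

end thm

end Vale.Agent.P361.LRO.T1
end

section

/-!
# P361, long range order, block SR: the one-node inequality on the common definitions
-/

namespace Vale.Agent.P361.LRO.ONI

open Finset
open scoped BigOperators

noncomputable section

variable {X : Type} [Fintype X] [DecidableEq X]

/-- the exponents `1 + j` of the charge law -/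
def nj (ω : Equiv.Perm X × (X → Fin 2)) (x : X) : ℕ :=
  if ω.2 x = ω.2 (ω.1 x) then 1 else if ω.2 x = 1 then 2 else 0

omit [Fintype X] [DecidableEq X] in
lemma nj_le (ω : Equiv.Perm X × (X → Fin 2)) (x : X) : nj ω x ≤ 2 := by
  unfold nj; split_ifs <;> norm_num

omit [Fintype X] [DecidableEq X] in
lemma nj_eq_one (ω : Equiv.Perm X × (X → Fin 2)) (x : X) :
    nj ω x = 1 ↔ ω.2 x = ω.2 (ω.1 x) := by
  unfold nj; split_ifs <;> simp_all

omit [Fintype X] [DecidableEq X] in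
lemma jc_nj (ω : Equiv.Perm X × (X → Fin 2)) (x : X) :
    SR.jc (nj (X := X)) ω x = jj ω.1 ω.2 x := by
  unfold SR.jc nj jj
  generalize ω.2 x = a
  generalize ω.2 (ω.1 x) = b
  fin_cases a <;> fin_cases b <;> simp <;> norm_num

/-- the weight at `θ = 1` -/
def Wμ (μ : Equiv.Perm X → ℝ) (ω : Equiv.Perm X × (X → Fin 2)) : ℝ := μ ω.1

lemma wθ_nj (μ : Equiv.Perm X → ℝ) (θ : X → ℝ) (ω : Equiv.Perm X × (X → Fin 2)) :
    SR.wθ (Wμ μ) nj θ ω = μ ω.1 * wt θ ω.1 ω.2 := by
  unfold SR.wθ Wμ wt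
  congr 1
  refine Finset.prod_congr rfl fun x _ => ?_
  simp only [nj_eq_one]

lemma sum_nj (μ : Equiv.Perm X → ℝ) (θ : X → ℝ) (f : Equiv.Perm X → (X → Fin 2) → ℝ) :
    ∑ ω, SR.wθ (Wμ μ) nj θ ω * f ω.1 ω.2 = ∑ π, ∑ s, μ π * wt θ π s * f π s := by
  rw [Fintype.sum_prod_type]
  refine Finset.sum_congr rfl fun π _ => Finset.sum_congr rfl fun s _ => ?_
  rw [wθ_nj]

lemma Zθ_nj (μ : Equiv.Perm X → ℝ) (θ : X → ℝ) : SR.Zθ (Wμ μ) nj θ = ZZ μ θ := by
  have := sum_nj μ θ (fun _ _ => 1)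
  simp only [mul_one] at this
  exact this

lemma Eθ_nj (μ : Equiv.Perm X → ℝ) (θ : X → ℝ) (f : Equiv.Perm X → (X → Fin 2) → ℝ) :
    SR.Eθ (Wμ μ) nj θ (fun ω => f ω.1 ω.2) = EE μ θ f := by
  unfold SR.Eθ EE
  rw [sum_nj, Zθ_nj]

lemma vθ_nj (μ : Equiv.Perm X → ℝ) (θ : X → ℝ) (z : X) :
    SR.vθ (Wμ μ) nj θ z = vv μ θ z := by
  unfold SR.vθ vv
  simp only [jc_nj]
  exact Eθ_nj μ θ (fun π s => jj π s z ^ 2)

lemma cθ_nj (μ : Equiv.Perm X → ℝ) (θ : X → ℝ) (u v : X) :
    SR.cθ (Wμ μ) nj θ u v = cc μ θ u v := by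
  unfold SR.cθ cc
  simp only [jc_nj]
  rw [Eθ_nj μ θ (fun π s => jj π s u * jj π s v)]

/-- law of a product of random transpositions: nonnegativity -/
lemma law_nonneg (l : List (X × X × ℝ)) (σ : Equiv.Perm X)
    (hl : ∀ g ∈ l, 0 ≤ g.2.2 ∧ g.2.2 ≤ 1 / 2) (π : Equiv.Perm X) : 0 ≤ law l σ π := by
  induction l generalizing π with
  | nil =>
    unfold law
    by_cases h : π = σ
    · subst h; simp
    · simp [Pi.single_apply, h]
  | cons g l ih =>
    have h1 := hl g (by simp)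
    have h2 := ih (fun g' hg' => hl g' (by simp [hg']))
    unfold law
    have h3 := h2 π
    have h4 := h2 (Equiv.swap g.1 g.2.1 * π)
    have h5 : 0 ≤ 1 - g.2.2 := by linarith [h1.2]
    have := h1.1
    positivity

/-- law of a product of random transpositions: total mass -/
lemma law_sum (l : List (X × X × ℝ)) (σ : Equiv.Perm X) : ∑ π, law l σ π = 1 := by
  induction l with
  | nil =>
    unfold law
    simp
  | cons g l ih =>
    have : ∑ π, law l σ (Equiv.swap g.1 g.2.1 * π) = 1 := by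
      rw [← ih]
      exact Fintype.sum_equiv (Equiv.mulLeft (Equiv.swap g.1 g.2.1)) _ _ (fun π => rfl)
    unfold law
    rw [Finset.sum_add_distrib, ← Finset.mul_sum, ← Finset.mul_sum, ih, this]
    ring

lemma isLaw_nonneg {μ : Equiv.Perm X → ℝ} (h : IsLaw μ) (π : Equiv.Perm X) : 0 ≤ μ π := by
  obtain ⟨l, σ, hl, rfl⟩ := h
  exact law_nonneg l σ hl π

lemma isLaw_sum {μ : Equiv.Perm X → ℝ} (h : IsLaw μ) : ∑ π, μ π = 1 := by
  obtain ⟨l, σ, hl, rfl⟩ := h
  exact law_sum l σ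

lemma wt_nonneg' {θ : X → ℝ} (h : ∀ x, 0 ≤ θ x) (π : Equiv.Perm X) (s : X → Fin 2) :
    0 ≤ wt θ π s := by
  unfold wt
  refine Finset.prod_nonneg fun x _ => ?_
  split_ifs
  · exact zero_le_one
  · exact h x

lemma sum_jj_eq_zero (π : Equiv.Perm X) (s : X → Fin 2) : ∑ x, jj π s x = 0 := by
  unfold jj
  rw [Finset.sum_sub_distrib, sub_eq_zero]
  exact (Equiv.sum_comp π (fun x => ((s x : ℕ) : ℝ))).symm

lemma sum_nj_eq_card (ω : Equiv.Perm X × (X → Fin 2)) : ∑ x, nj ω x = Fintype.card X := by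
  have h := sum_jj_eq_zero ω.1 ω.2
  have h2 : ∑ x, jj ω.1 ω.2 x = ((∑ x, nj ω x : ℕ) : ℝ) - Fintype.card X := by
    rw [Nat.cast_sum, ← Finset.card_univ, Finset.cast_card, ← Finset.sum_sub_distrib]
    refine Finset.sum_congr rfl fun x _ => ?_
    rw [← jc_nj]; rfl
  rw [h2, sub_eq_zero] at h
  exact_mod_cast h

/-- the global flip of the spins -/
def flipPerm : Equiv.Perm (Equiv.Perm X × (X → Fin 2)) where
  toFun ω := (ω.1, fun x => 1 - ω.2 x)
  invFun ω := (ω.1, fun x => 1 - ω.2 x)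
  left_inv ω := by ext <;> simp
  right_inv ω := by ext <;> simp

omit [Fintype X] [DecidableEq X] in
lemma nj_flip (ω : Equiv.Perm X × (X → Fin 2)) (x : X) :
    nj (flipPerm ω) x = 2 - nj ω x := by
  have h : ∀ a b : Fin 2, (if (1 - a : Fin 2) = 1 - b then 1 else if (1 - a : Fin 2) = 1 then 2 else 0)
      = 2 - (if a = b then 1 else if a = 1 then 2 else 0) := by decide
  exact h (ω.2 x) (ω.2 (ω.1 x))

lemma wθ_flip (μ : Equiv.Perm X → ℝ) (θ : X → ℝ) (ω : Equiv.Perm X × (X → Fin 2)) :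
    SR.wθ (Wμ μ) nj θ (flipPerm ω) = SR.wθ (Wμ μ) nj θ ω := by
  unfold SR.wθ
  have h1 : Wμ μ (flipPerm ω) = Wμ μ ω := rfl
  rw [h1]
  congr 1
  refine Finset.prod_congr rfl fun x _ => ?_
  have h2 : nj (flipPerm ω) x = 1 ↔ nj ω x = 1 := by
    rw [nj_flip]
    have := nj_le ω x
    omega
  simp only [h2]

/-- the generating function in Omega-form -/
lemma gen_eq (μ : Equiv.Perm X → ℝ) (θ : X → ℝ) (ζ : X → ℂ) :
    gen μ θ ζ = ∑ ω, ((SR.wθ (Wμ μ) nj θ ω : ℝ) : ℂ) * ∏ x, ζ x ^ nj ω x := by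
  unfold gen
  rw [Fintype.sum_prod_type]
  refine Finset.sum_congr rfl fun π _ => Finset.sum_congr rfl fun s _ => ?_
  rw [wθ_nj]
  congr 1
  refine Finset.prod_congr rfl fun x _ => ?_
  unfold nj
  simp only
  split_ifs <;> simp

lemma QA_one_nj (μ : Equiv.Perm X → ℝ) (θ : X → ℝ) (z : X) :
    SR.QA (Wμ μ) nj θ z (fun _ => 1)
      = ∑ π, ∑ s : X → Fin 2, if s z = s (π z) then 0
          else μ π * wt (Function.update θ z 1) π s := by
  unfold SR.QA
  rw [Fintype.sum_prod_type]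
  refine Finset.sum_congr rfl fun π _ => Finset.sum_congr rfl fun s _ => ?_
  simp only [nj_eq_one, wθ_nj, mul_one]

lemma wt_update_of_eq (θ : X → ℝ) (z : X) (t : ℝ) (π : Equiv.Perm X) (s : X → Fin 2)
    (h : s z = s (π z)) : wt (Function.update θ z t) π s = wt θ π s := by
  unfold wt
  refine Finset.prod_congr rfl fun x _ => ?_
  by_cases hx : x = z
  · subst hx; simp [h]
  · rw [Function.update_of_ne hx]

lemma QB_one_nj (μ : Equiv.Perm X → ℝ) (θ : X → ℝ) (z : X) :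
    SR.QB (Wμ μ) nj θ z (fun _ => 1)
      = ∑ π, ∑ s : X → Fin 2, if s z = s (π z) then μ π * wt θ π s else 0 := by
  unfold SR.QB
  rw [Fintype.sum_prod_type]
  refine Finset.sum_congr rfl fun π _ => Finset.sum_congr rfl fun s _ => ?_
  simp only [nj_eq_one, wθ_nj, mul_one]
  split_ifs with h
  · rw [wt_update_of_eq θ z 1 π s h]
  · rfl

lemma mag_eq (μ : Equiv.Perm X → ℝ) (θ : X → ℝ) (z : X) :
    mag μ θ z = SR.QA (Wμ μ) nj θ z (fun _ => 1) / SR.QB (Wμ μ) nj θ z (fun _ => 1) := by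
  rw [QA_one_nj, QB_one_nj]
  rfl

lemma wθ_nonneg {μ : Equiv.Perm X → ℝ} (hμ : IsLaw μ) {θ : X → ℝ} (hθ : ∀ x, 0 ≤ θ x)
    (ω : Equiv.Perm X × (X → Fin 2)) : 0 ≤ SR.wθ (Wμ μ) nj θ ω := by
  rw [wθ_nj]
  exact mul_nonneg (isLaw_nonneg hμ _) (wt_nonneg' hθ _ _)

lemma update_nonneg {θ : X → ℝ} (hθ : ∀ x, 0 ≤ θ x) (z : X) (x : X) :
    0 ≤ Function.update θ z 1 x := by
  by_cases hx : x = z
  · subst hx; simp
  · rw [Function.update_of_ne hx]; exact hθ x

lemma QB_pos {μ : Equiv.Perm X → ℝ} (hμ : IsLaw μ) {θ : X → ℝ} (hθ : ∀ x, 0 ≤ θ x) (z : X) :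
    0 < SR.QB (Wμ μ) nj θ z (fun _ => 1) := by
  have h1 : (1:ℝ) ≤ SR.QB (Wμ μ) nj θ z (fun _ => 1) := by
    rw [QB_one_nj, ← isLaw_sum hμ]
    refine Finset.sum_le_sum fun π _ => ?_
    have h2 : (fun s : X → Fin 2 => if s z = s (π z) then μ π * wt θ π s else 0)
        (fun _ => 0) = μ π := by
      simp [wt]
    have h3 := Finset.single_le_sum (f := fun s : X → Fin 2 => if s z = s (π z)
      then μ π * wt θ π s else 0) (s := Finset.univ) (fun s _ => by
        split_ifs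
        · exact mul_nonneg (isLaw_nonneg hμ _) (wt_nonneg' hθ _ _)
        · exact le_rfl) (Finset.mem_univ (fun _ => 0))
    exact h2.symm.le.trans h3
  linarith

lemma QA_nonneg {μ : Equiv.Perm X → ℝ} (hμ : IsLaw μ) {θ : X → ℝ} (hθ : ∀ x, 0 ≤ θ x) (z : X) :
    0 ≤ SR.QA (Wμ μ) nj θ z (fun _ => 1) := by
  unfold SR.QA
  refine Finset.sum_nonneg fun ω _ => ?_
  split_ifs
  · exact le_rfl
  · rw [mul_one]; exact wθ_nonneg hμ (update_nonneg hθ z) ω

lemma QA_eq_zero {μ : Equiv.Perm X → ℝ} (hμ : IsLaw μ) {θ : X → ℝ} (hθ : ∀ x, 0 ≤ θ x) (z : X)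
    (h : SR.QA (Wμ μ) nj θ z (fun _ => 1) = 0) (F : Equiv.Perm X × (X → Fin 2) → ℝ) :
    SR.QA (Wμ μ) nj θ z F = 0 := by
  unfold SR.QA at h ⊢
  have h1 := (Finset.sum_eq_zero_iff_of_nonneg (fun ω _ => by
    split_ifs
    · exact le_rfl
    · rw [mul_one]; exact wθ_nonneg hμ (update_nonneg hθ z) ω)).mp h
  refine Finset.sum_eq_zero fun ω hω => ?_
  have h2 := h1 ω hω
  split_ifs at h2 ⊢ with h3
  · rfl
  · rw [mul_one] at h2; rw [h2, zero_mul]

/-- the conclusion of Theorem 1 of note 8371 for the law at `θ z = 1` (Omega-form). -/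
def StarMeshAt (μ : Equiv.Perm X → ℝ) (θ : X → ℝ) (z : X) : Prop :=
  SR.QA (Wμ μ) nj θ z (fun _ => 1) ≤ SR.QB (Wμ μ) nj θ z (fun _ => 1) ∧
  (0 < SR.QA (Wμ μ) nj θ z (fun _ => 1) → ∀ a : X → ℝ, ∀ ε : ℝ,
    ε = Real.sqrt (1 - 2 * SR.QA (Wμ μ) nj θ z (fun _ => 1) /
      (SR.QA (Wμ μ) nj θ z (fun _ => 1) + SR.QB (Wμ μ) nj θ z (fun _ => 1))) →
      SR.QA (Wμ μ) nj θ z (fun ω => (∑ x, a x * SR.jc nj ω x) ^ 2)
          / SR.QA (Wμ μ) nj θ z (fun _ => 1)
        - SR.QB (Wμ μ) nj θ z (fun ω => (∑ x, a x * SR.jc nj ω x) ^ 2)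
          / SR.QB (Wμ μ) nj θ z (fun _ => 1)
      ≤ (∑ x, SR.QA (Wμ μ) nj θ z (fun ω => - (SR.jc nj ω z * SR.jc nj ω x))
            / SR.QA (Wμ μ) nj θ z (fun _ => 1) * (a x - a z)) ^ 2
        + 2 * ε / (1 + ε ^ 2) *
          (∑ x, SR.QA (Wμ μ) nj θ z (fun ω => - (SR.jc nj ω z * SR.jc nj ω x))
            / SR.QA (Wμ μ) nj θ z (fun _ => 1) * (a x - a z) ^ 2
          - (∑ x, SR.QA (Wμ μ) nj θ z (fun ω => - (SR.jc nj ω z * SR.jc nj ω x))
            / SR.QA (Wμ μ) nj θ z (fun _ => 1) * (a x - a z)) ^ 2))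

lemma delta_eq {p q ε : ℝ} (hp : 0 ≤ p) (hq : 0 < q) (hpq : p ≤ q)
    (hε : ε = Real.sqrt (1 - 2 * p / (p + q))) :
    2 * ε / (1 + ε ^ 2) = Real.sqrt (1 - (p / q) ^ 2) := by
  have h0 : 1 - 2 * p / (p + q) = (q - p) / (q + p) := by field_simp; ring
  have h1 : 0 ≤ (q - p) / (q + p) := div_nonneg (by linarith) (by linarith)
  have h2 : ε ^ 2 = (q - p) / (q + p) := by
    rw [hε, h0, Real.sq_sqrt h1]
  have h3 : 0 ≤ ε := by rw [hε]; exact Real.sqrt_nonneg _
  have h4 : 0 ≤ 2 * ε / (1 + ε ^ 2) := by positivity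
  have hpq0 : 0 < q + p := by linarith
  have h5 : 1 - (p / q) ^ 2 = (2 * ε / (1 + ε ^ 2)) ^ 2 := by
    have h6 : (2 * ε / (1 + ε ^ 2)) ^ 2 = 4 * ε ^ 2 / (1 + ε ^ 2) ^ 2 := by
      rw [div_pow, mul_pow]; norm_num
    have h7 : 1 + (q - p) / (q + p) = 2 * q / (q + p) := by field_simp; ring
    rw [h6, h2, h7]
    field_simp
    ring
  rw [h5, Real.sqrt_sq h4]

theorem oneNode_aux {μ : Equiv.Perm X → ℝ} (hμ : IsLaw μ)
    (hcc : ∀ θ : X → ℝ, (∀ x, 0 ≤ θ x ∧ θ x ≤ 1) → ∀ u v, u ≠ v → 0 ≤ cc μ θ u v)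
    (hT : ∀ θ : X → ℝ, (∀ x, 0 ≤ θ x ∧ θ x ≤ 1) → ∀ z, StarMeshAt μ θ z) : OneNode μ := by
  intro θ hθ z hz a
  obtain ⟨hAB, hT1⟩ := hT θ hθ z
  have hθ0 : ∀ x, 0 ≤ θ x := fun x => (hθ x).1
  set wA := SR.QA (Wμ μ) nj θ z (fun _ => 1) with hwA
  set wB := SR.QB (Wμ μ) nj θ z (fun _ => 1) with hwB
  have hA : 0 ≤ wA := QA_nonneg hμ hθ0 z
  have hB : 0 < wB := QB_pos hμ hθ0 z
  have hδ := delta_eq hA hB hAB rfl
  have hM : mag μ θ z = wA / wB := mag_eq μ θ z
  have key := SR.cov_le (Wμ μ) nj nj_le θ z a (Real.sqrt (1 - (wA / wB) ^ 2)) hz.le hA hB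
    (fun h F => QA_eq_zero hμ hθ0 z h F) (fun h => by
      rw [← hδ]
      exact hT1 h a _ rfl)
  simp only [jc_nj, cθ_nj, vθ_nj] at key
  rw [Eθ_nj μ θ (fun π s => jj π s z ^ 2 * (∑ x, a x * jj π s x) ^ 2),
    Eθ_nj μ θ (fun π s => jj π s z ^ 2),
    Eθ_nj μ θ (fun π s => (∑ x, a x * jj π s x) ^ 2)] at key
  rw [hM]
  set δ := Real.sqrt (1 - (wA / wB) ^ 2) with hδdef
  have hS : 0 ≤ ∑ x, cc μ θ z x * (a x - a z) ^ 2 := by
    refine Finset.sum_nonneg fun x _ => ?_
    by_cases hx : z = x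
    · subst hx; simp
    · exact mul_nonneg (hcc θ hθ z x hx) (sq_nonneg _)
  have hδ0 : 0 ≤ δ := Real.sqrt_nonneg _
  have hδ1 : δ ≤ 1 := by
    rw [hδdef]
    apply Real.sqrt_le_one.mpr
    nlinarith [sq_nonneg (wA / wB)]
  have hZ : ZZ μ θ = wB + θ z * wA := by
    rw [← Zθ_nj]; exact SR.Zθ_split (Wμ μ) nj θ z
  have hv : vv μ θ z = θ z * wA / (wB + θ z * wA) := by
    rw [← vθ_nj]
    unfold SR.vθ SR.Eθ
    have := SR.sum_jsq (Wμ μ) nj nj_le θ z (fun _ => 1)
    simp only [mul_one] at this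
    rw [this, SR.Zθ_split (Wμ μ) nj θ z]
  have hv0 : 0 ≤ vv μ θ z := by rw [hv]; positivity
  have hv1 : vv μ θ z ≤ 1 := by
    rw [hv, div_le_one (by positivity)]; linarith
  have hF : 0 ≤ (∑ x, cc μ θ z x * (a x - a z)) ^ 2 / vv μ θ z := div_nonneg (sq_nonneg _) hv0
  refine key.trans ?_
  set F := (∑ x, cc μ θ z x * (a x - a z)) ^ 2 / vv μ θ z
  set S := ∑ x, cc μ θ z x * (a x - a z) ^ 2
  have h1 : (1 - δ) * F + δ * S ≤ F + δ * S := by nlinarith [mul_nonneg hδ0 hF]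
  have h2 : 0 ≤ (1 - δ) * F + δ * S := by
    have := mul_nonneg (sub_nonneg.mpr hδ1) hF
    have := mul_nonneg hδ0 hS
    linarith
  have h3 : (1 - vv μ θ z) * ((1 - δ) * F + δ * S) ≤ 1 * ((1 - δ) * F + δ * S) :=
    mul_le_mul_of_nonneg_right (by linarith) h2
  linarith

/-- Theorem 1 (helper106) for the charge laws. -/
theorem starMeshAt_of_stable {μ : Equiv.Perm X → ℝ} (hμ : IsLaw μ) {θ : X → ℝ}
    (hθ : ∀ x, 0 ≤ θ x) (z : X) (hst : Stable μ (Function.update θ z 1)) :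
    StarMeshAt μ θ z := by
  set W' : Equiv.Perm X × (X → Fin 2) → ℝ :=
    fun ω => SR.wθ (Wμ μ) nj (Function.update θ z 1) ω with hW'
  have hW : ∀ ω, 0 ≤ W' ω := fun ω => wθ_nonneg hμ (update_nonneg hθ z) ω
  have hst' : ∀ y : X → ℂ, (∀ x, 0 < (y x).im) →
      ∑ ω, (W' ω : ℂ) * ∏ x, y x ^ nj ω x ≠ 0 := by
    intro y hy
    rw [← gen_eq]
    exact hst y hy
  have hdeg : ∀ ω, W' ω ≠ 0 → ∑ x, nj ω x = Fintype.card X := fun ω _ => sum_nj_eq_card ω
  have hWι : ∀ ω, W' (flipPerm ω) = W' ω := fun ω => wθ_flip μ _ ω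
  refine ⟨?_, ?_⟩
  · -- `wA ≤ wB`
    set w1 : ℝ := T1.Sk W' nj z 2 (fun _ => 1) with hw1
    have h00 : T1.Sk W' nj z 0 (fun _ => 1) = w1 :=
      T1.Sk_symm nj_le flipPerm hWι nj_flip z (by norm_num) _
    have hw1n : 0 ≤ w1 := Finset.sum_nonneg fun w _ => by
      split_ifs
      · rw [mul_one]; exact hW w
      · exact le_rfl
    have hw0n : 0 ≤ T1.Sk W' nj z 1 (fun _ => 1) := Finset.sum_nonneg fun w _ => by
      split_ifs
      · rw [mul_one]; exact hW w
      · exact le_rfl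
    have hsA1 : SR.QA (Wμ μ) nj θ z (fun _ => 1) = 2 * w1 := by
      change T1.sA W' nj z (fun _ => 1) = 2 * w1
      rw [T1.sA_eq nj_le, h00]
      ring
    have hsB1 : SR.QB (Wμ μ) nj θ z (fun _ => 1) = T1.Sk W' nj z 1 (fun _ => 1) := rfl
    rw [hsA1, hsB1]
    rcases hw1n.eq_or_lt with h | h
    · rw [← h]; simpa using hw0n
    · refine T1.two_mul_le nj_le hdeg ?_ z _ _ h hw0n h00 rfl rfl
      intro y hy
      rw [T1.gen_aeval]
      exact hst' y hy
  · intro _ a ε hε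
    have key := T1.theorem_one hW nj_le hdeg flipPerm hWι nj_flip hst' z a
      (fun x => T1.EA W' nj z fun w => -((nj w z : ℝ) - 1) * ((nj w x : ℝ) - 1)) _ _ ε
      (fun _ => rfl) rfl rfl hε
    have e1 : ∀ x, T1.EA W' nj z (fun w => -((nj w z : ℝ) - 1) * ((nj w x : ℝ) - 1))
        = SR.QA (Wμ μ) nj θ z (fun ω => - (SR.jc nj ω z * SR.jc nj ω x))
            / SR.QA (Wμ μ) nj θ z (fun _ => 1) := by
      intro x
      have : (fun ω : Equiv.Perm X × (X → Fin 2) => -(SR.jc nj ω z * SR.jc nj ω x))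
          = fun w => -((nj w z : ℝ) - 1) * ((nj w x : ℝ) - 1) := by
        funext w; unfold SR.jc; ring
      rw [this]
      rfl
    simp only [e1] at key
    exact key

/-- **The one-node inequality**, from strong Rayleigh stability. -/
theorem oneNode_of_stable {μ : Equiv.Perm X → ℝ} (hμ : IsLaw μ)
    (hst : ∀ θ : X → ℝ, (∀ x, 0 ≤ θ x ∧ θ x ≤ 1) → Stable μ θ)
    (hcc : ∀ θ : X → ℝ, (∀ x, 0 ≤ θ x ∧ θ x ≤ 1) → ∀ u v, u ≠ v → 0 ≤ cc μ θ u v) :
    OneNode μ := by
  refine oneNode_aux hμ hcc fun θ hθ z => starMeshAt_of_stable hμ (fun x => (hθ x).1) z ?_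
  apply hst
  intro x
  by_cases hx : x = z
  · subst hx; simp
  · rw [Function.update_of_ne hx]; exact hθ x

/-- `v_z ≤ θ_z M_z` and `M_z ≤ 1`. -/
theorem mag_le_one {μ : Equiv.Perm X → ℝ} (hμ : IsLaw μ) {θ : X → ℝ}
    (hθ : ∀ x, 0 ≤ θ x) (z : X) (hst : Stable μ (Function.update θ z 1)) :
    mag μ θ z ≤ 1 := by
  rw [mag_eq, div_le_one (QB_pos hμ hθ z)]
  exact (starMeshAt_of_stable hμ hθ z hst).1

theorem mag_nonneg {μ : Equiv.Perm X → ℝ} (hμ : IsLaw μ) {θ : X → ℝ}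
    (hθ : ∀ x, 0 ≤ θ x) (z : X) : 0 ≤ mag μ θ z := by
  rw [mag_eq]
  exact div_nonneg (QA_nonneg hμ hθ z) (QB_pos hμ hθ z).le

/-- `v_z = θ_z M_z / (1 + θ_z M_z)`. -/
theorem vv_eq {μ : Equiv.Perm X → ℝ} (hμ : IsLaw μ) {θ : X → ℝ}
    (hθ : ∀ x, 0 ≤ θ x) (z : X) :
    vv μ θ z = θ z * mag μ θ z / (1 + θ z * mag μ θ z) := by
  have hB := QB_pos hμ hθ z
  have hA := QA_nonneg hμ hθ z
  rw [mag_eq, ← vθ_nj]
  unfold SR.vθ SR.Eθ
  have := SR.sum_jsq (Wμ μ) nj nj_le θ z (fun _ => 1)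
  simp only [mul_one] at this
  rw [this, SR.Zθ_split (Wμ μ) nj θ z]
  have h0 := hθ z
  field_simp

/-- `v_z ≤ θ_z`. -/
theorem vv_le {μ : Equiv.Perm X → ℝ} (hμ : IsLaw μ) {θ : X → ℝ}
    (hθ : ∀ x, 0 ≤ θ x) (z : X) (hst : Stable μ (Function.update θ z 1)) :
    vv μ θ z ≤ θ z := by
  rw [vv_eq hμ hθ z]
  have h0 := mag_nonneg hμ hθ z
  have h1 := mag_le_one hμ hθ z hst
  have h2 := hθ z
  have h3 : 0 ≤ θ z * mag μ θ z := mul_nonneg h2 h0
  rw [div_le_iff₀ (by linarith)]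
  nlinarith [mul_nonneg h2 h3, mul_le_mul_of_nonneg_left h1 h2]

end

end Vale.Agent.P361.LRO.ONI
end

section

/-!
# P361, long range order: every law of random transpositions is good
-/

namespace Vale.Agent.P361.LRO

/-- Block (2)/(3): all the network facts for a charge law. -/
theorem good_of_isLaw {X : Type} [Fintype X] [DecidableEq X] {μ : Equiv.Perm X → ℝ}
    (hμ : IsLaw μ) : Net.Good μ where
  nn := hμ.nonneg
  pos := by rw [hμ.sum]; exact zero_lt_one
  ccnn := fun θ hθ x y hxy => cc_nonneg hμ.nonneg hθ hxy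
  vle := fun θ hθ z => ONI.vv_le hμ (fun x => (hθ x).1) z (SR.stable_of_isLaw hμ (by
    intro x
    by_cases hx : x = z
    · subst hx; simp
    · rw [Function.update_of_ne hx]; exact hθ x))
  one := ONI.oneNode_of_stable hμ (fun θ hθ => SR.stable_of_isLaw hμ hθ)
    (fun θ hθ u v huv => cc_nonneg hμ.nonneg hθ huv)

end Vale.Agent.P361.LRO
end

section

/-!
P361 LRO, block (6), master file, part 3: `KappaStmt` from the abstract block (6), LOC and the
Trotter limit of the magnetizations.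
-/

namespace Vale.Agent.P361.LRO.Net

open Finset Filter Vale.Agent.P361.LRO

noncomputable section

/-- The abstract block (6) (`Ind.block6`). -/
def Block6 : Prop :=
  ∀ (c1 : ℝ), 0 < c1 → ∃ β0 c3 c4 : ℝ, 10 ≤ β0 ∧ 0 < c3 ∧ 0 < c4 ∧
    ∀ (β : ℝ), β0 ≤ β → ∃ n0 : ℕ, ∀ (n N W m : ℕ) [NeZero n]
    (K h0 lam ε : ℝ) (o : Tor n) (a : ℕ) (h : Tor n → ℝ)
    (c : (Tor n → ℝ) → Ind.Nd n N → Ind.Nd n N → ℝ),
    n0 ≤ n → 0 < W → N = m * W → Ind.Win β m →
    (3 : ℝ) ^ a ≤ β → 1 ≤ K → K * β ≤ 27 ^ a →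
    (n : ℝ) ^ (-(1 / 4 : ℝ)) ≤ h0 → h0 ≤ 1 → 1 / β ≤ lam → 0 ≤ ε → ε * Real.log β ≤ c4 →
    (∀ g, Fam n h0 lam g → Ind.Local n N W β K c1 (cube n o (3 ^ a)) g (c g)) →
    Ind.Low n N β h0 lam ε c →
    Fam n h0 lam h →
    c3 * K ≤ _root_.P361.LRO.netK (c h) (fun z => if z ∈ hatb N (cube n o (3 ^ a)) then 1 else 0)

/-- The Trotter limit with tilt (`Mag/TrMag.lean`). -/
def TrMag : Prop :=
  ∀ {V : Type} [Fintype V] [DecidableEq V] (L : List (V × V)) (β K : ℝ) (b : Finset V), 0 < β →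
    b.Nonempty → 0 ≤ K → ∀ η : ℝ, 0 < η →
    ∃ N0 : ℕ, ∀ N : ℕ, N0 ≤ N → ∀ h : V → ℝ, (∀ x, 0 ≤ h x ∧ h x ≤ 1) →
      (∀ x, rho L β h x ≤ η) → ∀ z : Fin (N + 1) × V, z.1 ≠ 0 →
        1 - 4 * Real.exp (K * η) * η ≤ mag (phys L β N) (th β N h (blk K b)) z

theorem isLaw_phys {V : Type} [Fintype V] [DecidableEq V] (L : List (V × V)) {β : ℝ}
    (hβ : 0 ≤ β) {N : ℕ} (hN : β ≤ N) : IsLaw (phys L β N) := by
  refine ⟨gates L N (β / (2 * N)), base N, ?_, rfl⟩
  intro g hg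
  unfold gates at hg
  rw [List.mem_flatMap] at hg
  obtain ⟨k, -, hk⟩ := hg
  rw [List.mem_map] at hk
  obtain ⟨e, -, rfl⟩ := hk
  refine ⟨by positivity, ?_⟩
  rcases eq_or_lt_of_le hβ with h0 | h0
  · rw [← h0]; norm_num
  · have hNp : (0 : ℝ) < N := h0.trans_le hN
    show β / (2 * N) ≤ 1 / 2
    rw [div_le_iff₀ (by positivity)]
    linarith

theorem cube_card_ge {n : ℕ} [NeZero n] (x : Tor n) {w : ℕ} (hw : w ≤ n) :
    (cube n x w).card = w ^ 3 := by
  unfold cube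
  rw [Finset.card_image_of_injective]
  · simp
  · intro y y' h
    have h1 := fun i => congrFun h i
    funext i
    have h2 := h1 i
    simp only [Pi.add_apply, add_right_inj] at h2
    have h3 : ((y i : ℕ) : ZMod n) = ((y' i : ℕ) : ZMod n) := h2
    rw [ZMod.natCast_eq_natCast_iff'] at h3
    rw [Nat.mod_eq_of_lt ((y i).2.trans_le hw), Nat.mod_eq_of_lt ((y' i).2.trans_le hw)] at h3
    exact Fin.ext h3

theorem kappaStmt_of (h6 : Block6) (hloc : ∃ cl : ℝ, 0 < cl ∧ LocBound cl) (htr : TrMag) :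
    KappaStmt := by
  obtain ⟨cl, hcl, hL⟩ := hloc
  obtain ⟨β1, c3, c4, hβ1, hc3, hc4, h6⟩ := h6 (cl / 8) (by positivity)
  refine ⟨c3, hc3, fun A hA => ?_⟩
  -- large `β`
  have t1 : Tendsto (fun β : ℝ => β ^ (1 / 100 : ℝ)) atTop atTop := tendsto_rpow_atTop (by norm_num)
  have t2 : Tendsto (fun β : ℝ => β ^ (4 / 100 : ℝ)) atTop atTop := tendsto_rpow_atTop (by norm_num)
  have t3 : Tendsto (fun β : ℝ => β ^ (13 / 20 : ℝ)) atTop atTop := tendsto_rpow_atTop (by norm_num)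
  have t4 : Tendsto (fun β : ℝ => Real.log β / β ^ (1 / 200 : ℝ)) atTop (nhds 0) :=
    (isLittleO_log_rpow_atTop (by norm_num : (0 : ℝ) < 1 / 200)).tendsto_div_nhds_zero
  have t5 : Tendsto (fun β : ℝ => (2 * Real.exp (A / 2)) * (Real.log β / β ^ (1 / 200 : ℝ))) atTop
      (nhds 0) := by simpa using t4.const_mul (2 * Real.exp (A / 2))
  have t6 : Tendsto (fun β : ℝ => 4 * Real.exp A * β ^ (-(1 / 100) : ℝ)) atTop (nhds 0) := by
    have := (tendsto_rpow_neg_atTop (by norm_num : (0 : ℝ) < 1 / 100)).const_mul (4 * Real.exp A)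
    simpa using this
  obtain ⟨β0, hβ0⟩ := Filter.eventually_atTop.1
    (((((((eventually_ge_atTop (max β1 1)).and (t1.eventually_ge_atTop (1 / A))).and
      (t2.eventually_ge_atTop A)).and (t3.eventually_ge_atTop 3)).and
      (t5.eventually (ge_mem_nhds hc4))).and
      (t6.eventually (ge_mem_nhds (by norm_num : (0 : ℝ) < 1 / 2)))))
  refine ⟨β0, fun β hβ => ?_⟩
  obtain ⟨⟨⟨⟨⟨e1, e2⟩, e3⟩, e4⟩, e5⟩, e6⟩ := hβ0 β hβ
  have hβ1' : β1 ≤ β := (le_max_left _ _).trans e1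
  have hβ10 : 10 ≤ β := hβ1.trans hβ1'
  have hβ1r : 1 ≤ β := by linarith
  have hβp : 0 < β := by linarith
  obtain ⟨n0, h6⟩ := h6 β hβ1'
  obtain ⟨n1, hn1⟩ := exists_nat_ge β
  refine ⟨max (max n0 n1) 2, fun n _ hn hodd a ha1 ha2 h0 hh1 hh2 hBH h hh x => ?_⟩
  have hn0 : n0 ≤ n := (le_max_left _ _).trans ((le_max_left _ _).trans hn)
  have hn1' : n1 ≤ n := (le_max_right _ _).trans ((le_max_left _ _).trans hn)
  have hn2 : 2 ≤ n := (le_max_right _ _).trans hn
  have hnr : (0 : ℝ) < n := by exact_mod_cast (by omega : 0 < n)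
  have hh0 : 0 < h0 := (Real.rpow_pos_of_pos hnr _).trans_le hh1
  set K := A * β ^ (1 / 100 : ℝ) with hK
  have hK1 : 1 ≤ K := by
    have := mul_le_mul_of_nonneg_left e2 hA.le
    rwa [mul_one_div, div_self hA.ne'] at this
  have h3β : (3 : ℝ) ^ a ≤ β := by
    refine ha2.trans ?_
    have : β ^ (7 / 20 : ℝ) * β ^ (13 / 20 : ℝ) = β := by
      rw [← Real.rpow_add hβp]; norm_num
    calc 3 * β ^ (7 / 20 : ℝ) ≤ β ^ (13 / 20 : ℝ) * β ^ (7 / 20 : ℝ) := by gcongr
      _ = β := by rw [mul_comm]; exact this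
  have h27 : K * β ≤ 27 ^ a := by
    have h1 : (β ^ (7 / 20 : ℝ)) ^ 3 ≤ ((3 : ℝ) ^ a) ^ 3 := by gcongr
    have h2 : ((3 : ℝ) ^ a) ^ 3 = 27 ^ a := by
      rw [← pow_mul, mul_comm, pow_mul]; norm_num
    have h3 : (β ^ (7 / 20 : ℝ)) ^ 3 = β ^ (21 / 20 : ℝ) := by
      rw [← Real.rpow_natCast, ← Real.rpow_mul hβp.le]; norm_num
    have h4 : β ^ (21 / 20 : ℝ) = β ^ (4 / 100 : ℝ) * (β ^ (1 / 100 : ℝ) * β) := by
      have e : β ^ (1 / 100 : ℝ) * β = β ^ (101 / 100 : ℝ) := by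
        conv_lhs => rw [← Real.rpow_one β, ← Real.rpow_mul hβp.le, ← Real.rpow_add hβp]
        norm_num
      rw [e, ← Real.rpow_add hβp]; norm_num
    rw [h2, h3, h4] at h1
    refine le_trans ?_ h1
    rw [hK, mul_assoc]
    gcongr
  have hw_le : 3 ^ a ≤ n := by
    have h1 : ((3 ^ a : ℕ) : ℝ) ≤ n := by
      push_cast
      exact h3β.trans (hn1.trans (by exact_mod_cast hn1'))
    exact_mod_cast h1
  set b := cube n x (3 ^ a) with hb
  have hbcard : b.card = (3 ^ a) ^ 3 := cube_card_ge x hw_le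
  have hbne : b.Nonempty := Finset.card_pos.1 (by rw [hbcard]; positivity)
  have hKb : K ≤ 2 * b.card := by
    rw [hbcard]
    have h1 : (((3 ^ a) ^ 3 : ℕ) : ℝ) = 27 ^ a := by
      push_cast
      rw [← pow_mul, mul_comm, pow_mul]; norm_num
    rw [h1]
    have h2 : K * 1 ≤ K * β := by gcongr
    have h3 : (0 : ℝ) < 27 ^ a := by positivity
    linarith
  -- windows
  set m := ⌈3 * β⌉₊ with hm
  have hm1 : 3 * β ≤ m := Nat.le_ceil _
  have hm2 : (m : ℝ) ≤ 4 * β := by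
    have := (Nat.ceil_lt_add_one (by positivity : (0 : ℝ) ≤ 3 * β)).le
    linarith
  have hmp : (0 : ℝ) < m := by linarith
  have hwin : Ind.Win β m := by
    refine ⟨by exact_mod_cast hmp, ?_, ?_⟩
    · rw [le_div_iff₀ hmp]; linarith
    · rw [div_le_iff₀ hmp]; linarith
  -- the magnetizations
  set ε := 2 * Real.exp (A / 2) * β ^ (-(1 / 200) : ℝ) with hε
  have hε0 : 0 ≤ ε := by positivity
  have hηp : 0 < β ^ (-(1 / 100) : ℝ) := Real.rpow_pos_of_pos hβp _
  have hKη : K * β ^ (-(1 / 100) : ℝ) = A := by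
    rw [hK, mul_assoc, ← Real.rpow_add hβp]; norm_num
  have hεsq : ε ^ 2 = 4 * Real.exp A * β ^ (-(1 / 100) : ℝ) := by
    have h1 : Real.exp (A / 2) ^ 2 = Real.exp A := by
      rw [← Real.exp_nat_mul]; congr 1; push_cast; ring
    have h2 : (β ^ (-(1 / 200) : ℝ)) ^ 2 = β ^ (-(1 / 100) : ℝ) := by
      rw [← Real.rpow_natCast, ← Real.rpow_mul hβp.le]; norm_num
    rw [hε, mul_pow, mul_pow, h1, h2]; ring
  obtain ⟨N0, hN0⟩ := htr (edges n) β K b hβp hbne (by linarith) _ hηp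
  have hεlog : ε * Real.log β ≤ c4 := by
    refine le_trans (le_of_eq ?_) e5
    rw [hε, Real.rpow_neg hβp.le]
    ring
  have hlam : 0 ≤ β ^ (-(9 / 10) : ℝ) := (Real.rpow_pos_of_pos hβp _).le
  have hlam1 : 1 / β ≤ β ^ (-(9 / 10) : ℝ) := by
    rw [one_div, ← Real.rpow_neg_one]
    exact Real.rpow_le_rpow_of_exponent_le hβ1r (by norm_num)
  rw [Filter.frequently_atTop]
  intro N1
  set W := max (max N0 N1) 8 with hW
  have hW8 : 8 ≤ W := le_max_right _ _
  have hWp : 0 < W := by omega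
  have hm3 : 1 ≤ m := by exact_mod_cast hwin.pos
  have hWN : W ≤ m * W := Nat.le_mul_of_pos_left W hm3
  have hN1 : N1 ≤ m * W := ((le_max_right _ _).trans (le_max_left _ _)).trans hWN
  have hN0' : N0 ≤ m * W := ((le_max_left _ _).trans (le_max_left _ _)).trans hWN
  refine ⟨m * W, hN1, ?_⟩
  have hWr : (8 : ℝ) ≤ W := by exact_mod_cast hW8
  have hN8 : 8 * β ≤ ((m * W : ℕ) : ℝ) := by
    push_cast
    nlinarith
  have hNβ : β ≤ ((m * W : ℕ) : ℝ) := by linarith
  have hG : Good (phys (edges n) β (m * W)) := good_of_isLaw (isLaw_phys _ hβp.le hNβ)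
  have hT : ∀ y, 0 ≤ blk K b y ∧ blk K b y ≤ 1 := by
    intro y
    unfold blk
    split_ifs
    · refine ⟨?_, (Real.tanh_lt_one _).le⟩
      rw [Real.tanh_eq_sinh_div_cosh]
      exact div_nonneg (Real.sinh_nonneg_iff.2 (by positivity)) (Real.cosh_pos _).le
    · norm_num
  have hpos : ∀ g, Fam n h0 (β ^ (-(9 / 10) : ℝ)) g → ∀ y, 0 ≤ g y ∧ g y ≤ 1 := fun g hg y =>
    ⟨hh0.le.trans (hg.ge y), hg.le_one y⟩
  have hM : MagHyp n β (m * W) (blk K b) h0 (β ^ (-(9 / 10) : ℝ)) ε := by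
    intro g hg z hz
    have h1 := hN0 (m * W) hN0' g (hpos g hg) (hBH g hg) z hz
    rw [hKη] at h1
    rw [hεsq]
    exact h1
  have key := h6 n (m * W) W m K h0 (β ^ (-(9 / 10) : ℝ)) ε x a h (cF n β (m * W) (blk K b)) hn0
    hWp rfl hwin h3β hK1 h27 hh1 hh2 hlam1 hε0 hεlog
    (fun g hg => local_cF hn2 hcl hL hβ1r hN8 rfl hWp hwin hG (by linarith) hbne hKb (hpos g hg))
    (low_cF hβp hNβ hG (fun y => (hT y).1) (fun y => (hT y).2) hh0 hlam hε0
      (by rw [hεsq]; exact e6) hM) hh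
  refine key.trans (le_of_eq ?_)
  unfold cF kap
  rw [netK_c0]

end

end Vale.Agent.P361.LRO.Net
end

section

/-! P361 LRO LOC, leaf B: Griffiths on the cycles. -/

namespace Vale.Agent.P361.LRO.Loc

open Finset Vale.Agent.P361.LRO

theorem ringStmt : RingStmt := by
  intro X _ _ π θ hθ
  refine ⟨?_, ?_⟩
  · rw [Zp_eq]; exact Loop.Zp_pos π θ (fun v => (hθ v).1) (fun v => (hθ v).2)
  · intro a b
    rw [Zp_eq, Zp_eq]
    have h : Equiv.swap a b * π = π * Equiv.swap (π.symm a) (π.symm b) := by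
      ext x
      simp only [Equiv.Perm.mul_apply]
      rw [Equiv.swap_apply_def, Equiv.swap_apply_def]
      simp only [Equiv.eq_symm_apply]
      split_ifs <;> simp
    rw [h]
    exact Loop.Zp_mul_swap_le π θ (fun v => (hθ v).1) (fun v => (hθ v).2) _ _

end Vale.Agent.P361.LRO.Loc
end

section

/-! P361 LRO LOC, leaf D: the arc bound. -/

namespace Vale.Agent.P361.LRO.Loc

open Finset Vale.Agent.P361.LRO

theorem arcStmt : ArcStmt := by
  intro X _ _ π θ hθ u v huv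
  have h0 : ∀ v, 0 ≤ θ v := fun v => (hθ v).1
  have h1 : ∀ v, θ v ≤ 1 := fun v => (hθ v).2
  refine ⟨?_, ?_⟩
  · rw [Zf_eq]; exact Loop.Zf_nonneg π θ h0 h1 u v
  · intro m hm hne hinj
    rw [Zf_eq, Zp_eq]
    have hu : ∀ i, 1 ≤ i → i ≤ m + 1 → (π ^ i) u ≠ u := by
      intro i hi him h
      have := hinj i him 0 (Nat.zero_le _) (by simpa using h)
      omega
    have key := Loop.Zf_ge π θ h0 h1 u (m := m + 1) (by omega) hu
    rw [hm] at key
    have hprod : ∏ x ∈ Loop.arc π u (m + 1) \ {v}, ((1 - θ x) / (1 + θ x)) =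
        ∏ i ∈ Finset.range m, (1 - θ ((π ^ (i + 1)) u)) / (1 + θ ((π ^ (i + 1)) u)) := by
      have himg : Loop.arc π u (m + 1) \ {v} =
          (Finset.range m).image (fun i => (π ^ (i + 1)) u) := by
        ext x
        rw [Finset.mem_sdiff, Loop.mem_arc, Finset.mem_image, Finset.mem_singleton]
        constructor
        · rintro ⟨⟨i, hi1, him, hix⟩, hxv⟩
          have : i ≠ m + 1 := by
            rintro rfl
            exact hxv (hix.symm.trans hm)
          refine ⟨i - 1, Finset.mem_range.2 (by omega), ?_⟩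
          rw [show i - 1 + 1 = i by omega]
          exact hix
        · rintro ⟨i, hi, hix⟩
          rw [Finset.mem_range] at hi
          refine ⟨⟨i + 1, by omega, by omega, hix⟩, ?_⟩
          intro hxv
          have := (hne (i + 1) (by omega) (by omega)).2
          exact this (hix.trans hxv)
      rw [himg, Finset.prod_image]
      intro i hi j hj hij
      rw [Finset.coe_range, Set.mem_Iio] at hi hj
      have := hinj (i + 1) (by omega) (j + 1) (by omega) hij
      omega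
    rw [hprod] at key
    have hpos : 0 < (1 + θ u) * (1 + θ v) := by
      have := h0 u; have := h0 v; positivity
    rw [div_mul_eq_mul_div, div_le_iff₀ hpos]
    linarith

end Vale.Agent.P361.LRO.Loc
end

section

/-!
P361 LRO, block (4): strand geometry of the physical circuit.
-/

namespace Vale.Agent.P361.LRO.Loc.Geo

open Finset Vale.Agent.P361.LRO

noncomputable section

variable {X : Type} [Fintype X] [DecidableEq X]

lemma law_cons (g : X × X × ℝ) (l : List (X × X × ℝ)) (σ π : Equiv.Perm X) :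
    law (g :: l) σ π = (1 - g.2.2) * law l σ π + g.2.2 * law l σ (Equiv.swap g.1 g.2.1 * π) := by
  rw [law]

lemma law_nonneg {l : List (X × X × ℝ)} (hl : ∀ g ∈ l, 0 ≤ g.2.2 ∧ g.2.2 ≤ 1)
    (σ π : Equiv.Perm X) : 0 ≤ law l σ π := by
  induction l generalizing π with
  | nil =>
    rw [law]
    by_cases h : π = σ
    · subst h; simp
    · simp [h]
  | cons g l ih =>
    rw [law_cons]
    have hg := hl g (by simp)
    have ih' := fun π => ih (fun g hg => hl g (by simp [hg])) π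
    have h1 : 0 ≤ 1 - g.2.2 := by linarith [hg.2]
    exact add_nonneg (mul_nonneg h1 (ih' _)) (mul_nonneg hg.1 (ih' _))

/-- If all permutations of the support of `law l₂ σ` map `z` to `w`, and no gate of `l₁` touches
`w`, then the same holds for `l₁ ++ l₂`. -/
lemma supp_fix (l₁ l₂ : List (X × X × ℝ)) (σ π : Equiv.Perm X) (z w : X)
    (h2 : ∀ π₂, law l₂ σ π₂ ≠ 0 → π₂ z = w)
    (h1 : ∀ g ∈ l₁, g.2.2 ≠ 0 → w ≠ g.1 ∧ w ≠ g.2.1)
    (h : law (l₁ ++ l₂) σ π ≠ 0) : π z = w := by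
  induction l₁ generalizing π with
  | nil => exact h2 π (by simpa using h)
  | cons g l ih =>
    rw [List.cons_append, law_cons] at h
    have ih' := fun π => ih π (fun g hg => h1 g (by simp [hg]))
    by_cases ha : law (l ++ l₂) σ π = 0
    · rw [ha, mul_zero, zero_add] at h
      have hp : g.2.2 ≠ 0 := left_ne_zero_of_mul h
      have hb : law (l ++ l₂) σ (Equiv.swap g.1 g.2.1 * π) ≠ 0 := right_ne_zero_of_mul h
      have := ih' _ hb
      obtain ⟨e1, e2⟩ := h1 g (by simp) hp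
      rw [Equiv.Perm.mul_apply] at this
      have h3 : π z = Equiv.swap g.1 g.2.1 w := by
        rw [← this, Equiv.swap_apply_self]
      rw [h3, Equiv.swap_apply_of_ne_of_ne e1 e2]
    · exact ih' _ ha

lemma supp_base (σ π : Equiv.Perm X) (h : law ([] : List (X × X × ℝ)) σ π ≠ 0) : π = σ := by
  rw [law] at h
  by_contra hne
  exact h (by simp [hne])

/-- No gate touches `w = σ z`. -/
lemma supp_straight (l : List (X × X × ℝ)) (σ π : Equiv.Perm X) (z w : X) (hz : σ z = w)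
    (h1 : ∀ g ∈ l, g.2.2 ≠ 0 → w ≠ g.1 ∧ w ≠ g.2.1) (h : law l σ π ≠ 0) : π z = w := by
  refine supp_fix l [] σ π z w (fun π₂ h2 => ?_) h1 (by simpa using h)
  rw [supp_base σ π₂ h2, hz]

/-- One open gate. -/
lemma supp_hop (l₁ l₂ : List (X × X × ℝ)) (a b : X) (σ π : Equiv.Perm X) (z w w' : X)
    (hz : σ z = w) (hw : Equiv.swap a b w = w')
    (h1 : ∀ g ∈ l₁, g.2.2 ≠ 0 → w' ≠ g.1 ∧ w' ≠ g.2.1)
    (h2 : ∀ g ∈ l₂, g.2.2 ≠ 0 → w ≠ g.1 ∧ w ≠ g.2.1)
    (h : law (l₁ ++ (a, b, 1) :: l₂) σ π ≠ 0) : π z = w' := by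
  refine supp_fix l₁ ((a, b, 1) :: l₂) σ π z w' (fun π₂ hp => ?_) h1 h
  rw [law_cons] at hp
  simp only [sub_self, zero_mul, one_mul, zero_add] at hp
  have := supp_straight l₂ σ _ z w hz h2 hp
  rw [Equiv.Perm.mul_apply] at this
  rw [← hw, ← this, Equiv.swap_apply_self]

lemma ZZ_eq (hF : FourierStmt) (l : List (X × X × ℝ)) (σ : Equiv.Perm X) (θ : X → ℝ) :
    ZZ (law l σ) θ = ev l σ fun π => Zp π θ := by
  unfold ZZ ev
  refine Finset.sum_congr rfl fun π _ => ?_
  rw [← Finset.mul_sum, (hF X π θ).1]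

lemma cc_eq (hF : FourierStmt) (l : List (X × X × ℝ)) (σ : Equiv.Perm X) (θ : X → ℝ)
    (u v : X) (huv : u ≠ v) :
    cc (law l σ) θ u v = θ u * θ v * (ev l σ fun π => Zf π θ u v) /
      (ev l σ fun π => Zp π θ) := by
  unfold cc EE
  rw [ZZ_eq hF, ← neg_div]
  congr 1
  unfold ev
  rw [Finset.mul_sum, ← Finset.sum_neg_distrib]
  refine Finset.sum_congr rfl fun π _ => ?_
  have := (hF X π θ).2.1 u v huv
  have h2 : ∑ s, law l σ π * wt θ π s * (jj π s u * jj π s v) =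
      law l σ π * ∑ s, wt θ π s * (jj π s u * jj π s v) := by
    rw [Finset.mul_sum]
    exact Finset.sum_congr rfl fun s _ => by ring
  rw [h2]
  calc -(law l σ π * ∑ s, wt θ π s * (jj π s u * jj π s v))
      = law l σ π * -(∑ s, wt θ π s * (jj π s u * jj π s v)) := by ring
    _ = _ := by rw [this]; ring

/-- Comparison of `ev` on the support. -/
lemma ev_mono_supp {l : List (X × X × ℝ)} (hl : ∀ g ∈ l, 0 ≤ g.2.2 ∧ g.2.2 ≤ 1)
    (σ : Equiv.Perm X) (F G : Equiv.Perm X → ℝ) (h : ∀ π, law l σ π ≠ 0 → F π ≤ G π) :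
    ev l σ F ≤ ev l σ G := by
  unfold ev
  refine Finset.sum_le_sum fun π _ => ?_
  by_cases hp : law l σ π = 0
  · simp [hp]
  · exact mul_le_mul_of_nonneg_left (h π hp) (law_nonneg hl σ π)

lemma ev_smul (l : List (X × X × ℝ)) (σ : Equiv.Perm X) (c : ℝ) (F : Equiv.Perm X → ℝ) :
    (ev l σ fun π => c * F π) = c * ev l σ F := by
  unfold ev
  rw [Finset.mul_sum]
  exact Finset.sum_congr rfl fun π _ => by ring

lemma ev_pos (hR : RingStmt) {l : List (X × X × ℝ)} (hl : ∀ g ∈ l, 0 ≤ g.2.2 ∧ g.2.2 ≤ 1)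
    (σ : Equiv.Perm X) (θ : X → ℝ) (hθ : ∀ x, 0 ≤ θ x ∧ θ x ≤ 1) :
    0 < ev l σ fun π => Zp π θ := by
  have hpos : ∀ π, 0 < Zp π θ := fun π => (hR X π θ hθ).1
  -- some permutation has positive weight
  have hsum : ∀ (l : List (X × X × ℝ)), ∑ π, law l σ π = 1 := by
    intro l
    induction l with
    | nil => simp [law]
    | cons g l ih =>
      simp only [law]
      rw [Finset.sum_add_distrib, ← Finset.mul_sum, ← Finset.mul_sum, ih]
      have : ∑ π, law l σ (Equiv.swap g.1 g.2.1 * π) = ∑ π, law l σ π :=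
        Fintype.sum_equiv (Equiv.mulLeft (Equiv.swap g.1 g.2.1)) _ _ (fun π => rfl)
      rw [this, ih]; ring
  have h1 := hsum l
  obtain ⟨π, hπ⟩ : ∃ π, 0 < law l σ π := by
    by_contra hcon
    push Not at hcon
    have : ∑ π, law l σ π ≤ 0 := Finset.sum_nonpos fun π _ => hcon π
    linarith
  unfold ev
  refine Finset.sum_pos' (fun π _ => mul_nonneg (law_nonneg hl σ π) (hpos π).le)
    ⟨π, Finset.mem_univ _, mul_pos hπ (hpos π)⟩

end

end Vale.Agent.P361.LRO.Loc.Geo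
end

section

/-!
P361 LRO, block (4): the pointwise lower bounds on the conductances of the physical circuit.
-/

namespace Vale.Agent.P361.LRO.Loc.Geo

open Finset Vale.Agent.P361.LRO

noncomputable section

section Gen

variable {X : Type} [Fintype X] [DecidableEq X]

lemma arc_use (hA : ArcStmt) (π : Equiv.Perm X) (θ : X → ℝ) (hθ : ∀ x, 0 ≤ θ x ∧ θ x ≤ 1)
    (hZ : 0 ≤ Zp π θ) (path : ℕ → X) (m M : ℕ) (hmM : m ≤ M)
    (hstep : ∀ j, j ≤ m → π (path j) = path (j + 1))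
    (hinj : ∀ i, i ≤ m + 1 → ∀ j, j ≤ m + 1 → path i = path j → i = j)
    (τ : ℝ) (h0 : 0 ≤ τ) (h1 : τ < 1) (hbd : ∀ j, 1 ≤ j → j ≤ m → θ (path j) ≤ τ) :
    ((1 / 4) * ((1 - τ) / (1 + τ)) ^ M) * Zp π θ ≤ Zf π θ (path 0) (path (m + 1)) := by
  have hpow : ∀ i, i ≤ m + 1 → (π ^ i) (path 0) = path i := by
    intro i
    induction i with
    | zero => intro _; simp
    | succ i ih =>
      intro hi
      rw [pow_succ', Equiv.Perm.mul_apply, ih (by omega), hstep i (by omega)]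
  have huv : path 0 ≠ path (m + 1) := fun h => by
    have := hinj 0 (by omega) (m + 1) le_rfl h
    omega
  obtain ⟨_, hb⟩ := hA X π θ hθ (path 0) (path (m + 1)) huv
  have hb' := hb m (hpow _ le_rfl)
    (fun i h1i him => by
      rw [hpow i (by omega)]
      refine ⟨fun h => ?_, fun h => ?_⟩
      · have := hinj i (by omega) 0 (by omega) h; omega
      · have := hinj i (by omega) (m + 1) le_rfl h; omega)
    (fun i hi j hj h => by
      rw [hpow i hi, hpow j hj] at h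
      exact hinj i hi j hj h)
  refine le_trans ?_ hb'
  refine mul_le_mul_of_nonneg_right ?_ hZ
  have hτ' : 0 ≤ (1 - τ) / (1 + τ) := div_nonneg (by linarith) (by linarith)
  have hτ1 : (1 - τ) / (1 + τ) ≤ 1 := by
    rw [div_le_one (by linarith)]; linarith
  have hprod : ((1 - τ) / (1 + τ)) ^ M ≤
      ∏ i ∈ Finset.range m, (1 - θ ((π ^ (i + 1)) (path 0))) / (1 + θ ((π ^ (i + 1)) (path 0))) := by
    calc ((1 - τ) / (1 + τ)) ^ M ≤ ((1 - τ) / (1 + τ)) ^ m := pow_le_pow_of_le_one hτ' hτ1 hmM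
      _ = ∏ i ∈ Finset.range m, ((1 - τ) / (1 + τ)) := by
        rw [Finset.prod_const, Finset.card_range]
      _ ≤ _ := by
        refine Finset.prod_le_prod (fun i _ => hτ') fun i hi => ?_
        have hi' : i < m := Finset.mem_range.1 hi
        rw [hpow (i + 1) (by omega)]
        have hb2 := hbd (i + 1) (by omega) (by omega)
        have hn := (hθ (path (i + 1))).1
        rw [div_le_div_iff₀ (by linarith) (by linarith)]
        nlinarith
  have hu := hθ (path 0)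
  have hv := hθ (path (m + 1))
  have hden : 0 < (1 + θ (path 0)) * (1 + θ (path (m + 1))) :=
    mul_pos (by linarith) (by linarith)
  have hden4 : (1 + θ (path 0)) * (1 + θ (path (m + 1))) ≤ 4 := by nlinarith
  rw [le_div_iff₀ hden]
  have hM0 : 0 ≤ ((1 - τ) / (1 + τ)) ^ M := pow_nonneg hτ' _
  nlinarith [mul_le_mul_of_nonneg_left hden4 hM0]

lemma prod_ite_pow (l : List (X × X × ℝ)) (S : X × X × ℝ → Prop) [DecidablePred S] (p : ℝ)
    (hp : ∀ g ∈ l, g.2.2 = p) (f : ℝ → ℝ) :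
    (l.map fun g => if S g then f g.2.2 else 1).prod = f p ^ (l.countP fun g => S g) := by
  induction l with
  | nil => simp
  | cons g l ih =>
    rw [List.map_cons, List.prod_cons, ih (fun g hg => hp g (by simp [hg])), List.countP_cons]
    by_cases h : S g
    · simp [h, hp g (by simp), pow_succ, mul_comm]
    · simp [h]

end Gen

variable {V : Type} [Fintype V] [DecidableEq V]

/-- Gates in the layers `[lo, hi)` touching a site satisfying `Q`. -/
def tch (N : ℕ) (Q : V → Prop) (lo hi : ℕ)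
    (g : (Fin (N + 1) × V) × (Fin (N + 1) × V) × ℝ) : Prop :=
  lo ≤ (g.1.1 : ℕ) ∧ (g.1.1 : ℕ) < hi ∧ (Q g.1.2 ∨ Q g.2.1.2)

instance (N : ℕ) (Q : V → Prop) [DecidablePred Q] (lo hi : ℕ) :
    DecidablePred (tch (V := V) N Q lo hi) := fun g => by unfold tch; infer_instance

lemma mem_gates {L : List (V × V)} {N : ℕ} {p : ℝ}
    {g : (Fin (N + 1) × V) × (Fin (N + 1) × V) × ℝ} (hg : g ∈ gates L N p) :
    ∃ (k : Fin N) (e : V × V), e ∈ L ∧ g = ((k.castSucc, e.1), (k.castSucc, e.2), p) := by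
  unfold gates at hg
  rw [List.mem_flatMap] at hg
  obtain ⟨k, _, hk⟩ := hg
  rw [List.mem_map] at hk
  obtain ⟨e, he, h⟩ := hk
  exact ⟨k, e, he, h.symm⟩

lemma countP_gates (L : List (V × V)) (N : ℕ) (p : ℝ) (Q : V → Prop) [DecidablePred Q]
    (lo hi d : ℕ) (hd : (L.countP fun e => Q e.1 ∨ Q e.2) ≤ d) :
    ((gates L N p).countP fun g => tch N Q lo hi g) ≤ d * (hi - lo) := by
  unfold gates
  rw [List.countP_flatMap, ← Fin.sum_univ_def]
  have h1 : ∀ k : Fin N, (List.countP (fun g => decide (tch N Q lo hi g)) ∘ fun k : Fin N =>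
      L.map fun e => (((k.castSucc, e.1), (k.castSucc, e.2), p) :
        (Fin (N + 1) × V) × (Fin (N + 1) × V) × ℝ)) k ≤
      if lo ≤ (k : ℕ) ∧ (k : ℕ) < hi then d else 0 := by
    intro k
    simp only [Function.comp, List.countP_map]
    by_cases hk : lo ≤ (k : ℕ) ∧ (k : ℕ) < hi
    · rw [if_pos hk]
      refine le_trans (le_of_eq ?_) hd
      congr 1
      funext e
      simp [tch, hk]
    · rw [if_neg hk]
      apply le_of_eq
      rw [List.countP_eq_zero]
      intro e _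
      intro h
      exact hk ⟨(of_decide_eq_true h).1, (of_decide_eq_true h).2.1⟩
  refine le_trans (Finset.sum_le_sum fun k _ => h1 k) ?_
  rw [Fin.sum_univ_eq_sum_range (fun k => if lo ≤ k ∧ k < hi then d else 0) N,
    ← Finset.sum_filter, Finset.sum_const, smul_eq_mul, mul_comm]
  refine Nat.mul_le_mul_left _ ?_
  rw [← Nat.card_Ico]
  refine Finset.card_le_card fun k hk => ?_
  rw [Finset.mem_filter] at hk
  rw [Finset.mem_Ico]
  exact hk.2

/-- The layer `n`. -/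
def fn (N n : ℕ) : Fin (N + 1) := Fin.ofNat (N + 1) n

lemma cast_val {N n : ℕ} (h : n ≤ N) : (fn N n : ℕ) = n := by
  unfold fn
  rw [Fin.val_ofNat, Nat.mod_eq_of_lt (by omega)]

lemma fn_val {N : ℕ} (k : Fin (N + 1)) : fn N k = k := by
  apply Fin.ext
  exact cast_val (by have := k.2; omega)

lemma base_apply (N n : ℕ) (hn : n + 1 ≤ N) (x : V) :
    base (V := V) N (fn N (n + 1), x) = (fn N n, x) := by
  have h : fn N (n + 1) - 1 = fn N n := by
    have h1 : fn N (n + 1) = fn N n + 1 := by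
      apply Fin.ext
      rw [cast_val hn, Fin.val_add_one_of_lt, cast_val (by omega)]
      rw [Fin.lt_def, cast_val (by omega), Fin.val_last]
      omega
    rw [h1, add_sub_cancel_right]
  simp [base, h]

lemma mem_closeG {X : Type} {S : X × X × ℝ → Prop} [DecidablePred S] {l : List (X × X × ℝ)}
    {g : X × X × ℝ} (hg : g ∈ closeG S l) (h0 : g.2.2 ≠ 0) : g ∈ l ∧ ¬ S g := by
  unfold closeG at hg
  rw [List.mem_map] at hg
  obtain ⟨g0, hg0, h⟩ := hg
  by_cases hS : S g0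
  · rw [if_pos hS] at h
    subst h
    exact absurd rfl h0
  · rw [if_neg hS] at h
    subst h
    exact ⟨hg0, hS⟩

lemma closeG_ok {X : Type} {S : X × X × ℝ → Prop} [DecidablePred S] {l : List (X × X × ℝ)}
    (hl : OKg l) : ∀ g ∈ closeG S l, 0 ≤ g.2.2 ∧ g.2.2 ≤ 1 := by
  intro g hg
  unfold closeG at hg
  rw [List.mem_map] at hg
  obtain ⟨g0, hg0, h⟩ := hg
  have := hl g0 hg0
  by_cases hS : S g0
  · rw [if_pos hS] at h
    subst h
    simp
  · rw [if_neg hS] at h
    subst h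
    exact ⟨this.1, by linarith [this.2]⟩

lemma gates_ok {L : List (V × V)} {N : ℕ} {p : ℝ} (h0 : 0 ≤ p) (h1 : p ≤ 1 / 2) :
    OKg (gates L N p) := by
  intro g hg
  obtain ⟨k, e, _, rfl⟩ := mem_gates hg
  exact ⟨h0, h1⟩

lemma gates_p {L : List (V × V)} {N : ℕ} {p : ℝ} : ∀ g ∈ gates L N p, g.2.2 = p := by
  intro g hg
  obtain ⟨k, e, _, rfl⟩ := mem_gates hg
  rfl

lemma close_step {L : List (V × V)} {N : ℕ} {p : ℝ} (Q : V → Prop) [DecidablePred Q]
    (lo hi : ℕ) (hhi : hi ≤ N) (π : Equiv.Perm (Fin (N + 1) × V))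
    (h : law (closeG (tch N Q lo hi) (gates L N p)) (base N) π ≠ 0)
    (n : ℕ) (hn1 : lo ≤ n) (hn2 : n < hi) (x : V) (hx : Q x) :
    π (fn N (n + 1), x) = (fn N n, x) := by
  refine supp_straight _ _ π _ _ (base_apply N n (by omega) x) (fun g hg hp => ?_) h
  obtain ⟨hg1, hg2⟩ := mem_closeG hg hp
  obtain ⟨k, e, _, rfl⟩ := mem_gates hg1
  have hv := cast_val (N := N) (n := n) (by omega)
  refine ⟨fun heq => hg2 ?_, fun heq => hg2 ?_⟩
  · have e1 := congrArg Prod.fst heq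
    have e2 := congrArg Prod.snd heq
    simp only at e1 e2
    have e3 : (k.castSucc : ℕ) = n := by rw [← e1, hv]
    refine ⟨?_, ?_, Or.inl ?_⟩
    · simp only; omega
    · simp only; omega
    · simp only; rw [← e2]; exact hx
  · have e1 := congrArg Prod.fst heq
    have e2 := congrArg Prod.snd heq
    simp only at e1 e2
    have e3 : (k.castSucc : ℕ) = n := by rw [← e1, hv]
    refine ⟨?_, ?_, Or.inr ?_⟩
    · simp only; omega
    · simp only; omega
    · simp only; rw [← e2]; exact hx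

/-- Final algebra. -/
lemma final_alg {A B A' B' c P1 P2 a b q : ℝ} (ha : 0 ≤ a) (hb : 0 ≤ b) (hB : 0 < B)
    (hc : 0 ≤ c) (hP1 : 0 ≤ P1) (hP2 : 0 < P2)
    (h1 : P1 * A' ≤ A) (h2 : B ≤ P2 * B') (h3 : c * B' ≤ A') (hq : q ≤ P1 / P2) :
    a * b * (c * q) ≤ a * b * A / B := by
  rw [mul_div_assoc]
  refine mul_le_mul_of_nonneg_left ?_ (mul_nonneg ha hb)
  rw [le_div_iff₀ hB]
  have h4 : c * q * B ≤ c * (P1 / P2) * B :=
    mul_le_mul_of_nonneg_right (mul_le_mul_of_nonneg_left hq hc) hB.le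
  have h5 : c * (P1 / P2) * B ≤ c * (P1 / P2) * (P2 * B') :=
    mul_le_mul_of_nonneg_left h2 (mul_nonneg hc (div_nonneg hP1 hP2.le))
  have h6 : c * (P1 / P2) * (P2 * B') = P1 * (c * B') := by
    field_simp
  have h7 : P1 * (c * B') ≤ P1 * A' := mul_le_mul_of_nonneg_left h3 hP1
  linarith

theorem locSame (hF : FourierStmt) (hR : RingStmt) (hA : ArcStmt) (hC : CloseStmt)
    (L : List (V × V)) (d : ℕ) : LocSame V L d := by
  intro β N hβ hβN hdeg θ hθ x k k' τ h0 h1 hkk hbd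
  have hN : (0 : ℝ) < N := lt_of_lt_of_le hβ hβN
  set p : ℝ := β / (2 * N) with hp
  have hp0 : 0 ≤ p := by positivity
  have hp1 : p ≤ 1 / 2 := by
    rw [hp, div_le_div_iff₀ (by positivity) (by norm_num)]
    linarith
  have hok := gates_ok (L := L) (N := N) hp0 hp1
  set lo : ℕ := (k : ℕ) with hlo
  set hi : ℕ := (k' : ℕ) with hhi
  have hlt : lo < hi := hkk
  have hhiN : hi ≤ N := by have := k'.2; omega
  set Q : V → Prop := fun y => y = x with hQ
  set S := tch N Q lo hi with hS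
  have hne : (k', x) ≠ (k, x) := fun h => by
    have := congrArg Prod.fst h
    simp only at this
    exact absurd this (ne_of_gt hkk)
  unfold phys
  rw [cc_eq hF _ _ θ _ _ hne]
  have hokc := closeG_ok (S := S) hok
  have hok1 : ∀ g ∈ gates L N p, 0 ≤ g.2.2 ∧ g.2.2 ≤ 1 := fun g hg =>
    ⟨(hok g hg).1, by linarith [(hok g hg).2]⟩
  obtain ⟨hC1, hC2⟩ := hC _ (gates L N p) (base N) S hok
  have hZf0 : ∀ π, 0 ≤ Zf π θ (k', x) (k, x) := fun π => (hA _ π θ hθ _ _ hne).1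
  have hA1 := hC1 (fun π => Zf π θ (k', x) (k, x)) hZf0
  have hA2 := hC2 θ hθ
  rw [prod_ite_pow (gates L N p) S p gates_p (fun t => 1 - t)] at hA1
  rw [prod_ite_pow (gates L N p) S p gates_p (fun t => 1 + t)] at hA2
  set n := (gates L N p).countP fun g => S g with hn
  have hnle : n ≤ d * (hi - lo) := countP_gates L N p Q lo hi d (hdeg x)
  have hτ' : 0 ≤ (1 - τ) / (1 + τ) := div_nonneg (by linarith) (by linarith)
  have h3 : ((1 / 4) * ((1 - τ) / (1 + τ)) ^ (hi - lo)) *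
      (ev (closeG S (gates L N p)) (base N) fun π => Zp π θ) ≤
      ev (closeG S (gates L N p)) (base N) fun π => Zf π θ (k', x) (k, x) := by
    rw [← ev_smul]
    refine ev_mono_supp hokc _ _ _ fun π hπ => ?_
    have hstep := close_step (L := L) (p := p) Q lo hi hhiN π hπ
    have := arc_use hA π θ hθ ((hR _ π θ hθ).1).le
      (fun j => (fn N (hi - j), x)) (hi - lo - 1) (hi - lo) (by omega)
      (fun j hj => by
        have hs := hstep (hi - (j + 1)) (by omega) (by omega) x rfl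
        have e : hi - (j + 1) + 1 = hi - j := by omega
        rw [e] at hs
        exact hs)
      (fun i hi' j hj' h => by
        have e1 := congrArg Prod.fst h
        simp only at e1
        have e2 := congrArg Fin.val e1
        rw [cast_val (by omega), cast_val (by omega)] at e2
        omega)
      τ h0 h1
      (fun j hj1 hj2 => by
        refine hbd _ ?_ ?_
        · rw [Fin.lt_def, cast_val (by omega)]; omega
        · rw [Fin.lt_def, cast_val (by omega)]; omega)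
    have e0 : (fn N (hi - 0), x) = (k', x) := by
      rw [Nat.sub_zero, hhi, fn_val]
    have e1 : (fn N (hi - (hi - lo - 1 + 1)), x) = (k, x) := by
      have : hi - (hi - lo - 1 + 1) = lo := by omega
      rw [this, hlo, fn_val]
    rw [e0, e1] at this
    exact this
  have hZpos := ev_pos hR hok1 (base (V := V) N) θ hθ
  have hq : ((1 - p) / (1 + p)) ^ (d * (hi - lo)) ≤ (1 - p) ^ n / (1 + p) ^ n := by
    rw [← div_pow]
    have hpp : 0 ≤ (1 - p) / (1 + p) := div_nonneg (by linarith) (by linarith)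
    have hpp1 : (1 - p) / (1 + p) ≤ 1 := by
      rw [div_le_one (by linarith)]; linarith
    exact pow_le_pow_of_le_one hpp hpp1 hnle
  have := final_alg (a := θ (k', x)) (b := θ (k, x)) (hθ _).1 (hθ _).1 hZpos
    (by positivity) (pow_nonneg (by linarith) n) (pow_pos (by linarith) n) hA1 hA2 h3 hq
  refine le_trans (le_of_eq ?_) this
  ring

end

end Vale.Agent.P361.LRO.Loc.Geo
end

section

/-!
P361 LRO, block (4), with arbitrary additional gates between the layers `N` and `0`.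
`E₁ ++ (gates L N p ++ E₂)`; for spin `S` these gates are the projector onto the symmetric
subspace of the copies.
-/

namespace Vale.Agent.P361.LRO

open Finset

noncomputable section

/-- All gates of the list live in the layer `N` (between the layers `N` and `0`) and have
probabilities in `[0, 1]`. -/
def OutG {V : Type} (N : ℕ) (E : List ((Fin (N + 1) × V) × (Fin (N + 1) × V) × ℝ)) : Prop :=
  ∀ g ∈ E, (0 ≤ g.2.2 ∧ g.2.2 ≤ 1) ∧ g.1.1 = Fin.last N ∧ g.2.1.1 = Fin.last N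

/-- The physical law with additional gates. -/
def physE {V : Type} [Fintype V] [DecidableEq V] {N : ℕ}
    (E₁ E₂ : List ((Fin (N + 1) × V) × (Fin (N + 1) × V) × ℝ)) (L : List (V × V)) (β : ℝ) :
    Equiv.Perm (Fin (N + 1) × V) → ℝ :=
  law (E₁ ++ (gates L N (β / (2 * N)) ++ E₂)) (base N)

theorem physE_nil {V : Type} [Fintype V] [DecidableEq V] (N : ℕ) (L : List (V × V)) (β : ℝ) :
    physE (N := N) [] [] L β = phys L β N := by
  unfold physE phys
  simp

namespace Loc.Ext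

open Vale.Agent.P361.LRO.Loc Vale.Agent.P361.LRO.Loc.Geo

variable {V : Type} [Fintype V] [DecidableEq V]

/-- The window. -/
def win (N : ℕ) (Q : V → Prop) [DecidablePred Q] (lo hi : ℕ) : Finset (Fin (N + 1) × V) :=
  univ.filter fun z => lo ≤ (z.1 : ℕ) ∧ (z.1 : ℕ) < hi ∧ Q z.2

lemma bad_gates {L : List (V × V)} {N : ℕ} {p : ℝ} (Q : V → Prop) [DecidablePred Q]
    (lo hi : ℕ) {g : (Fin (N + 1) × V) × (Fin (N + 1) × V) × ℝ} (hg : g ∈ gates L N p)
    (h : Bad (win N Q lo hi) g) : tch N Q lo hi g := by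
  obtain ⟨k, e, _, rfl⟩ := mem_gates hg
  simp only [Bad, win, Finset.mem_filter, Finset.mem_univ, true_and] at h
  unfold tch
  simp only
  tauto

lemma not_bad {N : ℕ} (Q : V → Prop) [DecidablePred Q] (lo hi : ℕ) (hhi : hi ≤ N)
    {E : List ((Fin (N + 1) × V) × (Fin (N + 1) × V) × ℝ)} (hE : OutG N E)
    {g : (Fin (N + 1) × V) × (Fin (N + 1) × V) × ℝ} (hg : g ∈ E) :
    ¬ Bad (win N Q lo hi) g := by
  obtain ⟨_, h1, h2⟩ := hE g hg
  simp only [Bad, win, Finset.mem_filter, Finset.mem_univ, true_and, h1, h2, Fin.val_last]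
  omega

lemma DD_append {X : Type} [DecidableEq X] (B : Finset X) (l l' : List (X × X × ℝ)) :
    DD B (l ++ l') = DD B l * DD B l' := by
  unfold DD
  rw [List.map_append, List.prod_append]

lemma DD_out {N : ℕ} (Q : V → Prop) [DecidablePred Q] (lo hi : ℕ) (hhi : hi ≤ N)
    {E : List ((Fin (N + 1) × V) × (Fin (N + 1) × V) × ℝ)} (hE : OutG N E) :
    DD (win N Q lo hi) E = 1 := by
  unfold DD
  apply List.prod_eq_one
  intro r hr
  rw [List.mem_map] at hr
  obtain ⟨g, hg, rfl⟩ := hr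
  rw [if_neg (not_bad Q lo hi hhi hE hg)]

lemma DD_gates (L : List (V × V)) (N : ℕ) {p : ℝ} (h0 : 0 ≤ p) (h1 : p ≤ 1) (Q : V → Prop)
    [DecidablePred Q] (lo hi d : ℕ) (hd : (L.countP fun e => Q e.1 ∨ Q e.2) ≤ d) :
    ((1 - p) / (1 + p)) ^ (d * (hi - lo)) ≤ DD (win N Q lo hi) (gates L N p) := by
  unfold DD
  rw [prod_ite_pow (gates L N p) (Bad (win N Q lo hi)) p gates_p (fun t => (1 - t) / (1 + t))]
  have hpp : 0 ≤ (1 - p) / (1 + p) := div_nonneg (by linarith) (by linarith)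
  have hpp1 : (1 - p) / (1 + p) ≤ 1 := by
    rw [div_le_one (by linarith)]; linarith
  refine pow_le_pow_of_le_one hpp hpp1 (le_trans ?_ (countP_gates L N p Q lo hi d hd))
  apply List.countP_mono_left
  intro g hg hb
  have := bad_gates Q lo hi hg (of_decide_eq_true hb)
  exact decide_eq_true this

lemma pr_ext {L : List (V × V)} {N : ℕ} {p : ℝ} (h0 : 0 ≤ p) (h1 : p ≤ 1)
    {E₁ E₂ : List ((Fin (N + 1) × V) × (Fin (N + 1) × V) × ℝ)} (hE₁ : OutG N E₁)
    (hE₂ : OutG N E₂) : Pr (E₁ ++ (gates L N p ++ E₂)) := by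
  intro g hg
  rw [List.mem_append, List.mem_append] at hg
  rcases hg with hg | hg | hg
  · exact (hE₁ g hg).1
  · rw [gates_p g hg]; exact ⟨h0, h1⟩
  · exact (hE₂ g hg).1

lemma agr_step {N : ℕ} (Q : V → Prop) [DecidablePred Q] (lo hi : ℕ) (hhi : hi ≤ N)
    {π : Equiv.Perm (Fin (N + 1) × V)} (h : Agr (base N) (win N Q lo hi) π)
    (n : ℕ) (hn1 : lo ≤ n) (hn2 : n < hi) (x : V) (hx : Q x) :
    π (fn N (n + 1), x) = (fn N n, x) := by
  have hb := base_apply N n (by omega) x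
  have := h (fn N (n + 1), x) (by
    rw [hb]
    simp only [win, Finset.mem_filter, Finset.mem_univ, true_and]
    rw [cast_val (by omega)]
    exact ⟨hn1, hn2, hx⟩)
  rw [this, hb]

lemma dbl_Zp {X : Type} [Fintype X] [DecidableEq X] {θ : X → ℝ} (hθ : ∀ x, 0 ≤ θ x ∧ θ x ≤ 1) :
    Dbl fun π : Equiv.Perm X => Zp π θ :=
  ⟨fun π => (ringStmt X π θ hθ).1.le, fun a b π => (ringStmt X π θ hθ).2 a b⟩

/-- From a bound on `EL` to a bound on `cc`. -/
lemma cc_ge {X : Type} [Fintype X] [DecidableEq X] {l : List (X × X × ℝ)} (hl : Pr l)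
    (σ : Equiv.Perm X) {θ : X → ℝ} (hθ : ∀ x, 0 ≤ θ x ∧ θ x ≤ 1) {u v : X} (huv : u ≠ v)
    {C : ℝ} (h : C * EL σ l (fun π => Zp π θ) ≤ EL σ l fun π => Zf π θ u v) :
    θ u * θ v * C ≤ cc (law l σ) θ u v := by
  rw [Geo.cc_eq fourierStmt l σ θ u v huv]
  have hpos := ev_pos ringStmt hl σ θ hθ
  rw [mul_div_assoc]
  refine mul_le_mul_of_nonneg_left ?_ (mul_nonneg (hθ u).1 (hθ v).1)
  rw [le_div_iff₀ hpos]
  unfold ev
  rw [sum_law, sum_law]
  exact h

theorem same (L : List (V × V)) (d N : ℕ) (p : ℝ) (h0p : 0 ≤ p) (h1p : p ≤ 1)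
    (E₁ E₂ : List ((Fin (N + 1) × V) × (Fin (N + 1) × V) × ℝ)) (hE₁ : OutG N E₁)
    (hE₂ : OutG N E₂) (hdeg : ∀ x : V, (L.countP fun e => e.1 = x ∨ e.2 = x) ≤ d)
    (θ : Fin (N + 1) × V → ℝ) (hθ : ∀ z, 0 ≤ θ z ∧ θ z ≤ 1)
    (x : V) (k k' : Fin (N + 1)) (τ : ℝ) (h0 : 0 ≤ τ) (h1 : τ < 1) (hkk : k < k')
    (hbd : ∀ i, k < i → i < k' → θ (i, x) ≤ τ) :
    θ (k', x) * θ (k, x) * ((1 / 4) *
        (((1 - p) / (1 + p)) ^ (d * ((k' : ℕ) - k)) * ((1 - τ) / (1 + τ)) ^ ((k' : ℕ) - k))) ≤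
      cc (law (E₁ ++ (gates L N p ++ E₂)) (base N)) θ (k', x) (k, x) := by
  set lo : ℕ := (k : ℕ) with hlo
  set hi : ℕ := (k' : ℕ) with hhi
  have hlt : lo < hi := hkk
  have hhiN : hi ≤ N := by have := k'.2; omega
  have hne : (k', x) ≠ (k, x) := fun h => by
    have := congrArg Prod.fst h
    simp only at this
    exact absurd this (ne_of_gt hkk)
  have hl := pr_ext (L := L) h0p h1p hE₁ hE₂
  have hτ' : 0 ≤ (1 - τ) / (1 + τ) := div_nonneg (by linarith) (by linarith)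
  set c : ℝ := (1 / 4) * ((1 - τ) / (1 + τ)) ^ (hi - lo) with hc
  have hc0 : 0 ≤ c := by positivity
  have key := EL_ge_of_agr (base N) (win N (fun y => y = x) lo hi) hl
    (f := fun π => Zf π θ (k', x) (k, x)) (F := fun π => Zp π θ)
    (fun π => (arcStmt _ π θ hθ _ _ hne).1) (dbl_Zp hθ) hc0 (by
      intro π hπ
      have hstep := agr_step (fun y => y = x) lo hi hhiN hπ
      have := arc_use arcStmt π θ hθ ((ringStmt _ π θ hθ).1).le
        (fun j => (fn N (hi - j), x)) (hi - lo - 1) (hi - lo) (by omega)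
        (fun j hj => by
          have hs := hstep (hi - (j + 1)) (by omega) (by omega) x rfl
          have e : hi - (j + 1) + 1 = hi - j := by omega
          rw [e] at hs
          exact hs)
        (fun i hi' j hj' h => by
          have e1 := congrArg Prod.fst h
          simp only at e1
          have e2 := congrArg Fin.val e1
          rw [cast_val (by omega), cast_val (by omega)] at e2
          omega)
        τ h0 h1
        (fun j hj1 hj2 => by
          refine hbd _ ?_ ?_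
          · rw [Fin.lt_def, cast_val (by omega)]; omega
          · rw [Fin.lt_def, cast_val (by omega)]; omega)
      have e0 : (fn N (hi - 0), x) = (k', x) := by
        rw [Nat.sub_zero, hhi, fn_val]
      have e1 : (fn N (hi - (hi - lo - 1 + 1)), x) = (k, x) := by
        have : hi - (hi - lo - 1 + 1) = lo := by omega
        rw [this, hlo, fn_val]
      rw [e0, e1] at this
      exact this)
  have h3 := cc_ge hl (base N) hθ hne key
  refine le_trans ?_ h3
  refine mul_le_mul_of_nonneg_left ?_ (mul_nonneg (hθ _).1 (hθ _).1)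
  rw [DD_append, DD_append, DD_out _ lo hi hhiN hE₁, DD_out _ lo hi hhiN hE₂, one_mul, mul_one]
  have h4 := DD_gates L N h0p h1p (fun y => y = x) lo hi d (hdeg x)
  have h5 := mul_le_mul_of_nonneg_left h4 hc0
  refine le_trans (le_of_eq ?_) h5
  rw [hc]; ring

/-! ### Neighbours -/

/-- Gates between `x` and `y` in the window. -/
def good (N : ℕ) (x y : V) (lo hi : ℕ) (g : (Fin (N + 1) × V) × (Fin (N + 1) × V) × ℝ) : Prop :=
  g.1.1 = g.2.1.1 ∧ (lo ≤ (g.1.1 : ℕ) ∧ (g.1.1 : ℕ) < hi) ∧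
    ((g.1.2 = x ∧ g.2.1.2 = y) ∨ (g.1.2 = y ∧ g.2.1.2 = x))

instance (N : ℕ) (x y : V) (lo hi : ℕ) : DecidablePred (good N x y lo hi) := fun g => by
  unfold good; infer_instance

lemma good_mem {N : ℕ} {x y : V} {lo hi : ℕ} (g : (Fin (N + 1) × V) × (Fin (N + 1) × V) × ℝ)
    (h : good N x y lo hi g) :
    g.1 ∈ win N (fun z => z = x ∨ z = y) lo hi ∧ g.2.1 ∈ win N (fun z => z = x ∨ z = y) lo hi := by
  obtain ⟨h1, ⟨h2, h3⟩, h4⟩ := h
  simp only [win, Finset.mem_filter, Finset.mem_univ, true_and]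
  rw [← h1]
  exact ⟨⟨h2, h3, by tauto⟩, ⟨h2, h3, by tauto⟩⟩

lemma sum_ite_mul {X : Type} (l : List (X × X × ℝ)) (S : X × X × ℝ → Prop) [DecidablePred S]
    (p : ℝ) (hp : ∀ g ∈ l, g.2.2 = p) :
    (l.map fun g => if S g then g.2.2 else 0).sum = p * (l.countP fun g => S g : ℕ) := by
  induction l with
  | nil => simp
  | cons g l ih =>
    rw [List.map_cons, List.sum_cons, ih (fun g hg => hp g (by simp [hg])), List.countP_cons]
    by_cases h : S g
    · simp only [h, if_true, decide_true]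
      rw [hp g (by simp)]
      push_cast
      ring
    · simp [h]

lemma countP_good (L : List (V × V)) (N : ℕ) (p : ℝ) (x y : V)
    (hxy : (x, y) ∈ L ∨ (y, x) ∈ L) (lo hi : ℕ) (hhi : hi ≤ N) :
    hi - lo ≤ ((gates L N p).countP fun g =>
      Bad (win N (fun z => z = x ∨ z = y) lo hi) g ∧ good N x y lo hi g) := by
  unfold gates
  rw [List.countP_flatMap, ← Fin.sum_univ_def]
  have h1 : ∀ k : Fin N, (if lo ≤ (k : ℕ) ∧ (k : ℕ) < hi then 1 else 0) ≤
      (List.countP (fun g => decide (Bad (win N (fun z => z = x ∨ z = y) lo hi) g ∧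
        good N x y lo hi g)) ∘ fun k : Fin N =>
      L.map fun e => (((k.castSucc, e.1), (k.castSucc, e.2), p) :
        (Fin (N + 1) × V) × (Fin (N + 1) × V) × ℝ)) k := by
    intro k
    simp only [Function.comp, List.countP_map]
    split_ifs with hk
    · rw [Nat.one_le_iff_ne_zero, ← Nat.pos_iff_ne_zero, List.countP_pos_iff]
      rcases hxy with h | h
      · refine ⟨_, h, ?_⟩
        simp [Bad, win, good, hk]
      · refine ⟨_, h, ?_⟩
        simp [Bad, win, good, hk]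
    · exact Nat.zero_le _
  refine le_trans ?_ (Finset.sum_le_sum fun k _ => h1 k)
  rw [Fin.sum_univ_eq_sum_range (fun k => if lo ≤ k ∧ k < hi then 1 else 0) N,
    ← Finset.sum_filter, Finset.sum_const, smul_eq_mul, mul_one]
  rw [← Nat.card_Ico]
  refine Finset.card_le_card fun k hk => ?_
  rw [Finset.mem_Ico] at hk
  rw [Finset.mem_filter, Finset.mem_range]
  exact ⟨by omega, hk⟩

lemma GG_append {X : Type} [DecidableEq X] (B : Finset X) (good : X × X × ℝ → Prop)
    [DecidablePred good] (l l' : List (X × X × ℝ)) :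
    GG B good (l ++ l') = GG B good l + GG B good l' := by
  unfold GG
  rw [List.map_append, List.sum_append]

lemma GG_gates (L : List (V × V)) (N : ℕ) {p : ℝ} (h0 : 0 ≤ p) (x y : V)
    (hxy : (x, y) ∈ L ∨ (y, x) ∈ L) (lo hi : ℕ) (hhi : hi ≤ N) :
    p * ((hi - lo : ℕ) : ℝ) ≤
      GG (win N (fun z => z = x ∨ z = y) lo hi) (good N x y lo hi) (gates L N p) := by
  unfold GG
  rw [sum_ite_mul (gates L N p)
    (fun g => Bad (win N (fun z => z = x ∨ z = y) lo hi) g ∧ good N x y lo hi g) p gates_p]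
  refine mul_le_mul_of_nonneg_left ?_ h0
  exact_mod_cast countP_good L N p x y hxy lo hi hhi

lemma arc_nn {N : ℕ} (x y : V) (hxy : x ≠ y) (lo hi : ℕ) (hlt : lo < hi) (hhi : hi ≤ N)
    (θ : Fin (N + 1) × V → ℝ) (hθ : ∀ z, 0 ≤ θ z ∧ θ z ≤ 1) (τ : ℝ) (h0 : 0 ≤ τ) (h1 : τ < 1)
    (hbd : ∀ i : Fin (N + 1), lo < (i : ℕ) → (i : ℕ) < hi → θ (i, x) ≤ τ ∧ θ (i, y) ≤ τ)
    (π : Equiv.Perm (Fin (N + 1) × V))
    (hπ : Agr (base N) (win N (fun z => z = x ∨ z = y) lo hi) π)
    (n : ℕ) (hn1 : lo ≤ n) (hn2 : n < hi) :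
    ((1 / 8) * ((1 - τ) / (1 + τ)) ^ (hi - lo)) * Zp π θ ≤
      Zf (Equiv.swap (fn N n, x) (fn N n, y) * π) θ (fn N hi, x) (fn N lo, y) := by
  set π' : Equiv.Perm (Fin (N + 1) × V) := Equiv.swap (fn N n, x) (fn N n, y) * π with hπ'
  have hstep := agr_step (fun z => z = x ∨ z = y) lo hi hhi hπ
  have hd : Zp π θ ≤ 2 * Zp π' θ := by
    have := (ringStmt _ π' θ hθ).2 (fn N n, x) (fn N n, y)
    rw [hπ', ← mul_assoc, Equiv.swap_mul_self, one_mul] at this
    exact this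
  have hτ' : 0 ≤ (1 - τ) / (1 + τ) := div_nonneg (by linarith) (by linarith)
  have := arc_use arcStmt π' θ hθ ((ringStmt _ π' θ hθ).1).le
    (fun j => (fn N (hi - j), if n < hi - j then x else y)) (hi - lo - 1) (hi - lo) (by omega)
    (fun j hj => by
      have e : hi - (j + 1) + 1 = hi - j := by omega
      have hs := hstep (hi - (j + 1)) (by omega) (by omega) (if n < hi - j then x else y)
        (by split_ifs <;> simp)
      rw [e] at hs
      show π' (fn N (hi - j), if n < hi - j then x else y) =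
        (fn N (hi - (j + 1)), if n < hi - (j + 1) then x else y)
      rw [hπ', Equiv.Perm.mul_apply, hs]
      by_cases hjn : hi - (j + 1) = n
      · have c1 : n < hi - j := by omega
        have c2 : ¬ n < hi - (j + 1) := by omega
        rw [if_pos c1, if_neg c2, hjn, Equiv.swap_apply_left]
      · have hfn : fn N (hi - (j + 1)) ≠ fn N n := fun h => by
          have := congrArg Fin.val h
          rw [cast_val (by omega), cast_val (by omega)] at this
          exact hjn this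
        rw [Equiv.swap_apply_of_ne_of_ne (fun h => hfn (congrArg Prod.fst h))
          (fun h => hfn (congrArg Prod.fst h))]
        by_cases c1 : n < hi - j
        · have c2 : n < hi - (j + 1) := by omega
          rw [if_pos c1, if_pos c2]
        · have c2 : ¬ n < hi - (j + 1) := by omega
          rw [if_neg c1, if_neg c2])
    (fun i hi' j hj' h => by
      have e1 := congrArg Prod.fst h
      simp only at e1
      have e2 := congrArg Fin.val e1
      rw [cast_val (by omega), cast_val (by omega)] at e2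
      omega)
    τ h0 h1
    (fun j hj1 hj2 => by
      have := hbd (fn N (hi - j)) (by rw [cast_val (by omega)]; omega)
        (by rw [cast_val (by omega)]; omega)
      show θ (fn N (hi - j), if n < hi - j then x else y) ≤ τ
      split_ifs
      · exact this.1
      · exact this.2)
  have e0 : ((fn N (hi - 0), if n < hi - 0 then x else y) : Fin (N + 1) × V) = (fn N hi, x) := by
    rw [Nat.sub_zero, if_pos hn2]
  have e1 : ((fn N (hi - (hi - lo - 1 + 1)), if n < hi - (hi - lo - 1 + 1) then x else y) :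
      Fin (N + 1) × V) = (fn N lo, y) := by
    have : hi - (hi - lo - 1 + 1) = lo := by omega
    rw [this, if_neg (by omega)]
  rw [e0, e1] at this
  have hM0 : 0 ≤ ((1 - τ) / (1 + τ)) ^ (hi - lo) := pow_nonneg hτ' _
  calc ((1 / 8) * ((1 - τ) / (1 + τ)) ^ (hi - lo)) * Zp π θ
      ≤ ((1 / 8) * ((1 - τ) / (1 + τ)) ^ (hi - lo)) * (2 * Zp π' θ) :=
        mul_le_mul_of_nonneg_left hd (by positivity)
    _ = ((1 / 4) * ((1 - τ) / (1 + τ)) ^ (hi - lo)) * Zp π' θ := by ring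
    _ ≤ _ := this

theorem nn (L : List (V × V)) (d N : ℕ) (p : ℝ) (h0p : 0 ≤ p) (h1p : p ≤ 1)
    (E₁ E₂ : List ((Fin (N + 1) × V) × (Fin (N + 1) × V) × ℝ)) (hE₁ : OutG N E₁)
    (hE₂ : OutG N E₂) (hdeg : ∀ x : V, (L.countP fun e => e.1 = x ∨ e.2 = x) ≤ d)
    (θ : Fin (N + 1) × V → ℝ) (hθ : ∀ z, 0 ≤ θ z ∧ θ z ≤ 1)
    (x y : V) (k k' : Fin (N + 1)) (τ : ℝ) (hxy : x ≠ y) (hL : (x, y) ∈ L ∨ (y, x) ∈ L)
    (h0 : 0 ≤ τ) (h1 : τ < 1) (hkk : k < k')
    (hbd : ∀ i, k < i → i < k' → θ (i, x) ≤ τ ∧ θ (i, y) ≤ τ) :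
    θ (k', x) * θ (k, y) * ((1 / 8) * (p * ((k' : ℕ) - k : ℕ)) *
        (((1 - p) / (1 + p)) ^ (2 * d * ((k' : ℕ) - k)) * ((1 - τ) / (1 + τ)) ^ ((k' : ℕ) - k))) ≤
      cc (law (E₁ ++ (gates L N p ++ E₂)) (base N)) θ (k', x) (k, y) := by
  set lo : ℕ := (k : ℕ) with hlo
  set hi : ℕ := (k' : ℕ) with hhi
  have hlt : lo < hi := hkk
  have hhiN : hi ≤ N := by have := k'.2; omega
  have hne : (k', x) ≠ (k, y) := fun h => hxy (congrArg Prod.snd h)
  have hl := pr_ext (L := L) h0p h1p hE₁ hE₂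
  have hτ' : 0 ≤ (1 - τ) / (1 + τ) := div_nonneg (by linarith) (by linarith)
  set c : ℝ := (1 / 8) * ((1 - τ) / (1 + τ)) ^ (hi - lo) with hc
  have hc0 : 0 ≤ c := by positivity
  have ek' : fn N hi = k' := by rw [hhi, fn_val]
  have ek : fn N lo = k := by rw [hlo, fn_val]
  have key := EL_ge_of_swap (base N) (win N (fun z => z = x ∨ z = y) lo hi) (good N x y lo hi)
    good_mem hl
    (f := fun π => Zf π θ (k', x) (k, y)) (F := fun π => Zp π θ)
    (fun π => (arcStmt _ π θ hθ _ _ hne).1) (dbl_Zp hθ) hc0 (by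
      intro g _ hg π hπ
      obtain ⟨hg1, ⟨hg2, hg3⟩, hg4⟩ := hg
      have := arc_nn x y hxy lo hi hlt hhiN θ hθ τ h0 h1
        (fun i hi1 hi2 => hbd i hi1 hi2) π hπ (g.1.1 : ℕ) hg2 hg3
      rw [ek', ek, fn_val] at this
      refine le_trans this (le_of_eq ?_)
      congr 2
      rcases hg4 with ⟨ha, hb⟩ | ⟨ha, hb⟩
      · congr 1
        · exact Prod.ext rfl ha.symm
        · exact Prod.ext hg1 hb.symm
      · rw [Equiv.swap_comm]
        congr 1
        · exact Prod.ext rfl ha.symm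
        · exact Prod.ext hg1 hb.symm)
  have h3 := cc_ge hl (base N) hθ hne key
  refine le_trans ?_ h3
  refine mul_le_mul_of_nonneg_left ?_ (mul_nonneg (hθ _).1 (hθ _).1)
  rw [DD_append, DD_append, DD_out _ lo hi hhiN hE₁, DD_out _ lo hi hhiN hE₂, one_mul, mul_one,
    GG_append, GG_append]
  have hcount : (L.countP fun e => (e.1 = x ∨ e.1 = y) ∨ (e.2 = x ∨ e.2 = y)) ≤ 2 * d := by
    have e1 : (L.countP fun e => (e.1 = x ∨ e.1 = y) ∨ (e.2 = x ∨ e.2 = y)) ≤
        (L.countP fun e => e.1 = x ∨ e.2 = x) + (L.countP fun e => e.1 = y ∨ e.2 = y) := by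
      induction L with
      | nil => simp
      | cons e l ih =>
        clear * - e l
        induction (e :: l) with
        | nil => simp
        | cons e l ih =>
          simp only [List.countP_cons]
          by_cases h1 : e.1 = x <;> by_cases h2 : e.1 = y <;> by_cases h3 : e.2 = x <;>
            by_cases h4 : e.2 = y <;> simp_all <;> omega
    have e2 := hdeg x
    have e3 := hdeg y
    omega
  have h4 := DD_gates L N h0p h1p (fun z => z = x ∨ z = y) lo hi (2 * d) hcount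
  have h5 := GG_gates L N h0p x y hL lo hi hhiN
  have h6 : 0 ≤ GG (win N (fun z => z = x ∨ z = y) lo hi) (good N x y lo hi) E₁ :=
    GG_nonneg _ _ fun g hg => (hE₁ g hg).1
  have h7 : 0 ≤ GG (win N (fun z => z = x ∨ z = y) lo hi) (good N x y lo hi) E₂ :=
    GG_nonneg _ _ fun g hg => (hE₂ g hg).1
  have hpp : 0 ≤ (1 - p) / (1 + p) := div_nonneg (by linarith) (by linarith)
  have h8 : p * ((hi - lo : ℕ) : ℝ) * ((1 - p) / (1 + p)) ^ (2 * d * (hi - lo)) ≤
      (GG (win N (fun z => z = x ∨ z = y) lo hi) (good N x y lo hi) E₁ +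
        (GG (win N (fun z => z = x ∨ z = y) lo hi) (good N x y lo hi) (gates L N p) +
        GG (win N (fun z => z = x ∨ z = y) lo hi) (good N x y lo hi) E₂)) *
        DD (win N (fun z => z = x ∨ z = y) lo hi) (gates L N p) :=
    mul_le_mul (by linarith) h4 (pow_nonneg hpp _) (by
      have : 0 ≤ p * ((hi - lo : ℕ) : ℝ) := by positivity
      linarith)
  have h9 := mul_le_mul_of_nonneg_left h8 hc0
  calc _ = c * (p * ((hi - lo : ℕ) : ℝ) * ((1 - p) / (1 + p)) ^ (2 * d * (hi - lo))) := by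
        rw [hc]; ring
    _ ≤ _ := h9
    _ = _ := by ring

end Loc.Ext

end

end Vale.Agent.P361.LRO
end

section

/-!
P361 LRO, block (4) LOC, done: `locSame`, `locNN`, `net`, `loc` (form of `Skel/Low.lean`) and
`locE` (extra gates between the layers `N` and `0`, any degree bound).
-/

namespace Vale.Agent.P361.LRO

open Finset

noncomputable section

theorem locSame (V : Type) [Fintype V] [DecidableEq V] (L : List (V × V)) (d : ℕ) :
    Loc.LocSame V L d := by
  intro β N hβ hβN hdeg θ hθ x k k' τ h0 h1 hkk hbd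
  have hN : (0 : ℝ) < N := lt_of_lt_of_le hβ hβN
  have hp1 : β / (2 * N) ≤ 1 := by
    rw [div_le_one (by positivity)]; linarith
  have := Loc.Ext.same L d N (β / (2 * N)) (by positivity) hp1 [] []
    (fun g hg => by simp at hg) (fun g hg => by simp at hg) hdeg θ hθ x k k' τ h0 h1 hkk hbd
  simpa only [phys, List.nil_append, List.append_nil] using this

theorem locNN (V : Type) [Fintype V] [DecidableEq V] (L : List (V × V)) (d : ℕ) :
    Loc.LocNN V L d := by
  intro β N hβ hβN hdeg θ hθ x y k k' τ hxy hL h0 h1 hkk hbd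
  have hN : (0 : ℝ) < N := lt_of_lt_of_le hβ hβN
  have hp1 : β / (2 * N) ≤ 1 := by
    rw [div_le_one (by positivity)]; linarith
  have := Loc.Ext.nn L d N (β / (2 * N)) (by positivity) hp1 [] []
    (fun g hg => by simp at hg) (fun g hg => by simp at hg) hdeg θ hθ x y k k' τ hxy hL h0 h1
    hkk hbd
  simpa only [phys, List.nil_append, List.append_nil] using this

/-- positivity of the conductances, network form of `K`, `v ≤ θ` -/
theorem locNet : Loc.NetStmt := Loc.netStmt Loc.fourierStmt Loc.ringStmt Loc.arcStmt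

/-- **Block (4)**, form of `Skel/Low.lean`. -/
theorem loc : ∃ c0 : ℝ, 0 < c0 ∧ ∀ {V : Type} [Fintype V] [DecidableEq V] (L : List (V × V)),
    (∀ x, deg L x ≤ 6) → ∀ (β : ℝ), 1 ≤ β → ∀ N : ℕ, 8 * β ≤ N → ∀ h T : V → ℝ,
    (∀ x, 0 ≤ h x ∧ h x ≤ 1) → (∀ x, 0 ≤ T x ∧ T x ≤ 1) →
    (∀ (k k' : Fin (N + 1)) (x : V), 0 < k → k < k' → ((k' : ℝ) - (k : ℝ)) * β / N ≤ 1 →
      c0 * (β * h x / (2 * N)) ^ 2 ≤ cc (phys L β N) (th β N h T) (k, x) (k', x)) ∧
    (∀ (k k' : Fin (N + 1)) (x y : V), 0 < k → k < k' → 1 / 4 ≤ ((k' : ℝ) - (k : ℝ)) * β / N →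
      ((k' : ℝ) - (k : ℝ)) * β / N ≤ 1 → ((x, y) ∈ L ∨ (y, x) ∈ L) → x ≠ y →
      c0 * (β * h x / (2 * N)) * (β * h y / (2 * N)) ≤
        cc (phys L β N) (th β N h T) (k, x) (k', y)) ∧
    (∀ (k : Fin (N + 1)) (x : V), 0 < k → (k : ℝ) * β / N ≤ 1 →
      c0 * T x * (β * h x / (2 * N)) ≤ cc (phys L β N) (th β N h T) (0, x) (k, x)) :=
  loc_of (fun V _ _ L => locSame V L 6) (fun V _ _ L => locNN V L 6)

namespace Loc.Done

open Vale.Agent.P361.LRO.Loc.Final

variable {V : Type} [Fintype V] [DecidableEq V]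

lemma sameE (D : ℕ) (L : List (V × V)) (hL : ∀ x, deg L x ≤ D) {β : ℝ} (h1 : 1 ≤ β) {N : ℕ}
    (hN : 8 * β ≤ N) {E₁ E₂ : List ((Fin (N + 1) × V) × (Fin (N + 1) × V) × ℝ)}
    (hE₁ : OutG N E₁) (hE₂ : OutG N E₂) {h T : V → ℝ}
    (hh : ∀ x, 0 ≤ h x ∧ h x ≤ 1) (hT : ∀ x, 0 ≤ T x ∧ T x ≤ 1)
    (k k' : Fin (N + 1)) (x : V) (hk : k < k') (ht : ((k' : ℝ) - (k : ℝ)) * β / N ≤ 1) :
    Real.exp (-(4 * D + 2 : ℝ)) / 64 * (th β N h T (k, x) * th β N h T (k', x)) ≤
      cc (physE E₁ E₂ L β) (th β N h T) (k, x) (k', x) := by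
  have hN0 : (0 : ℝ) < N := by linarith
  have hβ0 : (0 : ℝ) < β := by linarith
  set p : ℝ := β / (2 * N) with hp
  have hp0 : 0 ≤ p := by positivity
  have hp1 : p ≤ 1 / 16 := by
    rw [hp, div_le_div_iff₀ (by positivity) (by norm_num)]
    linarith
  have hθ := th_mem h1 hN hh hT
  have key := Loc.Ext.same L D N p hp0 (by linarith) E₁ E₂ hE₁ hE₂
    (fun x => by rw [List.countP_eq_length_filter]; exact hL x) (th β N h T) hθ x k k' p hp0
    (by linarith) hk (fun i hi _ => th_le h1 hN hh hi x)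
  rw [cc_comm']
  refine le_trans ?_ key
  rw [← pow_add]
  have hkk : (k : ℕ) ≤ (k' : ℕ) := le_of_lt hk
  set n : ℕ := (k' : ℕ) - (k : ℕ) with hn
  have hnr : (n : ℝ) = (k' : ℝ) - (k : ℝ) := by rw [hn]; push_cast [hkk]; ring
  have hpn : 2 * p * n ≤ 1 := by
    rw [hnr, hp]
    refine le_trans (le_of_eq ?_) ht
    field_simp
  have hpow := pow_lower hp0 (by linarith) (D * n + n)
  have hD : (0 : ℝ) ≤ D := Nat.cast_nonneg D
  have hexp : Real.exp (-(4 * D + 2 : ℝ)) ≤ Real.exp (-(4 * p * ((D * n + n : ℕ) : ℝ))) := by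
    apply Real.exp_le_exp.2
    push_cast
    have e1 := mul_le_mul_of_nonneg_left hpn (by linarith : (0 : ℝ) ≤ D + 1)
    nlinarith
  have hab : 0 ≤ th β N h T (k', x) * th β N h T (k, x) := mul_nonneg (hθ _).1 (hθ _).1
  have e0 : Real.exp (-(4 * D + 2 : ℝ)) / 64 ≤ 1 / 4 * ((1 - p) / (1 + p)) ^ (D * n + n) := by
    have := Real.exp_pos (-(4 * D + 2 : ℝ))
    linarith [hexp.trans hpow]
  calc Real.exp (-(4 * D + 2 : ℝ)) / 64 * (th β N h T (k, x) * th β N h T (k', x))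
      = (th β N h T (k', x) * th β N h T (k, x)) * (Real.exp (-(4 * D + 2 : ℝ)) / 64) := by ring
    _ ≤ _ := mul_le_mul_of_nonneg_left e0 hab

lemma nnE (D : ℕ) (L : List (V × V)) (hL : ∀ x, deg L x ≤ D) {β : ℝ} (h1 : 1 ≤ β) {N : ℕ}
    (hN : 8 * β ≤ N) {E₁ E₂ : List ((Fin (N + 1) × V) × (Fin (N + 1) × V) × ℝ)}
    (hE₁ : OutG N E₁) (hE₂ : OutG N E₂) {h T : V → ℝ}
    (hh : ∀ x, 0 ≤ h x ∧ h x ≤ 1) (hT : ∀ x, 0 ≤ T x ∧ T x ≤ 1)
    (k k' : Fin (N + 1)) (x y : V) (hk : k < k') (ht : ((k' : ℝ) - (k : ℝ)) * β / N ≤ 1)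
    (ht' : 1 / 4 ≤ ((k' : ℝ) - (k : ℝ)) * β / N) (hxy : (x, y) ∈ L ∨ (y, x) ∈ L) (hne : x ≠ y) :
    Real.exp (-(4 * D + 2 : ℝ)) / 64 * (th β N h T (k, x) * th β N h T (k', y)) ≤
      cc (physE E₁ E₂ L β) (th β N h T) (k, x) (k', y) := by
  have hN0 : (0 : ℝ) < N := by linarith
  have hβ0 : (0 : ℝ) < β := by linarith
  set p : ℝ := β / (2 * N) with hp
  have hp0 : 0 ≤ p := by positivity
  have hp1 : p ≤ 1 / 16 := by
    rw [hp, div_le_div_iff₀ (by positivity) (by norm_num)]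
    linarith
  have hθ := th_mem h1 hN hh hT
  have key := Loc.Ext.nn L D N p hp0 (by linarith) E₁ E₂ hE₁ hE₂
    (fun x => by rw [List.countP_eq_length_filter]; exact hL x) (th β N h T) hθ y x k k' p
    hne.symm (hxy.symm) hp0 (by linarith) hk
    (fun i hi _ => ⟨th_le h1 hN hh hi y, th_le h1 hN hh hi x⟩)
  rw [cc_comm']
  refine le_trans ?_ key
  rw [← pow_add]
  have hkk : (k : ℕ) ≤ (k' : ℕ) := le_of_lt hk
  set n : ℕ := (k' : ℕ) - (k : ℕ) with hn
  have hnr : (n : ℝ) = (k' : ℝ) - (k : ℝ) := by rw [hn]; push_cast [hkk]; ring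
  have e2 : 2 * p * n = ((k' : ℝ) - (k : ℝ)) * β / N := by
    rw [hnr, hp]
    field_simp
  have hpn : 2 * p * n ≤ 1 := by rw [e2]; exact ht
  have hpn' : 1 / 4 ≤ 2 * p * n := by rw [e2]; exact ht'
  have hpow := pow_lower hp0 (by linarith) (2 * D * n + n)
  have hD : (0 : ℝ) ≤ D := Nat.cast_nonneg D
  have hexp : Real.exp (-(4 * D + 2 : ℝ)) ≤
      Real.exp (-(4 * p * ((2 * D * n + n : ℕ) : ℝ))) := by
    apply Real.exp_le_exp.2
    push_cast
    have e1 := mul_le_mul_of_nonneg_left hpn (by linarith : (0 : ℝ) ≤ 2 * D + 1)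
    nlinarith
  have hab : 0 ≤ th β N h T (k', y) * th β N h T (k, x) := mul_nonneg (hθ _).1 (hθ _).1
  have hE := Real.exp_pos (-(4 * D + 2 : ℝ))
  have e0 : Real.exp (-(4 * D + 2 : ℝ)) / 64 ≤
      1 / 8 * (p * (n : ℝ)) * ((1 - p) / (1 + p)) ^ (2 * D * n + n) := by
    have h3 : 1 / 64 ≤ 1 / 8 * (p * (n : ℝ)) := by linarith
    calc Real.exp (-(4 * D + 2 : ℝ)) / 64 = 1 / 64 * Real.exp (-(4 * D + 2 : ℝ)) := by ring
      _ ≤ 1 / 8 * (p * (n : ℝ)) * ((1 - p) / (1 + p)) ^ (2 * D * n + n) :=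
        mul_le_mul h3 (hexp.trans hpow) hE.le (by linarith)
  calc Real.exp (-(4 * D + 2 : ℝ)) / 64 * (th β N h T (k, x) * th β N h T (k', y))
      = (th β N h T (k', y) * th β N h T (k, x)) * (Real.exp (-(4 * D + 2 : ℝ)) / 64) := by ring
    _ ≤ _ := mul_le_mul_of_nonneg_left e0 hab

end Loc.Done

/-- **Block (4)** with extra gates between the layers `N` and `0` and any degree bound. -/
theorem locE (D : ℕ) : ∃ c0 : ℝ, 0 < c0 ∧ ∀ {V : Type} [Fintype V] [DecidableEq V]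
    (L : List (V × V)), (∀ x, deg L x ≤ D) → ∀ (β : ℝ), 1 ≤ β → ∀ N : ℕ, 8 * β ≤ N →
    ∀ E₁ E₂ : List ((Fin (N + 1) × V) × (Fin (N + 1) × V) × ℝ), OutG N E₁ → OutG N E₂ →
    ∀ h T : V → ℝ, (∀ x, 0 ≤ h x ∧ h x ≤ 1) → (∀ x, 0 ≤ T x ∧ T x ≤ 1) →
    (∀ (k k' : Fin (N + 1)) (x : V), 0 < k → k < k' → ((k' : ℝ) - (k : ℝ)) * β / N ≤ 1 →
      c0 * (β * h x / (2 * N)) ^ 2 ≤ cc (physE E₁ E₂ L β) (th β N h T) (k, x) (k', x)) ∧
    (∀ (k k' : Fin (N + 1)) (x y : V), 0 < k → k < k' → 1 / 4 ≤ ((k' : ℝ) - (k : ℝ)) * β / N →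
      ((k' : ℝ) - (k : ℝ)) * β / N ≤ 1 → ((x, y) ∈ L ∨ (y, x) ∈ L) → x ≠ y →
      c0 * (β * h x / (2 * N)) * (β * h y / (2 * N)) ≤
        cc (physE E₁ E₂ L β) (th β N h T) (k, x) (k', y)) ∧
    (∀ (k : Fin (N + 1)) (x : V), 0 < k → (k : ℝ) * β / N ≤ 1 →
      c0 * T x * (β * h x / (2 * N)) ≤ cc (physE E₁ E₂ L β) (th β N h T) (0, x) (k, x)) := by
  refine ⟨Real.exp (-(4 * D + 2 : ℝ)) / 64, by positivity, ?_⟩
  intro V _ _ L hL β h1 N hN E₁ E₂ hE₁ hE₂ h T hh hT
  refine ⟨?_, ?_, ?_⟩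
  · intro k k' x hk hkk ht
    have := Loc.Done.sameE D L hL h1 hN hE₁ hE₂ hh hT k k' x hkk ht
    rw [Loc.Final.th_eq hk, Loc.Final.th_eq hkk] at this
    refine le_trans (le_of_eq ?_) this
    ring
  · intro k k' x y hk hkk ht' ht hxy hne
    have := Loc.Done.nnE D L hL h1 hN hE₁ hE₂ hh hT k k' x y hkk ht ht' hxy hne
    rw [Loc.Final.th_eq hk, Loc.Final.th_eq hkk] at this
    refine le_trans (le_of_eq ?_) this
    ring
  · intro k x hk ht
    have := Loc.Done.sameE D L hL h1 hN hE₁ hE₂ hh hT 0 k x hk (by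
      have e : (((0 : Fin (N + 1)) : ℕ) : ℝ) = 0 := by simp
      rw [e, sub_zero]; exact ht)
    rw [Loc.Final.th_eq hk] at this
    refine le_trans (le_of_eq ?_) this
    simp only [th, if_true]
    ring

end

end Vale.Agent.P361.LRO
end

section

/-! P361 LRO: uniform Lie-Trotter for products of factors `1 + A / N`, with an inserted factor. -/

namespace Vale.Agent.P361.LRO.Trot

open Filter Topology NormedSpace

variable {𝔸 : Type*} [NormedRing 𝔸] [NormedAlgebra ℝ 𝔸]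

omit [NormedAlgebra ℝ 𝔸] in
/-- products of factors `1 + A` -/
theorem prod_lin_bounds (h1 : ‖(1 : 𝔸)‖ ≤ 1) (l : List 𝔸) :
    ‖(l.map fun A => 1 + A).prod‖ ≤ Real.exp (l.map norm).sum ∧
    ‖(l.map fun A => 1 + A).prod - 1‖ ≤ Real.exp (l.map norm).sum - 1 ∧
    ‖(l.map fun A => 1 + A).prod - 1 - l.sum‖ ≤
      Real.exp (l.map norm).sum - 1 - (l.map norm).sum := by
  induction l with
  | nil => simp [h1]
  | cons A l ih =>
    obtain ⟨i1, i2, i3⟩ := ih
    set P := (l.map fun A => 1 + A).prod with hP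
    set s := (l.map norm).sum with hs
    have hs0 : 0 ≤ s := List.sum_nonneg (by
      intro x hx
      obtain ⟨a, _, rfl⟩ := List.mem_map.1 hx
      exact norm_nonneg _)
    simp only [List.map_cons, List.prod_cons, List.sum_cons, ← hP, ← hs]
    have hA0 := norm_nonneg A
    have ja : 1 + ‖A‖ ≤ Real.exp ‖A‖ := by
      have := Real.add_one_le_exp ‖A‖
      linarith
    have j1 : ‖1 + A‖ ≤ Real.exp ‖A‖ := by
      refine (norm_add_le _ _).trans ?_
      linarith
    have hE0 : 0 ≤ Real.exp s - 1 := (norm_nonneg _).trans i2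
    have k : ‖A * (P - 1)‖ ≤ ‖A‖ * (Real.exp s - 1) :=
      (norm_mul_le _ _).trans (mul_le_mul_of_nonneg_left i2 hA0)
    have k2 : ‖A‖ * (Real.exp s - 1) ≤ (Real.exp ‖A‖ - 1) * (Real.exp s - 1) :=
      mul_le_mul_of_nonneg_right (by linarith) hE0
    refine ⟨?_, ?_, ?_⟩
    · rw [Real.exp_add]
      exact (norm_mul_le _ _).trans (mul_le_mul j1 i1 (norm_nonneg _) (Real.exp_pos _).le)
    · have e : (1 + A) * P - 1 = A * (P - 1) + A + (P - 1) := by noncomm_ring
      rw [e, Real.exp_add]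
      refine norm_add₃_le.trans ?_
      nlinarith
    · have e : (1 + A) * P - 1 - (A + l.sum) = A * (P - 1) + (P - 1 - l.sum) := by noncomm_ring
      rw [e, Real.exp_add]
      refine (norm_add_le _ _).trans ?_
      nlinarith

variable [CompleteSpace 𝔸]

omit [CompleteSpace 𝔸] in
/-- The exponential of `t S`. -/
theorem norm_exp_smul_le (h1 : ‖(1 : 𝔸)‖ ≤ 1) {S : 𝔸} {c t : ℝ} (hS : ‖S‖ ≤ c) (ht : 0 ≤ t)
    (ht1 : t ≤ 1) : ‖exp (t • S)‖ ≤ Real.exp c := by
  refine (norm_exp_le h1 _).trans (Real.exp_le_exp.2 ?_)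
  rw [norm_smul, Real.norm_of_nonneg ht]
  have h0 := norm_nonneg S
  nlinarith

/-- Continuity of the exponential in `t`. -/
theorem norm_exp_smul_sub_le (h1 : ‖(1 : 𝔸)‖ ≤ 1) {S : 𝔸} {c t d : ℝ} (hS : ‖S‖ ≤ c) (ht : 0 ≤ t)
    (ht1 : t ≤ 1) (hd : 0 ≤ d) (hd1 : d ≤ 1) :
    ‖exp ((t + d) • S) - exp (t • S)‖ ≤ d * (c * Real.exp (2 * c)) := by
  have hc : 0 ≤ c := (norm_nonneg S).trans hS
  have e : exp ((t + d) • S) = exp (t • S) * exp (d • S) := by
    let _ : NormedAlgebra ℚ 𝔸 := NormedAlgebra.restrictScalars ℚ ℝ 𝔸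
    rw [add_smul]
    exact exp_add_of_commute (Commute.smul_left (Commute.smul_right (Commute.refl S) d) t)
  have e2 : exp ((t + d) • S) - exp (t • S) = exp (t • S) * (exp (d • S) - 1) := by
    rw [e, mul_sub, mul_one]
  rw [e2]
  refine (norm_mul_le _ _).trans ?_
  have h2 := norm_exp_smul_le h1 hS ht ht1
  have h3 : ‖exp (d • S) - 1‖ ≤ d * (c * Real.exp c) := by
    refine (norm_exp_sub_one_le _).trans ?_
    have h4 : ‖d • S‖ ≤ d * c := by
      rw [norm_smul, Real.norm_of_nonneg hd]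
      exact mul_le_mul_of_nonneg_left hS hd
    have h5 : Real.exp ‖d • S‖ ≤ Real.exp (d * c) := Real.exp_le_exp.2 h4
    have h6 : Real.exp (d * c) - 1 ≤ d * c * Real.exp (d * c) := by
      have h7 := Real.add_one_le_exp (-(d * c))
      have h8 : (1 - d * c) * Real.exp (d * c) ≤ Real.exp (-(d * c)) * Real.exp (d * c) :=
        mul_le_mul_of_nonneg_right (by linarith) (Real.exp_pos _).le
      rw [← Real.exp_add, neg_add_cancel, Real.exp_zero] at h8
      linarith
    have h9 : Real.exp (d * c) ≤ Real.exp c := Real.exp_le_exp.2 (by nlinarith)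
    have h10 : d * c * Real.exp (d * c) ≤ d * c * Real.exp c :=
      mul_le_mul_of_nonneg_left h9 (mul_nonneg hd hc)
    linarith
  calc ‖exp (t • S)‖ * ‖exp (d • S) - 1‖ ≤ Real.exp c * (d * (c * Real.exp c)) :=
        mul_le_mul h2 h3 (norm_nonneg _) (Real.exp_pos _).le
    _ = d * (c * Real.exp (2 * c)) := by rw [two_mul, Real.exp_add]; ring

/-- Uniform Lie-Trotter at every intermediate slice, for factors `1 + A / N`. -/
theorem trotter_lin (h1 : ‖(1 : 𝔸)‖ ≤ 1) (l : List 𝔸) {c : ℝ}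
    (hc : (l.map norm).sum ≤ c) {N k : ℕ} (hN : 1 ≤ N) (hk : k ≤ N) :
    ‖((l.map fun A => 1 + (N : ℝ)⁻¹ • A).prod) ^ k - exp (((k : ℝ) / N) • l.sum)‖
      ≤ 2 * c ^ 2 * Real.exp (2 * c) / N ∧
    ‖((l.map fun A => 1 + (N : ℝ)⁻¹ • A).prod) ^ k‖ ≤ Real.exp c := by
  have hN0 : (0 : ℝ) < N := by exact_mod_cast hN
  have h0 : 0 ≤ (l.map norm).sum := List.sum_nonneg (by
      intro x hx
      obtain ⟨a, _, rfl⟩ := List.mem_map.1 hx
      exact norm_nonneg _)
  have hc0 : 0 ≤ c := h0.trans hc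
  set l' := l.map fun A => (N : ℝ)⁻¹ • A with hl'
  have hsum : l'.sum = (N : ℝ)⁻¹ • l.sum := by
    rw [hl', ← List.smul_sum]
  have hnorm : (l'.map norm).sum ≤ c / N := by
    have e : (l'.map norm) = (l.map norm).map (fun x => (N : ℝ)⁻¹ * x) := by
      rw [hl', List.map_map, List.map_map]
      apply List.map_congr_left
      intro A _
      simp [norm_smul]
    rw [e, List.sum_map_mul_left, List.map_id', div_eq_inv_mul]
    gcongr
  have hmap : (l.map fun A => 1 + (N : ℝ)⁻¹ • A) = l'.map fun A => 1 + A := by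
    rw [hl', List.map_map]; rfl
  rw [hmap]
  obtain ⟨i1, -, i3⟩ := prod_lin_bounds h1 l'
  have h0' : 0 ≤ (l'.map norm).sum := List.sum_nonneg (by
      intro x hx
      obtain ⟨a, _, rfl⟩ := List.mem_map.1 hx
      exact norm_nonneg _)
  have mono : ∀ x : ℝ, 0 ≤ x → x ≤ c / N →
      Real.exp x - 1 - x ≤ (c / N) ^ 2 * Real.exp (c / N) := by
    intro x hx hxs
    refine (exp_rem_le hx).trans ?_
    gcongr
  have hstep : ‖(l'.map fun A => 1 + A).prod - exp l'.sum‖ ≤
      2 * ((c / N) ^ 2 * Real.exp (c / N)) := by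
    have j3 := norm_exp_sub_one_sub_le l'.sum
    have e : (l'.map fun A => 1 + A).prod - exp l'.sum
        = ((l'.map fun A => 1 + A).prod - 1 - l'.sum) - (exp l'.sum - 1 - l'.sum) := by abel
    rw [e]
    refine (norm_sub_le _ _).trans ?_
    have k1 := mono _ h0' hnorm
    have k2 := mono _ (norm_nonneg l'.sum) ((norm_list_sum_le l').trans hnorm)
    linarith
  have hw : ‖(l'.map fun A => 1 + A).prod‖ ≤ Real.exp (c / N) :=
    i1.trans (Real.exp_le_exp.2 hnorm)
  have ha : ‖exp l'.sum‖ ≤ Real.exp (c / N) :=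
    (norm_exp_le h1 _).trans (Real.exp_le_exp.2 ((norm_list_sum_le l').trans hnorm))
  have hM : 1 ≤ Real.exp (c / N) := Real.one_le_exp (by positivity)
  have epow : exp (((k : ℝ) / N) • l.sum) = exp l'.sum ^ k := by
    let _ : NormedAlgebra ℚ 𝔸 := NormedAlgebra.restrictScalars ℚ ℝ 𝔸
    rw [← exp_nsmul, ← Nat.cast_smul_eq_nsmul ℝ, hsum, smul_smul, div_eq_mul_inv]
  have e2 : Real.exp (c / N) ^ k ≤ Real.exp c := by
    rw [← Real.exp_nat_mul]
    apply Real.exp_le_exp.2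
    rw [mul_div_assoc', div_le_iff₀ hN0, mul_comm c]
    gcongr
  have e3 : Real.exp (c / N) ≤ Real.exp c := by
    apply Real.exp_le_exp.2
    exact div_le_self hc0 (by exact_mod_cast hN)
  refine ⟨?_, ?_⟩
  · rw [epow]
    refine (norm_pow_sub_pow_le hM hw ha k h1).trans ?_
    calc (k : ℝ) * Real.exp (c / N) ^ k * ‖(l'.map fun A => 1 + A).prod - exp l'.sum‖
        ≤ (N : ℝ) * Real.exp c * (2 * ((c / N) ^ 2 * Real.exp c)) := by
          gcongr
          refine hstep.trans ?_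
          gcongr
      _ = 2 * c ^ 2 * Real.exp (2 * c) / N := by
          rw [two_mul c, Real.exp_add]
          field_simp
  · refine le_trans ?_ e2
    rcases Nat.eq_zero_or_pos k with hk0 | hk0
    · subst hk0
      simpa using h1
    · exact (norm_pow_le' _ hk0).trans (pow_le_pow_left₀ (norm_nonneg _) hw k)

/-- The constant of `insert_lin`. -/
noncomputable def cI (c C : ℝ) : ℝ :=
  (2 * c ^ 2 * Real.exp (2 * c)) * (1 + C) * Real.exp c + Real.exp c * C * Real.exp c +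
    Real.exp c * (2 * c ^ 2 * Real.exp (2 * c) + c * Real.exp (2 * c))

/-- An inserted factor. -/
theorem insert_lin (h1 : ‖(1 : 𝔸)‖ ≤ 1) (l : List 𝔸) {c C : ℝ}
    (hc : (l.map norm).sum ≤ c) (hC : 0 ≤ C) {N k : ℕ} (hk : 1 ≤ k) (hkN : k ≤ N) {M O : 𝔸}
    (hO : ‖O‖ ≤ 1) (hM : ‖M - O‖ ≤ C / N) :
    ‖((l.map fun A => 1 + (N : ℝ)⁻¹ • A).prod) ^ (N - k) * M *
        ((l.map fun A => 1 + (N : ℝ)⁻¹ • A).prod) ^ (k - 1) -
      exp ((1 - (k : ℝ) / N) • l.sum) * O * exp (((k : ℝ) / N) • l.sum)‖ ≤ cI c C / N := by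
  have hN : 1 ≤ N := hk.trans hkN
  have hN0 : (0 : ℝ) < N := by exact_mod_cast hN
  have hN1 : (1 : ℝ) ≤ N := by exact_mod_cast hN
  have h0 : 0 ≤ (l.map norm).sum := List.sum_nonneg (by
      intro x hx
      obtain ⟨a, _, rfl⟩ := List.mem_map.1 hx
      exact norm_nonneg _)
  have hc0 : 0 ≤ c := h0.trans hc
  have hS : ‖l.sum‖ ≤ c := (norm_list_sum_le l).trans hc
  obtain ⟨a1, -⟩ := trotter_lin h1 l hc hN (show N - k ≤ N by omega)
  obtain ⟨b1, b2⟩ := trotter_lin h1 l hc hN (show k - 1 ≤ N by omega)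
  have ec1 : (((N - k : ℕ) : ℝ) / N) = 1 - (k : ℝ) / N := by
    rw [Nat.cast_sub hkN]
    field_simp
  rw [ec1] at a1
  set P := ((l.map fun A => 1 + (N : ℝ)⁻¹ • A).prod) with hP
  set E1 := exp ((1 - (k : ℝ) / N) • l.sum) with hE1
  set E2 := exp (((k : ℝ) / N) • l.sum) with hE2
  have hkN' : (k : ℝ) ≤ N := by exact_mod_cast hkN
  have hk' : (1 : ℝ) ≤ k := by exact_mod_cast hk
  have hd : (k : ℝ) / N ≤ 1 := (div_le_one hN0).2 hkN'
  have hd0 : 0 ≤ (k : ℝ) / N := by positivity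
  have n1 : ‖E1‖ ≤ Real.exp c := norm_exp_smul_le h1 hS (by linarith) (by linarith)
  have hMn : ‖M‖ ≤ 1 + C := by
    have e : M = O + (M - O) := by abel
    have h2 : C / N ≤ C := div_le_self hC hN1
    calc ‖M‖ = ‖O + (M - O)‖ := by rw [← e]
      _ ≤ ‖O‖ + ‖M - O‖ := norm_add_le _ _
      _ ≤ 1 + C := by linarith
  have b3 : ‖P ^ (k - 1) - E2‖ ≤ (2 * c ^ 2 * Real.exp (2 * c) + c * Real.exp (2 * c)) / N := by
    have ec2 : (((k - 1 : ℕ) : ℝ) / N) + 1 / N = (k : ℝ) / N := by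
      rw [Nat.cast_sub hk]
      push_cast
      field_simp
      ring
    have hd1 : (1 : ℝ) / N ≤ 1 := (div_le_one hN0).2 hN1
    have hd10 : (0 : ℝ) ≤ 1 / N := by positivity
    have hd2 : 0 ≤ (((k - 1 : ℕ) : ℝ) / N) := by positivity
    have h3 := norm_exp_smul_sub_le h1 (t := (((k - 1 : ℕ) : ℝ) / N)) (d := 1 / N) hS hd2
      (by linarith) hd10 hd1
    rw [ec2] at h3
    have e : P ^ (k - 1) - E2 = (P ^ (k - 1) - exp ((((k - 1 : ℕ) : ℝ) / N) • l.sum)) -
        (E2 - exp ((((k - 1 : ℕ) : ℝ) / N) • l.sum)) := by abel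
    rw [e]
    refine (norm_sub_le _ _).trans ?_
    refine (add_le_add b1 h3).trans (le_of_eq ?_)
    field_simp
  have e : P ^ (N - k) * M * P ^ (k - 1) - E1 * O * E2 =
      (P ^ (N - k) - E1) * M * P ^ (k - 1) + E1 * (M - O) * P ^ (k - 1) +
        E1 * O * (P ^ (k - 1) - E2) := by noncomm_ring
  rw [e]
  refine norm_add₃_le.trans ?_
  have t1 : ‖(P ^ (N - k) - E1) * M * P ^ (k - 1)‖ ≤
      (2 * c ^ 2 * Real.exp (2 * c) / N) * (1 + C) * Real.exp c := by
    refine (norm_mul_le _ _).trans (mul_le_mul ?_ b2 (norm_nonneg _) (by positivity))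
    exact (norm_mul_le _ _).trans (mul_le_mul a1 hMn (norm_nonneg _) (by positivity))
  have t2 : ‖E1 * (M - O) * P ^ (k - 1)‖ ≤ Real.exp c * (C / N) * Real.exp c := by
    refine (norm_mul_le _ _).trans (mul_le_mul ?_ b2 (norm_nonneg _) (by positivity))
    exact (norm_mul_le _ _).trans (mul_le_mul n1 hM (norm_nonneg _) (by positivity))
  have t3 : ‖E1 * O * (P ^ (k - 1) - E2)‖ ≤
      Real.exp c * 1 * ((2 * c ^ 2 * Real.exp (2 * c) + c * Real.exp (2 * c)) / N) := by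
    refine (norm_mul_le _ _).trans (mul_le_mul ?_ b3 (norm_nonneg _) (by positivity))
    exact (norm_mul_le _ _).trans (mul_le_mul n1 hO (norm_nonneg _) (by positivity))
  refine (add_le_add (add_le_add t1 t2) t3).trans (le_of_eq ?_)
  unfold cI
  field_simp

end Vale.Agent.P361.LRO.Trot
end

section

/-! P361 LRO, dictionary (D3): the limit `N → ∞` of the circuit, uniformly in the fields. -/

namespace Vale.Agent.P361.LRO.Dict

open Finset Matrix

open scoped Matrix.Norms.Operator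

noncomputable section

/-! ### Norms of matrices -/

section norms

variable {Y : Type} [Fintype Y] [DecidableEq Y]

theorem norm_entry_le (A : Matrix Y Y ℝ) (i j : Y) : |A i j| ≤ ‖A‖ := by
  rw [linfty_opNorm_def, ← Real.norm_eq_abs, ← coe_nnnorm, NNReal.coe_le_coe]
  exact (Finset.single_le_sum (f := fun j => ‖A i j‖₊) (fun _ _ => zero_le)
    (Finset.mem_univ j)).trans (Finset.le_sup (f := fun i => ∑ j, ‖A i j‖₊) (Finset.mem_univ i))

theorem norm_le_of_rows (A : Matrix Y Y ℝ) {c : ℝ} (hc : 0 ≤ c) (h : ∀ i, ∑ j, |A i j| ≤ c) :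
    ‖A‖ ≤ c := by
  rw [linfty_opNorm_def]
  have h1 : (Finset.univ.sup fun i => ∑ j, ‖A i j‖₊) ≤ ⟨c, hc⟩ := by
    refine Finset.sup_le fun i _ => NNReal.coe_le_coe.1 ?_
    push_cast
    simp only [Real.norm_eq_abs]
    exact h i
  exact_mod_cast h1

theorem abs_trace_le (A D : Matrix Y Y ℝ) {d : ℝ} (hD : ∀ i j, i ≠ j → D i j = 0)
    (hd : ∀ i, |D i i| ≤ d) : |trace (A * D)| ≤ Fintype.card Y * (‖A‖ * d) := by
  rw [Matrix.trace]
  refine (Finset.abs_sum_le_sum_abs _ _).trans ?_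
  have h1 : ∀ i, |(A * D).diag i| ≤ ‖A‖ * d := by
    intro i
    rw [Matrix.diag_apply, Matrix.mul_apply, Finset.sum_eq_single i]
    · rw [abs_mul]
      exact mul_le_mul (norm_entry_le A i i) (hd i) (abs_nonneg _) (norm_nonneg _)
    · intro j _ hj
      rw [hD j i hj, mul_zero]
    · intro h
      exact absurd (Finset.mem_univ _) h
  refine (Finset.sum_le_sum fun i _ => h1 i).trans (le_of_eq ?_)
  rw [Finset.sum_const, nsmul_eq_mul, Finset.card_univ]

end norms

variable {V : Type} [Fintype V] [DecidableEq V]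

/-- Sign of a spin. -/
def sg (a : Fin 2) : ℝ := if a = 0 then 1 else -1

theorem abs_sg (a : Fin 2) : |sg a| = 1 := by
  unfold sg
  split_ifs <;> simp

theorem norm_one_le : ‖(1 : Matrix (V → Fin 2) (V → Fin 2) ℝ)‖ ≤ 1 := norm_one.le

theorem norm_szM (x : V) : ‖(szM x : Matrix (V → Fin 2) (V → Fin 2) ℝ)‖ ≤ 1 := by
  unfold szM
  rw [linfty_opNorm_diagonal]
  refine (pi_norm_le_iff_of_nonneg zero_le_one).2 fun σ => ?_
  split_ifs <;> simp

theorem norm_swapM (x y : V) : ‖(swapM x y : Matrix (V → Fin 2) (V → Fin 2) ℝ)‖ ≤ 1 := by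
  refine norm_le_of_rows _ zero_le_one fun σ => ?_
  rw [Finset.sum_eq_single (σ ∘ Equiv.swap x y)]
  · simp only [swapM, Matrix.of_apply]
    split_ifs <;> simp
  · intro τ _ hτ
    simp only [swapM, Matrix.of_apply]
    rw [if_neg, abs_zero]
    rintro rfl
    apply hτ
    funext z
    simp
  · intro h
    exact absurd (Finset.mem_univ _) h

/-! ### The layers as products of factors `1 + A / N` -/

/-- The sites. -/
def sites (β : ℝ) (h : V → ℝ) : List (Matrix (V → Fin 2) (V → Fin 2) ℝ) :=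
  (Finset.univ : Finset V).toList.map fun x => (β * h x / 2) • szM x

/-- The edges. -/
def bonds (L : List (V × V)) (β : ℝ) : List (Matrix (V → Fin 2) (V → Fin 2) ℝ) :=
  L.reverse.map fun e => (β / 2) • (swapM e.1 e.2 - 1)

omit [DecidableEq V] in
theorem layM_dgM (θ : V → ℝ) : layM (fun x => dgM (θ x)) =
    Matrix.diagonal fun σ : V → Fin 2 => ∏ x, (1 + θ x * sg (σ x)) := by
  ext σ τ
  rw [layM, Matrix.of_apply]
  by_cases h : σ = τ
  · subst h
    rw [Matrix.diagonal_apply_eq]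
    refine Finset.prod_congr rfl fun x _ => ?_
    unfold dgM sg
    rcases Fin.exists_fin_two.1 ⟨σ x, rfl⟩ with h0 | h0 <;> rw [h0] <;> simp [sub_eq_add_neg]
  · rw [Matrix.diagonal_apply_ne _ h]
    obtain ⟨x, hx⟩ := Function.ne_iff.1 h
    exact Finset.prod_eq_zero (Finset.mem_univ x) (dgM_ne _ hx)

theorem prod_diag (l : List V) (θ : V → ℝ) :
    (l.map fun x => (1 : Matrix (V → Fin 2) (V → Fin 2) ℝ) + θ x • szM x).prod =
      Matrix.diagonal fun σ => (l.map fun x => 1 + θ x * sg (σ x)).prod := by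
  induction l with
  | nil =>
    simp only [List.map_nil, List.prod_nil]
    exact Matrix.diagonal_one.symm
  | cons x l ih =>
    rw [List.map_cons, List.prod_cons, ih]
    have e : (1 : Matrix (V → Fin 2) (V → Fin 2) ℝ) + θ x • szM x =
        Matrix.diagonal fun σ => 1 + θ x * sg (σ x) := by
      rw [← Matrix.diagonal_one, szM, ← Matrix.diagonal_smul, Matrix.diagonal_add]
      rfl
    rw [e, Matrix.diagonal_mul_diagonal]
    simp only [List.map_cons, List.prod_cons]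

theorem layM_eq (β : ℝ) {N : ℕ} (h : V → ℝ) : layM (fun x => dgM (β * h x / (2 * N))) =
    ((sites β h).map fun A => 1 + (N : ℝ)⁻¹ • A).prod := by
  have e : ((sites β h).map fun A => 1 + (N : ℝ)⁻¹ • A) =
      (Finset.univ : Finset V).toList.map fun x =>
        (1 : Matrix (V → Fin 2) (V → Fin 2) ℝ) + (β * h x / (2 * N)) • szM x := by
    unfold sites
    rw [List.map_map]
    refine List.map_congr_left fun x _ => ?_
    show 1 + (N : ℝ)⁻¹ • ((β * h x / 2) • szM x) = _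
    rw [smul_smul]
    congr 2
    rw [div_mul_eq_div_div, div_eq_mul_inv, mul_comm]
    ring
  rw [e, prod_diag, layM_dgM]
  congr 1
  funext σ
  exact (Finset.prod_map_toList _ _).symm

theorem gatM_eq (L : List (V × V)) (β : ℝ) {N : ℕ} : gatM L (β / (2 * N)) =
    ((bonds L β).map fun A => 1 + (N : ℝ)⁻¹ • A).prod := by
  unfold gatM bonds
  rw [List.map_map]
  congr 1
  refine List.map_congr_left fun e _ => ?_
  show (1 - β / (2 * N)) • (1 : Matrix (V → Fin 2) (V → Fin 2) ℝ) + (β / (2 * N)) • swapM e.1 e.2 =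
    1 + (N : ℝ)⁻¹ • ((β / 2) • (swapM e.1 e.2 - 1))
  have e1 : (N : ℝ)⁻¹ * (β / 2) = β / (2 * N) := by
    rw [div_mul_eq_div_div, div_eq_mul_inv (β / 2), mul_comm]
  rw [smul_smul, e1, sub_smul, one_smul, smul_sub]
  abel

/-- The bound of the norms. -/
def cc0 (L : List (V × V)) (β : ℝ) : ℝ := Fintype.card V * (β / 2) + L.length * β

theorem norm_sites {β : ℝ} (hβ : 0 ≤ β) {h : V → ℝ} (hh : ∀ x, 0 ≤ h x ∧ h x ≤ 1) :
    ((sites β h).map norm).sum ≤ Fintype.card V * (β / 2) := by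
  unfold sites
  rw [List.map_map]
  have h1 : ∀ x ∈ (Finset.univ : Finset V).toList,
      (norm ∘ fun x => (β * h x / 2) • szM x) x ≤ β / 2 := by
    intro x _
    show ‖(β * h x / 2) • (szM x : Matrix (V → Fin 2) (V → Fin 2) ℝ)‖ ≤ β / 2
    rw [norm_smul]
    have h2 : ‖β * h x / 2‖ ≤ β / 2 := by
      rw [Real.norm_of_nonneg (by have := (hh x).1; positivity)]
      have := mul_le_mul_of_nonneg_left (hh x).2 hβ
      linarith
    calc ‖β * h x / 2‖ * ‖(szM x : Matrix (V → Fin 2) (V → Fin 2) ℝ)‖ ≤ (β / 2) * 1 :=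
          mul_le_mul h2 (norm_szM x) (norm_nonneg _) (by positivity)
      _ = β / 2 := mul_one _
  refine (List.sum_le_card_nsmul _ (β / 2) ?_).trans (le_of_eq ?_)
  · intro y hy
    obtain ⟨x, hx, rfl⟩ := List.mem_map.1 hy
    exact h1 x hx
  · rw [List.length_map, Finset.length_toList, Finset.card_univ, nsmul_eq_mul]

theorem norm_bonds (L : List (V × V)) {β : ℝ} (hβ : 0 ≤ β) :
    ((bonds L β).map norm).sum ≤ L.length * β := by
  unfold bonds
  rw [List.map_map]
  have h1 : ∀ e ∈ L.reverse,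
      (norm ∘ fun e : V × V => (β / 2) • (swapM e.1 e.2 - 1)) e ≤ β := by
    intro e _
    show ‖(β / 2) • ((swapM e.1 e.2 : Matrix (V → Fin 2) (V → Fin 2) ℝ) - 1)‖ ≤ β
    rw [norm_smul, Real.norm_of_nonneg (by positivity)]
    have h2 : ‖(swapM e.1 e.2 : Matrix (V → Fin 2) (V → Fin 2) ℝ) - 1‖ ≤ 2 := by
      refine (norm_sub_le _ _).trans ?_
      have := norm_swapM e.1 e.2
      have := norm_one_le (V := V)
      linarith
    nlinarith
  refine (List.sum_le_card_nsmul _ β ?_).trans (le_of_eq ?_)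
  · intro y hy
    obtain ⟨x, hx, rfl⟩ := List.mem_map.1 hy
    exact h1 x hx
  · rw [List.length_map, List.length_reverse, nsmul_eq_mul]

/-- The generator. -/
def gen0 (L : List (V × V)) (β : ℝ) (h : V → ℝ) : List (Matrix (V → Fin 2) (V → Fin 2) ℝ) :=
  sites β h ++ bonds L β

theorem norm_gen0 (L : List (V × V)) {β : ℝ} (hβ : 0 ≤ β) {h : V → ℝ}
    (hh : ∀ x, 0 ≤ h x ∧ h x ≤ 1) : ((gen0 L β h).map norm).sum ≤ cc0 L β := by
  unfold gen0 cc0
  rw [List.map_append, List.sum_append]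
  exact add_le_add (norm_sites hβ hh) (norm_bonds L hβ)

theorem gen0_sum (L : List (V × V)) (β : ℝ) (h : V → ℝ) : (gen0 L β h).sum = -β • ham L h := by
  have e1 : (sites β h).sum = β • ∑ x, (h x / 2) • szM x := by
    unfold sites
    rw [Finset.sum_map_toList, Finset.smul_sum]
    refine Finset.sum_congr rfl fun x _ => ?_
    rw [smul_smul, mul_div_assoc]
  have e2 : (bonds L β).sum = -β • (L.map fun e => hM e.1 e.2).sum := by
    unfold bonds
    rw [List.map_reverse, List.sum_reverse, List.smul_sum, List.map_map]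
    congr 1
    refine List.map_congr_left fun e _ => ?_
    show (β / 2) • ((swapM e.1 e.2 : Matrix (V → Fin 2) (V → Fin 2) ℝ) - 1) = -β • hM e.1 e.2
    unfold hM
    rw [smul_smul, ← neg_sub, smul_neg, ← neg_smul]
    congr 1
    ring
  unfold gen0 ham
  rw [List.sum_append, e1, e2, smul_sub]
  simp only [neg_smul]
  abel

/-- One layer with its gates. -/
theorem layer_eq (L : List (V × V)) (β : ℝ) {N : ℕ} (h : V → ℝ) :
    layM (fun x => dgM (β * h x / (2 * N))) * gatM L (β / (2 * N)) =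
      ((gen0 L β h).map fun A => 1 + (N : ℝ)⁻¹ • A).prod := by
  unfold gen0
  rw [List.map_append, List.prod_append, layM_eq, gatM_eq]

/-! ### Positivity -/

/-- Nonnegative entries, and the entry of the configuration with all spins up is at least one. -/
def PU (A : Matrix (V → Fin 2) (V → Fin 2) ℝ) : Prop :=
  (∀ i j, 0 ≤ A i j) ∧ 1 ≤ A (fun _ => 0) (fun _ => 0)

theorem PU.mul {A B : Matrix (V → Fin 2) (V → Fin 2) ℝ} (hA : PU A) (hB : PU B) : PU (A * B) := by
  refine ⟨fun i j => ?_, ?_⟩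
  · rw [Matrix.mul_apply]
    exact Finset.sum_nonneg fun k _ => mul_nonneg (hA.1 _ _) (hB.1 _ _)
  · rw [Matrix.mul_apply]
    have h1 : A (fun _ => 0) (fun _ => 0) * B (fun _ => 0) (fun _ => 0) ≤
        ∑ k, A (fun _ => 0) k * B k (fun _ => 0) :=
      Finset.single_le_sum (f := fun k => A (fun _ => 0) k * B k (fun _ => 0))
        (fun k _ => mul_nonneg (hA.1 _ _) (hB.1 _ _)) (Finset.mem_univ _)
    have h2 := one_le_mul_of_one_le_of_one_le hA.2 hB.2
    linarith

omit [DecidableEq V] in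
theorem PU.one : PU (1 : Matrix (V → Fin 2) (V → Fin 2) ℝ) := by
  refine ⟨fun i j => ?_, ?_⟩
  · rw [Matrix.one_apply]
    split_ifs <;> norm_num
  · rw [Matrix.one_apply_eq]

theorem PU.pow {A : Matrix (V → Fin 2) (V → Fin 2) ℝ} (hA : PU A) (k : ℕ) : PU (A ^ k) := by
  induction k with
  | zero => rw [pow_zero]; exact PU.one
  | succ k ih => rw [pow_succ]; exact ih.mul hA

theorem PU.list {l : List (Matrix (V → Fin 2) (V → Fin 2) ℝ)} (hl : ∀ A ∈ l, PU A) :
    PU l.prod := by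
  induction l with
  | nil => exact PU.one
  | cons A l ih =>
    rw [List.prod_cons]
    exact (hl A List.mem_cons_self).mul (ih fun B hB => hl B (List.mem_cons_of_mem _ hB))

theorem PU.trace {A : Matrix (V → Fin 2) (V → Fin 2) ℝ} (hA : PU A) : 1 ≤ trace A := by
  rw [Matrix.trace]
  have h1 : A.diag (fun _ => 0) ≤ ∑ i, A.diag i :=
    Finset.single_le_sum (f := fun i => A.diag i) (fun i _ => hA.1 _ _) (Finset.mem_univ _)
  exact hA.2.trans h1

theorem PU.gatM (L : List (V × V)) {p : ℝ} (hp : 0 ≤ p) (hp1 : p ≤ 1) :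
    PU (gatM L p : Matrix (V → Fin 2) (V → Fin 2) ℝ) := by
  refine PU.list fun A hA => ?_
  obtain ⟨e, _, rfl⟩ := List.mem_map.1 hA
  refine ⟨fun i j => ?_, ?_⟩
  · simp only [gatR, swapR, Matrix.add_apply, Matrix.smul_apply, Matrix.one_apply, Matrix.of_apply,
      smul_eq_mul]
    split_ifs <;> linarith
  · simp only [gatR, swapR, Matrix.add_apply, Matrix.smul_apply, Matrix.one_apply, Matrix.of_apply,
      smul_eq_mul]
    have e1 : (fun _ : V => (0 : Fin 2)) = (fun _ => 0) ∘ Equiv.swap e.1 e.2 := rfl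
    rw [if_pos trivial, if_pos e1]
    linarith

omit [DecidableEq V] in
theorem PU.layM {θ : V → ℝ} (hθ : ∀ x, 0 ≤ θ x ∧ θ x ≤ 1) :
    PU (layM (fun x => dgM (θ x)) : Matrix (V → Fin 2) (V → Fin 2) ℝ) := by
  rw [layM_dgM]
  refine ⟨fun i j => ?_, ?_⟩
  · rw [Matrix.diagonal_apply]
    split_ifs
    · refine Finset.prod_nonneg fun x _ => ?_
      have h1 := abs_sg (i x)
      have h2 := neg_abs_le (sg (i x))
      have h3 := hθ x
      rw [h1] at h2
      nlinarith
    · exact le_rfl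
  · rw [Matrix.diagonal_apply_eq]
    have h1 : ∀ x : V, (1 : ℝ) ≤ 1 + θ x * sg 0 := fun x => by
      unfold sg
      rw [if_pos rfl]
      linarith [(hθ x).1]
    have h2 := Finset.prod_le_prod (s := (Finset.univ : Finset V)) (f := fun _ => (1 : ℝ))
      (g := fun x : V => 1 + θ x * sg 0) (fun _ _ => zero_le_one) (fun x _ => h1 x)
    rwa [Finset.prod_const_one] at h2

/-! ### The layers with an inserted matrix -/

omit [DecidableEq V] in
theorem layT_eq (T : V → ℝ) : layT T = layM fun x => dgM (T x) := by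
  rw [layM_dgM]
  rfl

theorem dgM_zero : (dgM (0 : ℝ) : Matrix (Fin 2) (Fin 2) ℝ) = 1 := by
  unfold dgM
  rw [add_zero, sub_zero, Matrix.one_fin_two]

theorem layM_up1 (θ : V → ℝ) (x : V) : layM (Function.update (fun y => dgM (θ y)) x 1) =
    layM fun y => dgM (Function.update θ x 0 y) := by
  congr 1
  funext y
  by_cases h : y = x
  · subst h
    rw [Function.update_self, Function.update_self, dgM_zero]
  · rw [Function.update_of_ne h, Function.update_of_ne h]

theorem layM_up3 (θ : V → ℝ) (x : V) : layM (Function.update (fun y => dgM (θ y)) x m3) =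
    (layM fun y => dgM (Function.update θ x 0 y)) * szM x := by
  rw [layM_dgM, szM, Matrix.diagonal_mul_diagonal]
  ext σ τ
  rw [layM, Matrix.of_apply]
  by_cases h : σ = τ
  · subst h
    rw [Matrix.diagonal_apply_eq, ← Finset.mul_prod_erase Finset.univ _ (Finset.mem_univ x),
      ← Finset.mul_prod_erase Finset.univ (fun y => 1 + Function.update θ x 0 y * sg (σ y))
        (Finset.mem_univ x), Function.update_self, Function.update_self, zero_mul, add_zero, one_mul,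
      mul_comm]
    congr 1
    · refine Finset.prod_congr rfl fun y hy => ?_
      rw [Function.update_of_ne (Finset.ne_of_mem_erase hy),
        Function.update_of_ne (Finset.ne_of_mem_erase hy)]
      unfold dgM sg
      rcases Fin.exists_fin_two.1 ⟨σ y, rfl⟩ with h0 | h0 <;> rw [h0] <;> simp [sub_eq_add_neg]
    · unfold m3
      rcases Fin.exists_fin_two.1 ⟨σ x, rfl⟩ with h0 | h0 <;> rw [h0] <;> simp
  · rw [Matrix.diagonal_apply_ne _ h]
    obtain ⟨y, hy⟩ := Function.ne_iff.1 h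
    refine Finset.prod_eq_zero (Finset.mem_univ y) ?_
    by_cases hyx : y = x
    · subst hyx
      rw [Function.update_self]
      unfold m3
      revert hy
      generalize σ y = a
      generalize τ y = b
      intro hab
      fin_cases a <;> fin_cases b <;> simp_all
    · rw [Function.update_of_ne hyx]
      exact dgM_ne _ hy

/-- The word with one layer changed. -/
theorem word_eq (L : List (V × V)) (β : ℝ) {N : ℕ} (h T : V → ℝ) {k : Fin (N + 1)} (hk : k ≠ 0)
    (x : V) (O : Matrix (Fin 2) (Fin 2) ℝ) :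
    NZ (phys L β N) (Function.update (fun z => dgM (th β N h T z)) (k, x) O) =
      trace ((((gen0 L β h).map fun A => 1 + (N : ℝ)⁻¹ • A).prod ^ (N - (k : ℕ)) *
        (layM (Function.update (fun y => dgM (β * h y / (2 * N))) x O) * gatM L (β / (2 * N))) *
        ((gen0 L β h).map fun A => 1 + (N : ℝ)⁻¹ • A).prod ^ ((k : ℕ) - 1)) * layT T) := by
  have hk1 : 1 ≤ (k : ℕ) := Nat.one_le_iff_ne_zero.2 fun h0 => hk (Fin.ext h0)
  have hkN : (k : ℕ) ≤ N := Nat.lt_succ_iff.1 k.2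
  rw [NZ_phys]
  set f : ℕ → Matrix (V → Fin 2) (V → Fin 2) ℝ := fun j => layM (fun y =>
    Function.update (fun z => dgM (th β N h T z)) (k, x) O (Fin.ofNat (N + 1) j, y)) *
      gatM L (β / (2 * N)) with hf
  have hval : ∀ j, j ≤ N → ((Fin.ofNat (N + 1) j : Fin (N + 1)) : ℕ) = j := fun j hj => by
    rw [Fin.val_ofNat, Nat.mod_eq_of_lt (by omega)]
  have f1 : ∀ j, 1 ≤ j → j ≤ N → j ≠ (k : ℕ) →
      f j = ((gen0 L β h).map fun A => 1 + (N : ℝ)⁻¹ • A).prod := by
    intro j h1 h2 h3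
    rw [← layer_eq, hf]
    simp only
    congr 2
    funext y
    have hne : (Fin.ofNat (N + 1) j, y) ≠ (k, x) := fun he => h3 (by
      rw [← hval j h2, (Prod.mk.inj he).1])
    rw [Function.update_of_ne hne]
    unfold th
    have h0 : (Fin.ofNat (N + 1) j : Fin (N + 1)) ≠ 0 := fun he => by
      have := congrArg Fin.val he
      rw [hval j h2] at this
      simp at this
      omega
    simp only
    rw [if_neg h0]
  have fk : f k = layM (Function.update (fun y => dgM (β * h y / (2 * N))) x O) *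
      gatM L (β / (2 * N)) := by
    rw [hf]
    simp only
    congr 2
    funext y
    have hkk : (Fin.ofNat (N + 1) (k : ℕ) : Fin (N + 1)) = k := Fin.ext (hval k hkN)
    rw [hkk]
    by_cases hy : y = x
    · subst hy
      rw [Function.update_self, Function.update_self]
    · rw [Function.update_of_ne hy, Function.update_of_ne fun he => hy (Prod.mk.inj he).2]
      unfold th
      simp only
      rw [if_neg hk]
  have hs1 : down f N = down (fun j => f ((k : ℕ) + j)) (N - k) * down f k := by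
    conv_lhs => rw [show N = (N - (k : ℕ)) + k by omega]
    rw [down_split]
  have hs2 : down f (k : ℕ) = f k * down f ((k : ℕ) - 1) := by
    conv_lhs => rw [show (k : ℕ) = ((k : ℕ) - 1) + 1 by omega]
    show f ((k : ℕ) - 1 + 1) * _ = _
    rw [show (k : ℕ) - 1 + 1 = k by omega]
  rw [hs1, hs2, down_congr (g := fun _ => ((gen0 L β h).map fun A => 1 + (N : ℝ)⁻¹ • A).prod)
      (fun j h1 h2 => f1 _ (by omega) (by omega) (by omega)), down_const,
    down_congr (f := f) (g := fun _ => ((gen0 L β h).map fun A => 1 + (N : ℝ)⁻¹ • A).prod)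
      (fun j h1 h2 => f1 _ (by omega) (by omega) (by omega)), down_const, fk, ← mul_assoc]
  congr 2
  rw [layT_eq]
  congr 1
  funext y
  rw [Function.update_of_ne fun he => hk (Prod.mk.inj he).1.symm]
  rfl

/-! ### The limit -/

section small

variable {𝔸 : Type*} [NormedRing 𝔸] [NormedAlgebra ℝ 𝔸]

theorem lin_small (h1 : ‖(1 : 𝔸)‖ ≤ 1) (l : List 𝔸) {c : ℝ} (hc : (l.map norm).sum ≤ c) {N : ℕ}
    (hN : 1 ≤ N) : ‖(l.map fun A => 1 + (N : ℝ)⁻¹ • A).prod - 1‖ ≤ c * Real.exp c / N ∧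
      ‖(l.map fun A => 1 + (N : ℝ)⁻¹ • A).prod‖ ≤ Real.exp c := by
  have hN0 : (0 : ℝ) < N := by exact_mod_cast hN
  have h0 : 0 ≤ (l.map norm).sum := List.sum_nonneg (by
      intro x hx
      obtain ⟨a, _, rfl⟩ := List.mem_map.1 hx
      exact norm_nonneg _)
  have hc0 : 0 ≤ c := h0.trans hc
  set l' := l.map fun A => (N : ℝ)⁻¹ • A with hl'
  have hnorm : (l'.map norm).sum ≤ c / N := by
    have e : (l'.map norm) = (l.map norm).map (fun x => (N : ℝ)⁻¹ * x) := by
      rw [hl', List.map_map, List.map_map]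
      apply List.map_congr_left
      intro A _
      simp [norm_smul]
    rw [e, List.sum_map_mul_left, List.map_id', div_eq_inv_mul]
    gcongr
  have hmap : (l.map fun A => 1 + (N : ℝ)⁻¹ • A) = l'.map fun A => 1 + A := by
    rw [hl', List.map_map]; rfl
  rw [hmap]
  obtain ⟨i1, i2, -⟩ := Trot.prod_lin_bounds h1 l'
  have hd : c / N ≤ c := div_le_self hc0 (by exact_mod_cast hN)
  have hd0 : 0 ≤ c / N := by positivity
  have e1 : Real.exp (l'.map norm).sum ≤ Real.exp (c / N) := Real.exp_le_exp.2 hnorm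
  have e2 : Real.exp (c / N) ≤ Real.exp c := Real.exp_le_exp.2 hd
  refine ⟨i2.trans ?_, i1.trans (e1.trans e2)⟩
  have h7 := Real.add_one_le_exp (-(c / N))
  have h8 : (1 - c / N) * Real.exp (c / N) ≤ Real.exp (-(c / N)) * Real.exp (c / N) :=
    mul_le_mul_of_nonneg_right (by linarith) (Real.exp_pos _).le
  rw [← Real.exp_add, neg_add_cancel, Real.exp_zero] at h8
  have h9 : c / N * Real.exp (c / N) ≤ c / N * Real.exp c := mul_le_mul_of_nonneg_left e2 hd0
  have h10 : c * Real.exp c / N = c / N * Real.exp c := by ring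
  rw [h10]
  linarith

end small

/-- An inserted matrix. -/
theorem ins_bound (L : List (V × V)) {β : ℝ} (hβ : 0 ≤ β) {N : ℕ} (hN : 1 ≤ N) {h : V → ℝ}
    (hh : ∀ x, 0 ≤ h x ∧ h x ≤ 1) (x : V) {O : Matrix (V → Fin 2) (V → Fin 2) ℝ} (hO : ‖O‖ ≤ 1) :
    ‖(layM fun y => dgM (Function.update (fun y => β * h y / (2 * N)) x 0 y)) * O *
      gatM L (β / (2 * N)) - O‖ ≤ 2 * cc0 L β * Real.exp (2 * cc0 L β) / N := by
  have hc : 0 ≤ cc0 L β := by unfold cc0; positivity
  have e1 : (layM fun y => dgM (Function.update (fun y => β * h y / (2 * N)) x 0 y) :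
      Matrix (V → Fin 2) (V → Fin 2) ℝ) =
      ((sites β (Function.update h x 0)).map fun A => 1 + (N : ℝ)⁻¹ • A).prod := by
    rw [← layM_eq]
    congr 1
    funext y
    by_cases hy : y = x
    · subst hy
      rw [Function.update_self, Function.update_self, mul_zero, zero_div]
    · rw [Function.update_of_ne hy, Function.update_of_ne hy]
  have hh' : ∀ y, 0 ≤ Function.update h x 0 y ∧ Function.update h x 0 y ≤ 1 := by
    intro y
    by_cases hy : y = x
    · subst hy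
      rw [Function.update_self]
      exact ⟨le_rfl, zero_le_one⟩
    · rw [Function.update_of_ne hy]
      exact hh y
  have b1 : ((sites β (Function.update h x 0)).map norm).sum ≤ cc0 L β :=
    (norm_sites hβ hh').trans (by unfold cc0; nlinarith [Nat.cast_nonneg (α := ℝ) L.length])
  have b2 : ((bonds L β).map norm).sum ≤ cc0 L β :=
    (norm_bonds L hβ).trans (by unfold cc0; nlinarith [Nat.cast_nonneg (α := ℝ) (Fintype.card V)])
  obtain ⟨p1, p2⟩ := lin_small norm_one_le _ b1 hN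
  obtain ⟨q1, q2⟩ := lin_small norm_one_le _ b2 hN
  rw [e1, gatM_eq]
  set D := ((sites β (Function.update h x 0)).map fun A => 1 + (N : ℝ)⁻¹ • A).prod
  set G := ((bonds L β).map fun A => 1 + (N : ℝ)⁻¹ • A).prod
  set c := cc0 L β
  have e : D * O * G - O = (D - 1) * O * G + O * (G - 1) := by noncomm_ring
  rw [e]
  have hN0 : (0 : ℝ) < N := by exact_mod_cast hN
  have t1 : ‖(D - 1) * O * G‖ ≤ c * Real.exp c / N * 1 * Real.exp c :=
    (norm_mul_le _ _).trans (mul_le_mul ((norm_mul_le _ _).trans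
      (mul_le_mul p1 hO (norm_nonneg _) (by positivity))) q2 (norm_nonneg _) (by positivity))
  have t2 : ‖O * (G - 1)‖ ≤ 1 * (c * Real.exp c / N) :=
    (norm_mul_le _ _).trans (mul_le_mul hO q1 (norm_nonneg _) zero_le_one)
  refine (norm_add_le _ _).trans ((add_le_add t1 t2).trans ?_)
  have e3 : Real.exp (2 * c) = Real.exp c * Real.exp c := by rw [two_mul, Real.exp_add]
  have e4 : 1 ≤ Real.exp c := Real.one_le_exp hc
  rw [e3]
  have h5 : c * Real.exp c / N * 1 * Real.exp c + 1 * (c * Real.exp c / N) =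
      (c * Real.exp c * (Real.exp c + 1)) / N := by ring
  rw [h5]
  refine div_le_div_of_nonneg_right ?_ hN0.le
  have h6 : 0 ≤ c * Real.exp c := by positivity
  nlinarith

theorem abs_layT_le {T : V → ℝ} (hT : ∀ x, 0 ≤ T x ∧ T x ≤ 1) (σ : V → Fin 2) :
    |layT T σ σ| ≤ 2 ^ Fintype.card V := by
  rw [layT, Matrix.diagonal_apply_eq, Finset.abs_prod]
  refine (Finset.prod_le_prod (fun _ _ => abs_nonneg _)
    (g := fun _ => (2 : ℝ)) fun x _ => ?_).trans (le_of_eq ?_)
  · have h1 := hT x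
    rw [abs_le]
    split_ifs <;> constructor <;> linarith
  · rw [Finset.prod_const, Finset.card_univ]

theorem layT_ne {T : V → ℝ} (σ τ : V → Fin 2) (h : σ ≠ τ) : layT T σ τ = 0 :=
  Matrix.diagonal_apply_ne _ h

/-- The constant of the traces. -/
def kT (V : Type) [Fintype V] [DecidableEq V] : ℝ :=
  Fintype.card (V → Fin 2) * 2 ^ Fintype.card V

theorem trace_layT_le {T : V → ℝ} (hT : ∀ x, 0 ≤ T x ∧ T x ≤ 1)
    (A : Matrix (V → Fin 2) (V → Fin 2) ℝ) : |trace (A * layT T)| ≤ kT V * ‖A‖ := by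
  refine (abs_trace_le A (layT T) layT_ne (abs_layT_le hT)).trans (le_of_eq ?_)
  unfold kT
  ring

/-- (D3) -/
theorem magLim (L : List (V × V)) {β : ℝ} (hβ : 0 < β) : MagLim L β := by
  set c := cc0 L β with hcdef
  have hc : 0 ≤ c := by rw [hcdef]; unfold cc0; positivity
  set C := 2 * c * Real.exp (2 * c) with hC
  have hC0 : 0 ≤ C := by positivity
  have hk0 : 0 ≤ kT V := by unfold kT; positivity
  have hI0 : 0 ≤ Trot.cI c C := by unfold Trot.cI; positivity
  set a := kT V * Trot.cI c C with ha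
  have ha0 : 0 ≤ a := mul_nonneg hk0 hI0
  set b := kT V * Real.exp (2 * c) with hb
  have hb0 : 0 ≤ b := by positivity
  refine ⟨a + 2 * a * b, max 1 (max ⌈β⌉₊ ⌈2 * a⌉₊), fun N hN h T hh hT z hz => ?_⟩
  obtain ⟨k, x⟩ := z
  simp only at hz ⊢
  have hN1 : 1 ≤ N := (le_max_left _ _).trans hN
  have hNβ : β ≤ N := Nat.ceil_le.1 (((le_max_left _ _).trans (le_max_right _ _)).trans hN)
  have hNa : 2 * a ≤ N := Nat.ceil_le.1 (((le_max_right _ _).trans (le_max_right _ _)).trans hN)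
  have hN0 : (0 : ℝ) < N := by exact_mod_cast hN1
  have hk1 : 1 ≤ (k : ℕ) := Nat.one_le_iff_ne_zero.2 fun h0 => hz (Fin.ext h0)
  have hkN : (k : ℕ) ≤ N := Nat.lt_succ_iff.1 k.2
  set l := gen0 L β h with hl
  have hlc : (l.map norm).sum ≤ c := norm_gen0 L hβ.le hh
  have hS : ‖l.sum‖ ≤ c := (Trot.norm_list_sum_le l).trans hlc
  have hd : ((k : ℕ) : ℝ) / N ≤ 1 := (div_le_one hN0).2 (by exact_mod_cast hkN)
  have hd0 : 0 ≤ ((k : ℕ) : ℝ) / N := by positivity
  set P := (l.map fun A => 1 + (N : ℝ)⁻¹ • A).prod with hP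
  set E1 := NormedSpace.exp ((1 - ((k : ℕ) : ℝ) / N) • l.sum) with hE1
  set E2 := NormedSpace.exp ((((k : ℕ) : ℝ) / N) • l.sum) with hE2
  have n1 : ‖E1‖ ≤ Real.exp c :=
    Trot.norm_exp_smul_le norm_one_le hS (by linarith) (by linarith)
  have n2 : ‖E2‖ ≤ Real.exp c := Trot.norm_exp_smul_le norm_one_le hS hd0 hd
  set D := (layM fun y => dgM (Function.update (fun y => β * h y / (2 * N)) x 0 y) :
    Matrix (V → Fin 2) (V → Fin 2) ℝ) with hD
  set G := (gatM L (β / (2 * N)) : Matrix (V → Fin 2) (V → Fin 2) ℝ) with hG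
  -- the numerator and the denominator
  have w3 : NZ (phys L β N) (Function.update (fun z => dgM (th β N h T z)) (k, x) m3) =
      trace (P ^ (N - (k : ℕ)) * (D * szM x * G) * P ^ ((k : ℕ) - 1) * layT T) := by
    rw [word_eq L β h T hz x m3, layM_up3]
  have w1 : NZ (phys L β N) (Function.update (fun z => dgM (th β N h T z)) (k, x) 1) =
      trace (P ^ (N - (k : ℕ)) * (D * 1 * G) * P ^ ((k : ℕ) - 1) * layT T) := by
    rw [word_eq L β h T hz x 1, layM_up1, mul_one]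
  have key : ∀ O : Matrix (V → Fin 2) (V → Fin 2) ℝ, ‖O‖ ≤ 1 →
      |trace (P ^ (N - (k : ℕ)) * (D * O * G) * P ^ ((k : ℕ) - 1) * layT T) -
        trace (E1 * O * E2 * layT T)| ≤ a / N := by
    intro O hO
    have h1 := Trot.insert_lin norm_one_le l hlc hC0 hk1 hkN hO (ins_bound L hβ.le hN1 hh x hO)
    rw [← Matrix.trace_sub, ← sub_mul]
    refine (trace_layT_le hT _).trans ?_
    rw [ha, mul_div_assoc]
    exact mul_le_mul_of_nonneg_left h1 hk0
  have k3 := key (szM x) (norm_szM x)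
  have k1 := key 1 norm_one_le
  have hden : 1 ≤ trace (P ^ (N - (k : ℕ)) * (D * 1 * G) * P ^ ((k : ℕ) - 1) * layT T) := by
    have hp : 0 ≤ β / (2 * N) ∧ β / (2 * N) ≤ 1 := by
      refine ⟨by positivity, (div_le_one (by positivity)).2 ?_⟩
      linarith
    have hθ : ∀ y, 0 ≤ β * h y / (2 * N) ∧ β * h y / (2 * N) ≤ 1 := by
      intro y
      have h2 := hh y
      refine ⟨by have := h2.1; positivity, (div_le_one (by positivity)).2 ?_⟩
      have := mul_le_mul_of_nonneg_left h2.2 hβ.le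
      linarith
    have pG : PU G := PU.gatM L hp.1 hp.2
    have pP : PU P := by
      rw [hP, hl, ← layer_eq]
      exact (PU.layM hθ).mul pG
    have pD : PU D := by
      refine PU.layM fun y => ?_
      by_cases hy : y = x
      · subst hy
        rw [Function.update_self]
        exact ⟨le_rfl, zero_le_one⟩
      · rw [Function.update_of_ne hy]
        exact hθ y
    have pT : PU (layT T) := by
      rw [layT_eq]
      exact PU.layM hT
    rw [mul_one]
    exact PU.trace ((((pP.pow _).mul (pD.mul pG)).mul (pP.pow _)).mul pT)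
  have hnum : |trace (E1 * szM x * E2 * layT T)| ≤ b := by
    refine (trace_layT_le hT _).trans ?_
    rw [hb, two_mul, Real.exp_add]
    refine mul_le_mul_of_nonneg_left ?_ hk0
    have h3 : ‖E1 * szM x‖ ≤ Real.exp c * 1 :=
      (norm_mul_le _ _).trans (mul_le_mul n1 (norm_szM x) (norm_nonneg _) (Real.exp_pos _).le)
    rw [mul_one] at h3
    exact (norm_mul_le _ _).trans (mul_le_mul h3 n2 (norm_nonneg _) (Real.exp_pos _).le)
  have eT : mT L h T (β * (1 - ((k : ℕ) : ℝ) / N)) (β * (((k : ℕ) : ℝ) / N)) x =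
      trace (E1 * szM x * E2 * layT T) / trace (E1 * 1 * E2 * layT T) := by
    have e1 : E1 = NormedSpace.exp (-(β * (1 - ((k : ℕ) : ℝ) / N)) • ham L h) := by
      rw [hE1, hl, gen0_sum, smul_smul]
      congr 2
      ring
    have e2 : E2 = NormedSpace.exp (-(β * (((k : ℕ) : ℝ) / N)) • ham L h) := by
      rw [hE2, hl, gen0_sum, smul_smul]
      congr 2
      ring
    unfold mT
    rw [Matrix.trace_mul_comm (E1 * szM x * E2), Matrix.trace_mul_comm (E1 * 1 * E2), e1, e2,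
      mul_one]
    simp only [mul_assoc]
  rw [mag_eq3, w3, w1, eT]
  set u := trace (P ^ (N - (k : ℕ)) * (D * szM x * G) * P ^ ((k : ℕ) - 1) * layT T)
  set v := trace (P ^ (N - (k : ℕ)) * (D * 1 * G) * P ^ ((k : ℕ) - 1) * layT T)
  set u' := trace (E1 * szM x * E2 * layT T)
  set v' := trace (E1 * 1 * E2 * layT T)
  have haN : a / N ≤ 1 / 2 := by
    rw [div_le_iff₀ hN0]
    linarith
  have hv' : 1 / 2 ≤ v' := by
    have := (abs_le.1 k1).2
    linarith
  have hv0 : 0 < v := by linarith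
  have hv0' : 0 < v' := by linarith
  have e : u / v - u' / v' = (u - u') / v + u' * ((v' - v) / (v * v')) := by
    field_simp
    ring
  rw [e]
  have haN0 : 0 ≤ a / N := by positivity
  have s1 : |(u - u') / v| ≤ a / N := by
    rw [abs_div, abs_of_pos hv0]
    exact (div_le_self (abs_nonneg _) hden).trans k3
  have s2 : |u' * ((v' - v) / (v * v'))| ≤ b * (2 * (a / N)) := by
    rw [abs_mul]
    refine mul_le_mul hnum ?_ (abs_nonneg _) hb0
    rw [abs_div, abs_of_pos (mul_pos hv0 hv0'), div_le_iff₀ (mul_pos hv0 hv0'), abs_sub_comm]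
    refine k1.trans ?_
    have h4 : 1 / 2 ≤ v * v' := by nlinarith
    nlinarith
  refine (abs_add_le _ _).trans ((add_le_add s1 s2).trans (le_of_eq ?_))
  ring

end

end Vale.Agent.P361.LRO.Dict
end

section

/-!
P361 LRO: the magnetization with the extra slice `e^{K n_b}` on the physical circuit.
-/

namespace Vale.Agent.P361.LRO

variable {V : Type} [Fintype V] [DecidableEq V]

theorem tr_mag (L : List (V × V)) {β K η : ℝ} (hβ : 0 < β) (hK : 0 ≤ K) (hη : 0 < η)
    {b : Finset V} (hb : b.Nonempty) :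
    ∃ N0 : ℕ, ∀ N : ℕ, N0 ≤ N → ∀ h : V → ℝ, (∀ x, 0 ≤ h x ∧ h x ≤ 1) →
      (∀ x, rho L β h x ≤ η) → ∀ z : Fin (N + 1) × V, z.1 ≠ 0 →
        1 - 4 * Real.exp (K * η) * η ≤ mag (phys L β N) (th β N h (blk K b)) z :=
  trMag_of (Dict.magLim L hβ) hβ hb hK hη

end Vale.Agent.P361.LRO
end

section

/-!
P361 LRO, block (6): `KappaStmt` from the abstract block (6) alone.
-/

namespace Vale.Agent.P361.LRO.Net

open Finset Filter Vale.Agent.P361.LRO

theorem locBound : ∃ cl : ℝ, 0 < cl ∧ LocBound cl := by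
  obtain ⟨c0, h0, h⟩ := loc
  exact ⟨c0, h0, fun {V} _ _ L hd β hβ N hN h' T hh hT =>
    h L (fun x => hd x) β hβ N hN h' T hh hT⟩

theorem trMag : TrMag := fun {_} _ _ L _ _ _ hβ hb hK _ hη =>
  tr_mag L hβ hK hη hb

theorem kappaStmt_of_block6 (h6 : Block6) : KappaStmt := kappaStmt_of h6 locBound trMag

end Vale.Agent.P361.LRO.Net
end

section

/-!
# P361 LRO, block (6), package C1: straight lines
-/

namespace Vale.Agent.P361.LRO.Ind

open Finset

namespace Lines

theorem sum4 (s T : ℕ) (g : ℕ → ℕ → ℕ → ℕ → ℝ) :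
    ∑ x ∈ range s, ∑ y ∈ range s, ∑ z ∈ range s, ∑ w ∈ range T, g x y z w =
      ∑ p ∈ range s ×ˢ range s ×ˢ range s ×ˢ range T, g p.1 p.2.1 p.2.2.1 p.2.2.2 := by
  rw [sum_product]
  refine sum_congr rfl fun x _ => ?_
  rw [sum_product]
  refine sum_congr rfl fun y _ => ?_
  rw [sum_product]

theorem line_le (s : ℕ) (f : ℕ → ℝ) {x : ℕ} (hx : x < s) :
    (f x - f (x + 4 * s)) ^ 2 ≤ 4 * s * ∑ i ∈ range (5 * s - 1), (f (i + 1) - f i) ^ 2 := by
  have h1 : ∑ i ∈ range (4 * s), (f (x + (i + 1)) - f (x + i)) = f (x + 4 * s) - f x :=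
    sum_range_sub (fun i => f (x + i)) (4 * s)
  have h2 := sq_sum_le_card_mul_sum_sq (s := range (4 * s))
    (f := fun i => f (x + (i + 1)) - f (x + i))
  rw [h1, card_range] at h2
  have h3 : ∑ i ∈ range (4 * s), (f (x + (i + 1)) - f (x + i)) ^ 2 =
      ∑ i ∈ Ico x (x + 4 * s), (f (i + 1) - f i) ^ 2 := by
    rw [sum_Ico_eq_sum_range, Nat.add_sub_cancel_left]
    refine sum_congr rfl fun i _ => ?_
    rw [add_assoc]
  have h4 : ∑ i ∈ Ico x (x + 4 * s), (f (i + 1) - f i) ^ 2 ≤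
      ∑ i ∈ range (5 * s - 1), (f (i + 1) - f i) ^ 2 := by
    refine sum_le_sum_of_subset_of_nonneg (fun i hi => ?_) fun i _ _ => sq_nonneg _
    rw [mem_Ico] at hi
    rw [mem_range]
    omega
  have h5 : (f x - f (x + 4 * s)) ^ 2 = (f (x + 4 * s) - f x) ^ 2 := by ring
  rw [h5]
  refine h2.trans ?_
  rw [h3]
  push_cast
  exact mul_le_mul_of_nonneg_left h4 (by positivity)

theorem esp_ge (s T : ℕ) (U : ℕ → ℕ → ℕ → ℕ → ℝ) :
    ∑ y ∈ range s, ∑ z ∈ range s, ∑ w ∈ range T,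
      ∑ x ∈ range (5 * s - 1), (U (x + 1) y z w - U x y z w) ^ 2 ≤ E4 (5 * s) T U := by
  have hss : range s ⊆ range (5 * s) := range_subset_range.2 (by omega)
  have h0 : ∑ y ∈ range s, ∑ z ∈ range s, ∑ w ∈ range T,
      ∑ x ∈ range (5 * s - 1), (U (x + 1) y z w - U x y z w) ^ 2 =
      ∑ x ∈ range (5 * s - 1), ∑ y ∈ range s, ∑ z ∈ range s, ∑ w ∈ range T,
        (U (x + 1) y z w - U x y z w) ^ 2 :=
    ((sum_congr rfl fun y _ => sum_congr rfl fun z _ => sum_comm).trans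
      (sum_congr rfl fun y _ => sum_comm)).trans sum_comm
  have h1 : ∑ x ∈ range (5 * s - 1), ∑ y ∈ range s, ∑ z ∈ range s, ∑ w ∈ range T,
        (U (x + 1) y z w - U x y z w) ^ 2 ≤
      ∑ x ∈ range (5 * s - 1), ∑ y ∈ range (5 * s), ∑ z ∈ range (5 * s), ∑ w ∈ range T,
        (U (x + 1) y z w - U x y z w) ^ 2 := by
    refine sum_le_sum fun x _ => ?_
    refine (sum_le_sum fun y _ => sum_le_sum_of_subset_of_nonneg hss fun z _ _ =>
      sum_nonneg fun w _ => sq_nonneg _).trans ?_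
    exact sum_le_sum_of_subset_of_nonneg hss fun y _ _ =>
      sum_nonneg fun z _ => sum_nonneg fun w _ => sq_nonneg _
  rw [h0]
  refine h1.trans ?_
  unfold E4 Esp Eti
  have h2 : 0 ≤ ∑ x ∈ range (5 * s), ∑ y ∈ range (5 * s - 1), ∑ z ∈ range (5 * s),
      ∑ w ∈ range T, (U x (y + 1) z w - U x y z w) ^ 2 :=
    sum_nonneg fun x _ => sum_nonneg fun y _ => sum_nonneg fun z _ => sum_nonneg fun w _ =>
      sq_nonneg _
  have h3 : 0 ≤ ∑ x ∈ range (5 * s), ∑ y ∈ range (5 * s), ∑ z ∈ range (5 * s - 1),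
      ∑ w ∈ range T, (U x y (z + 1) w - U x y z w) ^ 2 :=
    sum_nonneg fun x _ => sum_nonneg fun y _ => sum_nonneg fun z _ => sum_nonneg fun w _ =>
      sq_nonneg _
  have h4 : 0 ≤ ∑ x ∈ range (5 * s), ∑ y ∈ range (5 * s), ∑ z ∈ range (5 * s),
      ∑ w ∈ range (T - 1), (U x y z (w + 1) - U x y z w) ^ 2 :=
    sum_nonneg fun x _ => sum_nonneg fun y _ => sum_nonneg fun z _ => sum_nonneg fun w _ =>
      sq_nonneg _
  linarith

end Lines

/-- straight lines. -/
theorem lines (s T : ℕ) (hs : 0 < s) (hT : 0 < T) (U : ℕ → ℕ → ℕ → ℕ → ℝ)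
    (hU : ∀ x < s, ∀ y < s, ∀ z < s, ∀ w < T, U x y z w = 1) :
    (1 - (1 / ((s : ℝ) ^ 3 * T)) * ∑ x ∈ range s, ∑ y ∈ range s, ∑ z ∈ range s, ∑ w ∈ range T,
      U (x + 4 * s) y z w) ^ 2 ≤ 4 / (s * T) * E4 (5 * s) T U := by
  have hs' : (0 : ℝ) < s := by exact_mod_cast hs
  have hT' : (0 : ℝ) < T := by exact_mod_cast hT
  have hc : (0 : ℝ) < (s : ℝ) ^ 3 * T := by positivity
  -- the quadruple sum of the differences
  have h1 : (s : ℝ) ^ 3 * T - ∑ x ∈ range s, ∑ y ∈ range s, ∑ z ∈ range s, ∑ w ∈ range T,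
      U (x + 4 * s) y z w = ∑ x ∈ range s, ∑ y ∈ range s, ∑ z ∈ range s, ∑ w ∈ range T,
      (U x y z w - U (x + 4 * s) y z w) := by
    simp only [sum_sub_distrib]
    have : ∑ x ∈ range s, ∑ y ∈ range s, ∑ z ∈ range s, ∑ w ∈ range T, U x y z w =
        (s : ℝ) ^ 3 * T := by
      have e : ∑ x ∈ range s, ∑ y ∈ range s, ∑ z ∈ range s, ∑ w ∈ range T, U x y z w =
          ∑ x ∈ range s, ∑ y ∈ range s, ∑ z ∈ range s, ∑ w ∈ range T, (1 : ℝ) :=
        sum_congr rfl fun x hx => sum_congr rfl fun y hy => sum_congr rfl fun z hz =>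
          sum_congr rfl fun w hw => hU x (mem_range.1 hx) y (mem_range.1 hy) z (mem_range.1 hz) w
            (mem_range.1 hw)
      rw [e]
      simp only [sum_const, card_range, nsmul_eq_mul]
      ring
    rw [this]
  -- Cauchy-Schwarz
  have h2 : (∑ x ∈ range s, ∑ y ∈ range s, ∑ z ∈ range s, ∑ w ∈ range T,
      (U x y z w - U (x + 4 * s) y z w)) ^ 2 ≤ (s : ℝ) ^ 3 * T *
      ∑ x ∈ range s, ∑ y ∈ range s, ∑ z ∈ range s, ∑ w ∈ range T,
        (U x y z w - U (x + 4 * s) y z w) ^ 2 := by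
    rw [Lines.sum4, Lines.sum4]
    have := sq_sum_le_card_mul_sum_sq (s := range s ×ˢ range s ×ˢ range s ×ˢ range T)
      (f := fun p : ℕ × ℕ × ℕ × ℕ => U p.1 p.2.1 p.2.2.1 p.2.2.2 -
        U (p.1 + 4 * s) p.2.1 p.2.2.1 p.2.2.2)
    refine this.trans (le_of_eq ?_)
    congr 1
    simp only [card_product, card_range]
    push_cast
    ring
  -- the lines
  have h3 : ∑ x ∈ range s, ∑ y ∈ range s, ∑ z ∈ range s, ∑ w ∈ range T,
      (U x y z w - U (x + 4 * s) y z w) ^ 2 ≤ 4 * (s : ℝ) ^ 2 * E4 (5 * s) T U := by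
    have e1 : ∑ x ∈ range s, ∑ y ∈ range s, ∑ z ∈ range s, ∑ w ∈ range T,
        (U x y z w - U (x + 4 * s) y z w) ^ 2 ≤
        ∑ x ∈ range s, 4 * (s : ℝ) * ∑ y ∈ range s, ∑ z ∈ range s, ∑ w ∈ range T,
          ∑ i ∈ range (5 * s - 1), (U (i + 1) y z w - U i y z w) ^ 2 := by
      refine sum_le_sum fun x hx => ?_
      rw [mul_sum]
      refine sum_le_sum fun y _ => ?_
      rw [mul_sum]
      refine sum_le_sum fun z _ => ?_
      rw [mul_sum]
      refine sum_le_sum fun w _ => ?_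
      exact Lines.line_le s (fun i => U i y z w) (mem_range.1 hx)
    rw [sum_const, card_range, nsmul_eq_mul] at e1
    have e2 := mul_le_mul_of_nonneg_left (Lines.esp_ge s T U)
      (by positivity : (0 : ℝ) ≤ 4 * (s : ℝ) ^ 2)
    refine e1.trans (le_trans (le_of_eq ?_) e2)
    ring
  have h4 : 1 - (1 / ((s : ℝ) ^ 3 * T)) * ∑ x ∈ range s, ∑ y ∈ range s, ∑ z ∈ range s,
      ∑ w ∈ range T, U (x + 4 * s) y z w =
      (∑ x ∈ range s, ∑ y ∈ range s, ∑ z ∈ range s, ∑ w ∈ range T,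
        (U x y z w - U (x + 4 * s) y z w)) / ((s : ℝ) ^ 3 * T) := by
    rw [← h1, sub_div, div_self hc.ne']
    ring
  rw [h4, div_pow, div_le_iff₀ (by positivity)]
  refine h2.trans ((mul_le_mul_of_nonneg_left h3 hc.le).trans (le_of_eq ?_))
  field_simp

end Vale.Agent.P361.LRO.Ind
end

section

/-!
# P361 LRO, block (6), S1: the top step (6a) (helper531)
-/

namespace Vale.Agent.P361.LRO.Ind

open Finset Vale.Agent.P361.LRO _root_.P361.LRO

/-- a sum over `range (m * W)`, block by block -/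
theorem st_blocks (m W : ℕ) (g : ℕ → ℝ) :
    ∑ i ∈ range (m * W), g i = ∑ w ∈ range m, ∑ j ∈ range W, g (w * W + j) := by
  induction m with
  | zero => simp
  | succ m ih => rw [Nat.succ_mul, Finset.sum_range_add, ih, Finset.sum_range_succ]

/-- sum over the physical layers, window by window -/
theorem st_layers {N W m : ℕ} (hN : N = m * W) (f : Fin (N + 1) → ℝ) :
    ∑ k ∈ univ.filter (fun k => k ≠ 0), f k = ∑ w ∈ range m, ∑ j ∈ range W, f (lay N W w j) := by
  have h1 : ∑ k ∈ univ.filter (fun k => k ≠ 0), f k = ∑ i : Fin N, f i.succ := by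
    rw [Finset.sum_filter, Fin.sum_univ_succ]
    simp [Fin.succ_ne_zero]
  have h2 : ∑ i : Fin N, f i.succ =
      ∑ i ∈ range N, f (if h : 1 + i < N + 1 then ⟨1 + i, h⟩ else 0) := by
    rw [← Fin.sum_univ_eq_sum_range
      (fun i => f (if h : 1 + i < N + 1 then ⟨1 + i, h⟩ else 0)) N]
    refine Finset.sum_congr rfl fun i _ => ?_
    have hi : 1 + (i : ℕ) < N + 1 := by have := i.isLt; omega
    rw [dif_pos hi]
    congr 1
    refine Fin.ext ?_
    simp [Fin.val_succ, add_comm]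
  rw [h1, h2]
  have h3 := st_blocks m W (fun i => f (if h : 1 + i < N + 1 then ⟨1 + i, h⟩ else 0))
  rw [← hN] at h3
  rw [h3]
  refine Finset.sum_congr rfl fun w _ => Finset.sum_congr rfl fun j _ => ?_
  unfold lay
  simp only [add_assoc]

/-- layers of windows are physical -/
theorem st_lay_ne {N W m : ℕ} (hN : N = m * W) {w j : ℕ} (hw : w < m) (hj : j < W) :
    (lay N W w j : Fin (N + 1)) ≠ 0 := by
  have h1 : (w + 1) * W ≤ m * W := Nat.mul_le_mul_right W hw
  rw [Nat.succ_mul] at h1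
  have h2 : 1 + w * W + j < N + 1 := by omega
  unfold lay
  rw [dif_pos h2]
  intro h
  have := congrArg Fin.val h
  simp at this

/-- (6a) top: resistance to the uniform charge on the ground cube in the field `1`. -/
theorem step_top (c1 : ℝ) (hc1 : 0 < c1) : ∃ C : ℝ, 0 < C ∧ ∀ (n N W m : ℕ) [NeZero n]
    (β K : ℝ) (o : Tor n) (b : Finset (Tor n)) (c : Nd n N → Nd n N → ℝ) (s : ℕ),
    10 ≤ β → 0 < W → N = m * W → Win β m → 0 < s → 8 * s < n →
    Local n N W β K c1 b (fun _ => 1) c →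
    RBn c (EE6 n N o b s) (fun z => if z ∈ GG6 n N o s then 1 / ((N : ℝ) * s ^ 3) else 0)
      (C / (β * s)) := by
  refine ⟨3200 / c1, by positivity, ?_⟩
  intro n N W m _ β K o b c s hβ hW hN hwin hs hn hc a ha
  have hm0 : 0 < m := hwin.pos
  have hmR : (0 : ℝ) < m := by exact_mod_cast hm0
  have hWR : (0 : ℝ) < W := by exact_mod_cast hW
  have hsR : (0 : ℝ) < s := by exact_mod_cast hs
  have hm3 : 3 * β ≤ m := by
    have := hwin.hi
    rw [div_le_iff₀ hmR] at this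
    linarith
  have hm4 : 4 ≤ m := by
    have : (4 : ℝ) ≤ m := by linarith
    exact_mod_cast this
  have hNR : (N : ℝ) = m * W := by rw [hN]; push_cast; ring
  have hE := E4_le (h := fun _ => (1 : ℝ)) hW hm4 hN (by linarith) hc1 hc o (5 * s) (by omega)
    (fun _ _ => rfl) a
  have hL := lines s m hs hm0 (UU n N W o a) ?_
  · have hq : ∑ z, (if z ∈ GG6 n N o s then 1 / ((N : ℝ) * s ^ 3) else 0) * a z =
        (1 / ((s : ℝ) ^ 3 * m)) * ∑ x ∈ range s, ∑ y ∈ range s, ∑ z ∈ range s, ∑ w ∈ range m,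
          UU n N W o a (x + 4 * s) y z w := by
      have e1 : ∑ z, (if z ∈ GG6 n N o s then 1 / ((N : ℝ) * s ^ 3) else 0) * a z =
          1 / ((N : ℝ) * s ^ 3) * ∑ z ∈ GG6 n N o s, a z := by
        rw [Finset.mul_sum, ← Finset.sum_filter_add_sum_filter_not univ (fun z => z ∈ GG6 n N o s)]
        rw [Finset.sum_eq_zero (s := univ.filter fun z => ¬ z ∈ GG6 n N o s), add_zero]
        · rw [Finset.filter_mem_eq_inter, Finset.univ_inter]
          exact Finset.sum_congr rfl fun z hz => by rw [if_pos hz]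
        · intro z hz
          rw [if_neg (Finset.mem_filter.1 hz).2, zero_mul]
      have e2 : ∑ z ∈ GG6 n N o s, a z = ∑ x ∈ range s, ∑ y ∈ range s, ∑ z ∈ range s,
          ∑ w ∈ range m, ∑ j ∈ range W, a (lay N W w j, pt n o (x + 4 * s) y z) := by
        unfold GG6
        rw [Finset.sum_product_right, sum_cube _ s (by omega)]
        refine Finset.sum_congr rfl fun x _ => Finset.sum_congr rfl fun y _ =>
          Finset.sum_congr rfl fun z _ => ?_
        rw [st_layers hN (fun k => a (k, pt n (pt n o (4 * s) 0 0) x y z)), pt_pt]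
        simp only [zero_add, add_comm (4 * s) x]
      rw [e1, e2, hNR]
      unfold UU
      simp only [← Finset.mul_sum]
      field_simp
    rw [hq]
    refine hL.trans ?_
    have hK0 : 0 ≤ netK c a := by
      unfold netK
      refine mul_nonneg (by norm_num) (Finset.sum_nonneg fun u _ => Finset.sum_nonneg fun v _ =>
        mul_nonneg (hc.nonneg u v) (sq_nonneg _))
    have hlo := hwin.lo
    have hE0 : 0 ≤ E4 (5 * s) m (UU n N W o a) := by
      unfold E4 Esp Eti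
      refine add_nonneg (add_nonneg (add_nonneg ?_ ?_) ?_) ?_ <;>
      · refine Finset.sum_nonneg fun _ _ => Finset.sum_nonneg fun _ _ => Finset.sum_nonneg fun _ _ =>
          Finset.sum_nonneg fun _ _ => sq_nonneg _
    have hsq : (1 / 16 : ℝ) ≤ (β / m) ^ 2 := by nlinarith
    have hE' : E4 (5 * s) m (UU n N W o a) ≤ 1600 / c1 * netK c a := by
      have h1 : c1 * (1 / 16) * E4 (5 * s) m (UU n N W o a) ≤ 100 * netK c a := by
        refine le_trans ?_ hE
        exact mul_le_mul_of_nonneg_right (mul_le_mul_of_nonneg_left hsq hc1.le) hE0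
      rw [div_mul_eq_mul_div, le_div_iff₀ hc1]
      linarith
    have h4 : 4 / ((s : ℝ) * m) ≤ 2 / (β * s) := by
      have hβ0 : 0 < β := by linarith
      rw [div_le_div_iff₀ (by positivity) (by positivity)]
      nlinarith
    have hβ0 : 0 < β := by linarith
    calc 4 / ((s : ℝ) * m) * E4 (5 * s) m (UU n N W o a)
        ≤ 2 / (β * s) * (1600 / c1 * netK c a) :=
          mul_le_mul h4 hE' hE0 (by positivity)
      _ = 3200 / c1 / (β * s) * netK c a := by
          field_simp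
          ring
  · intro x hx y hy z hz w hw
    unfold UU
    rw [Finset.sum_congr rfl (g := fun _ => (1 : ℝ))]
    · rw [Finset.sum_const, Finset.card_range, nsmul_eq_mul, mul_one]
      field_simp
    · intro j hj
      refine ha _ ?_
      unfold EE6
      rw [Finset.mem_union]
      right
      rw [Finset.mem_product]
      refine ⟨?_, ?_⟩
      · rw [Finset.mem_filter]
        exact ⟨Finset.mem_univ _, st_lay_ne hN hw (Finset.mem_range.1 hj)⟩
      · exact (mem_cube_iff o _ s).2 ⟨x, hx, y, hy, z, hz, rfl⟩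

end Vale.Agent.P361.LRO.Ind
end

section

/-!
# P361 LRO, block (6), package GEOB: the distance to a cube of the torus
-/

set_option linter.all false

namespace Vale.Agent.P361.LRO.Ind

open Finset Vale.Agent.P361.LRO _root_.P361.LRO

theorem geoB_val_succ {n : ℕ} [NeZero n] (t : ZMod n) :
    (t + 1).val = if t.val + 1 < n then t.val + 1 else 0 := by
  have ht : t.val < n := ZMod.val_lt t
  have h : (t + 1).val = (t.val + 1) % n := by
    rw [ZMod.val_add, ZMod.val_one_eq_one_mod, Nat.add_mod_mod]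
  rw [h]
  split_ifs with h1
  · exact Nat.mod_eq_of_lt h1
  · have h2 : t.val + 1 = n := by omega
    rw [h2, Nat.mod_self]

theorem geoB_d1_eq_zero {n : ℕ} [NeZero n] (r : ℕ) (t : ZMod n) :
    d1 n r t = 0 ↔ t.val < r := by
  have ht : t.val < n := ZMod.val_lt t
  unfold d1
  split_ifs with h
  · simp [h]
  · omega

theorem geoB_d1_succ {n : ℕ} [NeZero n] {r : ℕ} (hr : 0 < r) (t : ZMod n) :
    d1 n r (t + 1) ≤ d1 n r t + 1 ∧ d1 n r t ≤ d1 n r (t + 1) + 1 := by
  have ht : t.val < n := ZMod.val_lt t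
  unfold d1
  rw [geoB_val_succ]
  split_ifs <;> omega

theorem geoB_d1_mono {n : ℕ} (t : ZMod n) {r s : ℕ} (h : r ≤ s) : d1 n s t ≤ d1 n r t := by
  unfold d1
  split_ifs <;> omega

theorem geoB_mem_cube {n : ℕ} [NeZero n] (o x : Tor n) (r : ℕ) (hr : r ≤ n) :
    x ∈ cube n o r ↔ ∀ i, (x i - o i).val < r := by
  unfold cube
  rw [Finset.mem_image]
  constructor
  · rintro ⟨y, -, rfl⟩ i
    have h1 : ((o + fun i => ((y i : ℕ) : ZMod n)) i - o i) = ((y i : ℕ) : ZMod n) := by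
      simp
    rw [h1, ZMod.val_natCast]
    exact lt_of_le_of_lt (Nat.mod_le _ _) (y i).2
  · intro h
    refine ⟨fun i => ⟨(x i - o i).val, h i⟩, Finset.mem_univ _, ?_⟩
    funext i
    simp

theorem mem_cube_iff_dist {n : ℕ} [NeZero n] (o x : Tor n) (r : ℕ) (hr : r ≤ n) (h0 : 0 < r) :
    x ∈ cube n o r ↔ dist n o r x = 0 := by
  rw [geoB_mem_cube o x r hr]
  unfold dist
  rw [Finset.sum_eq_zero_iff]
  constructor
  · intro h i _
    exact (geoB_d1_eq_zero r _).2 (h i)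
  · intro h i
    exact (geoB_d1_eq_zero r _).1 (h i (Finset.mem_univ i))

theorem dist_lip {n : ℕ} [NeZero n] (o x : Tor n) (r : ℕ) (hr : 0 < r) (i : Fin 3) :
    dist n o r (x + Pi.single i 1) ≤ dist n o r x + 1 ∧
    dist n o r x ≤ dist n o r (x + Pi.single i 1) + 1 := by
  have key : ∀ j : Fin 3,
      d1 n r ((x + Pi.single i 1 : Fin 3 → ZMod n) j - o j) ≤ d1 n r (x j - o j) + (if j = i then 1 else 0) ∧
      d1 n r (x j - o j) ≤ d1 n r ((x + Pi.single i 1 : Fin 3 → ZMod n) j - o j) + (if j = i then 1 else 0) := by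
    intro j
    by_cases hj : j = i
    · subst hj
      have h1 : (x + Pi.single j 1 : Fin 3 → ZMod n) j - o j = (x j - o j) + 1 := by
        simp only [Pi.add_apply, Pi.single_eq_same]
        ring
      rw [h1, if_pos rfl]
      exact geoB_d1_succ hr _
    · have h1 : (x + Pi.single i 1 : Fin 3 → ZMod n) j - o j = x j - o j := by
        simp only [Pi.add_apply, Pi.single_eq_of_ne hj, add_zero]
      rw [h1, if_neg hj]
      exact ⟨le_rfl, le_rfl⟩
  have hs : ∑ j : Fin 3, (if j = i then 1 else 0) = 1 := by simp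
  unfold dist
  constructor
  · calc ∑ j, d1 n r ((x + Pi.single i 1 : Fin 3 → ZMod n) j - o j)
        ≤ ∑ j, (d1 n r (x j - o j) + (if j = i then 1 else 0)) :=
          Finset.sum_le_sum fun j _ => (key j).1
      _ = ∑ j, d1 n r (x j - o j) + 1 := by rw [Finset.sum_add_distrib, hs]
  · calc ∑ j, d1 n r (x j - o j)
        ≤ ∑ j, (d1 n r ((x + Pi.single i 1 : Fin 3 → ZMod n) j - o j) + (if j = i then 1 else 0)) :=
          Finset.sum_le_sum fun j _ => (key j).2
      _ = ∑ j, d1 n r ((x + Pi.single i 1 : Fin 3 → ZMod n) j - o j) + 1 := by rw [Finset.sum_add_distrib, hs]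

theorem dist_mono {n : ℕ} [NeZero n] (o x : Tor n) {r s : ℕ} (h : r ≤ s) :
    dist n o s x ≤ dist n o r x := by
  unfold dist
  exact Finset.sum_le_sum fun i _ => geoB_d1_mono _ h

theorem dist_ground {n : ℕ} [NeZero n] (o x : Tor n) {r s : ℕ} (hrs : r ≤ s) (hs : 8 * s ≤ n)
    (hx : x ∈ cube n (pt n o (4 * s) 0 0) s) : 3 * s ≤ dist n o r x := by
  rw [geoB_mem_cube _ _ _ (by omega)] at hx
  have h0 := hx 0
  have hn : 0 < n := Nat.pos_of_ne_zero (NeZero.ne n)
  have h1 : x 0 - pt n o (4 * s) 0 0 0 = x 0 - o 0 - ((4 * s : ℕ) : ZMod n) := by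
    simp only [pt, Pi.add_apply, Matrix.cons_val_zero]
    ring
  rw [h1] at h0
  set u : ZMod n := x 0 - o 0 - ((4 * s : ℕ) : ZMod n) with hu
  have h2 : x 0 - o 0 = u + ((4 * s : ℕ) : ZMod n) := by rw [hu]; ring
  have h3 : (x 0 - o 0).val = u.val + 4 * s := by
    rw [h2, ZMod.val_add, ZMod.val_natCast, Nat.add_mod_mod]
    exact Nat.mod_eq_of_lt (by omega)
  have h4 : 3 * s ≤ d1 n r (x 0 - o 0) := by
    unfold d1
    rw [h3]
    split_ifs <;> omega
  refine h4.trans ?_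
  unfold dist
  exact Finset.single_le_sum (f := fun i => d1 n r (x i - o i)) (fun i _ => Nat.zero_le _)
    (Finset.mem_univ 0)

end Vale.Agent.P361.LRO.Ind
end

section

/-!
P361 LRO, block (6): total weight of a bump (helper660).
-/

namespace Vale.Agent.P361.LRO.Ind

open Finset Vale.Agent.P361.LRO

noncomputable section

variable {n : ℕ} [NeZero n]

theorem gm_val_succ (t : ZMod n) :
    (t + 1).val = if t.val + 1 < n then t.val + 1 else 0 := by
  have hn : 0 < n := Nat.pos_of_ne_zero (NeZero.ne n)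
  rw [ZMod.val_add, ZMod.val_one_eq_one_mod, Nat.add_mod_mod]
  have ht := ZMod.val_lt t
  by_cases h : t.val + 1 < n
  · rw [if_pos h, Nat.mod_eq_of_lt h]
  · rw [if_neg h]
    have : t.val + 1 = n := by omega
    rw [this, Nat.mod_self]

theorem gm_d1_succ {r : ℕ} (hr : 1 ≤ r) (t : ZMod n) :
    d1 n r (t + 1) ≤ d1 n r t + 1 ∧ d1 n r t ≤ d1 n r (t + 1) + 1 := by
  have ht := ZMod.val_lt t
  have h := gm_val_succ t
  unfold d1
  rw [h]
  by_cases h1 : t.val + 1 < n
  · rw [if_pos h1]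
    split_ifs <;> omega
  · rw [if_neg h1]
    split_ifs <;> omega

theorem gm_d1_anti {r r' : ℕ} (h : r ≤ r') (t : ZMod n) : d1 n r' t ≤ d1 n r t := by
  unfold d1
  split_ifs <;> omega

theorem gm_dist_anti {r r' : ℕ} (h : r ≤ r') (o x : Tor n) : dist n o r' x ≤ dist n o r x :=
  Finset.sum_le_sum fun i _ => gm_d1_anti h _

theorem gm_dist_step {r : ℕ} (hr : 1 ≤ r) (o x : Tor n) (i : Fin 3) :
    dist n o r (x + Pi.single i 1) ≤ dist n o r x + 1 ∧
      dist n o r x ≤ dist n o r (x + Pi.single i 1) + 1 := by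
  have e1 : ∀ j, j ≠ i → (x + Pi.single i 1 : Tor n) j - o j = x j - o j := by
    intro j hj
    simp [hj]
  have e2 : (x + Pi.single i 1 : Tor n) i - o i = (x i - o i) + 1 := by
    simp only [Pi.add_apply, Pi.single_eq_same]
    ring
  have h := gm_d1_succ hr (x i - o i)
  unfold dist
  rw [← Finset.add_sum_erase _ _ (Finset.mem_univ i), ← Finset.add_sum_erase _
    (fun j => d1 n r (x j - o j)) (Finset.mem_univ i), e2]
  have e3 : ∑ j ∈ univ.erase i, d1 n r ((x + Pi.single i 1 : Tor n) j - o j) =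
      ∑ j ∈ univ.erase i, d1 n r (x j - o j) :=
    Finset.sum_congr rfl fun j hj => by rw [e1 j (Finset.ne_of_mem_erase hj)]
  rw [e3]
  omega

theorem gm_mem_cube {x0 x : Tor n} {w : ℕ} (hw : w ≤ n) :
    x ∈ cube n x0 w ↔ ∀ i, (x i - x0 i).val < w := by
  unfold cube
  rw [mem_image]
  constructor
  · rintro ⟨y, -, rfl⟩ i
    simp only [Pi.add_apply, add_sub_cancel_left]
    rw [ZMod.val_natCast_of_lt ((y i).2.trans_le hw)]
    exact (y i).2
  · intro h
    refine ⟨fun i => ⟨(x i - x0 i).val, h i⟩, mem_univ _, ?_⟩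
    funext i
    simp

theorem gm_cube_mono (x0 : Tor n) {w w' : ℕ} (h : w ≤ w') (hw : w' ≤ n) :
    cube n x0 w ⊆ cube n x0 w' := by
  intro x hx
  rw [gm_mem_cube (h.trans hw)] at hx
  rw [gm_mem_cube hw]
  exact fun i => (hx i).trans_le h

theorem gm_dist_cube {o x : Tor n} {r : ℕ} (hr : r ≤ n) (hx : x ∈ cube n o r) :
    dist n o r x = 0 := by
  rw [gm_mem_cube hr] at hx
  unfold dist
  apply Finset.sum_eq_zero
  intro i _
  unfold d1
  rw [if_pos (hx i)]

theorem gm_dist_ground {o x : Tor n} {r s : ℕ} (hrs : r ≤ s) (hs : 8 * s ≤ n)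
    (hx : x ∈ cube n (pt n o (4 * s) 0 0) s) : 3 * s ≤ dist n o r x := by
  rw [gm_mem_cube (by omega)] at hx
  have h0 := hx 0
  have hn : 0 < n := Nat.pos_of_ne_zero (NeZero.ne n)
  have e : x 0 - o 0 = (x 0 - pt n o (4 * s) 0 0 0) + ((4 * s : ℕ) : ZMod n) := by
    simp [pt]
    ring
  have h1 : (x 0 - o 0).val = (x 0 - pt n o (4 * s) 0 0 0).val + 4 * s := by
    have h5 : ((4 * s : ℕ) : ZMod n).val = 4 * s := by
      rcases Nat.eq_zero_or_pos s with h | h
      · subst h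
        simp
      · exact ZMod.val_natCast_of_lt (by omega)
    rw [e, ZMod.val_add, h5]
    rcases Nat.eq_zero_or_pos s with h | h
    · subst h
      omega
    · exact Nat.mod_eq_of_lt (by omega)
  have h2 : 3 * s ≤ d1 n r (x 0 - o 0) := by
    unfold d1
    rw [h1]
    split_ifs <;> omega
  exact h2.trans (Finset.single_le_sum (f := fun i => d1 n r (x i - o i))
    (fun _ _ => Nat.zero_le _) (mem_univ 0))

theorem gm_geom {lam : ℝ} (hl : 0 < lam) (m : ℕ) :
    ∑ j ∈ range m, Real.exp (-(lam * (j + 1 : ℕ))) ≤ 1 / lam := by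
  have key : lam * ∑ j ∈ range m, Real.exp (-(lam * (j + 1 : ℕ))) ≤
      1 - Real.exp (-(lam * (m : ℕ))) := by
    induction m with
    | zero => simp
    | succ m ih =>
      rw [Finset.sum_range_succ, mul_add]
      have h1 : lam + 1 ≤ Real.exp lam := Real.add_one_le_exp lam
      have h2 : Real.exp (-(lam * (m : ℕ))) = Real.exp lam * Real.exp (-(lam * (m + 1 : ℕ))) := by
        rw [← Real.exp_add]
        congr 1
        push_cast
        ring
      have h3 := Real.exp_pos (-(lam * (m + 1 : ℕ)))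
      nlinarith
  rw [le_div_iff₀ hl, mul_comm]
  have := Real.exp_pos (-(lam * (m : ℕ)))
  linarith

theorem gm_sum_val (F : ℕ → ℝ) : ∑ t : ZMod n, F t.val = ∑ v ∈ range n, F v := by
  refine Finset.sum_bij' (fun t _ => t.val) (fun v _ => (v : ZMod n)) ?_ ?_ ?_ ?_ ?_
  · intro t _
    exact mem_range.2 (ZMod.val_lt t)
  · intro v _
    exact mem_univ _
  · intro t _
    simp
  · intro v hv
    exact ZMod.val_natCast_of_lt (mem_range.1 hv)
  · intro t _
    rfl

/-- majorant of one factor of the bump -/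
def gmF (n r : ℕ) (lam : ℝ) (v : ℕ) : ℝ :=
  (if v < r then (1 : ℝ) else 0) + (if v < r then 0 else Real.exp (-(lam * ((v - r) + 1 : ℕ)))) +
    Real.exp (-(lam * ((n - 1 - v) + 1 : ℕ)))

theorem gm_line {lam : ℝ} (hl : 0 < lam) (r : ℕ) :
    ∑ t : ZMod n, Real.exp (-(lam * d1 n r t)) ≤ r + 2 / lam := by
  have h1 : ∀ t : ZMod n, Real.exp (-(lam * d1 n r t)) ≤ gmF n r lam t.val := by
    intro t
    have ht := ZMod.val_lt t
    unfold d1 gmF
    by_cases h : t.val < r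
    · rw [if_pos h, if_pos h, if_pos h]
      simp only [Nat.cast_zero, mul_zero, neg_zero, Real.exp_zero, add_zero]
      have := Real.exp_pos (-(lam * ((n - 1 - t.val) + 1 : ℕ)))
      linarith
    · rw [if_neg h, if_neg h, if_neg h, zero_add]
      rcases le_total (t.val + 1 - r) (n - t.val) with h2 | h2
      · rw [min_eq_left h2]
        have e : t.val + 1 - r = t.val - r + 1 := by omega
        rw [e]
        have := Real.exp_pos (-(lam * ((n - 1 - t.val) + 1 : ℕ)))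
        linarith
      · rw [min_eq_right h2]
        have e : n - t.val = n - 1 - t.val + 1 := by omega
        rw [e]
        have := Real.exp_pos (-(lam * ((t.val - r) + 1 : ℕ)))
        linarith
  refine (Finset.sum_le_sum fun t _ => h1 t).trans ?_
  rw [gm_sum_val (gmF n r lam)]
  unfold gmF
  rw [Finset.sum_add_distrib, Finset.sum_add_distrib]
  have k1 : ∑ v ∈ range n, (if v < r then (1 : ℝ) else 0) ≤ r := by
    rw [Finset.sum_boole]
    have : ((range n).filter fun v => v < r).card ≤ r := by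
      calc ((range n).filter fun v => v < r).card ≤ (range r).card :=
            card_le_card fun v hv => mem_range.2 (mem_filter.1 hv).2
        _ = r := card_range r
    exact_mod_cast this
  have k2 : ∑ v ∈ range n, (if v < r then (0 : ℝ) else Real.exp (-(lam * ((v - r) + 1 : ℕ)))) ≤
      1 / lam := by
    rw [← Finset.sum_filter_add_sum_filter_not (range n) (fun v => v < r)]
    rw [Finset.sum_eq_zero (s := (range n).filter fun v => v < r)
      (fun v hv => if_pos (mem_filter.1 hv).2), zero_add]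
    rw [Finset.sum_congr rfl (fun v hv => if_neg (mem_filter.1 hv).2)]
    refine le_trans ?_ (gm_geom hl n)
    have hinj : Set.InjOn (fun v => v - r) ((range n).filter fun v => ¬ v < r : Finset ℕ) := by
      intro v hv w hw hvw
      have h2 := (mem_filter.1 (Finset.mem_coe.1 hv)).2
      have h3 := (mem_filter.1 (Finset.mem_coe.1 hw)).2
      simp only at hvw
      omega
    rw [← Finset.sum_image (f := fun j : ℕ => Real.exp (-(lam * (j + 1 : ℕ)))) hinj]
    refine Finset.sum_le_sum_of_subset_of_nonneg ?_ fun _ _ _ => (Real.exp_pos _).le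
    intro j hj
    obtain ⟨v, hv, rfl⟩ := mem_image.1 hj
    have := mem_range.1 (mem_filter.1 hv).1
    exact mem_range.2 (by omega)
  have k3 : ∑ v ∈ range n, Real.exp (-(lam * ((n - 1 - v) + 1 : ℕ))) ≤ 1 / lam := by
    rw [Finset.sum_range_reflect (fun j => Real.exp (-(lam * (j + 1 : ℕ)))) n]
    exact gm_geom hl n
  have e : (2 : ℝ) / lam = 1 / lam + 1 / lam := by ring
  rw [e]
  linarith

/-- total weight of a bump -/
theorem sum_bump {lam : ℝ} (hl : 0 < lam) (o : Tor n) (r : ℕ) :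
    ∑ x, bump n lam o r x ≤ (r + 2 / lam) ^ 3 := by
  have h1 : ∀ x : Tor n, bump n lam o r x = ∏ i : Fin 3, Real.exp (-(lam * d1 n r ((x - o) i))) := by
    intro x
    rw [← Real.exp_sum]
    unfold bump dist
    congr 1
    rw [Finset.sum_neg_distrib, ← Finset.mul_sum]
    push_cast
    rfl
  rw [Finset.sum_congr rfl fun x _ => h1 x]
  have h2 : ∑ x : Tor n, ∏ i : Fin 3, Real.exp (-(lam * d1 n r ((x - o) i))) =
      ∑ x : Tor n, ∏ i : Fin 3, Real.exp (-(lam * d1 n r (x i))) :=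
    Equiv.sum_comp (Equiv.subRight o) (fun x : Tor n => ∏ i : Fin 3, Real.exp (-(lam * d1 n r (x i))))
  rw [h2, ← Fintype.sum_pow (fun t : ZMod n => Real.exp (-(lam * d1 n r t))) 3]
  exact pow_le_pow_left₀ (Finset.sum_nonneg fun _ _ => (Real.exp_pos _).le) (gm_line hl r) 3

end

end Vale.Agent.P361.LRO.Ind
end

section

/-!
P361 LRO, block (6): the bumped profiles (helper660).
-/

namespace Vale.Agent.P361.LRO.Ind

open Finset Vale.Agent.P361.LRO

noncomputable section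

section gm

variable {n : ℕ} [NeZero n]

theorem gm_bump_pos (lam : ℝ) (o : Tor n) (r : ℕ) (x : Tor n) : 0 < bump n lam o r x := Real.exp_pos _

theorem gm_bump_le {lam : ℝ} (hl : 0 ≤ lam) (o : Tor n) (r : ℕ) (x : Tor n) :
    bump n lam o r x ≤ 1 := by
  unfold bump
  rw [Real.exp_le_one_iff]
  have : 0 ≤ lam * dist n o r x := mul_nonneg hl (Nat.cast_nonneg _)
  linarith

theorem gm_bump_mono {lam : ℝ} (hl : 0 ≤ lam) {r r' : ℕ} (h : r ≤ r') (o x : Tor n) :
    bump n lam o r x ≤ bump n lam o r' x := by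
  unfold bump
  apply Real.exp_le_exp.2
  have h1 : (dist n o r' x : ℝ) ≤ dist n o r x := by exact_mod_cast gm_dist_anti h o x
  have := mul_le_mul_of_nonneg_left h1 hl
  linarith

theorem gm_lipN {lam : ℝ} (hl : 0 ≤ lam) {r : ℕ} (hr : 1 ≤ r) (o : Tor n) :
    LipN n lam (bump n lam o r) := by
  intro x i
  obtain ⟨h1, h2⟩ := gm_dist_step hr o x i
  have h1' : (dist n o r (x + Pi.single i 1) : ℝ) ≤ dist n o r x + 1 := by exact_mod_cast h1
  have h2' : (dist n o r x : ℝ) ≤ dist n o r (x + Pi.single i 1) + 1 := by exact_mod_cast h2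
  have k1 := mul_le_mul_of_nonneg_left h1' hl
  have k2 := mul_le_mul_of_nonneg_left h2' hl
  unfold bump
  rw [← Real.exp_add, ← Real.exp_add]
  exact ⟨Real.exp_le_exp.2 (by linarith), Real.exp_le_exp.2 (by linarith)⟩

theorem gm_bump_cube {lam : ℝ} {o x : Tor n} {r : ℕ} (hr : r ≤ n) (hx : x ∈ cube n o r) :
    bump n lam o r x = 1 := by
  unfold bump
  rw [gm_dist_cube hr hx]
  simp

theorem gm_bump_ground {lam : ℝ} (hl : 0 ≤ lam) {o x : Tor n} {r s : ℕ} (hrs : r ≤ s)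
    (hs : 8 * s ≤ n) (hx : x ∈ cube n (pt n o (4 * s) 0 0) s) :
    bump n lam o r x ≤ Real.exp (-(3 * lam * s)) := by
  unfold bump
  apply Real.exp_le_exp.2
  have h1 : ((3 * s : ℕ) : ℝ) ≤ dist n o r x := by exact_mod_cast gm_dist_ground hrs hs hx
  have := mul_le_mul_of_nonneg_left h1 hl
  push_cast at this
  linarith

/-- the weight of the sites lowered in `HH r' → HH r` -/
theorem gm_lowered {lam : ℝ} (hl : 0 < lam) (o : Tor n) (h : Tor n → ℝ) {r r' : ℕ} (hr : r ≤ r') :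
    ∑ x, (if HH n lam o r h x = HH n lam o r' h x then 0 else HH n lam o r' h x) ≤
      (r' + 2 / lam) ^ 3 := by
  refine le_trans (Finset.sum_le_sum fun x _ => ?_) (sum_bump hl o r')
  split_ifs with hx
  · exact (gm_bump_pos lam o r' x).le
  · unfold HH at hx ⊢
    rcases le_total (h x) (bump n lam o r' x) with h2 | h2
    · rw [max_eq_right h2]
    · exact absurd (by
        rw [max_eq_left h2, max_eq_left ((gm_bump_mono hl.le hr o x).trans h2)]) hx

/-- the weight of the sites lowered in `HH r' → h` -/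
theorem gm_lowered' {lam : ℝ} (hl : 0 < lam) (o : Tor n) (h : Tor n → ℝ) (r' : ℕ) :
    ∑ x, (if h x = HH n lam o r' h x then 0 else HH n lam o r' h x) ≤
      (r' + 2 / lam) ^ 3 := by
  refine le_trans (Finset.sum_le_sum fun x _ => ?_) (sum_bump hl o r')
  split_ifs with hx
  · exact (gm_bump_pos lam o r' x).le
  · unfold HH at hx ⊢
    rcases le_total (h x) (bump n lam o r' x) with h2 | h2
    · rw [max_eq_right h2]
    · exact absurd (max_eq_left h2).symm hx

end gm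

/-! ### The statements of PLAN.txt -/

theorem Fam_HH {n : ℕ} [NeZero n] {h0 lam : ℝ} (hlam : 0 ≤ lam) (o : Tor n)
    {r : ℕ} (hr : 0 < r) {h : Tor n → ℝ} (hh : Fam n h0 lam h) :
    Fam n h0 lam (HH n lam o r h) :=
  hh.sup' (gm_lipN hlam hr o) (gm_bump_le hlam o r)

theorem Fam_one {n : ℕ} [NeZero n] {h0 lam : ℝ} (h1 : h0 ≤ 1) (hlam : 0 ≤ lam) :
    Fam n h0 lam (fun _ => 1) :=
  fam_const h1 le_rfl zero_le_one hlam

theorem HH_one {n : ℕ} [NeZero n] {h0 lam : ℝ} (hlam : 0 ≤ lam) (o : Tor n)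
    {r : ℕ} (hr : r ≤ n) {h : Tor n → ℝ} (hh : Fam n h0 lam h) {x : Tor n} (hx : x ∈ cube n o r) :
    HH n lam o r h x = 1 := by
  unfold HH
  rw [gm_bump_cube hr hx]
  exact max_eq_right (hh.le_one x)

theorem HH_mono {n : ℕ} [NeZero n] {lam : ℝ} (hlam : 0 ≤ lam) (o : Tor n)
    {r s : ℕ} (hr : r ≤ s) (h : Tor n → ℝ) (x : Tor n) :
    HH n lam o r h x ≤ HH n lam o s h x :=
  max_le_max le_rfl (gm_bump_mono hlam hr o x)

/-- total field of the lowered sites, from radius `s` to radius `r`. -/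
theorem sum_lowered {n : ℕ} [NeZero n] {lam : ℝ} (hlam : 0 < lam) (o : Tor n)
    {r s : ℕ} (hr : r ≤ s) (h : Tor n → ℝ) :
    ∑ x, (if HH n lam o r h x = HH n lam o s h x then 0 else HH n lam o s h x)
      ≤ (s + 2 / lam) ^ 3 := gm_lowered hlam o h hr

/-- total field of the lowered sites, from radius `s` to `h`. -/
theorem sum_lowered' {n : ℕ} [NeZero n] {lam : ℝ} (hlam : 0 < lam) (o : Tor n)
    (s : ℕ) (h : Tor n → ℝ) :
    ∑ x, (if h x = HH n lam o s h x then 0 else HH n lam o s h x)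
      ≤ (s + 2 / lam) ^ 3 := gm_lowered' hlam o h s

/-- nothing is changed on the ground cube. -/
theorem HH_ground {n : ℕ} [NeZero n] {h0 lam : ℝ} (hlam : 0 ≤ lam) (o : Tor n)
    {r s : ℕ} (hrs : r ≤ s) (hs : 8 * s ≤ n) {h : Tor n → ℝ} (hh : Fam n h0 lam h)
    (hsm : Real.exp (-(lam * (3 * s))) ≤ h0)
    {x : Tor n} (hx : x ∈ cube n (pt n o (4 * s) 0 0) s) : HH n lam o r h x = h x := by
  refine max_eq_left (((gm_bump_ground hlam hrs hs hx).trans ?_).trans (hh.ge x))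
  have e : 3 * lam * (s : ℝ) = lam * (3 * s) := by ring
  rw [e]
  exact hsm

theorem disj_EG {n N : ℕ} [NeZero n] (o : Tor n) (b : Finset (Tor n)) {r s : ℕ} (hrs : r ≤ s)
    (hs : 8 * s ≤ n) : Disjoint (EE6 n N o b r) (GG6 n N o s) := by
  rw [Finset.disjoint_left]
  rintro ⟨k, x⟩ h1 h2
  unfold GG6 at h2
  rw [mem_product, mem_filter] at h2
  obtain ⟨⟨-, hk⟩, hx⟩ := h2
  unfold EE6 at h1
  rw [mem_union, mem_product, mem_filter] at h1
  rcases h1 with h1 | ⟨-, h1⟩
  · unfold hatb at h1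
    rw [mem_product, mem_singleton] at h1
    exact hk h1.1
  · have h3 := gm_dist_ground hrs hs hx
    rw [gm_dist_cube (by omega) h1] at h3
    have hs0 : s = 0 := by omega
    subst hs0
    rw [gm_mem_cube (by omega)] at hx
    exact absurd (hx 0) (by omega)

theorem disj_hat {n N : ℕ} [NeZero n] (o : Tor n) (b : Finset (Tor n)) (s : ℕ) :
    Disjoint (hatb N b) (GG6 n N o s) := by
  rw [Finset.disjoint_left]
  rintro ⟨k, x⟩ h1 h2
  unfold GG6 at h2
  rw [mem_product, mem_filter] at h2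
  unfold hatb at h1
  rw [mem_product, mem_singleton] at h1
  exact h2.1.2 h1.1

end

end Vale.Agent.P361.LRO.Ind
end

section

/-!
P361 LRO, block (6), package L1: the top of the ladder (helper348).
-/

namespace Vale.Agent.P361.LRO.Ind

open Finset Vale.Agent.P361.LRO _root_.P361.LRO

private theorem lt_card_GG {n N : ℕ} [NeZero n] (o : Tor n) (s : ℕ) (hs : s ≤ n) :
    ((GG6 n N o s).card : ℝ) = N * (s : ℝ) ^ 3 := by
  unfold GG6
  rw [Finset.card_product, card_cube _ _ hs]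
  have h1 : (univ.filter fun k : Fin (N + 1) => k ≠ 0).card = N := by
    rw [Finset.filter_ne', Finset.card_erase_of_mem (Finset.mem_univ _), Finset.card_univ,
      Fintype.card_fin]
    rfl
  rw [h1]
  push_cast
  rfl

private theorem lt_sum_q {n N : ℕ} [NeZero n] (o : Tor n) (s : ℕ) (hs : s ≤ n) (t : ℝ) :
    ∑ z : Nd n N, (if z ∈ GG6 n N o s then t else 0) = N * (s : ℝ) ^ 3 * t := by
  rw [Finset.sum_ite_mem, Finset.univ_inter, Finset.sum_const, nsmul_eq_mul, lt_card_GG o s hs]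

private theorem lt_LBn_mono {X : Type} [Fintype X] {c : X → X → ℝ} {E G : Finset X} {A B : ℝ}
    (hAB : B ≤ A) (h : LBn c E G A) : LBn c E G B := fun a h1 h2 => hAB.trans (h a h1 h2)

/-- The numbers. -/
private theorem lt_num {C β ρ h0 ε : ℝ} (hC : 0 < C) (hβ : 10 ≤ β) (hβC : C + 8 ≤ β)
    (hρ : β ^ 10 ≤ ρ) (hh0 : 0 < h0) (hh : h0⁻¹ ≤ ρ ^ (5 / 2 : ℝ)) (hε : 0 ≤ ε)
    (hε1 : ε ≤ 1 / 1000) :
    0 < h0 ^ (-(4 * ε)) * (C / (β * ρ) + 8 / (β * h0 * ρ ^ 3)) ∧
    β * ρ ^ (1 / 3 : ℝ) ≤ 1 / (h0 ^ (-(4 * ε)) * (C / (β * ρ) + 8 / (β * h0 * ρ ^ 3))) := by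
  have hβ0 : 0 < β := by linarith
  have hβ10 : (1 : ℝ) ≤ β ^ 10 := one_le_pow₀ (by linarith)
  have hρ1 : 1 ≤ ρ := hβ10.trans hρ
  have hρ0 : 0 < ρ := by linarith
  have hpos : 0 < h0 ^ (-(4 * ε)) * (C / (β * ρ) + 8 / (β * h0 * ρ ^ 3)) := by positivity
  refine ⟨hpos, ?_⟩
  rw [le_div_iff₀ hpos]
  have e1 : h0 ^ (-(4 * ε)) ≤ ρ ^ (1 / 100 : ℝ) := by
    rw [Real.rpow_neg hh0.le, ← Real.inv_rpow hh0.le]
    calc (h0⁻¹) ^ (4 * ε) ≤ (ρ ^ (5 / 2 : ℝ)) ^ (4 * ε) :=
          Real.rpow_le_rpow (by positivity) hh (by positivity)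
      _ = ρ ^ ((5 / 2 : ℝ) * (4 * ε)) := by rw [← Real.rpow_mul hρ0.le]
      _ ≤ ρ ^ (1 / 100 : ℝ) := Real.rpow_le_rpow_of_exponent_le hρ1 (by linarith)
  have e2 : C / (β * ρ) + 8 / (β * h0 * ρ ^ 3) ≤ (C + 8) * ρ ^ (-(1 / 2) : ℝ) / β := by
    have f1 : C / (β * ρ) ≤ C * ρ ^ (-(1 / 2) : ℝ) / β := by
      have : C / (β * ρ) = C * ρ ^ (-1 : ℝ) / β := by
        rw [Real.rpow_neg_one]; field_simp
      rw [this]
      have := Real.rpow_le_rpow_of_exponent_le hρ1 (show (-1 : ℝ) ≤ -(1 / 2) by norm_num)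
      gcongr
    have f2 : 8 / (β * h0 * ρ ^ 3) ≤ 8 * ρ ^ (-(1 / 2) : ℝ) / β := by
      have g1 : 8 / (β * h0 * ρ ^ 3) = 8 * (h0⁻¹ * ρ ^ (-3 : ℝ)) / β := by
        rw [Real.rpow_neg hρ0.le, show (3 : ℝ) = ((3 : ℕ) : ℝ) by norm_num, Real.rpow_natCast]
        field_simp
      have g2 : h0⁻¹ * ρ ^ (-3 : ℝ) ≤ ρ ^ (5 / 2 : ℝ) * ρ ^ (-3 : ℝ) := by gcongr
      have g3 : ρ ^ (5 / 2 : ℝ) * ρ ^ (-3 : ℝ) = ρ ^ (-(1 / 2) : ℝ) := by
        rw [← Real.rpow_add hρ0]; norm_num
      rw [g3] at g2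
      rw [g1]
      gcongr
    have f3 : (C + 8) * ρ ^ (-(1 / 2) : ℝ) / β =
        C * ρ ^ (-(1 / 2) : ℝ) / β + 8 * ρ ^ (-(1 / 2) : ℝ) / β := by ring
    rw [f3]
    exact add_le_add f1 f2
  have e3 : C + 8 ≤ ρ ^ (47 / 300 : ℝ) := by
    calc C + 8 ≤ β := hβC
      _ = β ^ (1 : ℝ) := (Real.rpow_one β).symm
      _ ≤ β ^ ((10 : ℝ) * (47 / 300)) :=
          Real.rpow_le_rpow_of_exponent_le (by linarith) (by norm_num)
      _ = (β ^ 10) ^ (47 / 300 : ℝ) := by
          rw [Real.rpow_mul hβ0.le]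
          congr 1
          rw [show (10 : ℝ) = ((10 : ℕ) : ℝ) by norm_num, Real.rpow_natCast]
      _ ≤ ρ ^ (47 / 300 : ℝ) := Real.rpow_le_rpow (by positivity) hρ (by norm_num)
  calc β * ρ ^ (1 / 3 : ℝ) * (h0 ^ (-(4 * ε)) * (C / (β * ρ) + 8 / (β * h0 * ρ ^ 3)))
      ≤ β * ρ ^ (1 / 3 : ℝ) * (ρ ^ (1 / 100 : ℝ) * (ρ ^ (47 / 300 : ℝ) * ρ ^ (-(1 / 2) : ℝ) / β)) := by
        have e4 : C / (β * ρ) + 8 / (β * h0 * ρ ^ 3) ≤
            ρ ^ (47 / 300 : ℝ) * ρ ^ (-(1 / 2) : ℝ) / β := by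
          refine e2.trans ?_
          gcongr
        have : (0 : ℝ) ≤ C / (β * ρ) + 8 / (β * h0 * ρ ^ 3) := by positivity
        gcongr
    _ = (ρ ^ (1 / 3 : ℝ) * ρ ^ (1 / 100 : ℝ)) * (ρ ^ (47 / 300 : ℝ) * ρ ^ (-(1 / 2) : ℝ)) := by
        field_simp
    _ = 1 := by
        rw [← Real.rpow_add hρ0, ← Real.rpow_add hρ0, ← Real.rpow_add hρ0]
        norm_num

/-- The top of the ladder: `C(E_I, G; H_I) ≥ β ρ^{1/3}`. -/
theorem lad_top (c1 : ℝ) (hc1 : 0 < c1) : ∃ β0 : ℝ, 10 ≤ β0 ∧ ∀ (n N W m : ℕ) [NeZero n]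
    (β K h0 lam ε : ℝ) (o : Tor n) (b : Finset (Tor n)) (h : Tor n → ℝ)
    (c : (Tor n → ℝ) → Nd n N → Nd n N → ℝ) (s : ℕ),
    β0 ≤ β → 0 < W → N = m * W → Win β m → 8 * 3 ^ s < n →
    0 < h0 → h0 ≤ 1 → 1 / β ≤ lam → 0 ≤ ε → ε ≤ 1 / 1000 →
    β ^ 10 ≤ (3 : ℝ) ^ s → h0⁻¹ ≤ ((3 : ℝ) ^ s) ^ (5 / 2 : ℝ) →
    (∀ g, Fam n h0 lam g → Local n N W β K c1 b g (c g)) → Low n N β h0 lam ε c →
    Fam n h0 lam h →
    LBn (c (HH n lam o (3 ^ s) h)) (EE6 n N o b (3 ^ s)) (GG6 n N o (3 ^ s))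
      (β * ((3 : ℝ) ^ s) ^ (1 / 3 : ℝ)) := by
  obtain ⟨C, hC, hstep⟩ := step_top c1 hc1
  refine ⟨max 10 (C + 8), le_max_left _ _, ?_⟩
  intro n N W m _ β K h0 lam ε o b h c s hβ hW hN hWin hn hh0 hh1 hlam hε hε1 hβs hh0s hLoc hLow hh
  have hβ1 : 10 ≤ β := (le_max_left _ _).trans hβ
  have hβC : C + 8 ≤ β := (le_max_right _ _).trans hβ
  have hβ0 : 0 < β := by linarith
  have hlam0 : 0 ≤ lam := le_trans (by positivity) hlam
  have h3s : 0 < 3 ^ s := by positivity
  have hsn : 3 ^ s ≤ n := by omega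
  have hN0 : 0 < N := by
    rw [hN]
    exact Nat.mul_pos hWin.pos hW
  have hN0' : (0 : ℝ) < N := by exact_mod_cast hN0
  have h3s' : (0 : ℝ) < ((3 ^ s : ℕ) : ℝ) := by exact_mod_cast h3s
  have hH := Fam_HH (h := h) hlam0 o h3s hh
  have h1 := Fam_one (n := n) (h0 := h0) (lam := lam) hh1 hlam0
  have hR := hstep n N W m β K o b (c fun _ => 1) (3 ^ s) hβ1 hW hN hWin h3s hn (hLoc _ h1)
  set q : Nd n N → ℝ :=
    fun z => if z ∈ GG6 n N o (3 ^ s) then 1 / ((N : ℝ) * ((3 ^ s : ℕ) : ℝ) ^ 3) else 0 with hq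
  have hdisj := disj_EG (N := N) o b (le_refl (3 ^ s)) (by omega : 8 * 3 ^ s ≤ n)
  have hq1 : ∑ z, q z = 1 := by
    rw [hq, lt_sum_q o (3 ^ s) hsn]
    field_simp
  have hq2 : ∑ z, q z ^ 2 = 1 / ((N : ℝ) * ((3 ^ s : ℕ) : ℝ) ^ 3) := by
    have e : ∀ z, q z ^ 2 =
        if z ∈ GG6 n N o (3 ^ s) then (1 / ((N : ℝ) * ((3 ^ s : ℕ) : ℝ) ^ 3)) ^ 2 else 0 := by
      intro z
      rw [hq]
      dsimp only
      split_ifs <;> simp
    rw [Finset.sum_congr rfl fun z _ => e z, lt_sum_q o (3 ^ s) hsn]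
    field_simp
  have hdual := hLow.dual hh0 hh1 (HH n lam o (3 ^ s) h) hH (EE6 n N o b (3 ^ s)) q
    (by
      intro z hz hz0
      unfold EE6 at hz
      rw [Finset.mem_union] at hz
      rcases hz with hz | hz
      · unfold hatb at hz
        rw [Finset.mem_product, Finset.mem_singleton] at hz
        exact absurd hz.1 hz0
      · rw [Finset.mem_product] at hz
        exact HH_one hlam0 o hsn hh hz.2)
    (by
      intro z hz
      have := Finset.disjoint_left.1 hdisj hz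
      rw [hq]
      dsimp only
      rw [if_neg this])
    (by
      intro x
      rw [hq]
      dsimp only
      rw [if_neg]
      unfold GG6
      rw [Finset.mem_product, Finset.mem_filter]
      rintro ⟨⟨_, h0⟩, _⟩
      exact h0 rfl)
    (by
      intro z
      rw [hq]
      dsimp only
      split_ifs <;> positivity)
    hq1 (C / (β * ((3 ^ s : ℕ) : ℝ))) (by positivity) hR
  rw [hq2] at hdual
  have hnum := lt_num hC hβ1 hβC hβs hh0 hh0s hε hε1
  have e3 : ((3 ^ s : ℕ) : ℝ) = (3 : ℝ) ^ s := by push_cast; rfl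
  rw [e3] at hdual
  have e4 : 8 * (N : ℝ) / (β * h0) * (1 / ((N : ℝ) * ((3 : ℝ) ^ s) ^ 3)) =
      8 / (β * h0 * ((3 : ℝ) ^ s) ^ 3) := by
    field_simp
  rw [e4] at hdual
  refine lt_LBn_mono hnum.2 (LBn_of_RBn hnum.1 ?_ hdual)
  intro x hx
  rw [hq]
  dsimp only
  rw [if_neg hx]

end Vale.Agent.P361.LRO.Ind
end

section

/-!
# P361 LRO, block (6), package L2: one rung of the ladder
-/

namespace Vale.Agent.P361.LRO.Ind

open Finset Vale.Agent.P361.LRO _root_.P361.LRO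

theorem ladmid_num_a {C β X : ℝ} (hC : 0 < C) (hβ : 10 ≤ β) (hX : β ^ 10 ≤ X) :
    C * (β * X ^ (4 / 9 : ℝ) / (1 + C)) ≤ β * X ∧
    C * β ^ 2 * (β * X ^ (4 / 9 : ℝ) / (1 + C)) ≤ β * X ^ (4 / 3 : ℝ) ∧
    C * (β * X ^ (4 / 9 : ℝ) / (1 + C)) ^ 3 ≤ β * X ^ (4 / 3 : ℝ) * β ^ 2 := by
  have hβ0 : 0 < β := by linarith
  have hβ1 : 1 ≤ β := by linarith
  have hX1 : 1 ≤ X := le_trans (one_le_pow₀ hβ1) hX
  have hX0 : 0 < X := by linarith
  have hC1 : C / (1 + C) ≤ 1 := by rw [div_le_one (by positivity)]; linarith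
  have hC0 : 0 ≤ C / (1 + C) := by positivity
  refine ⟨?_, ?_, ?_⟩
  · have h1 : X ^ (4 / 9 : ℝ) ≤ X := by
      conv_rhs => rw [← Real.rpow_one X]
      exact Real.rpow_le_rpow_of_exponent_le hX1 (by norm_num)
    calc C * (β * X ^ (4 / 9 : ℝ) / (1 + C)) = C / (1 + C) * (β * X ^ (4 / 9 : ℝ)) := by ring
      _ ≤ 1 * (β * X) := mul_le_mul hC1 (by gcongr) (by positivity) zero_le_one
      _ = β * X := one_mul _
  · have h2 : β ^ 2 * X ^ (4 / 9 : ℝ) ≤ X ^ (4 / 3 : ℝ) := by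
      have h3 : β ^ 2 ≤ X ^ (1 / 5 : ℝ) := by
        have h4 := Real.rpow_le_rpow (by positivity) hX (show (0 : ℝ) ≤ 1 / 5 by norm_num)
        rw [← Real.rpow_natCast β 10, ← Real.rpow_mul hβ0.le] at h4
        have e : ((10 : ℕ) : ℝ) * (1 / 5) = ((2 : ℕ) : ℝ) := by norm_num
        rw [e, Real.rpow_natCast] at h4
        exact h4
      have h5 : X ^ (1 / 5 : ℝ) ≤ X ^ (8 / 9 : ℝ) :=
        Real.rpow_le_rpow_of_exponent_le hX1 (by norm_num)
      calc β ^ 2 * X ^ (4 / 9 : ℝ) ≤ X ^ (8 / 9 : ℝ) * X ^ (4 / 9 : ℝ) :=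
            mul_le_mul_of_nonneg_right (h3.trans h5) (by positivity)
        _ = X ^ (4 / 3 : ℝ) := by rw [← Real.rpow_add hX0]; norm_num
    calc C * β ^ 2 * (β * X ^ (4 / 9 : ℝ) / (1 + C))
        = C / (1 + C) * (β * (β ^ 2 * X ^ (4 / 9 : ℝ))) := by ring
      _ ≤ 1 * (β * X ^ (4 / 3 : ℝ)) := mul_le_mul hC1 (by gcongr) (by positivity) zero_le_one
      _ = _ := one_mul _
  · have h6 : (X ^ (4 / 9 : ℝ)) ^ 3 = X ^ (4 / 3 : ℝ) := by
      rw [← Real.rpow_natCast, ← Real.rpow_mul hX0.le]; norm_num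
    have h7 : C / (1 + C) ^ 3 ≤ 1 := by
      rw [div_le_one (by positivity)]
      nlinarith [sq_nonneg C, pow_pos hC 3]
    calc C * (β * X ^ (4 / 9 : ℝ) / (1 + C)) ^ 3
        = C / (1 + C) ^ 3 * (β ^ 3 * (X ^ (4 / 9 : ℝ)) ^ 3) := by
          rw [div_pow, mul_pow]; field_simp
      _ = C / (1 + C) ^ 3 * (β ^ 3 * X ^ (4 / 3 : ℝ)) := by rw [h6]
      _ ≤ 1 * (β ^ 3 * X ^ (4 / 3 : ℝ)) := mul_le_mul_of_nonneg_right h7 (by positivity)
      _ = β * X ^ (4 / 3 : ℝ) * β ^ 2 := by ring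

theorem ladmid_num_b {C β X lam ε : ℝ} (hC : 0 < C) (hβ : 10 ≤ β)
    (hβC : 4 * (1 + C) ^ 2 ≤ β) (hX : β ^ 10 ≤ X)
    (hlam : 1 / β ≤ lam) (hε : 0 ≤ ε) (hε1 : ε ≤ 1 / 1000) :
    β * X ^ (1 / 3 : ℝ) ≤
      (β * (X ^ 4 + 2 / lam) ^ 3) ^ (-(4 * ε)) * (β * X ^ (4 / 9 : ℝ) / (1 + C)) - 2 * ε := by
  have hβ0 : 0 < β := by linarith
  have hβ1 : 1 ≤ β := by linarith
  have hX1 : 1 ≤ X := le_trans (one_le_pow₀ hβ1) hX
  have hX0 : 0 < X := by linarith
  have hlam0 : 0 < lam := lt_of_lt_of_le (by positivity) hlam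
  have hβX : 8 * β ≤ X := by
    have h1 : (8 : ℝ) ≤ β ^ 9 := by
      calc (8 : ℝ) ≤ 10 := by norm_num
        _ ≤ β := hβ
        _ = β ^ 1 := (pow_one β).symm
        _ ≤ β ^ 9 := pow_le_pow_right₀ hβ1 (by norm_num)
    calc 8 * β ≤ β ^ 9 * β := mul_le_mul_of_nonneg_right h1 hβ0.le
      _ = β ^ 10 := by ring
      _ ≤ X := hX
  have h2l : 2 / lam ≤ X ^ 4 := by
    have h1 : 2 / lam ≤ 2 * β := by
      rw [div_le_iff₀ hlam0]
      have := mul_le_mul_of_nonneg_left hlam (show 0 ≤ 2 * β by positivity)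
      have e : 2 * β * (1 / β) = 2 := by field_simp
      linarith
    have h2 : X ≤ X ^ 4 := by
      calc X = X ^ 1 := (pow_one X).symm
        _ ≤ X ^ 4 := pow_le_pow_right₀ hX1 (by norm_num)
    linarith
  have hpos : 0 < β * (X ^ 4 + 2 / lam) ^ 3 := by positivity
  have hle : β * (X ^ 4 + 2 / lam) ^ 3 ≤ X ^ 13 := by
    calc β * (X ^ 4 + 2 / lam) ^ 3 ≤ β * (2 * X ^ 4) ^ 3 := by
          gcongr
          linarith
      _ = (8 * β) * X ^ 12 := by ring
      _ ≤ X * X ^ 12 := by gcongr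
      _ = X ^ 13 := by ring
  have h1 : X ^ (-(52 / 1000) : ℝ) ≤ (β * (X ^ 4 + 2 / lam) ^ 3) ^ (-(4 * ε)) := by
    calc X ^ (-(52 / 1000) : ℝ) ≤ X ^ (-(52 * ε)) :=
          Real.rpow_le_rpow_of_exponent_le hX1 (by linarith)
      _ = (X ^ 13) ^ (-(4 * ε)) := by
          rw [← Real.rpow_natCast X 13, ← Real.rpow_mul hX0.le]
          congr 1
          push_cast
          ring
      _ ≤ _ := Real.rpow_le_rpow_of_nonpos hpos hle (by linarith)
  have h3 : 2 * (1 + C) ≤ X ^ (1 / 20 : ℝ) := by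
    have h4 := Real.rpow_le_rpow (by positivity) hX (show (0 : ℝ) ≤ 1 / 20 by norm_num)
    rw [← Real.rpow_natCast β 10, ← Real.rpow_mul hβ0.le] at h4
    have e : ((10 : ℕ) : ℝ) * (1 / 20) = 1 / 2 := by norm_num
    rw [e, ← Real.sqrt_eq_rpow] at h4
    have h5 : 2 * (1 + C) ≤ Real.sqrt β := by
      apply Real.le_sqrt_of_sq_le
      calc (2 * (1 + C)) ^ 2 = 4 * (1 + C) ^ 2 := by ring
        _ ≤ β := hβC
    exact h5.trans h4
  have h6 : 2 * (β * X ^ (1 / 3 : ℝ)) ≤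
      X ^ (-(52 / 1000) : ℝ) * (β * X ^ (4 / 9 : ℝ) / (1 + C)) := by
    have h7 : X ^ (1 / 3 : ℝ) * X ^ (1 / 20 : ℝ) ≤ X ^ (-(52 / 1000) : ℝ) * X ^ (4 / 9 : ℝ) := by
      rw [← Real.rpow_add hX0, ← Real.rpow_add hX0]
      exact Real.rpow_le_rpow_of_exponent_le hX1 (by norm_num)
    have h8 : 2 * (1 + C) * X ^ (1 / 3 : ℝ) ≤ X ^ (-(52 / 1000) : ℝ) * X ^ (4 / 9 : ℝ) := by
      calc 2 * (1 + C) * X ^ (1 / 3 : ℝ) ≤ X ^ (1 / 20 : ℝ) * X ^ (1 / 3 : ℝ) :=
            mul_le_mul_of_nonneg_right h3 (by positivity)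
        _ = X ^ (1 / 3 : ℝ) * X ^ (1 / 20 : ℝ) := mul_comm _ _
        _ ≤ _ := h7
    have e1 : X ^ (-(52 / 1000) : ℝ) * (β * X ^ (4 / 9 : ℝ) / (1 + C)) =
        β * (X ^ (-(52 / 1000) : ℝ) * X ^ (4 / 9 : ℝ)) / (1 + C) := by ring
    rw [e1, le_div_iff₀ (by positivity)]
    calc 2 * (β * X ^ (1 / 3 : ℝ)) * (1 + C) = β * (2 * (1 + C) * X ^ (1 / 3 : ℝ)) := by ring
      _ ≤ _ := mul_le_mul_of_nonneg_left h8 hβ0.le
  have h9 : X ^ (-(52 / 1000) : ℝ) * (β * X ^ (4 / 9 : ℝ) / (1 + C)) ≤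
      (β * (X ^ 4 + 2 / lam) ^ 3) ^ (-(4 * ε)) * (β * X ^ (4 / 9 : ℝ) / (1 + C)) :=
    mul_le_mul_of_nonneg_right h1 (by positivity)
  have h10 : 1 ≤ β * X ^ (1 / 3 : ℝ) := by
    have : 1 ≤ X ^ (1 / 3 : ℝ) := Real.one_le_rpow hX1 (by norm_num)
    nlinarith
  linarith

/-- One rung of the ladder. `S` is the ground scale. -/
theorem lad_mid (c1 : ℝ) (hc1 : 0 < c1) : ∃ β0 : ℝ, 10 ≤ β0 ∧ ∀ (n N W m : ℕ) [NeZero n]
    (β K h0 lam ε : ℝ) (o : Tor n) (b : Finset (Tor n)) (h : Tor n → ℝ)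
    (c : (Tor n → ℝ) → Nd n N → Nd n N → ℝ) (r S : ℕ),
    β0 ≤ β → 0 < W → N = m * W → Win β m → 4 * r ≤ S → 8 * 3 ^ S < n →
    0 < h0 → h0 ≤ 1 → 1 / β ≤ lam → 0 ≤ ε → ε ≤ 1 / 1000 →
    β ^ 10 ≤ (3 : ℝ) ^ r → h0⁻¹ ≤ ((3 : ℝ) ^ S) ^ (5 / 2 : ℝ) →
    (∀ g, Fam n h0 lam g → Local n N W β K c1 b g (c g)) → Low n N β h0 lam ε c →
    Fam n h0 lam h →
    LBn (c (HH n lam o (3 ^ (4 * r)) h)) (EE6 n N o b (3 ^ (4 * r))) (GG6 n N o (3 ^ S))
      (β * ((3 : ℝ) ^ (4 * r)) ^ (1 / 3 : ℝ)) →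
    LBn (c (HH n lam o (3 ^ r) h)) (EE6 n N o b (3 ^ r)) (GG6 n N o (3 ^ S))
      (β * ((3 : ℝ) ^ r) ^ (1 / 3 : ℝ)) := by
  obtain ⟨C, hC, hstep⟩ := step_mid c1 hc1
  obtain ⟨β1, hβ1, hground⟩ := num_ground
  refine ⟨max β1 (4 * (1 + C) ^ 2), hβ1.trans (le_max_left _ _), ?_⟩
  intro n N W m _ β K h0 lam ε o b h c r S hβ hW hN hwin hrS hSn hh0 hh01 hlam hε hε1
    hr hS hloc hlow hfam hLB
  have hβ1' : β1 ≤ β := (le_max_left _ _).trans hβ
  have hβC : 4 * (1 + C) ^ 2 ≤ β := (le_max_right _ _).trans hβ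
  have hβ10 : 10 ≤ β := hβ1.trans hβ1'
  have hβ0 : 0 < β := by linarith
  have hlam0 : 0 < lam := lt_of_lt_of_le (by positivity) hlam
  have h4rS : (3 : ℕ) ^ (4 * r) ≤ 3 ^ S := Nat.pow_le_pow_right (by norm_num) hrS
  have hrr : (3 : ℕ) ^ r ≤ 3 ^ (4 * r) := Nat.pow_le_pow_right (by norm_num) (by omega)
  have h8 : (3 : ℕ) ^ S ≤ 8 * 3 ^ S := by omega
  have h4rn : (3 : ℕ) ^ (4 * r) < n := by omega
  have hrn : (3 : ℕ) ^ r ≤ n := by omega
  have hfam4 : Fam n h0 lam (HH n lam o (3 ^ (4 * r)) h) := Fam_HH hlam0.le o (by positivity) hfam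
  have hfam1 : Fam n h0 lam (HH n lam o (3 ^ r) h) := Fam_HH hlam0.le o (by positivity) hfam
  have hXe : ((3 : ℝ) ^ (4 * r)) ^ (1 / 3 : ℝ) = ((3 : ℝ) ^ r) ^ (4 / 3 : ℝ) := by
    rw [mul_comm 4 r, pow_mul, ← Real.rpow_natCast ((3 : ℝ) ^ r) 4,
      ← Real.rpow_mul (by positivity)]
    norm_num
  obtain ⟨hB1, hB2, hB3⟩ := ladmid_num_a hC hβ10 hr
  rw [hXe] at hLB
  have hstep1 := hstep n N W m β K o b (HH n lam o (3 ^ (4 * r)) h)
    (c (HH n lam o (3 ^ (4 * r)) h)) r (4 * r) (GG6 n N o (3 ^ S))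
    (β * ((3 : ℝ) ^ r) ^ (4 / 3 : ℝ)) (β * ((3 : ℝ) ^ r) ^ (4 / 9 : ℝ) / (1 + C))
    hβ10 hW hN hwin (by omega) h4rn
    (fun x => (hfam4.1 x).2) (fun x hx => HH_one hlam0.le o h4rn.le hfam hx) (hloc _ hfam4)
    (disj_EG o _ h4rS hSn.le) hLB (by positivity) hB1 hB2 hB3
  have hβS : β ^ 10 ≤ (3 : ℝ) ^ S := hr.trans (pow_le_pow_right₀ (by norm_num) (by omega))
  have hsm := hground β h0 lam S hβ1' hh0 hlam hβS hS
  have hlow1 := hlow.prim (HH n lam o (3 ^ (4 * r)) h) (HH n lam o (3 ^ r) h) hfam4 hfam1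
    (fun x => HH_mono hlam0.le o hrr h x)
    (EE6 n N o b (3 ^ r)) (GG6 n N o (3 ^ S)) (disj_EG o _ (hrr.trans h4rS) hSn.le) (by
      intro z hz hz0
      rcases mem_union.1 hz with hz | hz
      · unfold EE6 at hz
        rcases mem_union.1 hz with hz | hz
        · exfalso
          apply hz0
          unfold hatb at hz
          exact mem_singleton.1 (mem_product.1 hz).1
        · have hx := (mem_product.1 hz).2
          rw [HH_one hlam0.le o hrn hfam hx]
          have hx4 : z.2 ∈ cube n o (3 ^ (4 * r)) := by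
            unfold cube at hx ⊢
            rw [mem_image] at hx ⊢
            obtain ⟨y, -, hy⟩ := hx
            exact ⟨fun i => ⟨(y i : ℕ), lt_of_lt_of_le (y i).2 hrr⟩, mem_univ _, hy⟩
          rw [HH_one hlam0.le o h4rn.le hfam hx4]
      · unfold GG6 at hz
        have hx := (mem_product.1 hz).2
        rw [HH_ground hlam0.le o (hrr.trans h4rS) hSn.le hfam (by push_cast; exact hsm) hx,
          HH_ground hlam0.le o h4rS hSn.le hfam (by push_cast; exact hsm) hx])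
    (((3 ^ (4 * r) : ℕ) + 2 / lam) ^ 3) (by
      have h1r : (1 : ℝ) ≤ ((3 ^ (4 * r) : ℕ) : ℝ) := by
        push_cast; exact one_le_pow₀ (by norm_num)
      have h2 : (1 : ℝ) ≤ ((3 ^ (4 * r) : ℕ) : ℝ) + 2 / lam := by
        have : 0 ≤ 2 / lam := by positivity
        linarith
      have h3 : (1 : ℝ) ≤ (((3 ^ (4 * r) : ℕ) : ℝ) + 2 / lam) ^ 3 := one_le_pow₀ h2
      nlinarith)
    (sum_lowered hlam0 o hrr h) (β * ((3 : ℝ) ^ r) ^ (4 / 9 : ℝ) / (1 + C)) (by positivity)
    hstep1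
  have hnum := ladmid_num_b hC hβ10 hβC hr hlam hε hε1
  intro f hf hg
  refine le_trans hnum ?_
  have h5 := hlow1 f hf hg
  have e : ((3 ^ (4 * r) : ℕ) : ℝ) = ((3 : ℝ) ^ r) ^ 4 := by
    push_cast
    rw [mul_comm 4 r, pow_mul]
  rw [e] at h5
  exact h5

end Vale.Agent.P361.LRO.Ind
end

section

/-!
# P361 LRO, block (6), E3: contact energy
-/

namespace Vale.Agent.P361.LRO.Ind

open Finset Vale.Agent.P361.LRO _root_.P361.LRO

theorem contact_lay {N W m : ℕ} (hm : 4 ≤ m) (hN : N = m * W) {j : ℕ} (hj : j < W) :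
    ((lay N W 0 j : Fin (N + 1)) : ℕ) = 1 + j := by
  have h1 : W ≤ N := by
    rw [hN]
    exact Nat.le_mul_of_pos_left W (by omega)
  have h2 : 1 + 0 * W + j < N + 1 := by omega
  unfold lay
  rw [dif_pos h2]
  show 1 + 0 * W + j = 1 + j
  omega

/-- a sum over ordered pairs and their swaps is at most twice the Dirichlet form -/
theorem contact_pairs {X ι : Type} [Fintype X] [DecidableEq X] {c : X → X → ℝ}
    (hs : ∀ u v, c u v = c v u) (hc : ∀ u v, 0 ≤ c u v) (a : X → ℝ) (s : Finset ι)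
    (f g : ι → X) (hinj : ∀ i ∈ s, ∀ i' ∈ s, f i = f i' → g i = g i' → i = i')
    (hdis : ∀ i ∈ s, ∀ i' ∈ s, f i ≠ g i') :
    ∑ i ∈ s, c (f i) (g i) * (a (f i) - a (g i)) ^ 2 ≤ netK c a := by
  classical
  have h1 : ∑ i ∈ s, c (f i) (g i) * (a (f i) - a (g i)) ^ 2 =
      ∑ z ∈ s.image fun i => (f i, g i), c z.1 z.2 * (a z.1 - a z.2) ^ 2 := by
    rw [Finset.sum_image]
    intro i hi i' hi' h
    exact hinj i hi i' hi' (congrArg Prod.fst h) (congrArg Prod.snd h)
  have h2 : ∑ i ∈ s, c (f i) (g i) * (a (f i) - a (g i)) ^ 2 =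
      ∑ z ∈ s.image fun i => (g i, f i), c z.1 z.2 * (a z.1 - a z.2) ^ 2 := by
    rw [Finset.sum_image]
    · refine Finset.sum_congr rfl fun i _ => ?_
      rw [hs (g i) (f i)]
      ring
    · intro i hi i' hi' h
      exact hinj i hi i' hi' (congrArg Prod.snd h) (congrArg Prod.fst h)
  have h3 : Disjoint (s.image fun i => (f i, g i)) (s.image fun i => (g i, f i)) := by
    rw [Finset.disjoint_left]
    intro z hz hz'
    obtain ⟨i, hi, rfl⟩ := Finset.mem_image.1 hz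
    obtain ⟨i', hi', h⟩ := Finset.mem_image.1 hz'
    exact hdis i hi i' hi' (congrArg Prod.fst h).symm
  have h4 : ∑ z ∈ (s.image fun i => (f i, g i)) ∪ (s.image fun i => (g i, f i)),
      c z.1 z.2 * (a z.1 - a z.2) ^ 2 ≤ ∑ z : X × X, c z.1 z.2 * (a z.1 - a z.2) ^ 2 :=
    Finset.sum_le_sum_of_subset_of_nonneg (Finset.subset_univ _)
      fun z _ _ => mul_nonneg (hc _ _) (sq_nonneg _)
  rw [Finset.sum_union h3, ← h1, ← h2, Fintype.sum_prod_type] at h4
  unfold netK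
  linarith

/-- contact energy. -/
theorem contact_le {n N W m : ℕ} [NeZero n] {β K c1 : ℝ} {b : Finset (Tor n)} {h : Tor n → ℝ}
    {c : Nd n N → Nd n N → ℝ} (hW : 0 < W) (hm : 4 ≤ m) (hN : N = m * W) (hβ : 0 < β)
    (hK : 0 < K) (hc1 : 0 < c1) (hc : Local n N W β K c1 b h c) (hb : b.Nonempty)
    (h1 : ∀ x ∈ b, h x = 1) (a : Nd n N → ℝ) (ha : ∀ x ∈ b, a (0, x) = 1) :
    c1 * K * (β / N) * (1 / b.card) * (∑ x ∈ b, ∑ j ∈ range W, (1 - a (lay N W 0 j, x)) ^ 2)
      ≤ netK c a := by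
  classical
  have hk0 : ∀ j ∈ range W, (lay N W 0 j : Fin (N + 1)) ≠ 0 := by
    intro j hj h
    have h2 := contact_lay hm hN (Finset.mem_range.1 hj)
    rw [h, Fin.val_zero] at h2
    omega
  have h2 := contact_pairs hc.symm hc.nonneg a (b ×ˢ range W)
    (fun z => ((0 : Fin (N + 1)), z.1)) (fun z => (lay N W 0 z.2, z.1))
    (fun z hz z' hz' e1 e2 => by
      have hx : z.1 = z'.1 := congrArg Prod.snd e1
      have hj : lay N W 0 z.2 = lay N W 0 z'.2 := congrArg Prod.fst e2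
      have h3 := contact_lay hm hN (Finset.mem_range.1 (Finset.mem_product.1 hz).2)
      have h4 := contact_lay hm hN (Finset.mem_range.1 (Finset.mem_product.1 hz').2)
      rw [hj, h4] at h3
      exact Prod.ext hx (by omega))
    (fun z _ z' hz' e => hk0 z'.2 (Finset.mem_product.1 hz').2 (congrArg Prod.fst e).symm)
  refine le_trans ?_ h2
  rw [Finset.sum_product, Finset.mul_sum]
  refine Finset.sum_le_sum fun x hx => ?_
  rw [Finset.mul_sum]
  refine Finset.sum_le_sum fun j hj => ?_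
  have h3 := contact_lay hm hN (Finset.mem_range.1 hj)
  have h4 := hc.contact (lay N W 0 j) x (hk0 j hj) (by rw [h3]; have := Finset.mem_range.1 hj; omega)
    hx (h1 x hx)
  show _ ≤ c (0, x) (lay N W 0 j, x) * (a (0, x) - a (lay N W 0 j, x)) ^ 2
  rw [ha x hx]
  have h5 : c1 * K * (β / N) * (1 / b.card) = c1 * (K / b.card) * (β / N) := by ring
  rw [h5]
  exact mul_le_mul_of_nonneg_right h4 (sq_nonneg _)

end Vale.Agent.P361.LRO.Ind
end

section

/-!
# P361 LRO, block (6): the last step (6c), before lowering (helper535)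
-/

namespace Vale.Agent.P361.LRO.Ind

open Finset Vale.Agent.P361.LRO _root_.P361.LRO

lemma sl_E4_nonneg (S T : ℕ) (U : ℕ → ℕ → ℕ → ℕ → ℝ) : 0 ≤ E4 S T U := by
  unfold E4 Esp Eti
  have h : ∀ (s : Finset ℕ) (f : ℕ → ℝ), (∀ i, 0 ≤ f i) → 0 ≤ ∑ i ∈ s, f i := fun s f hf =>
    Finset.sum_nonneg fun i _ => hf i
  have h4 : ∀ (s1 s2 s3 s4 : Finset ℕ) (f : ℕ → ℕ → ℕ → ℕ → ℝ), (∀ x y z w, 0 ≤ f x y z w) →
      0 ≤ ∑ x ∈ s1, ∑ y ∈ s2, ∑ z ∈ s3, ∑ w ∈ s4, f x y z w := fun s1 s2 s3 s4 f hf =>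
    h _ _ fun x => h _ _ fun y => h _ _ fun z => h _ _ fun w => hf x y z w
  refine add_nonneg (add_nonneg (add_nonneg ?_ ?_) ?_) ?_ <;>
    exact h4 _ _ _ _ _ fun _ _ _ _ => sq_nonneg _

lemma sl_jensen (W : ℕ) (hW : 0 < W) (f : ℕ → ℝ) :
    (1 - (1 / (W : ℝ)) * ∑ j ∈ range W, f j) ^ 2 ≤ (1 / (W : ℝ)) * ∑ j ∈ range W, (1 - f j) ^ 2 := by
  have hW' : (0 : ℝ) < W := Nat.cast_pos.2 hW
  have h1 : 1 - (1 / (W : ℝ)) * ∑ j ∈ range W, f j = (1 / (W : ℝ)) * ∑ j ∈ range W, (1 - f j) := by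
    rw [Finset.sum_sub_distrib, Finset.sum_const, Finset.card_range, nsmul_eq_mul, mul_one]
    field_simp
  have h2 := sq_sum_le_card_mul_sum_sq (s := range W) (f := fun j => 1 - f j)
  rw [Finset.card_range] at h2
  rw [h1, mul_pow]
  calc (1 / (W : ℝ)) ^ 2 * (∑ j ∈ range W, (1 - f j)) ^ 2
      ≤ (1 / (W : ℝ)) ^ 2 * (W * ∑ j ∈ range W, (1 - f j) ^ 2) :=
        mul_le_mul_of_nonneg_left h2 (by positivity)
    _ = (1 / (W : ℝ)) * ∑ j ∈ range W, (1 - f j) ^ 2 := by
        field_simp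

lemma sl_num {β K κ A P Q C : ℝ} (hβ : 0 < β) (hK : 0 < K) (hκ0 : 0 ≤ κ) (hκ : κ ≤ K)
    (hP : 0 ≤ P) (hQ : 0 ≤ Q) (hC : 2 * P < C) (hC' : 2 * Q ≤ C) (h1 : C * β ^ 2 * K ≤ A)
    (h2 : C * K ^ 3 ≤ A * β ^ 2) (h3 : A ≤ P * (β ^ 2 * κ) + Q * (κ ^ 3 / β ^ 2)) : False := by
  have hb2 : 0 < β ^ 2 := by positivity
  have e1 : β ^ 2 * κ ≤ β ^ 2 * K := mul_le_mul_of_nonneg_left hκ hb2.le
  have e2 : κ ^ 3 / β ^ 2 ≤ K ^ 3 / β ^ 2 :=
    div_le_div_of_nonneg_right (pow_le_pow_left₀ hκ0 hκ 3) hb2.le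
  have e3 : C * (K ^ 3 / β ^ 2) ≤ A := by
    rw [← mul_div_assoc, div_le_iff₀ hb2]
    exact h2
  have e4 : 0 < β ^ 2 * K := by positivity
  have e5 : 0 ≤ K ^ 3 / β ^ 2 := by positivity
  have e6 : P * (β ^ 2 * κ) ≤ P * (β ^ 2 * K) := mul_le_mul_of_nonneg_left e1 hP
  have e7 : Q * (κ ^ 3 / β ^ 2) ≤ Q * (K ^ 3 / β ^ 2) := mul_le_mul_of_nonneg_left e2 hQ
  have e8 : 2 * P * (β ^ 2 * K) < C * (β ^ 2 * K) := mul_lt_mul_of_pos_right hC e4
  have e9 : 2 * Q * (K ^ 3 / β ^ 2) ≤ C * (K ^ 3 / β ^ 2) := mul_le_mul_of_nonneg_right hC' e5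
  have e10 : C * (β ^ 2 * K) ≤ A := by rw [← mul_assoc]; exact h1
  linarith

/-- the volume bound in numbers -/
lemma sl_vol {β κ A E D cn c1 Cc mR : ℝ} (hβ : 1 ≤ β) (hκ0 : 0 ≤ κ) (hc1 : 0 < c1) (hCc : 0 < Cc)
    (hm1 : 3 * β ≤ mR) (hm2 : mR ≤ 4 * β) (hE0 : 0 ≤ E) (hE : c1 * E ≤ 1600 * κ)
    (hD : c1 * D ≤ 4 * κ) (hcn : cn ≤ Cc * (mR ^ 2 * E + E ^ 3 / mR ^ 2))
    (hA : A ≤ 4 * κ + (32 * D + β / (2 * mR) * cn)) (hcn0 : 0 ≤ cn) :
    A ≤ (4 + 128 / c1 + 5000 * Cc / c1) * (β ^ 2 * κ) + Cc * (1600 / c1) ^ 3 * (κ ^ 3 / β ^ 2) := by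
  have hβ0 : 0 < β := by linarith
  have hm0 : 0 < mR := by linarith
  have hb2 : 1 ≤ β ^ 2 := one_le_pow₀ hβ
  have hE' : E ≤ 1600 / c1 * κ := by
    rw [div_mul_eq_mul_div, le_div_iff₀ hc1]
    linarith
  have hD' : D ≤ 4 / c1 * κ := by
    rw [div_mul_eq_mul_div, le_div_iff₀ hc1]
    linarith
  have hκb : κ ≤ β ^ 2 * κ := le_mul_of_one_le_left hκ0 hb2
  have h1 : β / (2 * mR) ≤ 1 / 6 := by
    rw [div_le_iff₀ (by positivity)]
    linarith
  have h2 : β / (2 * mR) * cn ≤ 1 / 6 * cn := mul_le_mul_of_nonneg_right h1 hcn0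
  have h3 : mR ^ 2 * E ≤ 16 * β ^ 2 * (1600 / c1 * κ) := by
    refine mul_le_mul ?_ hE' hE0 (by positivity)
    nlinarith
  have h4 : E ^ 3 / mR ^ 2 ≤ (1600 / c1 * κ) ^ 3 / β ^ 2 := by
    refine div_le_div₀ (by positivity) (pow_le_pow_left₀ hE0 hE' 3) (by positivity) ?_
    nlinarith
  have h5 : cn ≤ Cc * (16 * β ^ 2 * (1600 / c1 * κ) + (1600 / c1 * κ) ^ 3 / β ^ 2) :=
    hcn.trans (mul_le_mul_of_nonneg_left (add_le_add h3 h4) hCc.le)
  have h6 : (1600 / c1 * κ) ^ 3 / β ^ 2 = (1600 / c1) ^ 3 * (κ ^ 3 / β ^ 2) := by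
    rw [mul_pow, mul_div_assoc]
  rw [h6] at h5
  have h7 : 0 ≤ Cc * (1600 / c1) ^ 3 * (κ ^ 3 / β ^ 2) := by positivity
  have h8 : 0 ≤ Cc / c1 * (β ^ 2 * κ) := by positivity
  have h9 : 128 / c1 * κ ≤ 128 / c1 * (β ^ 2 * κ) := mul_le_mul_of_nonneg_left hκb (by positivity)
  have h10 : 32 * D ≤ 128 / c1 * κ := by
    have : 128 / c1 * κ = 32 * (4 / c1 * κ) := by ring
    rw [this]
    linarith
  have h11 : Cc * (16 * β ^ 2 * (1600 / c1 * κ) + (1600 / c1) ^ 3 * (κ ^ 3 / β ^ 2)) =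
      25600 * (Cc / c1 * (β ^ 2 * κ)) + Cc * (1600 / c1) ^ 3 * (κ ^ 3 / β ^ 2) := by ring
  rw [h11] at h5
  have h12 : (4 + 128 / c1 + 5000 * Cc / c1) * (β ^ 2 * κ) =
      4 * (β ^ 2 * κ) + 128 / c1 * (β ^ 2 * κ) + 5000 * (Cc / c1 * (β ^ 2 * κ)) := by ring
  rw [h12]
  linarith


lemma sl_eq1 {c1 K β Dc t : ℝ} {N m W : ℝ} (hN : N = m * W) (hm : 0 < m) (hW : 0 < W) (ht : 0 < t) :
    c1 * K * (β / N) * (1 / t) * Dc = c1 * K * (Dc / W) * (β / m) / t := by
  rw [hN]
  field_simp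

lemma sl_eq2 {β Dv cn : ℝ} {N m W : ℝ} (hN : N = m * W) (hm : 0 < m) (hW : 0 < W) :
    (64 * Dv + W * cn) * (β / (2 * N)) = 32 * (β / N * Dv) + β / (2 * m) * cn := by
  rw [hN]
  field_simp
  ring

lemma sl_st1 {Cs X Y c1 K κ C t : ℝ} (hCs : 0 < Cs) (hc1 : 0 < c1) (hK : 0 < K) (hκ0 : 0 ≤ κ) (ht : 0 < t)
    (hκC : κ * C < K) (hX : X ≤ Y) (hY : c1 * K * Y ≤ 4 * κ * t) (hC : 6400 * Cs ≤ c1 * C) :
    Cs * X ≤ t := by
  have h1 : Cs * X ≤ Cs * Y := mul_le_mul_of_nonneg_left hX hCs.le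
  have h2 : c1 * K * (Cs * Y) ≤ c1 * K * t := by
    have e1 : c1 * K * (Cs * Y) = Cs * (c1 * K * Y) := by ring
    have e2 : Cs * (c1 * K * Y) ≤ Cs * (4 * κ * t) := mul_le_mul_of_nonneg_left hY hCs.le
    have e3 : Cs * (4 * κ * t) = 4 * Cs * κ * t := by ring
    have e4 : 4 * Cs * κ ≤ c1 * K := by
      have e5 : 4 * Cs * κ ≤ c1 * C * κ := mul_le_mul_of_nonneg_right (by linarith) hκ0
      have e6 : c1 * C * κ = c1 * (κ * C) := by ring
      have e7 : c1 * (κ * C) ≤ c1 * K := mul_le_mul_of_nonneg_left hκC.le hc1.le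
      linarith
    have e5 : 4 * Cs * κ * t ≤ c1 * K * t := mul_le_mul_of_nonneg_right e4 ht.le
    linarith
  exact h1.trans (le_of_mul_le_mul_left h2 (by positivity))

lemma sl_st2 {Cs c1 K κ C t β m E : ℝ} (hCs : 0 < Cs) (hc1 : 0 < c1) (hκ0 : 0 ≤ κ) (hβ : 0 < β)
    (hκC : κ * C < K) (hC : 6400 * Cs ≤ c1 * C) (hm : m ≤ 4 * β) (hm0 : 0 < m) (hE : c1 * E ≤ 1600 * κ)
    (hKβ : K * β ≤ t) : Cs * m * E ≤ t := by
  have e1 : c1 * (Cs * m * E) ≤ c1 * t := by
    have e2 : c1 * (Cs * m * E) = Cs * m * (c1 * E) := by ring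
    have e3 : Cs * m * (c1 * E) ≤ Cs * m * (1600 * κ) := mul_le_mul_of_nonneg_left hE (by positivity)
    have e4 : Cs * m * (1600 * κ) ≤ Cs * (4 * β) * (1600 * κ) :=
      mul_le_mul_of_nonneg_right (mul_le_mul_of_nonneg_left hm hCs.le) (by positivity)
    have e5 : Cs * (4 * β) * (1600 * κ) = 6400 * Cs * (β * κ) := by ring
    have e6 : 6400 * Cs * (β * κ) ≤ c1 * C * (β * κ) := mul_le_mul_of_nonneg_right hC (by positivity)
    have e7 : c1 * C * (β * κ) = c1 * β * (κ * C) := by ring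
    have e8 : c1 * β * (κ * C) ≤ c1 * β * K := mul_le_mul_of_nonneg_left hκC.le (by positivity)
    have e9 : c1 * β * K = c1 * (K * β) := by ring
    have e10 : c1 * (K * β) ≤ c1 * t := mul_le_mul_of_nonneg_left hKβ hc1.le
    linarith
  exact le_of_mul_le_mul_left e1 hc1

lemma sl_Km {K β m : ℝ} (a : ℕ) (hβ : 0 < β) (h3a : (3 : ℝ) ^ a ≤ β) (hKβ : K * β ≤ 27 ^ a)
    (hm : β ≤ m) : K ≤ m * 3 ^ a := by
  have e1 : (27 : ℝ) ^ a = (3 ^ a) ^ 3 := by
    rw [← pow_mul, mul_comm a 3, pow_mul]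
    norm_num
  have e2 : (0 : ℝ) < 3 ^ a := by positivity
  have e3 : ((3 : ℝ) ^ a) ^ 3 ≤ 3 ^ a * β * β := by
    have e4 : (3 : ℝ) ^ a * 3 ^ a ≤ β * β := mul_le_mul h3a h3a e2.le hβ.le
    calc ((3 : ℝ) ^ a) ^ 3 = 3 ^ a * (3 ^ a * 3 ^ a) := by ring
      _ ≤ 3 ^ a * (β * β) := mul_le_mul_of_nonneg_left e4 e2.le
      _ = 3 ^ a * β * β := by ring
  have e5 : K * β ≤ 3 ^ a * β * β := by rw [e1] at hKβ; exact hKβ.trans e3
  have e6 : K ≤ 3 ^ a * β := le_of_mul_le_mul_right e5 hβ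
  have e7 : (3 : ℝ) ^ a * β ≤ m * 3 ^ a := by
    rw [mul_comm m]
    exact mul_le_mul_of_nonneg_left hm e2.le
  exact e6.trans e7

lemma sl_ch {Cc c1 K κ C E : ℝ} (hCc : 0 < Cc) (hc1 : 0 < c1) (hκ0 : 0 ≤ κ)
    (hκC : κ * C < K) (hC : 1600 * Cc ≤ c1 * C) (hE : c1 * E ≤ 1600 * κ) : Cc * E ≤ K := by
  have e1 : c1 * (Cc * E) ≤ c1 * K := by
    have e2 : c1 * (Cc * E) = Cc * (c1 * E) := by ring
    have e3 : Cc * (c1 * E) ≤ Cc * (1600 * κ) := mul_le_mul_of_nonneg_left hE hCc.le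
    have e4 : Cc * (1600 * κ) = 1600 * Cc * κ := by ring
    have e5 : 1600 * Cc * κ ≤ c1 * C * κ := mul_le_mul_of_nonneg_right hC hκ0
    have e6 : c1 * C * κ = c1 * (κ * C) := by ring
    have e7 : c1 * (κ * C) ≤ c1 * K := mul_le_mul_of_nonneg_left hκC.le hc1.le
    linarith
  exact le_of_mul_le_mul_left e1 hc1

/-- the cost of the modified nodes -/
lemma sl_cost {n N W : ℕ} [NeZero n] {β K c1 : ℝ} {b' b : Finset (Tor n)} {h : Tor n → ℝ}
    {c : Nd n N → Nd n N → ℝ} (hloc : Local n N W β K c1 b' h c) (o : Tor n) (S : ℕ)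
    (hh : ∀ x ∈ cube n o S, h x = 1) (u : Nd n N → ℝ) :
    ∑ z ∈ ((EE6 n N o b S) \ (hatb N b)).filter (fun z => u z < 1 / 2), ∑ v, c z v ≤
      ((((univ.filter fun k => k ≠ 0) ×ˢ cube n o S : Finset (Nd n N)).filter
        fun z => u z < 1 / 2).card : ℝ) * (β / (2 * N)) := by
  have hsub : ((EE6 n N o b S) \ (hatb N b)).filter (fun z => u z < 1 / 2) ⊆
      (((univ.filter fun k => k ≠ 0) ×ˢ cube n o S : Finset (Nd n N)).filter
        fun z => u z < 1 / 2) := by
    intro z hz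
    rw [Finset.mem_filter, Finset.mem_sdiff, EE6, Finset.mem_union] at hz
    rw [Finset.mem_filter]
    exact ⟨hz.1.1.resolve_left hz.1.2, hz.2⟩
  have hnn : ∀ z : Nd n N, 0 ≤ ∑ v, c z v := fun z => Finset.sum_nonneg fun v _ => hloc.nonneg z v
  refine (Finset.sum_le_sum_of_subset_of_nonneg hsub fun z _ _ => hnn z).trans ?_
  rw [← nsmul_eq_mul]
  refine Finset.sum_le_card_nsmul _ _ _ fun z hz => ?_
  rw [Finset.mem_filter, Finset.mem_product, Finset.mem_filter] at hz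
  have h1 := hloc.tot z.1 z.2 hz.1.1.2
  refine h1.trans ?_
  rw [hh z.2 hz.1.2, mul_one]

lemma sl_cube_mono {n : ℕ} (o : Tor n) {r s : ℕ} (hrs : r ≤ s) : cube n o r ⊆ cube n o s := by
  intro x hx
  rw [cube, Finset.mem_image] at hx ⊢
  obtain ⟨y, -, rfl⟩ := hx
  exact ⟨fun i => ⟨(y i : ℕ), lt_of_lt_of_le (y i).2 hrs⟩, Finset.mem_univ _, rfl⟩

/-- mean square on the window 0 -/
lemma sl_win {n N W : ℕ} [NeZero n] (hW : 0 < W) (o : Tor n) (r : ℕ) (hr : r ≤ n) (u : Nd n N → ℝ) :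
    ∑ x ∈ range r, ∑ y ∈ range r, ∑ z ∈ range r, (1 - UU n N W o u x y z 0) ^ 2 ≤
      (∑ x ∈ cube n o r, ∑ j ∈ range W, (1 - u (lay N W 0 j, x)) ^ 2) / (W : ℝ) := by
  have h1 : (∑ x ∈ cube n o r, ∑ j ∈ range W, (1 - u (lay N W 0 j, x)) ^ 2) / (W : ℝ) =
      ∑ x ∈ range r, ∑ y ∈ range r, ∑ z ∈ range r,
      (1 / (W : ℝ)) * ∑ j ∈ range W, (1 - u (lay N W 0 j, pt n o x y z)) ^ 2 := by
    rw [sum_cube o r hr fun x => ∑ j ∈ range W, (1 - u (lay N W 0 j, x)) ^ 2,
      div_eq_inv_mul, Finset.mul_sum]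
    refine Finset.sum_congr rfl fun x _ => ?_
    rw [Finset.mul_sum]
    refine Finset.sum_congr rfl fun y _ => ?_
    rw [Finset.mul_sum]
    refine Finset.sum_congr rfl fun z _ => ?_
    rw [one_div]
  rw [h1]
  refine Finset.sum_le_sum fun x _ => Finset.sum_le_sum fun y _ => Finset.sum_le_sum fun z _ => ?_
  exact sl_jensen W hW fun j => u (lay N W 0 j, pt n o x y z)

/-- (6c), before lowering. -/
theorem step_last (c1 : ℝ) (hc1 : 0 < c1) : ∃ C : ℝ, 0 < C ∧ ∀ (n N W m : ℕ) [NeZero n]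
    (β K : ℝ) (o : Tor n) (a : ℕ) (h : Tor n → ℝ) (c : Nd n N → Nd n N → ℝ)
    (s : ℕ) (G : Finset (Nd n N)) (A : ℝ),
    10 ≤ β → 0 < W → N = m * W → Win β m → a ≤ s → 3 ^ s < n → (3 : ℝ) ^ a ≤ β →
    0 < K → K * β ≤ 27 ^ a →
    (∀ x, h x ≤ 1) → (∀ x ∈ cube n o (3 ^ s), h x = 1) →
    Local n N W β K c1 (cube n o (3 ^ a)) h c →
    Disjoint (EE6 n N o (cube n o (3 ^ a)) (3 ^ s)) G →
    LBn c (EE6 n N o (cube n o (3 ^ a)) (3 ^ s)) G A →
    C * β ^ 2 * K ≤ A → C * K ^ 3 ≤ A * β ^ 2 →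
    LBn c (hatb N (cube n o (3 ^ a))) G (K / C) := by
  obtain ⟨Cs, hCs, hstart⟩ := start3
  obtain ⟨Cc, hCc, hchain⟩ := chain3
  obtain ⟨P, hP⟩ : ∃ P : ℝ, P = 4 + 128 / c1 + 5000 * Cc / c1 := ⟨_, rfl⟩
  obtain ⟨Q, hQ⟩ : ∃ Q : ℝ, Q = Cc * (1600 / c1) ^ 3 := ⟨_, rfl⟩
  have hP0 : 0 < P := by rw [hP]; positivity
  have hQ0 : 0 < Q := by rw [hQ]; positivity
  obtain ⟨C, hC⟩ : ∃ C : ℝ, C = 1 + 2 * P + 2 * Q + 6400 * Cs / c1 + 1600 * Cc / c1 := ⟨_, rfl⟩
  have q1 : 0 < 6400 * Cs / c1 := by positivity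
  have q2 : 0 < 1600 * Cc / c1 := by positivity
  have hC1 : 1 ≤ C := by rw [hC]; linarith
  have hCP : 2 * P < C := by rw [hC]; linarith
  have hCQ : 2 * Q ≤ C := by rw [hC]; linarith
  have hCs' : 6400 * Cs ≤ c1 * C := by
    have : 6400 * Cs / c1 ≤ C := by rw [hC]; linarith
    rw [div_le_iff₀ hc1] at this
    linarith
  have hCc' : 1600 * Cc ≤ c1 * C := by
    have : 1600 * Cc / c1 ≤ C := by rw [hC]; linarith
    rw [div_le_iff₀ hc1] at this
    linarith
  have hC0 : 0 < C := by linarith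
  refine ⟨C, hC0, ?_⟩
  intro n N W m _ β K o a h c s G A hβ hW hN hwin has hsn h3a hK hKβ hh1 hh hloc hdis hLB hA1 hA2
  refine LBn_of_trunc hloc.nonneg fun u hu huE huG => ?_
  by_contra hcon
  rw [not_le] at hcon
  obtain ⟨κ, hκ⟩ : ∃ κ : ℝ, κ = netK c u := ⟨_, rfl⟩
  rw [← hκ] at hcon
  have hκ0 : 0 ≤ κ := by rw [hκ]; exact netK_nonneg hloc.nonneg u
  have hκC : κ * C < K := by rwa [lt_div_iff₀ hC0] at hcon
  have hκK : κ ≤ K := (le_mul_of_one_le_right hκ0 hC1).trans hκC.le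
  have hβ0 : 0 < β := by linarith
  have hm0 : (0 : ℝ) < m := Nat.cast_pos.2 hwin.pos
  have hm1 : 3 * β ≤ m := by
    have := hwin.hi
    rw [div_le_iff₀ hm0] at this
    linarith
  have hm2 : (m : ℝ) ≤ 4 * β := by
    have := hwin.lo
    rw [le_div_iff₀ hm0] at this
    linarith
  have hm4 : 4 ≤ m := by
    have : (4 : ℝ) ≤ m := by linarith
    exact_mod_cast this
  have hW0 : (0 : ℝ) < W := Nat.cast_pos.2 hW
  have hNR : (N : ℝ) = m * W := by rw [hN]; push_cast; ring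
  have hN0 : (0 : ℝ) < N := by rw [hNR]; positivity
  have h3sn : 3 ^ a ≤ n := (Nat.pow_le_pow_right (by norm_num) has).trans hsn.le
  -- the cube `b`
  have hbs : ∀ x ∈ cube n o (3 ^ a), h x = 1 := fun x hx =>
    hh x (sl_cube_mono o (Nat.pow_le_pow_right (by norm_num) has) hx)
  have hcb : (cube n o (3 ^ a)).card = 27 ^ a := by
    rw [card_cube o _ h3sn, ← pow_mul, mul_comm a 3, pow_mul]
    norm_num
  have hcbR : ((cube n o (3 ^ a)).card : ℝ) = 27 ^ a := by rw [hcb]; push_cast; ring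
  have h27 : (0 : ℝ) < 27 ^ a := by positivity
  have hbne : (cube n o (3 ^ a)).Nonempty := by
    rw [← Finset.card_pos, hcb]
    positivity
  -- energy
  obtain ⟨E, hEdef⟩ : ∃ E : ℝ, E = E4 (3 ^ s) m (UU n N W o u) := ⟨_, rfl⟩
  have hE0 : 0 ≤ E := by rw [hEdef]; exact sl_E4_nonneg _ _ _
  have hE : c1 * E ≤ 1600 * κ := by
    have h1 := E4_le hW hm4 hN hβ0 hc1 hloc o (3 ^ s) hsn hh u
    rw [← hEdef, ← hκ] at h1
    have h2 : (1 / 16 : ℝ) ≤ (β / m) ^ 2 := by
      have := hwin.lo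
      nlinarith
    have h3 : c1 * (1 / 16) * E ≤ c1 * (β / m) ^ 2 * E :=
      mul_le_mul_of_nonneg_right (mul_le_mul_of_nonneg_left h2 hc1.le) hE0
    linarith
  -- contact
  have huE' : ∀ x ∈ cube n o (3 ^ a), u (0, x) = 1 := by
    intro x hx
    refine huE _ ?_
    rw [hatb, Finset.mem_product]
    exact ⟨Finset.mem_singleton_self _, hx⟩
  have hcont := contact_le hW hm4 hN hβ0 hK hc1 hloc hbne hbs u huE'
  rw [← hκ, hcbR] at hcont
  obtain ⟨Dc, hDc⟩ : ∃ Dc : ℝ, Dc = ∑ x ∈ cube n o (3 ^ a), ∑ j ∈ range W,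
    (1 - u (lay N W 0 j, x)) ^ 2 := ⟨_, rfl⟩
  have hsg := sl_win (N := N) hW o (3 ^ a) h3sn u
  rw [← hDc] at hcont hsg
  have hDc0 : 0 ≤ Dc := by
    rw [hDc]
    exact Finset.sum_nonneg fun x _ => Finset.sum_nonneg fun j _ => sq_nonneg _
  have hcont2 : c1 * K * (Dc / W) ≤ 4 * κ * 27 ^ a := by
    rw [sl_eq1 hNR hm0 hW0 h27, div_le_iff₀ h27] at hcont
    have h2 : c1 * K * (Dc / W) * (1 / 4) ≤ c1 * K * (Dc / W) * (β / m) :=
      mul_le_mul_of_nonneg_left hwin.lo (by positivity)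
    linarith
  have hst1 := sl_st1 hCs hc1 hK hκ0 h27 hκC hsg hcont2 hCs'
  have hst2 := sl_st2 hCs hc1 hκ0 hβ0 hκC hCs' hm2 hm0 hE hKβ
  rw [hEdef] at hst2
  have hmean := hstart a s m hwin.pos has _ hst1 hst2
  have hch1 := (sl_ch hCc hc1 hκ0 hκC hCc' hE).trans (sl_Km a hβ0 h3a hKβ (by linarith : β ≤ m))
  rw [hEdef] at hch1
  have hcnt := hchain a s m hwin.pos has _ hmean hch1
  rw [← hEdef] at hcnt
  -- deviation
  obtain ⟨Dv, hDv⟩ : ∃ Dv : ℝ, Dv = ∑ x ∈ range (3 ^ s), ∑ y ∈ range (3 ^ s), ∑ z ∈ range (3 ^ s),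
      ∑ w ∈ range m, ∑ j ∈ range W, (u (lay N W w j, pt n o x y z) - UU n N W o u x y z w) ^ 2 :=
    ⟨_, rfl⟩
  have hDv0 : 0 ≤ Dv := by
    rw [hDv]
    exact Finset.sum_nonneg fun x _ => Finset.sum_nonneg fun y _ => Finset.sum_nonneg fun z _ =>
      Finset.sum_nonneg fun w _ => Finset.sum_nonneg fun j _ => sq_nonneg _
  have hdev := dev_le hW hm4 hN hβ0 hc1 hloc o (3 ^ s) hsn hh u
  have hlow := card_low_le hW hwin.pos hN o (3 ^ s) hsn.le u
  rw [← hDv] at hdev hlow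
  rw [← hκ] at hdev
  have hdev2 : c1 * (β / N * Dv) ≤ 4 * κ := by
    have h1 : c1 * (1 / 4) * (β / N) * Dv ≤ c1 * (β / m) * (β / N) * Dv := by
      refine mul_le_mul_of_nonneg_right ?_ hDv0
      refine mul_le_mul_of_nonneg_right ?_ (by positivity)
      exact mul_le_mul_of_nonneg_left hwin.lo hc1.le
    linarith
  obtain ⟨cn, hcn⟩ : ∃ cn : ℝ, cn = cnt (3 ^ s) m (5 / 8) (UU n N W o u) := ⟨_, rfl⟩
  rw [← hcn] at hcnt hlow
  have hcnt0 : 0 ≤ cn := by
    rw [hcn]
    unfold cnt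
    exact Finset.sum_nonneg fun x _ => Finset.sum_nonneg fun y _ => Finset.sum_nonneg fun z _ =>
      Finset.sum_nonneg fun w _ => by split_ifs <;> norm_num
  -- test function
  have htest := test_le hloc.symm hloc.nonneg hLB hdis (fun x => (hu x).1) huE huG
  rw [← hκ] at htest
  have hsum := sl_cost (b := cube n o (3 ^ a)) hloc o (3 ^ s) hh u
  obtain ⟨M, hM⟩ : ∃ M : ℝ, M = ((((univ.filter fun k => k ≠ 0) ×ˢ cube n o (3 ^ s) :
    Finset (Nd n N)).filter fun z => u z < 1 / 2).card : ℝ) := ⟨_, rfl⟩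
  rw [← hM] at hlow hsum
  have hfin : A ≤ 4 * κ + (32 * (β / N * Dv) + β / (2 * m) * cn) := by
    have e1 := htest.trans (add_le_add_right hsum (4 * κ))
    have e2 : M * (β / (2 * N)) ≤ (64 * Dv + W * cn) * (β / (2 * N)) :=
      mul_le_mul_of_nonneg_right hlow (by positivity)
    rw [sl_eq2 hNR hm0 hW0] at e2
    linarith
  have hvol := sl_vol (by linarith : (1 : ℝ) ≤ β) hκ0 hc1 hCc hm1 hm2 hE0 hE hdev2 hcnt hfin hcnt0
  rw [← hP, ← hQ] at hvol
  exact sl_num hβ0 hK hκ0 hκK hP0.le hQ0.le hCP hCQ hA1 hA2 hvol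

end Vale.Agent.P361.LRO.Ind
end

section

/-!
# P361 LRO, block (6), package L3: the last rung of the ladder
-/

namespace Vale.Agent.P361.LRO.Ind

open Finset Vale.Agent.P361.LRO _root_.P361.LRO

theorem ladlast_num_a {C β K : ℝ} {a r : ℕ} (hC : 0 < C) (hβ : 10 ≤ β) (hβC : C ^ 3 ≤ β)
    (ha : (3 : ℝ) ^ a ≤ β) (hK : 1 ≤ K) (hKa : K * β ≤ 27 ^ a) (hr : β ^ 10 ≤ (3 : ℝ) ^ r) :
    C * β ^ 2 * K ≤ β * ((3 : ℝ) ^ r) ^ (1 / 3 : ℝ) ∧
    C * K ^ 3 ≤ β * ((3 : ℝ) ^ r) ^ (1 / 3 : ℝ) * β ^ 2 := by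
  have hβ0 : 0 < β := by linarith
  have hK2 : K ≤ β ^ 2 := by
    have h1 : (27 : ℝ) ^ a = ((3 : ℝ) ^ a) ^ 3 := by
      rw [← pow_mul, mul_comm a 3, pow_mul]; norm_num
    have h2 : ((3 : ℝ) ^ a) ^ 3 ≤ β ^ 3 := pow_le_pow_left₀ (by positivity) ha 3
    have h3 : K * β ≤ β ^ 2 * β := by
      calc K * β ≤ 27 ^ a := hKa
        _ ≤ β ^ 3 := by rw [h1]; exact h2
        _ = β ^ 2 * β := by ring
    exact le_of_mul_le_mul_right h3 hβ0
  have ht : C ≤ β ^ (1 / 3 : ℝ) := by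
    have h1 : (C ^ 3) ^ (1 / 3 : ℝ) ≤ β ^ (1 / 3 : ℝ) :=
      Real.rpow_le_rpow (by positivity) hβC (by norm_num)
    have h2 : (C ^ 3) ^ (1 / 3 : ℝ) = C := by
      rw [← Real.rpow_natCast, ← Real.rpow_mul hC.le]
      norm_num
    rw [h2] at h1
    exact h1
  have hA : β ^ 3 * β ^ (1 / 3 : ℝ) ≤ ((3 : ℝ) ^ r) ^ (1 / 3 : ℝ) := by
    have h1 : (β ^ 10) ^ (1 / 3 : ℝ) ≤ ((3 : ℝ) ^ r) ^ (1 / 3 : ℝ) :=
      Real.rpow_le_rpow (by positivity) hr (by norm_num)
    have h2 : (β ^ 10) ^ (1 / 3 : ℝ) = β ^ 3 * β ^ (1 / 3 : ℝ) := by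
      rw [← Real.rpow_natCast, ← Real.rpow_natCast, ← Real.rpow_mul hβ0.le,
        ← Real.rpow_add hβ0]
      norm_num
    rw [h2] at h1
    exact h1
  have hCA : C * β ^ 4 ≤ β * ((3 : ℝ) ^ r) ^ (1 / 3 : ℝ) := by
    calc C * β ^ 4 ≤ β ^ (1 / 3 : ℝ) * β ^ 4 := by gcongr
      _ = β * (β ^ 3 * β ^ (1 / 3 : ℝ)) := by ring
      _ ≤ _ := by gcongr
  constructor
  · calc C * β ^ 2 * K ≤ C * β ^ 2 * β ^ 2 := by gcongr
      _ = C * β ^ 4 := by ring
      _ ≤ _ := hCA
  · calc C * K ^ 3 ≤ C * (β ^ 2) ^ 3 := by gcongr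
      _ = C * β ^ 4 * β ^ 2 := by ring
      _ ≤ _ := by gcongr

theorem ladlast_num_b {β lam ε : ℝ} {r : ℕ} (hβ : 10 ≤ β) (hr : (3 : ℝ) ^ r ≤ 3 * β ^ 10)
    (hlam : 1 / β ≤ lam) (hε : 0 ≤ ε) (hεβ : ε * Real.log β ≤ 1 / 280) :
    1 / 2 ≤ (β * ((3 : ℝ) ^ r + 2 / lam) ^ 3) ^ (-(4 * ε)) := by
  have hβ0 : 0 < β := by linarith
  have hlam0 : 0 < lam := lt_of_lt_of_le (by positivity) hlam
  have h2 : 2 / lam ≤ 2 * β := by
    rw [div_le_iff₀ hlam0]
    have : 1 ≤ β * lam := by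
      have := mul_le_mul_of_nonneg_left hlam hβ0.le
      rwa [mul_one_div_cancel hβ0.ne'] at this
    nlinarith
  have h3 : β ≤ β ^ 10 := by
    calc β = β ^ 1 := (pow_one β).symm
      _ ≤ β ^ 10 := pow_le_pow_right₀ (by linarith) (by norm_num)
  have h4 : (3 : ℝ) ^ r + 2 / lam ≤ 5 * β ^ 10 := by linarith
  have hpos : 0 < (3 : ℝ) ^ r + 2 / lam := by positivity
  have h1r : (1 : ℝ) ≤ 3 ^ r := one_le_pow₀ (by norm_num)
  have h5 : ((3 : ℝ) ^ r + 2 / lam) ^ 3 ≤ (5 * β ^ 10) ^ 3 := pow_le_pow_left₀ hpos.le h4 3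
  have h6 : β * ((3 : ℝ) ^ r + 2 / lam) ^ 3 ≤ β ^ 34 := by
    calc β * ((3 : ℝ) ^ r + 2 / lam) ^ 3 ≤ β * (5 * β ^ 10) ^ 3 := by gcongr
      _ = 125 * β ^ 31 := by ring
      _ ≤ β ^ 3 * β ^ 31 := by
        gcongr
        calc (125 : ℝ) ≤ 10 ^ 3 := by norm_num
          _ ≤ β ^ 3 := pow_le_pow_left₀ (by norm_num) hβ 3
      _ = β ^ 34 := by ring
  have hpos2 : 0 < β * ((3 : ℝ) ^ r + 2 / lam) ^ 3 := by positivity
  have h7 : Real.log (β * ((3 : ℝ) ^ r + 2 / lam) ^ 3) ≤ 34 * Real.log β := by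
    have := Real.log_le_log hpos2 h6
    rwa [Real.log_pow] at this
  rw [Real.rpow_def_of_pos hpos2]
  have h8 : -(1 / 2 : ℝ) ≤ Real.log (β * ((3 : ℝ) ^ r + 2 / lam) ^ 3) * -(4 * ε) := by
    have h9 : Real.log (β * ((3 : ℝ) ^ r + 2 / lam) ^ 3) * ε ≤ 34 * Real.log β * ε :=
      mul_le_mul_of_nonneg_right h7 hε
    nlinarith
  have h10 := Real.add_one_le_exp (Real.log (β * ((3 : ℝ) ^ r + 2 / lam) ^ 3) * -(4 * ε))
  linarith

/-- The last rung. -/
theorem lad_last (c1 : ℝ) (hc1 : 0 < c1) : ∃ β0 c3 c4 : ℝ, 10 ≤ β0 ∧ 0 < c3 ∧ 0 < c4 ∧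
    ∀ (n N W m : ℕ) [NeZero n]
    (β K h0 lam ε : ℝ) (o : Tor n) (a : ℕ) (h : Tor n → ℝ)
    (c : (Tor n → ℝ) → Nd n N → Nd n N → ℝ) (r S : ℕ),
    β0 ≤ β → 0 < W → N = m * W → Win β m → r ≤ S → 8 * 3 ^ S < n →
    (3 : ℝ) ^ a ≤ β → 1 ≤ K → K * β ≤ 27 ^ a →
    0 < h0 → h0 ≤ 1 → 1 / β ≤ lam → 0 ≤ ε → ε * Real.log β ≤ c4 →
    β ^ 10 ≤ (3 : ℝ) ^ r → (3 : ℝ) ^ r ≤ 3 * β ^ 10 → h0⁻¹ ≤ ((3 : ℝ) ^ S) ^ (5 / 2 : ℝ) →
    (∀ g, Fam n h0 lam g → Local n N W β K c1 (cube n o (3 ^ a)) g (c g)) →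
    Low n N β h0 lam ε c →
    Fam n h0 lam h →
    LBn (c (HH n lam o (3 ^ r) h)) (EE6 n N o (cube n o (3 ^ a)) (3 ^ r)) (GG6 n N o (3 ^ S))
      (β * ((3 : ℝ) ^ r) ^ (1 / 3 : ℝ)) →
    LBn (c h) (hatb N (cube n o (3 ^ a))) (GG6 n N o (3 ^ S)) (c3 * K) := by
  obtain ⟨C, hC, hstep⟩ := step_last c1 hc1
  obtain ⟨β1, hβ1, hground⟩ := num_ground
  refine ⟨max β1 (C ^ 3), 1 / (4 * C), min (1 / 280) (1 / (8 * C)), hβ1.trans (le_max_left _ _),
    by positivity, by positivity, ?_⟩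
  intro n N W m _ β K h0 lam ε o a h c r S hβ hW hN hwin hrS hSn ha hK hKa hh0 hh01 hlam hε hεβ
    hr hr' hS hloc hlow hfam hLB
  have hβ1' : β1 ≤ β := (le_max_left _ _).trans hβ
  have hβC : C ^ 3 ≤ β := (le_max_right _ _).trans hβ
  have hβ10 : 10 ≤ β := hβ1.trans hβ1'
  have hβ0 : 0 < β := by linarith
  have hlam0 : 0 < lam := lt_of_lt_of_le (by positivity) hlam
  have hK0 : 0 < K := by linarith
  have h3rS : (3 : ℕ) ^ r ≤ 3 ^ S := Nat.pow_le_pow_right (by norm_num) hrS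
  have h3rn : (3 : ℕ) ^ r < n := by
    have : (3 : ℕ) ^ S ≤ 8 * 3 ^ S := by omega
    omega
  have har : a ≤ r := by
    have h1 : (3 : ℝ) ^ a ≤ 3 ^ r := by
      calc (3 : ℝ) ^ a ≤ β := ha
        _ = β ^ 1 := (pow_one β).symm
        _ ≤ β ^ 10 := pow_le_pow_right₀ (by linarith) (by norm_num)
        _ ≤ _ := hr
    exact (pow_le_pow_iff_right₀ (by norm_num)).1 h1
  have hfamH : Fam n h0 lam (HH n lam o (3 ^ r) h) := Fam_HH hlam0.le o (by positivity) hfam
  obtain ⟨hA1, hA2⟩ := ladlast_num_a hC hβ10 hβC ha hK hKa hr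
  have hstep1 := hstep n N W m β K o a (HH n lam o (3 ^ r) h) (c (HH n lam o (3 ^ r) h)) r
    (GG6 n N o (3 ^ S)) (β * ((3 : ℝ) ^ r) ^ (1 / 3 : ℝ)) hβ10 hW hN hwin har h3rn ha hK0 hKa
    (fun x => (hfamH.1 x).2) (fun x hx => HH_one hlam0.le o h3rn.le hfam hx) (hloc _ hfamH)
    (disj_EG o _ h3rS hSn.le) hLB hA1 hA2
  have hβS : β ^ 10 ≤ (3 : ℝ) ^ S := hr.trans (pow_le_pow_right₀ (by norm_num) hrS)
  have hsm := hground β h0 lam S hβ1' hh0 hlam hβS hS
  have hlow1 := hlow.prim (HH n lam o (3 ^ r) h) h hfamH hfam (fun x => le_max_left _ _)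
    (hatb N (cube n o (3 ^ a))) (GG6 n N o (3 ^ S)) (disj_hat o _ _) (by
      intro z hz hz0
      rcases mem_union.1 hz with hz | hz
      · exfalso
        apply hz0
        unfold hatb at hz
        exact mem_singleton.1 (mem_product.1 hz).1
      · unfold GG6 at hz
        symm
        exact HH_ground hlam0.le o h3rS hSn.le hfam (by push_cast; exact hsm)
          (mem_product.1 hz).2)
    (((3 ^ r : ℕ) + 2 / lam) ^ 3) (by
      have h1r : (1 : ℝ) ≤ ((3 ^ r : ℕ) : ℝ) := by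
        push_cast; exact one_le_pow₀ (by norm_num)
      have h2 : (1 : ℝ) ≤ ((3 ^ r : ℕ) : ℝ) + 2 / lam := by
        have : 0 ≤ 2 / lam := by positivity
        linarith
      have h3 : (1 : ℝ) ≤ (((3 ^ r : ℕ) : ℝ) + 2 / lam) ^ 3 := one_le_pow₀ h2
      nlinarith)
    (sum_lowered' hlam0 o (3 ^ r) h) (K / C) (by positivity) hstep1
  have hhalf := ladlast_num_b hβ10 hr' hlam hε (hεβ.trans (min_le_left _ _))
  intro f hf hg
  refine le_trans ?_ (hlow1 f hf hg)
  push_cast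
  have hlogβ : 1 ≤ Real.log β := by
    rw [Real.le_log_iff_exp_le hβ0]
    have := Real.exp_one_lt_d9
    linarith
  have hε1 : ε ≤ 1 / (8 * C) := by
    have h1 : ε * 1 ≤ ε * Real.log β := mul_le_mul_of_nonneg_left hlogβ hε
    have h2 := hεβ.trans (min_le_right _ _)
    linarith
  have h1 : 1 / 2 * (K / C) ≤ (β * ((3 : ℝ) ^ r + 2 / lam) ^ 3) ^ (-(4 * ε)) * (K / C) :=
    mul_le_mul_of_nonneg_right hhalf (by positivity)
  have h2 : 2 * ε ≤ K / (4 * C) := by
    calc 2 * ε ≤ 2 * (1 / (8 * C)) := by linarith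
      _ = 1 / (4 * C) := by field_simp; norm_num
      _ ≤ K / (4 * C) := by gcongr
  have h3 : 1 / (4 * C) * K = 1 / 2 * (K / C) - K / (4 * C) := by field_simp; norm_num
  linarith

end Vale.Agent.P361.LRO.Ind
end

section

/-!
P361 LRO, block (6): the abstract outside-in induction, top statement only (structures `Local`,
`Low` of `Ind/Defs.lean`).
-/

namespace Vale.Agent.P361.LRO.Ind

open Finset Vale.Agent.P361.LRO _root_.P361.LRO

noncomputable section

/-- **Block (6), abstract form.**  `N = Mw * W` with `Mw` time windows of `W` slices, of length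
`β / Mw` in `[1/4, 1/3]`; window `q < Mw` = layers `1 + q * W, …, W + q * W`. -/
def IndMain : Prop :=
  ∀ c1 : ℝ, 0 < c1 → ∃ c3 : ℝ, 0 < c3 ∧ ∀ A B : ℝ, 0 < A → 0 < B → ∃ β0 : ℝ, ∀ β : ℝ, β0 ≤ β →
    ∀ a : ℕ, β ^ (7 / 20 : ℝ) ≤ (3 : ℝ) ^ a → (3 : ℝ) ^ a ≤ 3 * β ^ (7 / 20 : ℝ) →
    ∀ lam : ℝ, β⁻¹ ≤ lam → lam ≤ 1 → ∃ n0 : ℕ, ∀ (n : ℕ) [NeZero n], n0 ≤ n → ∀ h0 : ℝ, (n : ℝ) ^ (-(1 / 4) : ℝ) ≤ h0 →
    h0 ≤ 1 → ∀ (x0 : Tor n) (Mw W : ℕ), 1 ≤ W → 1 / 4 ≤ β / Mw → β / Mw ≤ 1 / 3 →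
    ∀ ε : ℝ, 0 ≤ ε → ε ≤ B * β ^ (-(1 / 200) : ℝ) →
    ∀ c : (Tor n → ℝ) → Nd n (Mw * W) → Nd n (Mw * W) → ℝ,
    (∀ h, Fam n h0 lam h →
      Local n (Mw * W) W β (A * β ^ (1 / 100 : ℝ)) c1 (cube n x0 (3 ^ a)) h (c h)) →
    Low n (Mw * W) β h0 lam ε c →
    ∀ h, Fam n h0 lam h →
      c3 * (A * β ^ (1 / 100 : ℝ)) ≤
        netK (c h) fun z => if z ∈ hatb (Mw * W) (cube n x0 (3 ^ a)) then 1 else 0

end

end Vale.Agent.P361.LRO.Ind
end

section

/-!
# P361 LRO, block (6): the outside-in induction over scales, assembly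
-/

namespace Vale.Agent.P361.LRO.Ind

open Finset Vale.Agent.P361.LRO _root_.P361.LRO

/-- **Block (6).** -/
theorem block6 (c1 : ℝ) (hc1 : 0 < c1) : ∃ β0 c3 c4 : ℝ, 10 ≤ β0 ∧ 0 < c3 ∧ 0 < c4 ∧
    ∀ (β : ℝ), β0 ≤ β → ∃ n0 : ℕ, ∀ (n N W m : ℕ) [NeZero n]
    (K h0 lam ε : ℝ) (o : Tor n) (a : ℕ) (h : Tor n → ℝ)
    (c : (Tor n → ℝ) → Nd n N → Nd n N → ℝ),
    n0 ≤ n → 0 < W → N = m * W → Win β m →
    (3 : ℝ) ^ a ≤ β → 1 ≤ K → K * β ≤ 27 ^ a →
    (n : ℝ) ^ (-(1 / 4 : ℝ)) ≤ h0 → h0 ≤ 1 → 1 / β ≤ lam → 0 ≤ ε → ε * Real.log β ≤ c4 →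
    (∀ g, Fam n h0 lam g → Local n N W β K c1 (cube n o (3 ^ a)) g (c g)) →
    Low n N β h0 lam ε c →
    Fam n h0 lam h →
    c3 * K ≤ netK (c h) (fun z => if z ∈ hatb N (cube n o (3 ^ a)) then 1 else 0) := by
  obtain ⟨b1, hb1, H1⟩ := lad_top c1 hc1
  obtain ⟨b2, hb2, H2⟩ := lad_mid c1 hc1
  obtain ⟨b3, c3, c4, hb3, hc3, hc4, H3⟩ := lad_last c1 hc1
  obtain ⟨b4, hb4, H4⟩ := num_ladder
  refine ⟨max (max b1 b2) (max b3 b4), c3, min c4 (1 / 1000), ?_, hc3, ?_, ?_⟩
  · exact le_trans hb1 (le_trans (le_max_left _ _) (le_max_left _ _))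
  · exact lt_min hc4 (by norm_num)
  intro β hβ
  have hβ1 : b1 ≤ β := le_trans (le_trans (le_max_left _ _) (le_max_left _ _)) hβ
  have hβ2 : b2 ≤ β := le_trans (le_trans (le_max_right _ _) (le_max_left _ _)) hβ
  have hβ3 : b3 ≤ β := le_trans (le_trans (le_max_left _ _) (le_max_right _ _)) hβ
  have hβ4 : b4 ≤ β := le_trans (le_trans (le_max_right _ _) (le_max_right _ _)) hβ
  obtain ⟨n0, hn0⟩ := H4 β hβ4
  refine ⟨n0, ?_⟩
  intro n N W m _ K h0 lam ε o a h c hn hW hN hwin ha hK hKβ hh0 hh1 hlam hε hεl hloc hlow hfam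
  have hβ10 : 10 ≤ β := le_trans hb1 hβ1
  have hnpos : (0 : ℝ) < n := by exact_mod_cast Nat.pos_of_ne_zero (NeZero.ne n)
  have hh0pos : 0 < h0 := lt_of_lt_of_le (Real.rpow_pos_of_pos hnpos _) hh0
  have hlog : 1 ≤ Real.log β := by
    rw [Real.le_log_iff_exp_le (by linarith)]
    have := Real.exp_one_lt_d9
    linarith
  have hε1 : ε ≤ 1 / 1000 := by
    have h1 : ε * Real.log β ≤ 1 / 1000 := le_trans hεl (min_le_right _ _)
    nlinarith
  have hε4 : ε * Real.log β ≤ c4 := le_trans hεl (min_le_left _ _)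
  obtain ⟨r0, I, hr0, hr0', hI, hIn⟩ := hn0 n h0 hn hh0 hh1
  have hpow : ∀ i : ℕ, r0 ≤ 4 ^ i * r0 := fun i => Nat.le_mul_of_pos_left _ (by positivity)
  have hbig : ∀ i : ℕ, β ^ 10 ≤ (3 : ℝ) ^ (4 ^ i * r0) := fun i =>
    le_trans hr0 (pow_le_pow_right₀ (by norm_num) (hpow i))
  -- downward induction
  have key : ∀ k i : ℕ, i + k = I →
      LBn (c (HH n lam o (3 ^ (4 ^ i * r0)) h)) (EE6 n N o (cube n o (3 ^ a)) (3 ^ (4 ^ i * r0)))
        (GG6 n N o (3 ^ (4 ^ I * r0))) (β * ((3 : ℝ) ^ (4 ^ i * r0)) ^ (1 / 3 : ℝ)) := by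
    intro k
    induction k with
    | zero =>
      intro i hi
      have : i = I := by omega
      subst this
      exact H1 n N W m β K h0 lam ε o _ h c _ hβ1 hW hN hwin hIn hh0pos hh1 hlam hε hε1
        (hbig _) hI hloc hlow hfam
    | succ k ih =>
      intro i hi
      have h1 := ih (i + 1) (by omega)
      have e : 4 ^ (i + 1) * r0 = 4 * (4 ^ i * r0) := by ring
      rw [e] at h1
      have hle : 4 * (4 ^ i * r0) ≤ 4 ^ I * r0 := by
        rw [← e]
        exact Nat.mul_le_mul_right _ (Nat.pow_le_pow_right (by norm_num) (by omega))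
      exact H2 n N W m β K h0 lam ε o _ h c _ _ hβ2 hW hN hwin hle hIn hh0pos hh1 hlam hε hε1
        (hbig _) hI hloc hlow hfam h1
  have h0' := key I 0 (by omega)
  simp only [pow_zero, one_mul] at h0'
  have hfin := H3 n N W m β K h0 lam ε o a h c r0 (4 ^ I * r0) hβ3 hW hN hwin (hpow I) hIn ha hK
    hKβ hh0pos hh1 hlam hε hε4 hr0 hr0' hI hloc hlow hfam h0'
  apply hfin
  · intro x hx
    simp [hx]
  · intro x hx
    have hx0 : x.1 ≠ 0 := by
      simp only [GG6, mem_product, mem_filter, mem_univ, true_and] at hx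
      exact hx.1
    have : x ∉ hatb N (cube n o (3 ^ a)) := by
      intro h
      simp only [hatb, mem_product, mem_singleton] at h
      exact hx0 h.1
    simp [this]

theorem indMain : IndMain := by
  intro c1 hc1
  obtain ⟨b0, c3, c4, hb0, hc3, hc4, H⟩ := block6 c1 hc1
  refine ⟨c3, hc3, ?_⟩
  intro A B hA hB
  -- the eventual inequalities
  have e1 : ∀ᶠ β : ℝ in Filter.atTop, 1 ≤ A * β ^ (1 / 100 : ℝ) := by
    have h := (tendsto_rpow_atTop (y := (1 / 100 : ℝ)) (by norm_num)).const_mul_atTop hA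
    exact h.eventually_ge_atTop 1
  have e2 : ∀ᶠ β : ℝ in Filter.atTop, A * β ^ (-(1 / 25) : ℝ) ≤ 1 := by
    have h := (tendsto_rpow_neg_atTop (y := (1 / 25 : ℝ)) (by norm_num)).const_mul A
    rw [mul_zero] at h
    exact h.eventually_le_const (by norm_num)
  have e3 : ∀ᶠ β : ℝ in Filter.atTop, B * (β ^ (-(1 / 200) : ℝ) * Real.log β) ≤ c4 := by
    have h1 : Filter.Tendsto (fun β : ℝ => β ^ (-(1 / 200) : ℝ) * Real.log β) Filter.atTop
        (nhds 0) := by
      have h2 := (isLittleO_log_rpow_atTop (r := (1 / 200 : ℝ)) (by norm_num)).tendsto_div_nhds_zero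
      refine h2.congr' ?_
      filter_upwards [Filter.eventually_gt_atTop 0] with x hx
      rw [Real.rpow_neg hx.le, div_eq_inv_mul]
    have h := h1.const_mul B
    rw [mul_zero] at h
    exact h.eventually_le_const hc4
  have e4 : ∀ᶠ β : ℝ in Filter.atTop, (3 : ℝ) * β ^ (7 / 20 : ℝ) ≤ β := by
    have h := (tendsto_rpow_neg_atTop (y := (13 / 20 : ℝ)) (by norm_num)).const_mul 3
    rw [mul_zero] at h
    filter_upwards [h.eventually_le_const (show (0 : ℝ) < 1 by norm_num),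
      Filter.eventually_gt_atTop 0] with x hx hx0
    have h5 : x ^ (7 / 20 : ℝ) = x ^ (-(13 / 20) : ℝ) * x := by
      nth_rw 3 [← Real.rpow_one x]
      rw [← Real.rpow_add hx0]
      norm_num
    rw [h5]
    nlinarith
  obtain ⟨b1, hb1⟩ := Filter.eventually_atTop.1 (e1.and (e2.and (e3.and e4)))
  refine ⟨max b0 b1, ?_⟩
  intro β hβ a ha1 ha2 lam hlam hlam1
  have hβ0 : b0 ≤ β := le_trans (le_max_left _ _) hβ
  obtain ⟨f1, f2, f3, f4⟩ := hb1 β (le_trans (le_max_right _ _) hβ)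
  have hβpos : 0 < β := by linarith
  obtain ⟨n0, hn0⟩ := H β hβ0
  refine ⟨n0, ?_⟩
  intro n _ hn h0 hh0 hh1 x0 Mw W hW hlo hhi ε hε hεB c hloc hlow h hfam
  have hMw : 0 < Mw := by
    rcases Nat.eq_zero_or_pos Mw with h | h
    · subst h
      simp at hlo
      norm_num at hlo
    · exact h
  refine hn0 n (Mw * W) W Mw (A * β ^ (1 / 100 : ℝ)) h0 lam ε x0 a h c hn hW rfl
    ⟨hMw, hlo, hhi⟩ (le_trans ha2 f4) f1 ?_ hh0 hh1 ?_ hε ?_ hloc hlow hfam
  · -- `K β ≤ 27 ^ a`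
    have h27 : (27 : ℝ) ^ a = ((3 : ℝ) ^ a) ^ 3 := by
      rw [← pow_mul, mul_comm, pow_mul]; norm_num
    have h3 : (β ^ (7 / 20 : ℝ)) ^ 3 ≤ ((3 : ℝ) ^ a) ^ 3 :=
      pow_le_pow_left₀ (by positivity) ha1 3
    have h4 : (β ^ (7 / 20 : ℝ)) ^ 3 = β ^ (21 / 20 : ℝ) := by
      rw [← Real.rpow_natCast, ← Real.rpow_mul hβpos.le]; norm_num
    have h5 : A * β ^ (1 / 100 : ℝ) * β = A * β ^ (-(1 / 25) : ℝ) * β ^ (21 / 20 : ℝ) := by
      rw [mul_assoc, mul_assoc, ← Real.rpow_add hβpos]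
      congr 1
      nth_rw 2 [← Real.rpow_one β]
      rw [← Real.rpow_add hβpos]
      norm_num
    rw [h27, h5]
    calc A * β ^ (-(1 / 25) : ℝ) * β ^ (21 / 20 : ℝ) ≤ 1 * β ^ (21 / 20 : ℝ) :=
          mul_le_mul_of_nonneg_right f2 (by positivity)
      _ = (β ^ (7 / 20 : ℝ)) ^ 3 := by rw [one_mul, h4]
      _ ≤ _ := h3
  · rw [one_div]; exact hlam
  · have hlogpos : 0 ≤ Real.log β := Real.log_nonneg (by linarith)
    calc ε * Real.log β ≤ (B * β ^ (-(1 / 200) : ℝ)) * Real.log β :=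
          mul_le_mul_of_nonneg_right hεB hlogpos
      _ = B * (β ^ (-(1 / 200) : ℝ) * Real.log β) := by ring
      _ ≤ c4 := f3

end Vale.Agent.P361.LRO.Ind
end

section

/-!
P361, low-temperature order: the final assembly.
-/

namespace Vale.Agent.P361.LRO

/-- The output of the bootstrap. -/
theorem bootStmt : BootStmt :=
  bootStmt_ofP (Net.kappaStmt_of_block6 Ind.block6) pTwist energyStmt LY.regStmt startStmt
    transStmt

/-- **Low temperature order of the three-dimensional quantum Heisenberg ferromagnet, spin 1/2.** -/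
theorem final : ∃ β0 : ℝ, 0 < β0 ∧ ∀ β : ℝ, β0 ≤ β →
    1 / 2 - β ^ (-(1 / 100) : ℝ) ≤ Model.spontMag 1 β :=
  main_of_boot bootStmt

end Vale.Agent.P361.LRO
end

section

/-! # Final form of the statements -/

namespace Vale.Agent.P361.LRO

open Filter Topology

theorem answer_of {n : ℕ} (hn : 1 ≤ n) {C : ℝ} (H : ∃ β₀ : ℝ, 0 < β₀ ∧ ∀ β : ℝ, β₀ ≤ β →
      (n : ℝ) / 2 - C * β ^ (-(1 / 100) : ℝ) ≤ Model.spontMag n β) :
    Tendsto (fun β => Model.spontMag n β) atTop (𝓝 ((n : ℝ) / 2)) ∧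
    ∃ β₀ : ℝ, 0 < β₀ ∧ ∀ β : ℝ, β₀ ≤ β →
      0 < Model.spontMag n β ∧ (n : ℝ) / 2 - C * β ^ (-(1 / 100) : ℝ) ≤ Model.spontMag n β := by
  obtain ⟨β₀, h0, H⟩ := H
  have hlim : Tendsto (fun β : ℝ => (n : ℝ) / 2 - C * β ^ (-(1 / 100) : ℝ)) atTop
      (𝓝 ((n : ℝ) / 2)) := by
    have h1 : Tendsto (fun β : ℝ => β ^ (-(1 / 100) : ℝ)) atTop (𝓝 0) :=
      tendsto_rpow_neg_atTop (by norm_num)
    simpa using (tendsto_const_nhds (x := (n : ℝ) / 2)).sub (h1.const_mul C)
  have hle : ∀ β : ℝ, 0 < β → Model.spontMag n β ≤ (n : ℝ) / 2 := fun β hβ =>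
    (Vale.Agent.P361.Bridge.main_thermo n hn β hβ).2.2.2
  have hT : Tendsto (fun β => Model.spontMag n β) atTop (𝓝 ((n : ℝ) / 2)) := by
    refine tendsto_of_tendsto_of_tendsto_of_le_of_le' hlim tendsto_const_nhds ?_ ?_
    · filter_upwards [eventually_ge_atTop β₀] with β hβ using H β hβ
    · filter_upwards [eventually_gt_atTop (0 : ℝ)] with β hβ using hle β hβ
  refine ⟨hT, ?_⟩
  have hn' : (0 : ℝ) < (n : ℝ) / 2 := by
    have : (1 : ℝ) ≤ n := by exact_mod_cast hn
    linarith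
  obtain ⟨β₁, h1⟩ := eventually_atTop.1 ((tendsto_order.1 hT).1 0 hn')
  exact ⟨max β₀ β₁, lt_max_of_lt_left h0, fun β hβ =>
    ⟨h1 β (le_trans (le_max_right _ _) hβ), H β (le_trans (le_max_left _ _) hβ)⟩⟩

/-- Everything known about the zero-field limit for spin `n/2`. -/
theorem answer_all {n : ℕ} (hn : 1 ≤ n) {C : ℝ} (H : ∃ β₀ : ℝ, 0 < β₀ ∧ ∀ β : ℝ, β₀ ≤ β →
      (n : ℝ) / 2 - C * β ^ (-(1 / 100) : ℝ) ≤ Model.spontMag n β) :
    (∀ β : ℝ, 0 < β →
      (∀ h : ℝ, Tendsto (fun N : ℕ => Model.finPressure n N β h) atTop (𝓝 (Model.pressure n β h))) ∧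
      ConvexOn ℝ Set.univ (Model.pressure n β) ∧
      HasDerivWithinAt (Model.pressure n β) (Model.spontMag n β) (Set.Ioi 0) 0 ∧
      Model.spontMag n β ≤ (n : ℝ) / 2) ∧
    (∃ β₀ : ℝ, 0 < β₀ ∧ ∀ β : ℝ, β₀ ≤ β →
      0 < Model.spontMag n β ∧ (n : ℝ) / 2 - C * β ^ (-(1 / 100) : ℝ) ≤ Model.spontMag n β) ∧
    Tendsto (fun β => Model.spontMag n β) atTop (𝓝 ((n : ℝ) / 2)) ∧
    (∀ c : ℝ, c < (riemannZeta (3 / 2)).re /
        (8 * Real.pi ^ (3 / 2 : ℝ) * ((n : ℝ) / 2) ^ (3 / 2 : ℝ)) →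
      ∀ᶠ β : ℝ in atTop, c < β ^ (3 / 2 : ℝ) * ((n : ℝ) / 2 - Model.spontMag n β)) :=
  ⟨fun β hβ => Vale.Agent.P361.Bridge.main_thermo n hn β hβ, (answer_of hn H).2,
    (answer_of hn H).1, Vale.Agent.P361.Bridge.main_bloch n hn⟩

/-- The case `n = 1`. -/
theorem answer_one (H : ∃ β₀ : ℝ, 0 < β₀ ∧ ∀ β : ℝ, β₀ ≤ β →
      1 / 2 - β ^ (-(1 / 100) : ℝ) ≤ Model.spontMag 1 β) :
    (∀ β : ℝ, 0 < β →
      (∀ h : ℝ, Tendsto (fun N : ℕ => Model.finPressure 1 N β h) atTop (𝓝 (Model.pressure 1 β h))) ∧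
      ConvexOn ℝ Set.univ (Model.pressure 1 β) ∧
      HasDerivWithinAt (Model.pressure 1 β) (Model.spontMag 1 β) (Set.Ioi 0) 0 ∧
      Model.spontMag 1 β ≤ 1 / 2) ∧
    (∃ β₀ : ℝ, 0 < β₀ ∧ ∀ β : ℝ, β₀ ≤ β →
      0 < Model.spontMag 1 β ∧ 1 / 2 - β ^ (-(1 / 100) : ℝ) ≤ Model.spontMag 1 β) ∧
    Tendsto (fun β => Model.spontMag 1 β) atTop (𝓝 (1 / 2)) ∧
    (∀ c : ℝ, c < (riemannZeta (3 / 2)).re / (8 * Real.pi ^ (3 / 2 : ℝ) * (1 / 2) ^ (3 / 2 : ℝ)) →
      ∀ᶠ β : ℝ in atTop, c < β ^ (3 / 2 : ℝ) * (1 / 2 - Model.spontMag 1 β)) := by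
  have h := answer_all (n := 1) le_rfl (C := 1) (by simpa only [Nat.cast_one, one_mul] using H)
  simpa only [Nat.cast_one, one_mul] using h

end Vale.Agent.P361.LRO
end
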